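import Mathlib
import Vale.Agent.Lib.P322.Pot.Hi.PApoly

/-!
P322, potential method, range `7/8 ≤ ρ ≤ 23/25`.  Generated certificate: the polynomial `UG2` is nonnegative on a box (iterated expansion in the products
`(x - lo)^i (hi - x)^(n-i)`; all coefficients are affine in `(L, h)` and nonnegative).
-/

set_option linter.unusedSimpArgs false

namespace Vale.Agent.Lib.P322.Pot

noncomputable def UG2 (L h al b J : ℝ) : ℝ :=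
  (0 + 2 * L + (-187 / 100) * h) * al ^ 0 * b ^ 0 * J ^ 0
    + ((-11 / 25) + (13 / 50) * L + (-13 / 50) * h) * al ^ 0 * b ^ 0 * J ^ 1
    + ((-143 / 5000) + 0 * L + 0 * h) * al ^ 0 * b ^ 0 * J ^ 2
    + (0 + (-104 / 25) * L + (104 / 25) * h) * al ^ 1 * b ^ 0 * J ^ 0
    + ((286 / 625) + (-52 / 25) * L + (52 / 25) * h) * al ^ 1 * b ^ 0 * J ^ 1
    + ((286 / 625) + 0 * L + 0 * h) * al ^ 1 * b ^ 0 * J ^ 2
    + ((33 / 100) + 2 * L + (-3577 / 1250) * h) * al ^ 2 * b ^ 0 * J ^ 0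
    + (0 + (2602 / 625) * L + (-2602 / 625) * h) * al ^ 2 * b ^ 0 * J ^ 1
    + ((-14311 / 31250) + 0 * L + (-13 / 100) * h) * al ^ 2 * b ^ 0 * J ^ 2
    + (0 + (-13 / 50) * L + (13 / 50) * h) * al ^ 2 * b ^ 0 * J ^ 3
    + ((143 / 5000) + 0 * L + 0 * h) * al ^ 2 * b ^ 0 * J ^ 4
    + (0 + (-2) * L + 2 * h) * al ^ 2 * b ^ 1 * J ^ 2
    + ((11 / 25) + 0 * L + 0 * h) * al ^ 2 * b ^ 1 * J ^ 3
    + ((-363 / 1000) + 2 * L + (-71 / 500) * h) * al ^ 2 * b ^ 2 * J ^ 0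
    + (0 + 2 * L + (-2) * h) * al ^ 2 * b ^ 2 * J ^ 1
    + ((-11 / 50) + 0 * L + (-13 / 100) * h) * al ^ 2 * b ^ 2 * J ^ 2
    + (0 + (-13 / 50) * L + (13 / 50) * h) * al ^ 2 * b ^ 2 * J ^ 3
    + ((143 / 5000) + 0 * L + 0 * h) * al ^ 2 * b ^ 2 * J ^ 4
    + ((-429 / 1250) + (-52 / 25) * L + (1807 / 625) * h) * al ^ 3 * b ^ 0 * J ^ 1
    + (0 + (52 / 25) * L + (-52 / 25) * h) * al ^ 3 * b ^ 1 * J ^ 3
    + ((-286 / 625) + 0 * L + 0 * h) * al ^ 3 * b ^ 1 * J ^ 4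
    + ((4719 / 12500) + (-52 / 25) * L + (7423 / 6250) * h) * al ^ 3 * b ^ 2 * J ^ 1
    + ((-33 / 100) + 0 * L + (39 / 50) * h) * al ^ 4 * b ^ 0 * J ^ 2
    + ((-637 / 1000) + (-4) * L + (1071 / 500) * h) * al ^ 4 * b ^ 2 * J ^ 2
    + (0 + (-2) * L + 2 * h) * al ^ 4 * b ^ 2 * J ^ 3
    + ((11 / 50) + 0 * L + (13 / 100) * h) * al ^ 4 * b ^ 2 * J ^ 4
    + (0 + (13 / 50) * L + (-13 / 50) * h) * al ^ 4 * b ^ 2 * J ^ 5
    + ((-143 / 5000) + 0 * L + 0 * h) * al ^ 4 * b ^ 2 * J ^ 6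
    + ((429 / 1250) + 0 * L + (-507 / 625) * h) * al ^ 5 * b ^ 0 * J ^ 3
    + ((8281 / 12500) + (104 / 25) * L + (-20423 / 6250) * h) * al ^ 5 * b ^ 2 * J ^ 3
    + (0 + 2 * L + (-2) * h) * al ^ 6 * b ^ 2 * J ^ 4
    + (0 + (-52 / 25) * L + (52 / 25) * h) * al ^ 7 * b ^ 2 * J ^ 5
    + (1 + (-2) * L + 0 * h) * al ^ 8 * b ^ 4 * J ^ 6
    + ((-26 / 25) + (52 / 25) * L + 0 * h) * al ^ 9 * b ^ 4 * J ^ 7

noncomputable def UG2_0 (L h b J : ℝ) : ℝ :=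
  (0 + 2 * L + (-187 / 100) * h) * b ^ 0 * J ^ 0
    + ((-11 / 25) + (13 / 50) * L + (-13 / 50) * h) * b ^ 0 * J ^ 1
    + ((-143 / 5000) + 0 * L + 0 * h) * b ^ 0 * J ^ 2

noncomputable def UG2_0_0 (L h J : ℝ) : ℝ :=
  (0 + 2 * L + (-187 / 100) * h) * J ^ 0
    + ((-11 / 25) + (13 / 50) * L + (-13 / 50) * h) * J ^ 1
    + ((-143 / 5000) + 0 * L + 0 * h) * J ^ 2

lemma UG2_0_0_nonneg {L h J : ℝ} (hL0 : (6931471 / 10000000) ≤ L) (hL1 : L ≤ (433217 / 625000)) (hh0 : (67 / 400) ≤ h) (hh1 : h ≤ (117 / 500)) (hJ0 : 0 ≤ J) (hJ1 : J ≤ (1 / 2)) :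
    0 ≤ UG2_0_0 L h J := by
  obtain ⟨xl, hxl⟩ : ∃ x : ℝ, x = L - (6931471 / 10000000) := ⟨_, rfl⟩
  obtain ⟨xu, hxu⟩ : ∃ x : ℝ, x = (433217 / 625000) - L := ⟨_, rfl⟩
  obtain ⟨yl, hyl⟩ : ∃ x : ℝ, x = h - (67 / 400) := ⟨_, rfl⟩
  obtain ⟨yu, hyu⟩ : ∃ x : ℝ, x = (117 / 500) - h := ⟨_, rfl⟩
  obtain ⟨A, hA⟩ : ∃ x : ℝ, x = J - 0 := ⟨_, rfl⟩
  obtain ⟨B, hB⟩ : ∃ x : ℝ, x = (1 / 2) - J := ⟨_, rfl⟩
  have hxl0 : 0 ≤ xl := by rw [hxl]; linarith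
  have hxu0 : 0 ≤ xu := by rw [hxu]; linarith
  have hyl0 : 0 ≤ yl := by rw [hyl]; linarith
  have hyu0 : 0 ≤ yu := by rw [hyu]; linarith
  have hA0 : 0 ≤ A := by rw [hA]; linarith
  have hB0 : 0 ≤ B := by rw [hB]; linarith
  have key : UG2_0_0 L h J =
      ((4743571 / 1250000) + 8 * xl + (187 / 25) * yu) * A ^ 0 * B ^ 2
      + ((1737117523 / 250000000) + (413 / 25) * xl + (387 / 25) * yu) * A ^ 1 * B ^ 1
      + ((781253323 / 250000000) + (213 / 25) * xl + 8 * yu) * A ^ 2 * B ^ 0 := by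
    simp only [hxl, hxu, hyl, hyu, hA, hB]
    unfold UG2_0_0
    ring
  rw [key]
  positivity

lemma UG2_0_nonneg {L h b J : ℝ} (hL0 : (6931471 / 10000000) ≤ L) (hL1 : L ≤ (433217 / 625000)) (hh0 : (67 / 400) ≤ h) (hh1 : h ≤ (117 / 500)) (hb0 : 0 ≤ b) (hb1 : b ≤ 1) (hJ0 : 0 ≤ J) (hJ1 : J ≤ (1 / 2)) :
    0 ≤ UG2_0 L h b J := by
  have c0 := UG2_0_0_nonneg hL0 hL1 hh0 hh1 hJ0 hJ1
  have key : UG2_0 L h b J =
      (b - 0) ^ 0 * (1 - b) ^ 0 * UG2_0_0 L h J := by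
    unfold UG2_0 UG2_0_0
    ring
  have hA : 0 ≤ b - 0 := by linarith
  have hB : 0 ≤ 1 - b := by linarith
  rw [key]
  positivity

noncomputable def UG2_1 (L h b J : ℝ) : ℝ :=
  (0 + (346 / 25) * L + (-1267 / 100) * h) * b ^ 0 * J ^ 0
    + ((-2189 / 625) + (13 / 50) * L + (-13 / 50) * h) * b ^ 0 * J ^ 1
    + ((1001 / 5000) + 0 * L + 0 * h) * b ^ 0 * J ^ 2

noncomputable def UG2_1_0 (L h J : ℝ) : ℝ :=
  (0 + (346 / 25) * L + (-1267 / 100) * h) * J ^ 0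
    + ((-2189 / 625) + (13 / 50) * L + (-13 / 50) * h) * J ^ 1
    + ((1001 / 5000) + 0 * L + 0 * h) * J ^ 2

lemma UG2_1_0_nonneg {L h J : ℝ} (hL0 : (6931471 / 10000000) ≤ L) (hL1 : L ≤ (433217 / 625000)) (hh0 : (67 / 400) ≤ h) (hh1 : h ≤ (117 / 500)) (hJ0 : 0 ≤ J) (hJ1 : J ≤ (1 / 2)) :
    0 ≤ UG2_1_0 L h J := by
  obtain ⟨xl, hxl⟩ : ∃ x : ℝ, x = L - (6931471 / 10000000) := ⟨_, rfl⟩
  obtain ⟨xu, hxu⟩ : ∃ x : ℝ, x = (433217 / 625000) - L := ⟨_, rfl⟩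
  obtain ⟨yl, hyl⟩ : ∃ x : ℝ, x = h - (67 / 400) := ⟨_, rfl⟩
  obtain ⟨yu, hyu⟩ : ∃ x : ℝ, x = (117 / 500) - h := ⟨_, rfl⟩
  obtain ⟨A, hA⟩ : ∃ x : ℝ, x = J - 0 := ⟨_, rfl⟩
  obtain ⟨B, hB⟩ : ∃ x : ℝ, x = (1 / 2) - J := ⟨_, rfl⟩
  have hxl0 : 0 ≤ xl := by rw [hxl]; linarith
  have hxu0 : 0 ≤ xu := by rw [hxu]; linarith
  have hyl0 : 0 ≤ yl := by rw [hyl]; linarith
  have hyu0 : 0 ≤ yu := by rw [hyu]; linarith
  have hA0 : 0 ≤ A := by rw [hA]; linarith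
  have hB0 : 0 ≤ B := by rw [hB]; linarith
  have key : UG2_1_0 L h J =
      ((828546983 / 31250000) + (1384 / 25) * xl + (1267 / 25) * yu) * A ^ 0 * B ^ 2
      + ((11565240851 / 250000000) + (2781 / 25) * xl + (2547 / 25) * yu) * A ^ 1 * B ^ 1
      + ((4986914987 / 250000000) + (1397 / 25) * xl + (256 / 5) * yu) * A ^ 2 * B ^ 0 := by
    simp only [hxl, hxu, hyl, hyu, hA, hB]
    unfold UG2_1_0
    ring
  rw [key]
  positivity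

lemma UG2_1_nonneg {L h b J : ℝ} (hL0 : (6931471 / 10000000) ≤ L) (hL1 : L ≤ (433217 / 625000)) (hh0 : (67 / 400) ≤ h) (hh1 : h ≤ (117 / 500)) (hb0 : 0 ≤ b) (hb1 : b ≤ 1) (hJ0 : 0 ≤ J) (hJ1 : J ≤ (1 / 2)) :
    0 ≤ UG2_1 L h b J := by
  have c0 := UG2_1_0_nonneg hL0 hL1 hh0 hh1 hJ0 hJ1
  have key : UG2_1 L h b J =
      (b - 0) ^ 0 * (1 - b) ^ 0 * UG2_1_0 L h J := by
    unfold UG2_1 UG2_1_0
    ring
  have hA : 0 ≤ b - 0 := by linarith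
  have hB : 0 ≤ 1 - b := by linarith
  rw [key]
  positivity

noncomputable def UG2_2 (L h b J : ℝ) : ℝ :=
  ((33 / 100) + (1018 / 25) * L + (-46127 / 1250) * h) * b ^ 0 * J ^ 0
    + ((-7612 / 625) + (-1948 / 625) * L + (1948 / 625) * h) * b ^ 0 * J ^ 1
    + ((33957 / 15625) + 0 * L + (-13 / 100) * h) * b ^ 0 * J ^ 2
    + (0 + (-13 / 50) * L + (13 / 50) * h) * b ^ 0 * J ^ 3
    + ((143 / 5000) + 0 * L + 0 * h) * b ^ 0 * J ^ 4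
    + (0 + (-2) * L + 2 * h) * b ^ 1 * J ^ 2
    + ((11 / 25) + 0 * L + 0 * h) * b ^ 1 * J ^ 3
    + ((-363 / 1000) + 2 * L + (-71 / 500) * h) * b ^ 2 * J ^ 0
    + (0 + 2 * L + (-2) * h) * b ^ 2 * J ^ 1
    + ((-11 / 50) + 0 * L + (-13 / 100) * h) * b ^ 2 * J ^ 2
    + (0 + (-13 / 50) * L + (13 / 50) * h) * b ^ 2 * J ^ 3
    + ((143 / 5000) + 0 * L + 0 * h) * b ^ 2 * J ^ 4

noncomputable def UG2_2_0 (L h J : ℝ) : ℝ :=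
  ((33 / 100) + (1018 / 25) * L + (-46127 / 1250) * h) * J ^ 0
    + ((-7612 / 625) + (-1948 / 625) * L + (1948 / 625) * h) * J ^ 1
    + ((33957 / 15625) + 0 * L + (-13 / 100) * h) * J ^ 2
    + (0 + (-13 / 50) * L + (13 / 50) * h) * J ^ 3
    + ((143 / 5000) + 0 * L + 0 * h) * J ^ 4

lemma UG2_2_0_nonneg {L h J : ℝ} (hL0 : (6931471 / 10000000) ≤ L) (hL1 : L ≤ (433217 / 625000)) (hh0 : (67 / 400) ≤ h) (hh1 : h ≤ (117 / 500)) (hJ0 : 0 ≤ J) (hJ1 : J ≤ (1 / 2)) :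
    0 ≤ UG2_2_0 L h J := by
  obtain ⟨xl, hxl⟩ : ∃ x : ℝ, x = L - (6931471 / 10000000) := ⟨_, rfl⟩
  obtain ⟨xu, hxu⟩ : ∃ x : ℝ, x = (433217 / 625000) - L := ⟨_, rfl⟩
  obtain ⟨yl, hyl⟩ : ∃ x : ℝ, x = h - (67 / 400) := ⟨_, rfl⟩
  obtain ⟨yu, hyu⟩ : ∃ x : ℝ, x = (117 / 500) - h := ⟨_, rfl⟩
  obtain ⟨A, hA⟩ : ∃ x : ℝ, x = J - 0 := ⟨_, rfl⟩
  obtain ⟨B, hB⟩ : ∃ x : ℝ, x = (1 / 2) - J := ⟨_, rfl⟩
  have hxl0 : 0 ≤ xl := by rw [hxl]; linarith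
  have hxu0 : 0 ≤ xu := by rw [hxu]; linarith
  have hyl0 : 0 ≤ yl := by rw [hyl]; linarith
  have hyu0 : 0 ≤ yu := by rw [hyu]; linarith
  have hA0 : 0 ≤ A := by rw [hA]; linarith
  have hB0 : 0 ≤ B := by rw [hB]; linarith
  have key : UG2_2_0 L h J =
      ((2489996939 / 7812500) + (16288 / 25) * xl + (369016 / 625) * yu) * A ^ 0 * B ^ 4
      + ((227733647523 / 195312500) + (1613216 / 625) * xl + (292096 / 125) * yu) * A ^ 1 * B ^ 3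
      + ((155687743047 / 97656250) + (2396448 / 625) * xl + (2167669 / 625) * yu) * A ^ 2 * B ^ 2
      + ((6032098924533 / 6250000000) + (1581723 / 625) * xl + (1429637 / 625) * yu) * A ^ 3 * B ^ 1
      + ((1363741289061 / 6250000000) + (391291 / 625) * xl + (353432 / 625) * yu) * A ^ 4 * B ^ 0 := by
    simp only [hxl, hxu, hyl, hyu, hA, hB]
    unfold UG2_2_0
    ring
  rw [key]
  positivity

noncomputable def UG2_2_1 (L h J : ℝ) : ℝ :=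
  ((33 / 50) + (2036 / 25) * L + (-46127 / 625) * h) * J ^ 0
    + ((-15224 / 625) + (-3896 / 625) * L + (3896 / 625) * h) * J ^ 1
    + ((67914 / 15625) + (-2) * L + (87 / 50) * h) * J ^ 2
    + ((11 / 25) + (-13 / 25) * L + (13 / 25) * h) * J ^ 3
    + ((143 / 2500) + 0 * L + 0 * h) * J ^ 4

lemma UG2_2_1_nonneg {L h J : ℝ} (hL0 : (6931471 / 10000000) ≤ L) (hL1 : L ≤ (433217 / 625000)) (hh0 : (67 / 400) ≤ h) (hh1 : h ≤ (117 / 500)) (hJ0 : 0 ≤ J) (hJ1 : J ≤ (1 / 2)) :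
    0 ≤ UG2_2_1 L h J := by
  obtain ⟨xl, hxl⟩ : ∃ x : ℝ, x = L - (6931471 / 10000000) := ⟨_, rfl⟩
  obtain ⟨xu, hxu⟩ : ∃ x : ℝ, x = (433217 / 625000) - L := ⟨_, rfl⟩
  obtain ⟨yl, hyl⟩ : ∃ x : ℝ, x = h - (67 / 400) := ⟨_, rfl⟩
  obtain ⟨yu, hyu⟩ : ∃ x : ℝ, x = (117 / 500) - h := ⟨_, rfl⟩
  obtain ⟨A, hA⟩ : ∃ x : ℝ, x = J - 0 := ⟨_, rfl⟩
  obtain ⟨B, hB⟩ : ∃ x : ℝ, x = (1 / 2) - J := ⟨_, rfl⟩
  have hxl0 : 0 ≤ xl := by rw [hxl]; linarith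
  have hxu0 : 0 ≤ xu := by rw [hxu]; linarith
  have hyl0 : 0 ≤ yl := by rw [hyl]; linarith
  have hyu0 : 0 ≤ yu := by rw [hyu]; linarith
  have hA0 : 0 ≤ A := by rw [hA]; linarith
  have hB0 : 0 ≤ B := by rw [hB]; linarith
  have key : UG2_2_1 L h J =
      ((2489996939 / 3906250) + (32576 / 25) * xl + (738032 / 625) * yu) * A ^ 0 * B ^ 4
      + ((227733647523 / 97656250) + (3226432 / 625) * xl + (584192 / 125) * yu) * A ^ 1 * B ^ 3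
      + ((2488134219377 / 781250000) + (4787896 / 625) * xl + (4330338 / 625) * yu) * A ^ 2 * B ^ 2
      + ((6011891569533 / 3125000000) + (3153446 / 625) * xl + (2849274 / 625) * yu) * A ^ 3 * B ^ 1
      + ((1355012611561 / 3125000000) + (777582 / 625) * xl + (701864 / 625) * yu) * A ^ 4 * B ^ 0 := by
    simp only [hxl, hxu, hyl, hyu, hA, hB]
    unfold UG2_2_1
    ring
  rw [key]
  positivity

noncomputable def UG2_2_2 (L h J : ℝ) : ℝ :=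
  ((-33 / 1000) + (1068 / 25) * L + (-92609 / 2500) * h) * J ^ 0
    + ((-7612 / 625) + (-698 / 625) * L + (698 / 625) * h) * J ^ 1
    + ((61039 / 31250) + (-2) * L + (87 / 50) * h) * J ^ 2
    + ((11 / 25) + (-13 / 25) * L + (13 / 25) * h) * J ^ 3
    + ((143 / 2500) + 0 * L + 0 * h) * J ^ 4

lemma UG2_2_2_nonneg {L h J : ℝ} (hL0 : (6931471 / 10000000) ≤ L) (hL1 : L ≤ (433217 / 625000)) (hh0 : (67 / 400) ≤ h) (hh1 : h ≤ (117 / 500)) (hJ0 : 0 ≤ J) (hJ1 : J ≤ (1 / 2)) :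
    0 ≤ UG2_2_2 L h J := by
  obtain ⟨xl, hxl⟩ : ∃ x : ℝ, x = L - (6931471 / 10000000) := ⟨_, rfl⟩
  obtain ⟨xu, hxu⟩ : ∃ x : ℝ, x = (433217 / 625000) - L := ⟨_, rfl⟩
  obtain ⟨yl, hyl⟩ : ∃ x : ℝ, x = h - (67 / 400) := ⟨_, rfl⟩
  obtain ⟨yu, hyu⟩ : ∃ x : ℝ, x = (117 / 500) - h := ⟨_, rfl⟩
  obtain ⟨A, hA⟩ : ∃ x : ℝ, x = J - 0 := ⟨_, rfl⟩
  obtain ⟨B, hB⟩ : ∃ x : ℝ, x = (1 / 2) - J := ⟨_, rfl⟩
  have hxl0 : 0 ≤ xl := by rw [hxl]; linarith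
  have hxu0 : 0 ≤ xu := by rw [hxu]; linarith
  have hyl0 : 0 ≤ yl := by rw [hyl]; linarith
  have hyu0 : 0 ≤ yu := by rw [hyu]; linarith
  have hA0 : 0 ≤ A := by rw [hA]; linarith
  have hB0 : 0 ≤ B := by rw [hB]; linarith
  have key : UG2_2_2 L h J =
      ((1306877607 / 3906250) + (17088 / 25) * xl + (370436 / 625) * yu) * A ^ 0 * B ^ 4
      + ((483088619421 / 390625000) + (1703216 / 625) * xl + (295232 / 125) * yu) * A ^ 1 * B ^ 3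
      + ((1333322693751 / 781250000) + (2541448 / 625) * xl + (2201514 / 625) * yu) * A ^ 2 * B ^ 2
      + ((3255720798229 / 3125000000) + (1681398 / 625) * xl + (1455642 / 625) * yu) * A ^ 3 * B ^ 1
      + ((741815642993 / 3125000000) + (415966 / 625) * xl + (359852 / 625) * yu) * A ^ 4 * B ^ 0 := by
    simp only [hxl, hxu, hyl, hyu, hA, hB]
    unfold UG2_2_2
    ring
  rw [key]
  positivity

lemma UG2_2_nonneg {L h b J : ℝ} (hL0 : (6931471 / 10000000) ≤ L) (hL1 : L ≤ (433217 / 625000)) (hh0 : (67 / 400) ≤ h) (hh1 : h ≤ (117 / 500)) (hb0 : 0 ≤ b) (hb1 : b ≤ 1) (hJ0 : 0 ≤ J) (hJ1 : J ≤ (1 / 2)) :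
    0 ≤ UG2_2 L h b J := by
  have c0 := UG2_2_0_nonneg hL0 hL1 hh0 hh1 hJ0 hJ1
  have c1 := UG2_2_1_nonneg hL0 hL1 hh0 hh1 hJ0 hJ1
  have c2 := UG2_2_2_nonneg hL0 hL1 hh0 hh1 hJ0 hJ1
  have key : UG2_2 L h b J =
      (b - 0) ^ 0 * (1 - b) ^ 2 * UG2_2_0 L h J
      + (b - 0) ^ 1 * (1 - b) ^ 1 * UG2_2_1 L h J
      + (b - 0) ^ 2 * (1 - b) ^ 0 * UG2_2_2 L h J := by
    unfold UG2_2 UG2_2_0 UG2_2_1 UG2_2_2
    ring
  have hA : 0 ≤ b - 0 := by linarith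
  have hB : 0 ≤ 1 - b := by linarith
  rw [key]
  positivity

noncomputable def UG2_3 (L h b J : ℝ) : ℝ :=
  ((231 / 100) + (1638 / 25) * L + (-75789 / 1250) * h) * b ^ 0 * J ^ 0
    + ((-30613 / 1250) + (-5836 / 625) * L + (6343 / 625) * h) * b ^ 0 * J ^ 1
    + ((112574 / 15625) + 0 * L + (-91 / 100) * h) * b ^ 0 * J ^ 2
    + (0 + (-91 / 50) * L + (91 / 50) * h) * b ^ 0 * J ^ 3
    + ((1001 / 5000) + 0 * L + 0 * h) * b ^ 0 * J ^ 4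
    + (0 + (-14) * L + 14 * h) * b ^ 1 * J ^ 2
    + ((77 / 25) + (52 / 25) * L + (-52 / 25) * h) * b ^ 1 * J ^ 3
    + ((-286 / 625) + 0 * L + 0 * h) * b ^ 1 * J ^ 4
    + ((-2541 / 1000) + 14 * L + (-497 / 500) * h) * b ^ 2 * J ^ 0
    + ((4719 / 12500) + (298 / 25) * L + (-80077 / 6250) * h) * b ^ 2 * J ^ 1
    + ((-77 / 50) + 0 * L + (-91 / 100) * h) * b ^ 2 * J ^ 2
    + (0 + (-91 / 50) * L + (91 / 50) * h) * b ^ 2 * J ^ 3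
    + ((1001 / 5000) + 0 * L + 0 * h) * b ^ 2 * J ^ 4

noncomputable def UG2_3_0 (L h J : ℝ) : ℝ :=
  ((231 / 100) + (1638 / 25) * L + (-75789 / 1250) * h) * J ^ 0
    + ((-30613 / 1250) + (-5836 / 625) * L + (6343 / 625) * h) * J ^ 1
    + ((112574 / 15625) + 0 * L + (-91 / 100) * h) * J ^ 2
    + (0 + (-91 / 50) * L + (91 / 50) * h) * J ^ 3
    + ((1001 / 5000) + 0 * L + 0 * h) * J ^ 4

lemma UG2_3_0_nonneg {L h J : ℝ} (hL0 : (6931471 / 10000000) ≤ L) (hL1 : L ≤ (433217 / 625000)) (hh0 : (67 / 400) ≤ h) (hh1 : h ≤ (117 / 500)) (hJ0 : 0 ≤ J) (hJ1 : J ≤ (1 / 2)) :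
    0 ≤ UG2_3_0 L h J := by
  obtain ⟨xl, hxl⟩ : ∃ x : ℝ, x = L - (6931471 / 10000000) := ⟨_, rfl⟩
  obtain ⟨xu, hxu⟩ : ∃ x : ℝ, x = (433217 / 625000) - L := ⟨_, rfl⟩
  obtain ⟨yl, hyl⟩ : ∃ x : ℝ, x = h - (67 / 400) := ⟨_, rfl⟩
  obtain ⟨yu, hyu⟩ : ∃ x : ℝ, x = (117 / 500) - h := ⟨_, rfl⟩
  obtain ⟨A, hA⟩ : ∃ x : ℝ, x = J - 0 := ⟨_, rfl⟩
  obtain ⟨B, hB⟩ : ∃ x : ℝ, x = (1 / 2) - J := ⟨_, rfl⟩
  have hxl0 : 0 ≤ xl := by rw [hxl]; linarith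
  have hxu0 : 0 ≤ xu := by rw [hxu]; linarith
  have hyl0 : 0 ≤ yl := by rw [hyl]; linarith
  have hyu0 : 0 ≤ yu := by rw [hyu]; linarith
  have hA0 : 0 ≤ A := by rw [hA]; linarith
  have hB0 : 0 ≤ B := by rw [hB]; linarith
  have key : UG2_3_0 L h J =
      ((4192162149 / 7812500) + (26208 / 25) * xl + (606312 / 625) * yu) * A ^ 0 * B ^ 4
      + ((374547603711 / 195312500) + (2574112 / 625) * xl + (2374504 / 625) * yu) * A ^ 1 * B ^ 3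
      + ((125070207352 / 48828125) + (3791136 / 625) * xl + (697583 / 125) * yu) * A ^ 2 * B ^ 2
      + ((9465876406131 / 6250000000) + (2478461 / 625) * xl + (2275291 / 625) * yu) * A ^ 3 * B ^ 1
      + ((2089934714627 / 6250000000) + (606237 / 625) * xl + (555568 / 625) * yu) * A ^ 4 * B ^ 0 := by
    simp only [hxl, hxu, hyl, hyu, hA, hB]
    unfold UG2_3_0
    ring
  rw [key]
  positivity

noncomputable def UG2_3_1 (L h J : ℝ) : ℝ :=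
  ((231 / 50) + (3276 / 25) * L + (-75789 / 625) * h) * J ^ 0
    + ((-30613 / 625) + (-11672 / 625) * L + (12686 / 625) * h) * J ^ 1
    + ((225148 / 15625) + (-14) * L + (609 / 50) * h) * J ^ 2
    + ((77 / 25) + (-39 / 25) * L + (39 / 25) * h) * J ^ 3
    + ((-143 / 2500) + 0 * L + 0 * h) * J ^ 4

lemma UG2_3_1_nonneg {L h J : ℝ} (hL0 : (6931471 / 10000000) ≤ L) (hL1 : L ≤ (433217 / 625000)) (hh0 : (67 / 400) ≤ h) (hh1 : h ≤ (117 / 500)) (hJ0 : 0 ≤ J) (hJ1 : J ≤ (1 / 2)) :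
    0 ≤ UG2_3_1 L h J := by
  obtain ⟨xl, hxl⟩ : ∃ x : ℝ, x = L - (6931471 / 10000000) := ⟨_, rfl⟩
  obtain ⟨xu, hxu⟩ : ∃ x : ℝ, x = (433217 / 625000) - L := ⟨_, rfl⟩
  obtain ⟨yl, hyl⟩ : ∃ x : ℝ, x = h - (67 / 400) := ⟨_, rfl⟩
  obtain ⟨yu, hyu⟩ : ∃ x : ℝ, x = (117 / 500) - h := ⟨_, rfl⟩
  obtain ⟨A, hA⟩ : ∃ x : ℝ, x = J - 0 := ⟨_, rfl⟩
  obtain ⟨B, hB⟩ : ∃ x : ℝ, x = (1 / 2) - J := ⟨_, rfl⟩
  have hxl0 : 0 ≤ xl := by rw [hxl]; linarith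
  have hxu0 : 0 ≤ xu := by rw [hxu]; linarith
  have hyl0 : 0 ≤ yl := by rw [hyl]; linarith
  have hyu0 : 0 ≤ yu := by rw [hyu]; linarith
  have hA0 : 0 ≤ A := by rw [hA]; linarith
  have hB0 : 0 ≤ B := by rw [hB]; linarith
  have key : UG2_3_1 L h J =
      ((4192162149 / 3906250) + (52416 / 25) * xl + (1212624 / 625) * yu) * A ^ 0 * B ^ 4
      + ((374547603711 / 97656250) + (5148224 / 625) * xl + (4749008 / 625) * yu) * A ^ 1 * B ^ 3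
      + ((3982158949639 / 781250000) + (7547272 / 625) * xl + (1388166 / 125) * yu) * A ^ 2 * B ^ 2
      + ((9330393833431 / 3125000000) + (4889522 / 625) * xl + (4483182 / 625) * yu) * A ^ 3 * B ^ 1
      + ((2033372884427 / 3125000000) + (1180074 / 625) * xl + (1078736 / 625) * yu) * A ^ 4 * B ^ 0 := by
    simp only [hxl, hxu, hyl, hyu, hA, hB]
    unfold UG2_3_1
    ring
  rw [key]
  positivity

noncomputable def UG2_3_2 (L h J : ℝ) : ℝ :=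
  ((-231 / 1000) + (1988 / 25) * L + (-154063 / 2500) * h) * J ^ 0
    + ((-301411 / 12500) + (1614 / 625) * L + (-16647 / 6250) * h) * J ^ 1
    + ((177023 / 31250) + (-14) * L + (609 / 50) * h) * J ^ 2
    + ((77 / 25) + (-39 / 25) * L + (39 / 25) * h) * J ^ 3
    + ((-143 / 2500) + 0 * L + 0 * h) * J ^ 4

lemma UG2_3_2_nonneg {L h J : ℝ} (hL0 : (6931471 / 10000000) ≤ L) (hL1 : L ≤ (433217 / 625000)) (hh0 : (67 / 400) ≤ h) (hh1 : h ≤ (117 / 500)) (hJ0 : 0 ≤ J) (hJ1 : J ≤ (1 / 2)) :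
    0 ≤ UG2_3_2 L h J := by
  obtain ⟨xl, hxl⟩ : ∃ x : ℝ, x = L - (6931471 / 10000000) := ⟨_, rfl⟩
  obtain ⟨xu, hxu⟩ : ∃ x : ℝ, x = (433217 / 625000) - L := ⟨_, rfl⟩
  obtain ⟨yl, hyl⟩ : ∃ x : ℝ, x = h - (67 / 400) := ⟨_, rfl⟩
  obtain ⟨yu, hyu⟩ : ∃ x : ℝ, x = (117 / 500) - h := ⟨_, rfl⟩
  obtain ⟨A, hA⟩ : ∃ x : ℝ, x = J - 0 := ⟨_, rfl⟩
  obtain ⟨B, hB⟩ : ∃ x : ℝ, x = (1 / 2) - J := ⟨_, rfl⟩
  have hxl0 : 0 ≤ xl := by rw [hxl]; linarith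
  have hxu0 : 0 ≤ xu := by rw [hxu]; linarith
  have hyl0 : 0 ≤ yl := by rw [hyl]; linarith
  have hyu0 : 0 ≤ yu := by rw [hyu]; linarith
  have hA0 : 0 ≤ A := by rw [hA]; linarith
  have hB0 : 0 ≤ B := by rw [hB]; linarith
  have key : UG2_3_2 L h J =
      ((2529235037 / 3906250) + (31808 / 25) * xl + (616252 / 625) * yu) * A ^ 0 * B ^ 4
      + ((939987262897 / 390625000) + (3193712 / 625) * xl + (12391628 / 3125) * yu) * A ^ 1 * B ^ 3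
      + ((2601125272357 / 781250000) + (4774936 / 625) * xl + (18535074 / 3125) * yu) * A ^ 2 * B ^ 2
      + ((6357633303503 / 3125000000) + (3147586 / 625) * xl + (12210554 / 3125) * yu) * A ^ 3 * B ^ 1
      + ((1449463537651 / 3125000000) + (771162 / 625) * xl + (2985848 / 3125) * yu) * A ^ 4 * B ^ 0 := by
    simp only [hxl, hxu, hyl, hyu, hA, hB]
    unfold UG2_3_2
    ring
  rw [key]
  positivity

lemma UG2_3_nonneg {L h b J : ℝ} (hL0 : (6931471 / 10000000) ≤ L) (hL1 : L ≤ (433217 / 625000)) (hh0 : (67 / 400) ≤ h) (hh1 : h ≤ (117 / 500)) (hb0 : 0 ≤ b) (hb1 : b ≤ 1) (hJ0 : 0 ≤ J) (hJ1 : J ≤ (1 / 2)) :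
    0 ≤ UG2_3 L h b J := by
  have c0 := UG2_3_0_nonneg hL0 hL1 hh0 hh1 hJ0 hJ1
  have c1 := UG2_3_1_nonneg hL0 hL1 hh0 hh1 hJ0 hJ1
  have c2 := UG2_3_2_nonneg hL0 hL1 hh0 hh1 hJ0 hJ1
  have key : UG2_3 L h b J =
      (b - 0) ^ 0 * (1 - b) ^ 2 * UG2_3_0 L h J
      + (b - 0) ^ 1 * (1 - b) ^ 1 * UG2_3_1 L h J
      + (b - 0) ^ 2 * (1 - b) ^ 0 * UG2_3_2 L h J := by
    unfold UG2_3 UG2_3_0 UG2_3_1 UG2_3_2
    ring
  have hA : 0 ≤ b - 0 := by linarith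
  have hB : 0 ≤ 1 - b := by linarith
  rw [key]
  positivity

noncomputable def UG2_4 (L h b J : ℝ) : ℝ :=
  ((693 / 100) + (1526 / 25) * L + (-39221 / 625) * h) * b ^ 0 * J ^ 0
    + ((-19921 / 625) + (-5483 / 625) * L + (341 / 25) * h) * b ^ 0 * J ^ 1
    + ((188672 / 15625) + 0 * L + (-39 / 20) * h) * b ^ 0 * J ^ 2
    + (0 + (-273 / 50) * L + (273 / 50) * h) * b ^ 0 * J ^ 3
    + ((3003 / 5000) + 0 * L + 0 * h) * b ^ 0 * J ^ 4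
    + (0 + (-42) * L + 42 * h) * b ^ 1 * J ^ 2
    + ((231 / 25) + (312 / 25) * L + (-312 / 25) * h) * b ^ 1 * J ^ 3
    + ((-1716 / 625) + 0 * L + 0 * h) * b ^ 1 * J ^ 4
    + ((-7623 / 1000) + 42 * L + (-1491 / 500) * h) * b ^ 2 * J ^ 0
    + ((14157 / 6250) + (738 / 25) * L + (-108981 / 3125) * h) * b ^ 2 * J ^ 1
    + ((-5257 / 1000) + (-4) * L + (-147 / 250) * h) * b ^ 2 * J ^ 2
    + (0 + (-373 / 50) * L + (373 / 50) * h) * b ^ 2 * J ^ 3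
    + ((4103 / 5000) + 0 * L + (13 / 100) * h) * b ^ 2 * J ^ 4
    + (0 + (13 / 50) * L + (-13 / 50) * h) * b ^ 2 * J ^ 5
    + ((-143 / 5000) + 0 * L + 0 * h) * b ^ 2 * J ^ 6

noncomputable def UG2_4_0 (L h J : ℝ) : ℝ :=
  ((693 / 100) + (1526 / 25) * L + (-39221 / 625) * h) * J ^ 0
    + ((-19921 / 625) + (-5483 / 625) * L + (341 / 25) * h) * J ^ 1
    + ((188672 / 15625) + 0 * L + (-39 / 20) * h) * J ^ 2
    + (0 + (-273 / 50) * L + (273 / 50) * h) * J ^ 3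
    + ((3003 / 5000) + 0 * L + 0 * h) * J ^ 4

lemma UG2_4_0_nonneg {L h J : ℝ} (hL0 : (6931471 / 10000000) ≤ L) (hL1 : L ≤ (433217 / 625000)) (hh0 : (67 / 400) ≤ h) (hh1 : h ≤ (117 / 500)) (hJ0 : 0 ≤ J) (hJ1 : J ≤ (1 / 2)) :
    0 ≤ UG2_4_0 L h J := by
  obtain ⟨xl, hxl⟩ : ∃ x : ℝ, x = L - (6931471 / 10000000) := ⟨_, rfl⟩
  obtain ⟨xu, hxu⟩ : ∃ x : ℝ, x = (433217 / 625000) - L := ⟨_, rfl⟩
  obtain ⟨yl, hyl⟩ : ∃ x : ℝ, x = h - (67 / 400) := ⟨_, rfl⟩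
  obtain ⟨yu, hyu⟩ : ∃ x : ℝ, x = (117 / 500) - h := ⟨_, rfl⟩
  obtain ⟨A, hA⟩ : ∃ x : ℝ, x = J - 0 := ⟨_, rfl⟩
  obtain ⟨B, hB⟩ : ∃ x : ℝ, x = (1 / 2) - J := ⟨_, rfl⟩
  have hxl0 : 0 ≤ xl := by rw [hxl]; linarith
  have hxu0 : 0 ≤ xu := by rw [hxu]; linarith
  have hyl0 : 0 ≤ yl := by rw [hyl]; linarith
  have hyu0 : 0 ≤ yu := by rw [hyu]; linarith
  have hA0 : 0 ≤ A := by rw [hA]; linarith
  have hB0 : 0 ≤ B := by rw [hB]; linarith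
  have key : UG2_4_0 L h J =
      ((4319419573 / 7812500) + (24416 / 25) * xl + (627536 / 625) * yu) * A ^ 0 * B ^ 4
      + ((1510501073707 / 781250000) + (2397736 / 625) * xl + (2441944 / 625) * yu) * A ^ 1 * B ^ 3
      + ((1976159939821 / 781250000) + (3530808 / 625) * xl + (3565491 / 625) * yu) * A ^ 2 * B ^ 2
      + ((9157339112193 / 6250000000) + (2303183 / 625) * xl + (2308469 / 625) * yu) * A ^ 3 * B ^ 1
      + ((1980286274881 / 6250000000) + (559711 / 625) * xl + (557386 / 625) * yu) * A ^ 4 * B ^ 0 := by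
    simp only [hxl, hxu, hyl, hyu, hA, hB]
    unfold UG2_4_0
    ring
  rw [key]
  positivity

noncomputable def UG2_4_1 (L h J : ℝ) : ℝ :=
  ((693 / 50) + (3052 / 25) * L + (-78442 / 625) * h) * J ^ 0
    + ((-39842 / 625) + (-10966 / 625) * L + (682 / 25) * h) * J ^ 1
    + ((377344 / 15625) + (-42) * L + (381 / 10) * h) * J ^ 2
    + ((231 / 25) + (39 / 25) * L + (-39 / 25) * h) * J ^ 3
    + ((-3861 / 2500) + 0 * L + 0 * h) * J ^ 4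

lemma UG2_4_1_nonneg {L h J : ℝ} (hL0 : (6931471 / 10000000) ≤ L) (hL1 : L ≤ (433217 / 625000)) (hh0 : (67 / 400) ≤ h) (hh1 : h ≤ (117 / 500)) (hJ0 : 0 ≤ J) (hJ1 : J ≤ (1 / 2)) :
    0 ≤ UG2_4_1 L h J := by
  obtain ⟨xl, hxl⟩ : ∃ x : ℝ, x = L - (6931471 / 10000000) := ⟨_, rfl⟩
  obtain ⟨xu, hxu⟩ : ∃ x : ℝ, x = (433217 / 625000) - L := ⟨_, rfl⟩
  obtain ⟨yl, hyl⟩ : ∃ x : ℝ, x = h - (67 / 400) := ⟨_, rfl⟩
  obtain ⟨yu, hyu⟩ : ∃ x : ℝ, x = (117 / 500) - h := ⟨_, rfl⟩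
  obtain ⟨A, hA⟩ : ∃ x : ℝ, x = J - 0 := ⟨_, rfl⟩
  obtain ⟨B, hB⟩ : ∃ x : ℝ, x = (1 / 2) - J := ⟨_, rfl⟩
  have hxl0 : 0 ≤ xl := by rw [hxl]; linarith
  have hxu0 : 0 ≤ xu := by rw [hxu]; linarith
  have hyl0 : 0 ≤ yl := by rw [hyl]; linarith
  have hyu0 : 0 ≤ yu := by rw [hyu]; linarith
  have hA0 : 0 ≤ A := by rw [hA]; linarith
  have hB0 : 0 ≤ B := by rw [hB]; linarith
  have key : UG2_4_1 L h J =
      ((4319419573 / 3906250) + (48832 / 25) * xl + (1255072 / 625) * yu) * A ^ 0 * B ^ 4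
      + ((1510501073707 / 390625000) + (4795472 / 625) * xl + (4883888 / 625) * yu) * A ^ 1 * B ^ 3
      + ((3892056822767 / 781250000) + (6956616 / 625) * xl + (7025982 / 625) * yu) * A ^ 2 * B ^ 2
      + ((8768798130993 / 3125000000) + (4411966 / 625) * xl + (4422538 / 625) * yu) * A ^ 3 * B ^ 1
      + ((1824217521181 / 3125000000) + (1030022 / 625) * xl + (1025372 / 625) * yu) * A ^ 4 * B ^ 0 := by
    simp only [hxl, hxu, hyl, hyu, hA, hB]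
    unfold UG2_4_1
    ring
  rw [key]
  positivity

noncomputable def UG2_4_2 (L h J : ℝ) : ℝ :=
  ((-693 / 1000) + (2576 / 25) * L + (-164339 / 2500) * h) * J ^ 0
    + ((-185053 / 6250) + (12967 / 625) * L + (-66356 / 3125) * h) * J ^ 1
    + ((852251 / 125000) + (-46) * L + (19731 / 500) * h) * J ^ 2
    + ((231 / 25) + (-11 / 25) * L + (11 / 25) * h) * J ^ 3
    + ((-3311 / 2500) + 0 * L + (13 / 100) * h) * J ^ 4
    + (0 + (13 / 50) * L + (-13 / 50) * h) * J ^ 5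
    + ((-143 / 5000) + 0 * L + 0 * h) * J ^ 6

lemma UG2_4_2_nonneg {L h J : ℝ} (hL0 : (6931471 / 10000000) ≤ L) (hL1 : L ≤ (433217 / 625000)) (hh0 : (67 / 400) ≤ h) (hh1 : h ≤ (117 / 500)) (hJ0 : 0 ≤ J) (hJ1 : J ≤ (1 / 2)) :
    0 ≤ UG2_4_2 L h J := by
  obtain ⟨xl, hxl⟩ : ∃ x : ℝ, x = L - (6931471 / 10000000) := ⟨_, rfl⟩
  obtain ⟨xu, hxu⟩ : ∃ x : ℝ, x = (433217 / 625000) - L := ⟨_, rfl⟩
  obtain ⟨yl, hyl⟩ : ∃ x : ℝ, x = h - (67 / 400) := ⟨_, rfl⟩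
  obtain ⟨yu, hyu⟩ : ∃ x : ℝ, x = (117 / 500) - h := ⟨_, rfl⟩
  obtain ⟨A, hA⟩ : ∃ x : ℝ, x = J - 0 := ⟨_, rfl⟩
  obtain ⟨B, hB⟩ : ∃ x : ℝ, x = (1 / 2) - J := ⟨_, rfl⟩
  have hxl0 : 0 ≤ xl := by rw [hxl]; linarith
  have hxu0 : 0 ≤ xu := by rw [hxu]; linarith
  have hyl0 : 0 ≤ yl := by rw [hyl]; linarith
  have hyu0 : 0 ≤ yu := by rw [hyu]; linarith
  have hA0 : 0 ≤ A := by rw [hA]; linarith
  have hB0 : 0 ≤ B := by rw [hB]; linarith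
  have key : UG2_4_2 L h J =
      ((6918343348 / 1953125) + (164864 / 25) * xl + (2629424 / 625) * yu) * A ^ 0 * B ^ 6
      + ((4024778785257 / 195312500) + (25144544 / 625) * xl + (81006112 / 3125) * yu) * A ^ 1 * B ^ 5
      + ((484845093558 / 9765625) + (12687744 / 125) * xl + (41170132 / 625) * yu) * A ^ 2 * B ^ 4
      + ((9912502531551 / 156250000) + (16947848 / 125) * xl + (55254584 / 625) * yu) * A ^ 3 * B ^ 3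
      + ((7087788140041 / 156250000) + (12641368 / 125) * xl + (41313499 / 625) * yu) * A ^ 4 * B ^ 2
      + ((21519053158839 / 1250000000) + (4991609 / 125) * xl + (16314531 / 625) * yu) * A ^ 5 * B ^ 1
      + ((16937025242099 / 6250000000) + (4074669 / 625) * xl + (13286412 / 3125) * yu) * A ^ 6 * B ^ 0 := by
    simp only [hxl, hxu, hyl, hyu, hA, hB]
    unfold UG2_4_2
    ring
  rw [key]
  positivity

lemma UG2_4_nonneg {L h b J : ℝ} (hL0 : (6931471 / 10000000) ≤ L) (hL1 : L ≤ (433217 / 625000)) (hh0 : (67 / 400) ≤ h) (hh1 : h ≤ (117 / 500)) (hb0 : 0 ≤ b) (hb1 : b ≤ 1) (hJ0 : 0 ≤ J) (hJ1 : J ≤ (1 / 2)) :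
    0 ≤ UG2_4 L h b J := by
  have c0 := UG2_4_0_nonneg hL0 hL1 hh0 hh1 hJ0 hJ1
  have c1 := UG2_4_1_nonneg hL0 hL1 hh0 hh1 hJ0 hJ1
  have c2 := UG2_4_2_nonneg hL0 hL1 hh0 hh1 hJ0 hJ1
  have key : UG2_4 L h b J =
      (b - 0) ^ 0 * (1 - b) ^ 2 * UG2_4_0 L h J
      + (b - 0) ^ 1 * (1 - b) ^ 1 * UG2_4_1 L h J
      + (b - 0) ^ 2 * (1 - b) ^ 0 * UG2_4_2 L h J := by
    unfold UG2_4 UG2_4_0 UG2_4_1 UG2_4_2
    ring
  have hA : 0 ≤ b - 0 := by linarith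
  have hB : 0 ≤ 1 - b := by linarith
  rw [key]
  positivity

noncomputable def UG2_5 (L h b J : ℝ) : ℝ :=
  ((231 / 20) + (154 / 5) * L + (-5572 / 125) * h) * b ^ 0 * J ^ 0
    + ((-7139 / 250) + (209 / 125) * L + (1312 / 125) * h) * b ^ 0 * J ^ 1
    + ((33594 / 3125) + 0 * L + (-13 / 20) * h) * b ^ 0 * J ^ 2
    + ((429 / 1250) + (-91 / 10) * L + (10361 / 1250) * h) * b ^ 0 * J ^ 3
    + ((1001 / 1000) + 0 * L + 0 * h) * b ^ 0 * J ^ 4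
    + (0 + (-70) * L + 70 * h) * b ^ 1 * J ^ 2
    + ((77 / 5) + (156 / 5) * L + (-156 / 5) * h) * b ^ 1 * J ^ 3
    + ((-858 / 125) + 0 * L + 0 * h) * b ^ 1 * J ^ 4
    + ((-2541 / 200) + 70 * L + (-497 / 100) * h) * b ^ 2 * J ^ 0
    + ((14157 / 2500) + (194 / 5) * L + (-65231 / 1250) * h) * b ^ 2 * J ^ 1
    + ((-2177 / 200) + (-20) * L + (154 / 25) * h) * b ^ 2 * J ^ 2
    + ((8281 / 12500) + (-747 / 50) * L + (49476 / 3125) * h) * b ^ 2 * J ^ 3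
    + ((2101 / 1000) + 0 * L + (13 / 20) * h) * b ^ 2 * J ^ 4
    + (0 + (13 / 10) * L + (-13 / 10) * h) * b ^ 2 * J ^ 5
    + ((-143 / 1000) + 0 * L + 0 * h) * b ^ 2 * J ^ 6

noncomputable def UG2_5_0 (L h J : ℝ) : ℝ :=
  ((231 / 20) + (154 / 5) * L + (-5572 / 125) * h) * J ^ 0
    + ((-7139 / 250) + (209 / 125) * L + (1312 / 125) * h) * J ^ 1
    + ((33594 / 3125) + 0 * L + (-13 / 20) * h) * J ^ 2
    + ((429 / 1250) + (-91 / 10) * L + (10361 / 1250) * h) * J ^ 3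
    + ((1001 / 1000) + 0 * L + 0 * h) * J ^ 4

lemma UG2_5_0_nonneg {L h J : ℝ} (hL0 : (6931471 / 10000000) ≤ L) (hL1 : L ≤ (433217 / 625000)) (hh0 : (67 / 400) ≤ h) (hh1 : h ≤ (117 / 500)) (hJ0 : 0 ≤ J) (hJ1 : J ≤ (1 / 2)) :
    0 ≤ UG2_5_0 L h J := by
  obtain ⟨xl, hxl⟩ : ∃ x : ℝ, x = L - (6931471 / 10000000) := ⟨_, rfl⟩
  obtain ⟨xu, hxu⟩ : ∃ x : ℝ, x = (433217 / 625000) - L := ⟨_, rfl⟩
  obtain ⟨yl, hyl⟩ : ∃ x : ℝ, x = h - (67 / 400) := ⟨_, rfl⟩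
  obtain ⟨yu, hyu⟩ : ∃ x : ℝ, x = (117 / 500) - h := ⟨_, rfl⟩
  obtain ⟨A, hA⟩ : ∃ x : ℝ, x = J - 0 := ⟨_, rfl⟩
  obtain ⟨B, hB⟩ : ∃ x : ℝ, x = (1 / 2) - J := ⟨_, rfl⟩
  have hxl0 : 0 ≤ xl := by rw [hxl]; linarith
  have hxu0 : 0 ≤ xu := by rw [hxu]; linarith
  have hyl0 : 0 ≤ yl := by rw [hyl]; linarith
  have hyu0 : 0 ≤ yu := by rw [hyu]; linarith
  have hA0 : 0 ≤ A := by rw [hA]; linarith
  have hB0 : 0 ≤ B := by rw [hB]; linarith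
  have key : UG2_5_0 L h J =
      ((561703667 / 1562500) + (2464 / 5) * xl + (89152 / 125) * yu) * A ^ 0 * B ^ 4
      + ((193505224239 / 156250000) + (248072 / 125) * xl + (346112 / 125) * yu) * A ^ 1 * B ^ 3
      + ((250117210017 / 156250000) + (374616 / 125) * xl + (503749 / 125) * yu) * A ^ 2 * B ^ 2
      + ((1145139564411 / 1250000000) + (249141 / 125) * xl + (1618489 / 625) * yu) * A ^ 3 * B ^ 1
      + ((244131994587 / 1250000000) + (60997 / 125) * xl + (384544 / 625) * yu) * A ^ 4 * B ^ 0 := by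
    simp only [hxl, hxu, hyl, hyu, hA, hB]
    unfold UG2_5_0
    ring
  rw [key]
  positivity

noncomputable def UG2_5_1 (L h J : ℝ) : ℝ :=
  ((231 / 10) + (308 / 5) * L + (-11144 / 125) * h) * J ^ 0
    + ((-7139 / 125) + (418 / 125) * L + (2624 / 125) * h) * J ^ 1
    + ((67188 / 3125) + (-70) * L + (687 / 10) * h) * J ^ 2
    + ((10054 / 625) + 13 * L + (-9139 / 625) * h) * J ^ 3
    + ((-2431 / 500) + 0 * L + 0 * h) * J ^ 4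

lemma UG2_5_1_nonneg {L h J : ℝ} (hL0 : (6931471 / 10000000) ≤ L) (hL1 : L ≤ (433217 / 625000)) (hh0 : (67 / 400) ≤ h) (hh1 : h ≤ (117 / 500)) (hJ0 : 0 ≤ J) (hJ1 : J ≤ (1 / 2)) :
    0 ≤ UG2_5_1 L h J := by
  obtain ⟨xl, hxl⟩ : ∃ x : ℝ, x = L - (6931471 / 10000000) := ⟨_, rfl⟩
  obtain ⟨xu, hxu⟩ : ∃ x : ℝ, x = (433217 / 625000) - L := ⟨_, rfl⟩
  obtain ⟨yl, hyl⟩ : ∃ x : ℝ, x = h - (67 / 400) := ⟨_, rfl⟩
  obtain ⟨yu, hyu⟩ : ∃ x : ℝ, x = (117 / 500) - h := ⟨_, rfl⟩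
  obtain ⟨A, hA⟩ : ∃ x : ℝ, x = J - 0 := ⟨_, rfl⟩
  obtain ⟨B, hB⟩ : ∃ x : ℝ, x = (1 / 2) - J := ⟨_, rfl⟩
  have hxl0 : 0 ≤ xl := by rw [hxl]; linarith
  have hxu0 : 0 ≤ xu := by rw [hxu]; linarith
  have hyl0 : 0 ≤ yl := by rw [hyl]; linarith
  have hyu0 : 0 ≤ yu := by rw [hyu]; linarith
  have hA0 : 0 ≤ A := by rw [hA]; linarith
  have hB0 : 0 ≤ B := by rw [hB]; linarith
  have key : UG2_5_1 L h J =
      ((561703667 / 781250) + (4928 / 5) * xl + (178304 / 125) * yu) * A ^ 0 * B ^ 4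
      + ((193505224239 / 78125000) + (496144 / 125) * xl + (692224 / 125) * yu) * A ^ 1 * B ^ 3
      + ((480146734409 / 156250000) + (714232 / 125) * xl + (972498 / 125) * yu) * A ^ 2 * B ^ 2
      + ((1021594816311 / 625000000) + (436082 / 125) * xl + (2925978 / 625) * yu) * A ^ 3 * B ^ 1
      + ((196647988987 / 625000000) + (94794 / 125) * xl + (633088 / 625) * yu) * A ^ 4 * B ^ 0 := by
    simp only [hxl, hxu, hyl, hyu, hA, hB]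
    unfold UG2_5_1
    ring
  rw [key]
  positivity

noncomputable def UG2_5_2 (L h J : ℝ) : ℝ :=
  ((-231 / 200) + (504 / 5) * L + (-24773 / 500) * h) * J ^ 0
    + ((-57233 / 2500) + (5059 / 125) * L + (-52111 / 1250) * h) * J ^ 1
    + ((-3373 / 25000) + (-90) * L + (7551 / 100) * h) * J ^ 2
    + ((205071 / 12500) + (179 / 25) * L + (-44243 / 6250) * h) * J ^ 3
    + ((-1881 / 500) + 0 * L + (13 / 20) * h) * J ^ 4
    + (0 + (13 / 10) * L + (-13 / 10) * h) * J ^ 5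
    + ((-143 / 1000) + 0 * L + 0 * h) * J ^ 6

lemma UG2_5_2_nonneg {L h J : ℝ} (hL0 : (6931471 / 10000000) ≤ L) (hL1 : L ≤ (433217 / 625000)) (hh0 : (67 / 400) ≤ h) (hh1 : h ≤ (117 / 500)) (hJ0 : 0 ≤ J) (hJ1 : J ≤ (1 / 2)) :
    0 ≤ UG2_5_2 L h J := by
  obtain ⟨xl, hxl⟩ : ∃ x : ℝ, x = L - (6931471 / 10000000) := ⟨_, rfl⟩
  obtain ⟨xu, hxu⟩ : ∃ x : ℝ, x = (433217 / 625000) - L := ⟨_, rfl⟩
  obtain ⟨yl, hyl⟩ : ∃ x : ℝ, x = h - (67 / 400) := ⟨_, rfl⟩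
  obtain ⟨yu, hyu⟩ : ∃ x : ℝ, x = (117 / 500) - h := ⟨_, rfl⟩
  obtain ⟨A, hA⟩ : ∃ x : ℝ, x = J - 0 := ⟨_, rfl⟩
  obtain ⟨B, hB⟩ : ∃ x : ℝ, x = (1 / 2) - J := ⟨_, rfl⟩
  have hxl0 : 0 ≤ xl := by rw [hxl]; linarith
  have hxu0 : 0 ≤ xu := by rw [hxu]; linarith
  have hyl0 : 0 ≤ yl := by rw [hyl]; linarith
  have hyu0 : 0 ≤ yu := by rw [hyu]; linarith
  have hA0 : 0 ≤ A := by rw [hA]; linarith
  have hB0 : 0 ≤ B := by rw [hB]; linarith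
  have key : UG2_5_2 L h J =
      ((1428011592 / 390625) + (32256 / 5) * xl + (396368 / 125) * yu) * A ^ 0 * B ^ 6
      + ((851062792989 / 39062500) + (5000288 / 125) * xl + (12724816 / 625) * yu) * A ^ 1 * B ^ 5
      + ((208526606507 / 3906250) + (2545088 / 25) * xl + (6628276 / 125) * yu) * A ^ 2 * B ^ 4
      + ((2154095650341 / 31250000) + (3406808 / 25) * xl + (224947772 / 3125) * yu) * A ^ 3 * B ^ 3
      + ((1547447034699 / 31250000) + (2531272 / 25) * xl + (168196591 / 3125) * yu) * A ^ 4 * B ^ 2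
      + ((4693521796039 / 250000000) + (989929 / 25) * xl + (65720391 / 3125) * yu) * A ^ 5 * B ^ 1
      + ((3669233054883 / 1250000000) + (795773 / 125) * xl + (10479552 / 3125) * yu) * A ^ 6 * B ^ 0 := by
    simp only [hxl, hxu, hyl, hyu, hA, hB]
    unfold UG2_5_2
    ring
  rw [key]
  positivity

lemma UG2_5_nonneg {L h b J : ℝ} (hL0 : (6931471 / 10000000) ≤ L) (hL1 : L ≤ (433217 / 625000)) (hh0 : (67 / 400) ≤ h) (hh1 : h ≤ (117 / 500)) (hb0 : 0 ≤ b) (hb1 : b ≤ 1) (hJ0 : 0 ≤ J) (hJ1 : J ≤ (1 / 2)) :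
    0 ≤ UG2_5 L h b J := by
  have c0 := UG2_5_0_nonneg hL0 hL1 hh0 hh1 hJ0 hJ1
  have c1 := UG2_5_1_nonneg hL0 hL1 hh0 hh1 hJ0 hJ1
  have c2 := UG2_5_2_nonneg hL0 hL1 hh0 hh1 hJ0 hJ1
  have key : UG2_5 L h b J =
      (b - 0) ^ 0 * (1 - b) ^ 2 * UG2_5_0 L h J
      + (b - 0) ^ 1 * (1 - b) ^ 1 * UG2_5_1 L h J
      + (b - 0) ^ 2 * (1 - b) ^ 0 * UG2_5_2 L h J := by
    unfold UG2_5 UG2_5_0 UG2_5_1 UG2_5_2
    ring
  have hA : 0 ≤ b - 0 := by linarith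
  have hB : 0 ≤ 1 - b := by linarith
  rw [key]
  positivity

noncomputable def UG2_6 (L h b J : ℝ) : ℝ :=
  ((231 / 20) + (126 / 25) * L + (-6069 / 250) * h) * b ^ 0 * J ^ 0
    + ((-11374 / 625) + (1184 / 125) * L + (844 / 125) * h) * b ^ 0 * J ^ 1
    + ((24343 / 6250) + 0 * L + (13 / 4) * h) * b ^ 0 * J ^ 2
    + ((858 / 625) + (-91 / 10) * L + (7319 / 1250) * h) * b ^ 0 * J ^ 3
    + ((1001 / 1000) + 0 * L + 0 * h) * b ^ 0 * J ^ 4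
    + (0 + (-70) * L + 70 * h) * b ^ 1 * J ^ 2
    + ((77 / 5) + (208 / 5) * L + (-208 / 5) * h) * b ^ 1 * J ^ 3
    + ((-1144 / 125) + 0 * L + 0 * h) * b ^ 1 * J ^ 4
    + ((-2541 / 200) + 70 * L + (-497 / 100) * h) * b ^ 2 * J ^ 0
    + ((4719 / 625) + (142 / 5) * L + (-28904 / 625) * h) * b ^ 2 * J ^ 1
    + ((-1407 / 100) + (-40) * L + (1687 / 100) * h) * b ^ 2 * J ^ 2
    + ((8281 / 3125) + (-623 / 50) * L + (100183 / 6250) * h) * b ^ 2 * J ^ 3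
    + ((3201 / 1000) + 2 * L + (-7 / 10) * h) * b ^ 2 * J ^ 4
    + (0 + (13 / 5) * L + (-13 / 5) * h) * b ^ 2 * J ^ 5
    + ((-143 / 500) + 0 * L + 0 * h) * b ^ 2 * J ^ 6

noncomputable def UG2_6_0 (L h J : ℝ) : ℝ :=
  ((231 / 20) + (126 / 25) * L + (-6069 / 250) * h) * J ^ 0
    + ((-11374 / 625) + (1184 / 125) * L + (844 / 125) * h) * J ^ 1
    + ((24343 / 6250) + 0 * L + (13 / 4) * h) * J ^ 2
    + ((858 / 625) + (-91 / 10) * L + (7319 / 1250) * h) * J ^ 3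
    + ((1001 / 1000) + 0 * L + 0 * h) * J ^ 4

lemma UG2_6_0_nonneg {L h J : ℝ} (hL0 : (6931471 / 10000000) ≤ L) (hL1 : L ≤ (433217 / 625000)) (hh0 : (67 / 400) ≤ h) (hh1 : h ≤ (117 / 500)) (hJ0 : 0 ≤ J) (hJ1 : J ≤ (1 / 2)) :
    0 ≤ UG2_6_0 L h J := by
  obtain ⟨xl, hxl⟩ : ∃ x : ℝ, x = L - (6931471 / 10000000) := ⟨_, rfl⟩
  obtain ⟨xu, hxu⟩ : ∃ x : ℝ, x = (433217 / 625000) - L := ⟨_, rfl⟩
  obtain ⟨yl, hyl⟩ : ∃ x : ℝ, x = h - (67 / 400) := ⟨_, rfl⟩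
  obtain ⟨yu, hyu⟩ : ∃ x : ℝ, x = (117 / 500) - h := ⟨_, rfl⟩
  obtain ⟨A, hA⟩ : ∃ x : ℝ, x = J - 0 := ⟨_, rfl⟩
  obtain ⟨B, hB⟩ : ∃ x : ℝ, x = (1 / 2) - J := ⟨_, rfl⟩
  have hxl0 : 0 ≤ xl := by rw [hxl]; linarith
  have hxu0 : 0 ≤ xu := by rw [hxu]; linarith
  have hyl0 : 0 ≤ yl := by rw [hyl]; linarith
  have hyu0 : 0 ≤ yu := by rw [hyu]; linarith
  have hA0 : 0 ≤ A := by rw [hA]; linarith
  have hB0 : 0 ≤ B := by rw [hB]; linarith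
  have key : UG2_6_0 L h J =
      ((1170359673 / 7812500) + (2016 / 25) * xl + (48552 / 125) * yu) * A ^ 0 * B ^ 4
      + ((5066412219 / 9765625) + (49792 / 125) * xl + (187456 / 125) * yu) * A ^ 1 * B ^ 3
      + ((26413559563 / 39062500) + (88896 / 125) * xl + (269431 / 125) * yu) * A ^ 2 * B ^ 2
      + ((485083906131 / 1250000000) + (66461 / 125) * xl + (846191 / 625) * yu) * A ^ 3 * B ^ 1
      + ((102344466467 / 1250000000) + (17277 / 125) * xl + (193556 / 625) * yu) * A ^ 4 * B ^ 0 := by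
    simp only [hxl, hxu, hyl, hyu, hA, hB]
    unfold UG2_6_0
    ring
  rw [key]
  positivity

noncomputable def UG2_6_1 (L h J : ℝ) : ℝ :=
  ((231 / 10) + (252 / 25) * L + (-6069 / 125) * h) * J ^ 0
    + ((-22748 / 625) + (2368 / 125) * L + (1688 / 125) * h) * J ^ 1
    + ((24343 / 3125) + (-70) * L + (153 / 2) * h) * J ^ 2
    + ((11341 / 625) + (117 / 5) * L + (-18681 / 625) * h) * J ^ 3
    + ((-143 / 20) + 0 * L + 0 * h) * J ^ 4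

lemma UG2_6_1_nonneg {L h J : ℝ} (hL0 : (6931471 / 10000000) ≤ L) (hL1 : L ≤ (433217 / 625000)) (hh0 : (67 / 400) ≤ h) (hh1 : h ≤ (117 / 500)) (hJ0 : 0 ≤ J) (hJ1 : J ≤ (1 / 2)) :
    0 ≤ UG2_6_1 L h J := by
  obtain ⟨xl, hxl⟩ : ∃ x : ℝ, x = L - (6931471 / 10000000) := ⟨_, rfl⟩
  obtain ⟨xu, hxu⟩ : ∃ x : ℝ, x = (433217 / 625000) - L := ⟨_, rfl⟩
  obtain ⟨yl, hyl⟩ : ∃ x : ℝ, x = h - (67 / 400) := ⟨_, rfl⟩
  obtain ⟨yu, hyu⟩ : ∃ x : ℝ, x = (117 / 500) - h := ⟨_, rfl⟩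
  obtain ⟨A, hA⟩ : ∃ x : ℝ, x = J - 0 := ⟨_, rfl⟩
  obtain ⟨B, hB⟩ : ∃ x : ℝ, x = (1 / 2) - J := ⟨_, rfl⟩
  have hxl0 : 0 ≤ xl := by rw [hxl]; linarith
  have hxu0 : 0 ≤ xu := by rw [hxu]; linarith
  have hyl0 : 0 ≤ yl := by rw [hyl]; linarith
  have hyu0 : 0 ≤ yu := by rw [hyu]; linarith
  have hA0 : 0 ≤ A := by rw [hA]; linarith
  have hB0 : 0 ≤ B := by rw [hB]; linarith
  have key : UG2_6_1 L h J =
      ((1170359673 / 3906250) + (4032 / 25) * xl + (97104 / 125) * yu) * A ^ 0 * B ^ 4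
      + ((10132824438 / 9765625) + (99584 / 125) * xl + (374912 / 125) * yu) * A ^ 1 * B ^ 3
      + ((191220790879 / 156250000) + (142792 / 125) * xl + (503862 / 125) * yu) * A ^ 2 * B ^ 2
      + ((367508070331 / 625000000) + (73322 / 125) * xl + (1394382 / 625) * yu) * A ^ 3 * B ^ 1
      + ((59399373167 / 625000000) + (9954 / 125) * xl + (264112 / 625) * yu) * A ^ 4 * B ^ 0 := by
    simp only [hxl, hxu, hyl, hyu, hA, hB]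
    unfold UG2_6_1
    ring
  rw [key]
  positivity

noncomputable def UG2_6_2 (L h J : ℝ) : ℝ :=
  ((-231 / 200) + (1876 / 25) * L + (-14623 / 500) * h) * J ^ 0
    + ((-1331 / 125) + (4734 / 125) * L + (-24684 / 625) * h) * J ^ 1
    + ((-127189 / 12500) + (-110) * L + (2253 / 25) * h) * J ^ 2
    + ((60696 / 3125) + (501 / 25) * L + (-61611 / 3125) * h) * J ^ 3
    + ((-99 / 20) + 2 * L + (-7 / 10) * h) * J ^ 4
    + (0 + (13 / 5) * L + (-13 / 5) * h) * J ^ 5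
    + ((-143 / 500) + 0 * L + 0 * h) * J ^ 6

lemma UG2_6_2_nonneg {L h J : ℝ} (hL0 : (6931471 / 10000000) ≤ L) (hL1 : L ≤ (433217 / 625000)) (hh0 : (67 / 400) ≤ h) (hh1 : h ≤ (117 / 500)) (hJ0 : 0 ≤ J) (hJ1 : J ≤ (1 / 2)) :
    0 ≤ UG2_6_2 L h J := by
  obtain ⟨xl, hxl⟩ : ∃ x : ℝ, x = L - (6931471 / 10000000) := ⟨_, rfl⟩
  obtain ⟨xu, hxu⟩ : ∃ x : ℝ, x = (433217 / 625000) - L := ⟨_, rfl⟩
  obtain ⟨yl, hyl⟩ : ∃ x : ℝ, x = h - (67 / 400) := ⟨_, rfl⟩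
  obtain ⟨yu, hyu⟩ : ∃ x : ℝ, x = (117 / 500) - h := ⟨_, rfl⟩
  obtain ⟨A, hA⟩ : ∃ x : ℝ, x = J - 0 := ⟨_, rfl⟩
  obtain ⟨B, hB⟩ : ∃ x : ℝ, x = (1 / 2) - J := ⟨_, rfl⟩
  have hxl0 : 0 ≤ xl := by rw [hxl]; linarith
  have hxu0 : 0 ≤ xu := by rw [hxu]; linarith
  have hyl0 : 0 ≤ yl := by rw [hyl]; linarith
  have hyu0 : 0 ≤ yu := by rw [hyu]; linarith
  have hA0 : 0 ≤ A := by rw [hA]; linarith
  have hB0 : 0 ≤ B := by rw [hB]; linarith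
  have key : UG2_6_2 L h J =
      ((5501899298 / 1953125) + (120064 / 25) * xl + (233968 / 125) * yu) * A ^ 0 * B ^ 6
      + ((334089693737 / 19531250) + (3753408 / 125) * xl + (7808928 / 625) * yu) * A ^ 1 * B ^ 5
      + ((329898776969 / 7812500) + (1908448 / 25) * xl + (4119168 / 125) * yu) * A ^ 2 * B ^ 4
      + ((1700728096123 / 31250000) + (2532264 / 25) * xl + (138947288 / 3125) * yu) * A ^ 3 * B ^ 3
      + ((30228174279 / 781250) + (370432 / 5) * xl + (101683814 / 3125) * yu) * A ^ 4 * B ^ 2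
      + ((1799957918283 / 125000000) + (708426 / 25) * xl + (38330814 / 3125) * yu) * A ^ 5 * B ^ 1
      + ((1369993607379 / 625000000) + (553498 / 125) * xl + (5810528 / 3125) * yu) * A ^ 6 * B ^ 0 := by
    simp only [hxl, hxu, hyl, hyu, hA, hB]
    unfold UG2_6_2
    ring
  rw [key]
  positivity

lemma UG2_6_nonneg {L h b J : ℝ} (hL0 : (6931471 / 10000000) ≤ L) (hL1 : L ≤ (433217 / 625000)) (hh0 : (67 / 400) ≤ h) (hh1 : h ≤ (117 / 500)) (hb0 : 0 ≤ b) (hb1 : b ≤ 1) (hJ0 : 0 ≤ J) (hJ1 : J ≤ (1 / 2)) :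
    0 ≤ UG2_6 L h b J := by
  have c0 := UG2_6_0_nonneg hL0 hL1 hh0 hh1 hJ0 hJ1
  have c1 := UG2_6_1_nonneg hL0 hL1 hh0 hh1 hJ0 hJ1
  have c2 := UG2_6_2_nonneg hL0 hL1 hh0 hh1 hJ0 hJ1
  have key : UG2_6 L h b J =
      (b - 0) ^ 0 * (1 - b) ^ 2 * UG2_6_0 L h J
      + (b - 0) ^ 1 * (1 - b) ^ 1 * UG2_6_1 L h J
      + (b - 0) ^ 2 * (1 - b) ^ 0 * UG2_6_2 L h J := by
    unfold UG2_6 UG2_6_0 UG2_6_1 UG2_6_2
    ring
  have hA : 0 ≤ b - 0 := by linarith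
  have hB : 0 ≤ 1 - b := by linarith
  rw [key]
  positivity

noncomputable def UG2_7 (L h b J : ℝ) : ℝ :=
  ((693 / 100) + (-62 / 25) * L + (-13667 / 1250) * h) * b ^ 0 * J ^ 0
    + ((-10219 / 1250) + (4592 / 625) * L + (3013 / 625) * h) * b ^ 0 * J ^ 1
    + ((-35431 / 31250) + 0 * L + (507 / 100) * h) * b ^ 0 * J ^ 2
    + ((1287 / 625) + (-273 / 50) * L + (741 / 1250) * h) * b ^ 0 * J ^ 3
    + ((3003 / 5000) + 0 * L + 0 * h) * b ^ 0 * J ^ 4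
    + (0 + (-42) * L + 42 * h) * b ^ 1 * J ^ 2
    + ((231 / 25) + (156 / 5) * L + (-156 / 5) * h) * b ^ 1 * J ^ 3
    + ((-858 / 125) + 0 * L + 0 * h) * b ^ 1 * J ^ 4
    + ((-7623 / 1000) + 42 * L + (-1491 / 500) * h) * b ^ 2 * J ^ 0
    + ((14157 / 2500) + (54 / 5) * L + (-30231 / 1250) * h) * b ^ 2 * J ^ 1
    + ((-1099 / 100) + (-40) * L + (1869 / 100) * h) * b ^ 2 * J ^ 2
    + ((24843 / 6250) + (-1 / 2) * L + (36587 / 6250) * h) * b ^ 2 * J ^ 3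
    + ((14003 / 5000) + 6 * L + (-47 / 10) * h) * b ^ 2 * J ^ 4
    + (0 + (13 / 25) * L + (-13 / 25) * h) * b ^ 2 * J ^ 5
    + ((-143 / 500) + 0 * L + 0 * h) * b ^ 2 * J ^ 6

noncomputable def UG2_7_0 (L h J : ℝ) : ℝ :=
  ((693 / 100) + (-62 / 25) * L + (-13667 / 1250) * h) * J ^ 0
    + ((-10219 / 1250) + (4592 / 625) * L + (3013 / 625) * h) * J ^ 1
    + ((-35431 / 31250) + 0 * L + (507 / 100) * h) * J ^ 2
    + ((1287 / 625) + (-273 / 50) * L + (741 / 1250) * h) * J ^ 3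
    + ((3003 / 5000) + 0 * L + 0 * h) * J ^ 4

lemma UG2_7_0_nonneg {L h J : ℝ} (hL0 : (6931471 / 10000000) ≤ L) (hL1 : L ≤ (433217 / 625000)) (hh0 : (67 / 400) ≤ h) (hh1 : h ≤ (117 / 500)) (hJ0 : 0 ≤ J) (hJ1 : J ≤ (1 / 2)) :
    0 ≤ UG2_7_0 L h J := by
  obtain ⟨xl, hxl⟩ : ∃ x : ℝ, x = L - (6931471 / 10000000) := ⟨_, rfl⟩
  obtain ⟨xu, hxu⟩ : ∃ x : ℝ, x = (433217 / 625000) - L := ⟨_, rfl⟩
  obtain ⟨yl, hyl⟩ : ∃ x : ℝ, x = h - (67 / 400) := ⟨_, rfl⟩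
  obtain ⟨yu, hyu⟩ : ∃ x : ℝ, x = (117 / 500) - h := ⟨_, rfl⟩
  obtain ⟨A, hA⟩ : ∃ x : ℝ, x = J - 0 := ⟨_, rfl⟩
  obtain ⟨B, hB⟩ : ∃ x : ℝ, x = (1 / 2) - J := ⟨_, rfl⟩
  have hxl0 : 0 ≤ xl := by rw [hxl]; linarith
  have hxu0 : 0 ≤ xu := by rw [hxu]; linarith
  have hyl0 : 0 ≤ yl := by rw [hyl]; linarith
  have hyu0 : 0 ≤ yu := by rw [hyu]; linarith
  have hA0 : 0 ≤ A := by rw [hA]; linarith
  have hB0 : 0 ≤ B := by rw [hB]; linarith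
  have key : UG2_7_0 L h J =
      ((82891642 / 1953125) + (992 / 25) * xu + (109336 / 625) * yu) * A ^ 0 * B ^ 4
      + ((7525710414 / 48828125) + (62464 / 625) * xu + (82648 / 125) * yu) * A ^ 1 * B ^ 3
      + ((40614624143 / 195312500) + (38592 / 625) * xu + (571029 / 625) * yu) * A ^ 2 * B ^ 2
      + ((750642803193 / 6250000000) + (4183 / 625) * xl + (338941 / 625) * yu) * A ^ 3 * B ^ 1
      + ((152766258281 / 6250000000) + (5111 / 625) * xl + (71816 / 625) * yu) * A ^ 4 * B ^ 0 := by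
    simp only [hxl, hxu, hyl, hyu, hA, hB]
    unfold UG2_7_0
    ring
  rw [key]
  positivity

noncomputable def UG2_7_1 (L h J : ℝ) : ℝ :=
  ((693 / 50) + (-124 / 25) * L + (-13667 / 625) * h) * J ^ 0
    + ((-10219 / 625) + (9184 / 625) * L + (6026 / 625) * h) * J ^ 1
    + ((-35431 / 15625) + (-42) * L + (2607 / 50) * h) * J ^ 2
    + ((8349 / 625) + (507 / 25) * L + (-18759 / 625) * h) * J ^ 3
    + ((-14157 / 2500) + 0 * L + 0 * h) * J ^ 4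

lemma UG2_7_1_nonneg {L h J : ℝ} (hL0 : (6931471 / 10000000) ≤ L) (hL1 : L ≤ (433217 / 625000)) (hh0 : (67 / 400) ≤ h) (hh1 : h ≤ (117 / 500)) (hJ0 : 0 ≤ J) (hJ1 : J ≤ (1 / 2)) :
    0 ≤ UG2_7_1 L h J := by
  obtain ⟨xl, hxl⟩ : ∃ x : ℝ, x = L - (6931471 / 10000000) := ⟨_, rfl⟩
  obtain ⟨xu, hxu⟩ : ∃ x : ℝ, x = (433217 / 625000) - L := ⟨_, rfl⟩
  obtain ⟨yl, hyl⟩ : ∃ x : ℝ, x = h - (67 / 400) := ⟨_, rfl⟩
  obtain ⟨yu, hyu⟩ : ∃ x : ℝ, x = (117 / 500) - h := ⟨_, rfl⟩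
  obtain ⟨A, hA⟩ : ∃ x : ℝ, x = J - 0 := ⟨_, rfl⟩
  obtain ⟨B, hB⟩ : ∃ x : ℝ, x = (1 / 2) - J := ⟨_, rfl⟩
  have hxl0 : 0 ≤ xl := by rw [hxl]; linarith
  have hxu0 : 0 ≤ xu := by rw [hxu]; linarith
  have hyl0 : 0 ≤ yl := by rw [hyl]; linarith
  have hyu0 : 0 ≤ yu := by rw [hyu]; linarith
  have hA0 : 0 ≤ A := by rw [hA]; linarith
  have hB0 : 0 ≤ B := by rw [hB]; linarith
  have key : UG2_7_1 L h J =
      ((165783284 / 1953125) + (1984 / 25) * xu + (218672 / 625) * yu) * A ^ 0 * B ^ 4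
      + ((15051420828 / 48828125) + (124928 / 625) * xu + (165296 / 125) * yu) * A ^ 1 * B ^ 3
      + ((33081740393 / 97656250) + (182184 / 625) * xu + (1037058 / 625) * yu) * A ^ 2 * B ^ 2
      + ((25988871961 / 195312500) + (162634 / 625) * xu + (506882 / 625) * yu) * A ^ 3 * B ^ 1
      + ((1173365231 / 97656250) + (55778 / 625) * xu + (77632 / 625) * yu) * A ^ 4 * B ^ 0 := by
    simp only [hxl, hxu, hyl, hyu, hA, hB]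
    unfold UG2_7_1
    ring
  rw [key]
  positivity

noncomputable def UG2_7_2 (L h J : ℝ) : ℝ :=
  ((-693 / 1000) + (988 / 25) * L + (-34789 / 2500) * h) * J ^ 0
    + ((-6281 / 2500) + (11342 / 625) * L + (-4841 / 250) * h) * J ^ 1
    + ((-757737 / 62500) + (-82) * L + (1644 / 25) * h) * J ^ 2
    + ((95463 / 6250) + (631 / 25) * L + (-77354 / 3125) * h) * J ^ 3
    + ((-8657 / 2500) + 6 * L + (-47 / 10) * h) * J ^ 4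
    + (0 + (13 / 25) * L + (-13 / 25) * h) * J ^ 5
    + ((-143 / 500) + 0 * L + 0 * h) * J ^ 6

lemma UG2_7_2_nonneg {L h J : ℝ} (hL0 : (6931471 / 10000000) ≤ L) (hL1 : L ≤ (433217 / 625000)) (hh0 : (67 / 400) ≤ h) (hh1 : h ≤ (117 / 500)) (hJ0 : 0 ≤ J) (hJ1 : J ≤ (1 / 2)) :
    0 ≤ UG2_7_2 L h J := by
  obtain ⟨xl, hxl⟩ : ∃ x : ℝ, x = L - (6931471 / 10000000) := ⟨_, rfl⟩
  obtain ⟨xu, hxu⟩ : ∃ x : ℝ, x = (433217 / 625000) - L := ⟨_, rfl⟩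
  obtain ⟨yl, hyl⟩ : ∃ x : ℝ, x = h - (67 / 400) := ⟨_, rfl⟩
  obtain ⟨yu, hyu⟩ : ∃ x : ℝ, x = (117 / 500) - h := ⟨_, rfl⟩
  obtain ⟨A, hA⟩ : ∃ x : ℝ, x = J - 0 := ⟨_, rfl⟩
  obtain ⟨B, hB⟩ : ∃ x : ℝ, x = (1 / 2) - J := ⟨_, rfl⟩
  have hxl0 : 0 ≤ xl := by rw [hxl]; linarith
  have hxu0 : 0 ≤ xu := by rw [hxu]; linarith
  have hyl0 : 0 ≤ yl := by rw [hyl]; linarith
  have hyu0 : 0 ≤ yu := by rw [hyu]; linarith
  have hA0 : 0 ≤ A := by rw [hA]; linarith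
  have hB0 : 0 ≤ B := by rw [hB]; linarith
  have key : UG2_7_2 L h J =
      ((2930490374 / 1953125) + (63232 / 25) * xl + (556624 / 625) * yu) * A ^ 0 * B ^ 6
      + ((896444309241 / 97656250) + (9847744 / 625) * xl + (3727024 / 625) * yu) * A ^ 1 * B ^ 5
      + ((880257747407 / 39062500) + (4941344 / 125) * xl + (1925632 / 125) * yu) * A ^ 2 * B ^ 4
      + ((4463520665661 / 156250000) + (6418328 / 125) * xl + (62493232 / 3125) * yu) * A ^ 3 * B ^ 3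
      + ((193165264681 / 9765625) + (4563008 / 125) * xl + (43298046 / 3125) * yu) * A ^ 4 * B ^ 2
      + ((4440023793267 / 625000000) + (1685754 / 125) * xl + (15205966 / 3125) * yu) * A ^ 5 * B ^ 1
      + ((3233567336387 / 3125000000) + (1265594 / 625) * xl + (2112352 / 3125) * yu) * A ^ 6 * B ^ 0 := by
    simp only [hxl, hxu, hyl, hyu, hA, hB]
    unfold UG2_7_2
    ring
  rw [key]
  positivity

lemma UG2_7_nonneg {L h b J : ℝ} (hL0 : (6931471 / 10000000) ≤ L) (hL1 : L ≤ (433217 / 625000)) (hh0 : (67 / 400) ≤ h) (hh1 : h ≤ (117 / 500)) (hb0 : 0 ≤ b) (hb1 : b ≤ 1) (hJ0 : 0 ≤ J) (hJ1 : J ≤ (1 / 2)) :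
    0 ≤ UG2_7 L h b J := by
  have c0 := UG2_7_0_nonneg hL0 hL1 hh0 hh1 hJ0 hJ1
  have c1 := UG2_7_1_nonneg hL0 hL1 hh0 hh1 hJ0 hJ1
  have c2 := UG2_7_2_nonneg hL0 hL1 hh0 hh1 hJ0 hJ1
  have key : UG2_7 L h b J =
      (b - 0) ^ 0 * (1 - b) ^ 2 * UG2_7_0 L h J
      + (b - 0) ^ 1 * (1 - b) ^ 1 * UG2_7_1 L h J
      + (b - 0) ^ 2 * (1 - b) ^ 0 * UG2_7_2 L h J := by
    unfold UG2_7 UG2_7_0 UG2_7_1 UG2_7_2
    ring
  have hA : 0 ≤ b - 0 := by linarith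
  have hB : 0 ≤ 1 - b := by linarith
  rw [key]
  positivity

noncomputable def UG2_8 (L h b J : ℝ) : ℝ :=
  ((231 / 100) + (-32 / 25) * L + (-8953 / 2500) * h) * b ^ 0 * J ^ 0
    + ((-1474 / 625) + (2953 / 1250) * L + (3131 / 1250) * h) * b ^ 0 * J ^ 1
    + ((-181533 / 125000) + 0 * L + (299 / 100) * h) * b ^ 0 * J ^ 2
    + ((858 / 625) + (-91 / 50) * L + (-1781 / 1250) * h) * b ^ 0 * J ^ 3
    + ((1001 / 5000) + 0 * L + 0 * h) * b ^ 0 * J ^ 4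
    + (0 + (-14) * L + 14 * h) * b ^ 1 * J ^ 2
    + ((77 / 25) + (312 / 25) * L + (-312 / 25) * h) * b ^ 1 * J ^ 3
    + ((-1716 / 625) + 0 * L + 0 * h) * b ^ 1 * J ^ 4
    + ((-2541 / 1000) + 14 * L + (-497 / 500) * h) * b ^ 2 * J ^ 0
    + ((14157 / 6250) + (38 / 25) * L + (-21481 / 3125) * h) * b ^ 2 * J ^ 1
    + ((-189 / 40) + (-20) * L + (49 / 5) * h) * b ^ 2 * J ^ 2
    + ((8281 / 3125) + (241 / 50) * L + (-7817 / 6250) * h) * b ^ 2 * J ^ 3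
    + ((6501 / 5000) + 6 * L + (-107 / 20) * h) * b ^ 2 * J ^ 4
    + (0 + (-143 / 50) * L + (143 / 50) * h) * b ^ 2 * J ^ 5
    + ((-143 / 1000) + 0 * L + 0 * h) * b ^ 2 * J ^ 6
    + (1 + (-2) * L + 0 * h) * b ^ 4 * J ^ 6

noncomputable def UG2_8_0 (L h J : ℝ) : ℝ :=
  ((231 / 100) + (-32 / 25) * L + (-8953 / 2500) * h) * J ^ 0
    + ((-1474 / 625) + (2953 / 1250) * L + (3131 / 1250) * h) * J ^ 1
    + ((-181533 / 125000) + 0 * L + (299 / 100) * h) * J ^ 2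
    + ((858 / 625) + (-91 / 50) * L + (-1781 / 1250) * h) * J ^ 3
    + ((1001 / 5000) + 0 * L + 0 * h) * J ^ 4

lemma UG2_8_0_nonneg {L h J : ℝ} (hL0 : (6931471 / 10000000) ≤ L) (hL1 : L ≤ (433217 / 625000)) (hh0 : (67 / 400) ≤ h) (hh1 : h ≤ (117 / 500)) (hJ0 : 0 ≤ J) (hJ1 : J ≤ (1 / 2)) :
    0 ≤ UG2_8_0 L h J := by
  obtain ⟨xl, hxl⟩ : ∃ x : ℝ, x = L - (6931471 / 10000000) := ⟨_, rfl⟩
  obtain ⟨xu, hxu⟩ : ∃ x : ℝ, x = (433217 / 625000) - L := ⟨_, rfl⟩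
  obtain ⟨yl, hyl⟩ : ∃ x : ℝ, x = h - (67 / 400) := ⟨_, rfl⟩
  obtain ⟨yu, hyu⟩ : ∃ x : ℝ, x = (117 / 500) - h := ⟨_, rfl⟩
  obtain ⟨A, hA⟩ : ∃ x : ℝ, x = J - 0 := ⟨_, rfl⟩
  obtain ⟨B, hB⟩ : ∃ x : ℝ, x = (1 / 2) - J := ⟨_, rfl⟩
  have hxl0 : 0 ≤ xl := by rw [hxl]; linarith
  have hxu0 : 0 ≤ xu := by rw [hxu]; linarith
  have hyl0 : 0 ≤ yl := by rw [hyl]; linarith
  have hyu0 : 0 ≤ yu := by rw [hyu]; linarith
  have hA0 : 0 ≤ A := by rw [hA]; linarith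
  have hB0 : 0 ≤ B := by rw [hB]; linarith
  have key : UG2_8_0 L h J =
      ((18274087 / 1953125) + (512 / 25) * xu + (35812 / 625) * yu) * A ^ 0 * B ^ 4
      + ((3549515951 / 97656250) + (39388 / 625) * xu + (130724 / 625) * yu) * A ^ 1 * B ^ 3
      + ((9744671631 / 195312500) + (41364 / 625) * xu + (6793 / 25) * yu) * A ^ 2 * B ^ 2
      + ((10830224787 / 390625000) + (18039 / 625) * xu + (92507 / 625) * yu) * A ^ 3 * B ^ 1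
      + ((981165527 / 195312500) + (3263 / 625) * xu + (17594 / 625) * yu) * A ^ 4 * B ^ 0 := by
    simp only [hxl, hxu, hyl, hyu, hA, hB]
    unfold UG2_8_0
    ring
  rw [key]
  positivity

noncomputable def UG2_8_1 (L h J : ℝ) : ℝ :=
  ((231 / 25) + (-128 / 25) * L + (-8953 / 625) * h) * J ^ 0
    + ((-5896 / 625) + (5906 / 625) * L + (6262 / 625) * h) * J ^ 1
    + ((-181533 / 31250) + (-14) * L + (649 / 25) * h) * J ^ 2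
    + ((5357 / 625) + (26 / 5) * L + (-11362 / 625) * h) * J ^ 3
    + ((-2431 / 1250) + 0 * L + 0 * h) * J ^ 4

lemma UG2_8_1_nonneg {L h J : ℝ} (hL0 : (6931471 / 10000000) ≤ L) (hL1 : L ≤ (433217 / 625000)) (hh0 : (67 / 400) ≤ h) (hh1 : h ≤ (117 / 500)) (hJ0 : 0 ≤ J) (hJ1 : J ≤ (1 / 2)) :
    0 ≤ UG2_8_1 L h J := by
  obtain ⟨xl, hxl⟩ : ∃ x : ℝ, x = L - (6931471 / 10000000) := ⟨_, rfl⟩
  obtain ⟨xu, hxu⟩ : ∃ x : ℝ, x = (433217 / 625000) - L := ⟨_, rfl⟩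
  obtain ⟨yl, hyl⟩ : ∃ x : ℝ, x = h - (67 / 400) := ⟨_, rfl⟩
  obtain ⟨yu, hyu⟩ : ∃ x : ℝ, x = (117 / 500) - h := ⟨_, rfl⟩
  obtain ⟨A, hA⟩ : ∃ x : ℝ, x = J - 0 := ⟨_, rfl⟩
  obtain ⟨B, hB⟩ : ∃ x : ℝ, x = (1 / 2) - J := ⟨_, rfl⟩
  have hxl0 : 0 ≤ xl := by rw [hxl]; linarith
  have hxu0 : 0 ≤ xu := by rw [hxu]; linarith
  have hyl0 : 0 ≤ yl := by rw [hyl]; linarith
  have hyu0 : 0 ≤ yu := by rw [hyu]; linarith
  have hA0 : 0 ≤ A := by rw [hA]; linarith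
  have hB0 : 0 ≤ B := by rw [hB]; linarith
  have key : UG2_8_1 L h J =
      ((73096348 / 1953125) + (2048 / 25) * xu + (143248 / 625) * yu) * A ^ 0 * B ^ 4
      + ((7099031902 / 48828125) + (157552 / 625) * xu + (522896 / 625) * yu) * A ^ 1 * B ^ 3
      + ((8489191006 / 48828125) + (200456 / 625) * xu + (25772 / 25) * yu) * A ^ 2 * B ^ 2
      + ((7529036087 / 97656250) + (126556 / 625) * xu + (315628 / 625) * yu) * A ^ 3 * B ^ 1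
      + ((451989302 / 48828125) + (32452 / 625) * xu + (50976 / 625) * yu) * A ^ 4 * B ^ 0 := by
    simp only [hxl, hxu, hyl, hyu, hA, hB]
    unfold UG2_8_1
    ring
  rw [key]
  positivity

noncomputable def UG2_8_2 (L h J : ℝ) : ℝ :=
  ((11319 / 1000) + (158 / 25) * L + (-56203 / 2500) * h) * J ^ 0
    + ((-74283 / 6250) + (9809 / 625) * L + (25484 / 3125) * h) * J ^ 1
    + ((-1679823 / 125000) + (-62) * L + (3487 / 50) * h) * J ^ 2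
    + ((62896 / 3125) + (1567 / 50) * L + (-295247 / 6250) * h) * J ^ 3
    + ((-28677 / 5000) + 6 * L + (-107 / 20) * h) * J ^ 4
    + (0 + (-143 / 50) * L + (143 / 50) * h) * J ^ 5
    + ((-143 / 1000) + 0 * L + 0 * h) * J ^ 6

lemma UG2_8_2_nonneg {L h J : ℝ} (hL0 : (6931471 / 10000000) ≤ L) (hL1 : L ≤ (433217 / 625000)) (hh0 : (67 / 400) ≤ h) (hh1 : h ≤ (117 / 500)) (hJ0 : 0 ≤ J) (hJ1 : J ≤ (1 / 2)) :
    0 ≤ UG2_8_2 L h J := by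
  obtain ⟨xl, hxl⟩ : ∃ x : ℝ, x = L - (6931471 / 10000000) := ⟨_, rfl⟩
  obtain ⟨xu, hxu⟩ : ∃ x : ℝ, x = (433217 / 625000) - L := ⟨_, rfl⟩
  obtain ⟨yl, hyl⟩ : ∃ x : ℝ, x = h - (67 / 400) := ⟨_, rfl⟩
  obtain ⟨yu, hyu⟩ : ∃ x : ℝ, x = (117 / 500) - h := ⟨_, rfl⟩
  obtain ⟨A, hA⟩ : ∃ x : ℝ, x = J - 0 := ⟨_, rfl⟩
  obtain ⟨B, hB⟩ : ∃ x : ℝ, x = (1 / 2) - J := ⟨_, rfl⟩
  have hxl0 : 0 ≤ xl := by rw [hxl]; linarith
  have hxu0 : 0 ≤ xu := by rw [hxu]; linarith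
  have hyl0 : 0 ≤ yl := by rw [hyl]; linarith
  have hyu0 : 0 ≤ yu := by rw [hyu]; linarith
  have hA0 : 0 ≤ A := by rw [hA]; linarith
  have hB0 : 0 ≤ B := by rw [hB]; linarith
  have key : UG2_8_2 L h J =
      ((1304886109 / 1953125) + (10112 / 25) * xl + (899248 / 625) * yu) * A ^ 0 * B ^ 6
      + ((788565976439 / 195312500) + (1830688 / 625) * xl + (26161952 / 3125) * yu) * A ^ 1 * B ^ 5
      + ((186020526807 / 19531250) + (948288 / 125) * xl + (11975832 / 625) * yu) * A ^ 2 * B ^ 4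
      + ((3540883397509 / 312500000) + (1174316 / 125) * xl + (69002908 / 3125) * yu) * A ^ 3 * B ^ 3
      + ((2246473058729 / 312500000) + (739196 / 125) * xl + (41976559 / 3125) * yu) * A ^ 4 * B ^ 2
      + ((2875807073063 / 1250000000) + (220553 / 125) * xl + (12610839 / 3125) * yu) * A ^ 5 * B ^ 1
      + ((1798255509923 / 6250000000) + (114813 / 625) * xl + (284748 / 625) * yu) * A ^ 6 * B ^ 0 := by
    simp only [hxl, hxu, hyl, hyu, hA, hB]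
    unfold UG2_8_2
    ring
  rw [key]
  positivity

noncomputable def UG2_8_3 (L h J : ℝ) : ℝ :=
  ((2079 / 500) + (572 / 25) * L + (-20391 / 1250) * h) * J ^ 0
    + ((-15323 / 3125) + (7806 / 625) * L + (-11652 / 3125) * h) * J ^ 1
    + ((-953691 / 62500) + (-82) * L + (1839 / 25) * h) * J ^ 2
    + ((62597 / 3125) + (199 / 5) * L + (-142627 / 3125) * h) * J ^ 3
    + ((-12089 / 2500) + 12 * L + (-107 / 10) * h) * J ^ 4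
    + (0 + (-143 / 25) * L + (143 / 25) * h) * J ^ 5
    + ((-143 / 500) + 0 * L + 0 * h) * J ^ 6

lemma UG2_8_3_nonneg {L h J : ℝ} (hL0 : (6931471 / 10000000) ≤ L) (hL1 : L ≤ (433217 / 625000)) (hh0 : (67 / 400) ≤ h) (hh1 : h ≤ (117 / 500)) (hJ0 : 0 ≤ J) (hJ1 : J ≤ (1 / 2)) :
    0 ≤ UG2_8_3 L h J := by
  obtain ⟨xl, hxl⟩ : ∃ x : ℝ, x = L - (6931471 / 10000000) := ⟨_, rfl⟩
  obtain ⟨xu, hxu⟩ : ∃ x : ℝ, x = (433217 / 625000) - L := ⟨_, rfl⟩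
  obtain ⟨yl, hyl⟩ : ∃ x : ℝ, x = h - (67 / 400) := ⟨_, rfl⟩
  obtain ⟨yu, hyu⟩ : ∃ x : ℝ, x = (117 / 500) - h := ⟨_, rfl⟩
  obtain ⟨A, hA⟩ : ∃ x : ℝ, x = J - 0 := ⟨_, rfl⟩
  obtain ⟨B, hB⟩ : ∃ x : ℝ, x = (1 / 2) - J := ⟨_, rfl⟩
  have hxl0 : 0 ≤ xl := by rw [hxl]; linarith
  have hxu0 : 0 ≤ xu := by rw [hxu]; linarith
  have hyl0 : 0 ≤ yl := by rw [hyl]; linarith
  have hyu0 : 0 ≤ yu := by rw [hyu]; linarith
  have hA0 : 0 ≤ A := by rw [hA]; linarith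
  have hB0 : 0 ≤ B := by rw [hB]; linarith
  have key : UG2_8_3 L h J =
      ((2025001306 / 1953125) + (36608 / 25) * xl + (652512 / 625) * yu) * A ^ 0 * B ^ 6
      + ((616504355113 / 97656250) + (5740992 / 625) * xl + (19948224 / 3125) * yu) * A ^ 1 * B ^ 5
      + ((591205769551 / 39062500) + (2831392 / 125) * xl + (9424944 / 625) * yu) * A ^ 2 * B ^ 4
      + ((2881397701633 / 156250000) + (3544184 / 125) * xl + (55408856 / 3125) * yu) * A ^ 3 * B ^ 3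
      + ((1889934228533 / 156250000) + (2386584 / 125) * xl + (34155838 / 3125) * yu) * A ^ 4 * B ^ 2
      + ((2536450902071 / 625000000) + (822002 / 125) * xl + (10382478 / 3125) * yu) * A ^ 5 * B ^ 1
      + ((1702305932291 / 3125000000) + (566842 / 625) * xl + (239288 / 625) * yu) * A ^ 6 * B ^ 0 := by
    simp only [hxl, hxu, hyl, hyu, hA, hB]
    unfold UG2_8_3
    ring
  rw [key]
  positivity

noncomputable def UG2_8_4 (L h J : ℝ) : ℝ :=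
  ((-231 / 1000) + (318 / 25) * L + (-5719 / 1250) * h) * J ^ 0
    + ((-583 / 6250) + (4853 / 1250) * L + (-27307 / 6250) * h) * J ^ 1
    + ((-386079 / 62500) + (-34) * L + (2679 / 100) * h) * J ^ 2
    + ((22196 / 3125) + (387 / 25) * L + (-47361 / 3125) * h) * J ^ 3
    + ((-3113 / 2500) + 6 * L + (-107 / 20) * h) * J ^ 4
    + (0 + (-143 / 50) * L + (143 / 50) * h) * J ^ 5
    + ((857 / 1000) + (-2) * L + 0 * h) * J ^ 6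

lemma UG2_8_4_nonneg {L h J : ℝ} (hL0 : (6931471 / 10000000) ≤ L) (hL1 : L ≤ (433217 / 625000)) (hh0 : (67 / 400) ≤ h) (hh1 : h ≤ (117 / 500)) (hJ0 : 0 ≤ J) (hJ1 : J ≤ (1 / 2)) :
    0 ≤ UG2_8_4 L h J := by
  obtain ⟨xl, hxl⟩ : ∃ x : ℝ, x = L - (6931471 / 10000000) := ⟨_, rfl⟩
  obtain ⟨xu, hxu⟩ : ∃ x : ℝ, x = (433217 / 625000) - L := ⟨_, rfl⟩
  obtain ⟨yl, hyl⟩ : ∃ x : ℝ, x = h - (67 / 400) := ⟨_, rfl⟩
  obtain ⟨yu, hyu⟩ : ∃ x : ℝ, x = (117 / 500) - h := ⟨_, rfl⟩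
  obtain ⟨A, hA⟩ : ∃ x : ℝ, x = J - 0 := ⟨_, rfl⟩
  obtain ⟨B, hB⟩ : ∃ x : ℝ, x = (1 / 2) - J := ⟨_, rfl⟩
  have hxl0 : 0 ≤ xl := by rw [hxl]; linarith
  have hxu0 : 0 ≤ xu := by rw [hxu]; linarith
  have hyl0 : 0 ≤ yl := by rw [hyl]; linarith
  have hyu0 : 0 ≤ yu := by rw [hyu]; linarith
  have hA0 : 0 ≤ A := by rw [hA]; linarith
  have hB0 : 0 ≤ B := by rw [hB]; linarith
  have key : UG2_8_4 L h J =
      ((939404289 / 1953125) + (20352 / 25) * xl + (183008 / 625) * yu) * A ^ 0 * B ^ 6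
      + ((1146977899563 / 390625000) + (3130448 / 625) * xl + (5927152 / 3125) * yu) * A ^ 1 * B ^ 5
      + ((553991069413 / 78125000) + (1536048 / 125) * xl + (2914132 / 625) * yu) * A ^ 2 * B ^ 4
      + ((1364921626237 / 156250000) + (1933976 / 125) * xl + (17690808 / 3125) * yu) * A ^ 3 * B ^ 3
      + ((227134277833 / 39062500) + (1323136 / 125) * xl + (11261259 / 3125) * yu) * A ^ 4 * B ^ 2
      + ((2486286369043 / 1250000000) + (467933 / 125) * xl + (3569339 / 3125) * yu) * A ^ 5 * B ^ 1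
      + ((1709771467833 / 6250000000) + (334023 / 625) * xl + (88068 / 625) * yu) * A ^ 6 * B ^ 0 := by
    simp only [hxl, hxu, hyl, hyu, hA, hB]
    unfold UG2_8_4
    ring
  rw [key]
  positivity

lemma UG2_8_nonneg {L h b J : ℝ} (hL0 : (6931471 / 10000000) ≤ L) (hL1 : L ≤ (433217 / 625000)) (hh0 : (67 / 400) ≤ h) (hh1 : h ≤ (117 / 500)) (hb0 : 0 ≤ b) (hb1 : b ≤ 1) (hJ0 : 0 ≤ J) (hJ1 : J ≤ (1 / 2)) :
    0 ≤ UG2_8 L h b J := by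
  have c0 := UG2_8_0_nonneg hL0 hL1 hh0 hh1 hJ0 hJ1
  have c1 := UG2_8_1_nonneg hL0 hL1 hh0 hh1 hJ0 hJ1
  have c2 := UG2_8_2_nonneg hL0 hL1 hh0 hh1 hJ0 hJ1
  have c3 := UG2_8_3_nonneg hL0 hL1 hh0 hh1 hJ0 hJ1
  have c4 := UG2_8_4_nonneg hL0 hL1 hh0 hh1 hJ0 hJ1
  have key : UG2_8 L h b J =
      (b - 0) ^ 0 * (1 - b) ^ 4 * UG2_8_0 L h J
      + (b - 0) ^ 1 * (1 - b) ^ 3 * UG2_8_1 L h J
      + (b - 0) ^ 2 * (1 - b) ^ 2 * UG2_8_2 L h J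
      + (b - 0) ^ 3 * (1 - b) ^ 1 * UG2_8_3 L h J
      + (b - 0) ^ 4 * (1 - b) ^ 0 * UG2_8_4 L h J := by
    unfold UG2_8 UG2_8_0 UG2_8_1 UG2_8_2 UG2_8_3 UG2_8_4
    ring
  have hA : 0 ≤ b - 0 := by linarith
  have hB : 0 ≤ 1 - b := by linarith
  rw [key]
  positivity

noncomputable def UG2_9 (L h b J : ℝ) : ℝ :=
  ((33 / 100) + (-4 / 25) * L + (-1429 / 2500) * h) * b ^ 0 * J ^ 0
    + ((-407 / 1250) + (329 / 1250) * L + (137 / 250) * h) * b ^ 0 * J ^ 1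
    + ((-44869 / 125000) + 0 * L + (13 / 20) * h) * b ^ 0 * J ^ 2
    + ((429 / 1250) + (-13 / 50) * L + (-689 / 1250) * h) * b ^ 0 * J ^ 3
    + ((143 / 5000) + 0 * L + 0 * h) * b ^ 0 * J ^ 4
    + (0 + (-2) * L + 2 * h) * b ^ 1 * J ^ 2
    + ((11 / 25) + (52 / 25) * L + (-52 / 25) * h) * b ^ 1 * J ^ 3
    + ((-286 / 625) + 0 * L + 0 * h) * b ^ 1 * J ^ 4
    + ((-363 / 1000) + 2 * L + (-71 / 500) * h) * b ^ 2 * J ^ 0
    + ((4719 / 12500) + (-2 / 25) * L + (-5077 / 6250) * h) * b ^ 2 * J ^ 1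
    + ((-857 / 1000) + (-4) * L + (503 / 250) * h) * b ^ 2 * J ^ 2
    + ((8281 / 12500) + (19 / 10) * L + (-3149 / 3125) * h) * b ^ 2 * J ^ 3
    + ((1243 / 5000) + 2 * L + (-187 / 100) * h) * b ^ 2 * J ^ 4
    + (0 + (-91 / 50) * L + (91 / 50) * h) * b ^ 2 * J ^ 5
    + ((-143 / 5000) + 0 * L + 0 * h) * b ^ 2 * J ^ 6
    + (1 + (-2) * L + 0 * h) * b ^ 4 * J ^ 6
    + ((-26 / 25) + (52 / 25) * L + 0 * h) * b ^ 4 * J ^ 7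

noncomputable def UG2_9_0 (L h J : ℝ) : ℝ :=
  ((33 / 100) + (-4 / 25) * L + (-1429 / 2500) * h) * J ^ 0
    + ((-407 / 1250) + (329 / 1250) * L + (137 / 250) * h) * J ^ 1
    + ((-44869 / 125000) + 0 * L + (13 / 20) * h) * J ^ 2
    + ((429 / 1250) + (-13 / 50) * L + (-689 / 1250) * h) * J ^ 3
    + ((143 / 5000) + 0 * L + 0 * h) * J ^ 4

lemma UG2_9_0_nonneg {L h J : ℝ} (hL0 : (6931471 / 10000000) ≤ L) (hL1 : L ≤ (433217 / 625000)) (hh0 : (67 / 400) ≤ h) (hh1 : h ≤ (117 / 500)) (hJ0 : 0 ≤ J) (hJ1 : J ≤ (1 / 2)) :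
    0 ≤ UG2_9_0 L h J := by
  obtain ⟨xl, hxl⟩ : ∃ x : ℝ, x = L - (6931471 / 10000000) := ⟨_, rfl⟩
  obtain ⟨xu, hxu⟩ : ∃ x : ℝ, x = (433217 / 625000) - L := ⟨_, rfl⟩
  obtain ⟨yl, hyl⟩ : ∃ x : ℝ, x = h - (67 / 400) := ⟨_, rfl⟩
  obtain ⟨yu, hyu⟩ : ∃ x : ℝ, x = (117 / 500) - h := ⟨_, rfl⟩
  obtain ⟨A, hA⟩ : ∃ x : ℝ, x = J - 0 := ⟨_, rfl⟩
  obtain ⟨B, hB⟩ : ∃ x : ℝ, x = (1 / 2) - J := ⟨_, rfl⟩
  have hxl0 : 0 ≤ xl := by rw [hxl]; linarith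
  have hxu0 : 0 ≤ xu := by rw [hxu]; linarith
  have hyl0 : 0 ≤ yl := by rw [hyl]; linarith
  have hyu0 : 0 ≤ yu := by rw [hyu]; linarith
  have hA0 : 0 ≤ A := by rw [hA]; linarith
  have hB0 : 0 ≤ B := by rw [hB]; linarith
  have key : UG2_9_0 L h J =
      ((2666939 / 1953125) + (64 / 25) * xu + (5716 / 625) * yu) * A ^ 0 * B ^ 4
      + ((521722443 / 97656250) + (5084 / 625) * xu + (20124 / 625) * yu) * A ^ 1 * B ^ 3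
      + ((1368568133 / 195312500) + (5652 / 625) * xu + (24451 / 625) * yu) * A ^ 2 * B ^ 2
      + ((1373717641 / 390625000) + (2777 / 625) * xu + (12083 / 625) * yu) * A ^ 3 * B ^ 1
      + ((100627611 / 195312500) + (609 / 625) * xu + (408 / 125) * yu) * A ^ 4 * B ^ 0 := by
    simp only [hxl, hxu, hyl, hyu, hA, hB]
    unfold UG2_9_0
    ring
  rw [key]
  positivity

noncomputable def UG2_9_1 (L h J : ℝ) : ℝ :=
  ((33 / 25) + (-16 / 25) * L + (-1429 / 625) * h) * J ^ 0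
    + ((-814 / 625) + (658 / 625) * L + (274 / 125) * h) * J ^ 1
    + ((-44869 / 31250) + (-2) * L + (23 / 5) * h) * J ^ 2
    + ((1133 / 625) + (26 / 25) * L + (-2678 / 625) * h) * J ^ 3
    + ((-429 / 1250) + 0 * L + 0 * h) * J ^ 4

lemma UG2_9_1_nonneg {L h J : ℝ} (hL0 : (6931471 / 10000000) ≤ L) (hL1 : L ≤ (433217 / 625000)) (hh0 : (67 / 400) ≤ h) (hh1 : h ≤ (117 / 500)) (hJ0 : 0 ≤ J) (hJ1 : J ≤ (1 / 2)) :
    0 ≤ UG2_9_1 L h J := by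
  obtain ⟨xl, hxl⟩ : ∃ x : ℝ, x = L - (6931471 / 10000000) := ⟨_, rfl⟩
  obtain ⟨xu, hxu⟩ : ∃ x : ℝ, x = (433217 / 625000) - L := ⟨_, rfl⟩
  obtain ⟨yl, hyl⟩ : ∃ x : ℝ, x = h - (67 / 400) := ⟨_, rfl⟩
  obtain ⟨yu, hyu⟩ : ∃ x : ℝ, x = (117 / 500) - h := ⟨_, rfl⟩
  obtain ⟨A, hA⟩ : ∃ x : ℝ, x = J - 0 := ⟨_, rfl⟩
  obtain ⟨B, hB⟩ : ∃ x : ℝ, x = (1 / 2) - J := ⟨_, rfl⟩
  have hxl0 : 0 ≤ xl := by rw [hxl]; linarith
  have hxu0 : 0 ≤ xu := by rw [hxu]; linarith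
  have hyl0 : 0 ≤ yl := by rw [hyl]; linarith
  have hyu0 : 0 ≤ yu := by rw [hyu]; linarith
  have hA0 : 0 ≤ A := by rw [hA]; linarith
  have hB0 : 0 ≤ B := by rw [hB]; linarith
  have key : UG2_9_1 L h J =
      ((10667756 / 1953125) + (256 / 25) * xu + (22864 / 625) * yu) * A ^ 0 * B ^ 4
      + ((1043444886 / 48828125) + (20336 / 625) * xu + (80496 / 625) * yu) * A ^ 1 * B ^ 3
      + ((1189213758 / 48828125) + (27608 / 625) * xu + (92804 / 625) * yu) * A ^ 2 * B ^ 2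
      + ((928766191 / 97656250) + (18508 / 625) * xu + (40932 / 625) * yu) * A ^ 3 * B ^ 1
      + ((35162511 / 48828125) + (4836 / 625) * xu + (1152 / 125) * yu) * A ^ 4 * B ^ 0 := by
    simp only [hxl, hxu, hyl, hyu, hA, hB]
    unfold UG2_9_1
    ring
  rw [key]
  positivity

noncomputable def UG2_9_2 (L h J : ℝ) : ℝ :=
  ((1617 / 1000) + (26 / 25) * L + (-8929 / 2500) * h) * J ^ 0
    + ((-19701 / 12500) + (937 / 625) * L + (15473 / 6250) * h) * J ^ 1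
    + ((-376339 / 125000) + (-10) * L + (1489 / 125) * h) * J ^ 2
    + ((50521 / 12500) + (329 / 50) * L + (-32984 / 3125) * h) * J ^ 3
    + ((-4763 / 5000) + 2 * L + (-187 / 100) * h) * J ^ 4
    + (0 + (-91 / 50) * L + (91 / 50) * h) * J ^ 5
    + ((-143 / 5000) + 0 * L + 0 * h) * J ^ 6

lemma UG2_9_2_nonneg {L h J : ℝ} (hL0 : (6931471 / 10000000) ≤ L) (hL1 : L ≤ (433217 / 625000)) (hh0 : (67 / 400) ≤ h) (hh1 : h ≤ (117 / 500)) (hJ0 : 0 ≤ J) (hJ1 : J ≤ (1 / 2)) :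
    0 ≤ UG2_9_2 L h J := by
  obtain ⟨xl, hxl⟩ : ∃ x : ℝ, x = L - (6931471 / 10000000) := ⟨_, rfl⟩
  obtain ⟨xu, hxu⟩ : ∃ x : ℝ, x = (433217 / 625000) - L := ⟨_, rfl⟩
  obtain ⟨yl, hyl⟩ : ∃ x : ℝ, x = h - (67 / 400) := ⟨_, rfl⟩
  obtain ⟨yu, hyu⟩ : ∃ x : ℝ, x = (117 / 500) - h := ⟨_, rfl⟩
  obtain ⟨A, hA⟩ : ∃ x : ℝ, x = J - 0 := ⟨_, rfl⟩
  obtain ⟨B, hB⟩ : ∃ x : ℝ, x = (1 / 2) - J := ⟨_, rfl⟩
  have hxl0 : 0 ≤ xl := by rw [hxl]; linarith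
  have hxu0 : 0 ≤ xu := by rw [hxu]; linarith
  have hyl0 : 0 ≤ yl := by rw [hyl]; linarith
  have hyu0 : 0 ≤ yu := by rw [hyu]; linarith
  have hA0 : 0 ≤ A := by rw [hA]; linarith
  have hB0 : 0 ≤ B := by rw [hB]; linarith
  have key : UG2_9_2 L h J =
      ((187764823 / 1953125) + (1664 / 25) * xl + (142864 / 625) * yu) * A ^ 0 * B ^ 6
      + ((112923864127 / 195312500) + (279584 / 625) * xl + (4038352 / 3125) * yu) * A ^ 1 * B ^ 5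
      + ((13030670713 / 9765625) + (134784 / 125) * xl + (1776272 / 625) * yu) * A ^ 2 * B ^ 4
      + ((477323323827 / 312500000) + (152948 / 125) * xl + (9692192 / 3125) * yu) * A ^ 3 * B ^ 3
      + ((286222588167 / 312500000) + (85508 / 125) * xl + (5480511 / 3125) * yu) * A ^ 4 * B ^ 2
      + ((338968373419 / 1250000000) + (21189 / 125) * xl + (1492671 / 3125) * yu) * A ^ 5 * B ^ 1
      + ((189764792439 / 6250000000) + (7209 / 625) * xl + (147024 / 3125) * yu) * A ^ 6 * B ^ 0 := by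
    simp only [hxl, hxu, hyl, hyu, hA, hB]
    unfold UG2_9_2
    ring
  rw [key]
  positivity

noncomputable def UG2_9_3 (L h J : ℝ) : ℝ :=
  ((297 / 500) + (84 / 25) * L + (-3213 / 1250) * h) * J ^ 0
    + ((-3421 / 6250) + (558 / 625) * L + (1773 / 3125) * h) * J ^ 1
    + ((-196863 / 62500) + (-14) * L + (1578 / 125) * h) * J ^ 2
    + ((25111 / 6250) + 9 * L + (-32688 / 3125) * h) * J ^ 3
    + ((-1903 / 2500) + 4 * L + (-187 / 50) * h) * J ^ 4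
    + (0 + (-91 / 25) * L + (91 / 25) * h) * J ^ 5
    + ((-143 / 2500) + 0 * L + 0 * h) * J ^ 6

lemma UG2_9_3_nonneg {L h J : ℝ} (hL0 : (6931471 / 10000000) ≤ L) (hL1 : L ≤ (433217 / 625000)) (hh0 : (67 / 400) ≤ h) (hh1 : h ≤ (117 / 500)) (hJ0 : 0 ≤ J) (hJ1 : J ≤ (1 / 2)) :
    0 ≤ UG2_9_3 L h J := by
  obtain ⟨xl, hxl⟩ : ∃ x : ℝ, x = L - (6931471 / 10000000) := ⟨_, rfl⟩
  obtain ⟨xu, hxu⟩ : ∃ x : ℝ, x = (433217 / 625000) - L := ⟨_, rfl⟩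
  obtain ⟨yl, hyl⟩ : ∃ x : ℝ, x = h - (67 / 400) := ⟨_, rfl⟩
  obtain ⟨yu, hyu⟩ : ∃ x : ℝ, x = (117 / 500) - h := ⟨_, rfl⟩
  obtain ⟨A, hA⟩ : ∃ x : ℝ, x = J - 0 := ⟨_, rfl⟩
  obtain ⟨B, hB⟩ : ∃ x : ℝ, x = (1 / 2) - J := ⟨_, rfl⟩
  have hxl0 : 0 ≤ xl := by rw [hxl]; linarith
  have hxu0 : 0 ≤ xu := by rw [hxu]; linarith
  have hyl0 : 0 ≤ yl := by rw [hyl]; linarith
  have hyu0 : 0 ≤ yu := by rw [hyu]; linarith
  have hA0 : 0 ≤ A := by rw [hA]; linarith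
  have hB0 : 0 ≤ B := by rw [hB]; linarith
  have key : UG2_9_3 L h J =
      ((290187582 / 1953125) + (5376 / 25) * xl + (102816 / 625) * yu) * A ^ 0 * B ^ 6
      + ((87694537009 / 97656250) + (824256 / 625) * xl + (3027744 / 3125) * yu) * A ^ 1 * B ^ 5
      + ((82145392293 / 39062500) + (393056 / 125) * xl + (1359264 / 625) * yu) * A ^ 2 * B ^ 4
      + ((385274323819 / 156250000) + (470312 / 125) * xl + (7450944 / 3125) * yu) * A ^ 3 * B ^ 3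
      + ((239931192919 / 156250000) + (299912 / 125) * xl + (4187902 / 3125) * yu) * A ^ 4 * B ^ 2
      + ((302308618123 / 625000000) + (97226 / 125) * xl + (1131262 / 3125) * yu) * A ^ 5 * B ^ 1
      + ((188520628263 / 3125000000) + (62706 / 625) * xl + (111648 / 3125) * yu) * A ^ 6 * B ^ 0 := by
    simp only [hxl, hxu, hyl, hyu, hA, hB]
    unfold UG2_9_3
    ring
  rw [key]
  positivity

noncomputable def UG2_9_4 (L h J : ℝ) : ℝ :=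
  ((-33 / 1000) + (46 / 25) * L + (-446 / 625) * h) * J ^ 0
    + ((649 / 12500) + (229 / 1250) * L + (-826 / 3125) * h) * J ^ 1
    + ((-75997 / 62500) + (-6) * L + (2331 / 500) * h) * J ^ 2
    + ((18071 / 12500) + (93 / 25) * L + (-22743 / 6250) * h) * J ^ 3
    + ((-451 / 2500) + 2 * L + (-187 / 100) * h) * J ^ 4
    + (0 + (-91 / 50) * L + (91 / 50) * h) * J ^ 5
    + ((4857 / 5000) + (-2) * L + 0 * h) * J ^ 6
    + ((-26 / 25) + (52 / 25) * L + 0 * h) * J ^ 7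

lemma UG2_9_4_nonneg {L h J : ℝ} (hL0 : (6931471 / 10000000) ≤ L) (hL1 : L ≤ (433217 / 625000)) (hh0 : (67 / 400) ≤ h) (hh1 : h ≤ (117 / 500)) (hJ0 : 0 ≤ J) (hJ1 : J ≤ (1 / 2)) :
    0 ≤ UG2_9_4 L h J := by
  obtain ⟨xl, hxl⟩ : ∃ x : ℝ, x = L - (6931471 / 10000000) := ⟨_, rfl⟩
  obtain ⟨xu, hxu⟩ : ∃ x : ℝ, x = (433217 / 625000) - L := ⟨_, rfl⟩
  obtain ⟨yl, hyl⟩ : ∃ x : ℝ, x = h - (67 / 400) := ⟨_, rfl⟩
  obtain ⟨yu, hyu⟩ : ∃ x : ℝ, x = (117 / 500) - h := ⟨_, rfl⟩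
  obtain ⟨A, hA⟩ : ∃ x : ℝ, x = J - 0 := ⟨_, rfl⟩
  obtain ⟨B, hB⟩ : ∃ x : ℝ, x = (1 / 2) - J := ⟨_, rfl⟩
  have hxl0 : 0 ≤ xl := by rw [hxl]; linarith
  have hxu0 : 0 ≤ xu := by rw [hxu]; linarith
  have hyl0 : 0 ≤ yl := by rw [hyl]; linarith
  have hyu0 : 0 ≤ yu := by rw [hyu]; linarith
  have hA0 : 0 ≤ A := by rw [hA]; linarith
  have hB0 : 0 ≤ B := by rw [hB]; linarith
  have key : UG2_9_4 L h J =
      ((268852066 / 1953125) + (5888 / 25) * xl + (57088 / 625) * yu) * A ^ 0 * B ^ 7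
      + ((189659617059 / 195312500) + (1037728 / 625) * xl + (2050944 / 3125) * yu) * A ^ 1 * B ^ 6
      + ((136648455626 / 48828125) + (3015168 / 625) * xl + (5845224 / 3125) * yu) * A ^ 2 * B ^ 5
      + ((335588696669 / 78125000) + (939824 / 125) * xl + (8634304 / 3125) * yu) * A ^ 3 * B ^ 4
      + ((297343737107 / 78125000) + (851472 / 125) * xl + (7160206 / 3125) * yu) * A ^ 4 * B ^ 3
      + ((1219929715967 / 625000000) + (449954 / 125) * xl + (3334364 / 3125) * yu) * A ^ 5 * B ^ 2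
      + ((52447543227 / 97656250) + (641568 / 625) * xl + (161358 / 625) * yu) * A ^ 6 * B ^ 1
      + ((191240469819 / 3125000000) + (75978 / 625) * xl + (78048 / 3125) * yu) * A ^ 7 * B ^ 0 := by
    simp only [hxl, hxu, hyl, hyu, hA, hB]
    unfold UG2_9_4
    ring
  rw [key]
  positivity

lemma UG2_9_nonneg {L h b J : ℝ} (hL0 : (6931471 / 10000000) ≤ L) (hL1 : L ≤ (433217 / 625000)) (hh0 : (67 / 400) ≤ h) (hh1 : h ≤ (117 / 500)) (hb0 : 0 ≤ b) (hb1 : b ≤ 1) (hJ0 : 0 ≤ J) (hJ1 : J ≤ (1 / 2)) :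
    0 ≤ UG2_9 L h b J := by
  have c0 := UG2_9_0_nonneg hL0 hL1 hh0 hh1 hJ0 hJ1
  have c1 := UG2_9_1_nonneg hL0 hL1 hh0 hh1 hJ0 hJ1
  have c2 := UG2_9_2_nonneg hL0 hL1 hh0 hh1 hJ0 hJ1
  have c3 := UG2_9_3_nonneg hL0 hL1 hh0 hh1 hJ0 hJ1
  have c4 := UG2_9_4_nonneg hL0 hL1 hh0 hh1 hJ0 hJ1
  have key : UG2_9 L h b J =
      (b - 0) ^ 0 * (1 - b) ^ 4 * UG2_9_0 L h J
      + (b - 0) ^ 1 * (1 - b) ^ 3 * UG2_9_1 L h J
      + (b - 0) ^ 2 * (1 - b) ^ 2 * UG2_9_2 L h J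
      + (b - 0) ^ 3 * (1 - b) ^ 1 * UG2_9_3 L h J
      + (b - 0) ^ 4 * (1 - b) ^ 0 * UG2_9_4 L h J := by
    unfold UG2_9 UG2_9_0 UG2_9_1 UG2_9_2 UG2_9_3 UG2_9_4
    ring
  have hA : 0 ≤ b - 0 := by linarith
  have hB : 0 ≤ 1 - b := by linarith
  rw [key]
  positivity

lemma UG2_nonneg {L h al b J : ℝ} (hL0 : (6931471 / 10000000) ≤ L) (hL1 : L ≤ (433217 / 625000)) (hh0 : (67 / 400) ≤ h) (hh1 : h ≤ (117 / 500)) (hal0 : 0 ≤ al) (hal1 : al ≤ 1) (hb0 : 0 ≤ b) (hb1 : b ≤ 1) (hJ0 : 0 ≤ J) (hJ1 : J ≤ (1 / 2)) :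
    0 ≤ UG2 L h al b J := by
  have c0 := UG2_0_nonneg hL0 hL1 hh0 hh1 hb0 hb1 hJ0 hJ1
  have c1 := UG2_1_nonneg hL0 hL1 hh0 hh1 hb0 hb1 hJ0 hJ1
  have c2 := UG2_2_nonneg hL0 hL1 hh0 hh1 hb0 hb1 hJ0 hJ1
  have c3 := UG2_3_nonneg hL0 hL1 hh0 hh1 hb0 hb1 hJ0 hJ1
  have c4 := UG2_4_nonneg hL0 hL1 hh0 hh1 hb0 hb1 hJ0 hJ1
  have c5 := UG2_5_nonneg hL0 hL1 hh0 hh1 hb0 hb1 hJ0 hJ1
  have c6 := UG2_6_nonneg hL0 hL1 hh0 hh1 hb0 hb1 hJ0 hJ1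
  have c7 := UG2_7_nonneg hL0 hL1 hh0 hh1 hb0 hb1 hJ0 hJ1
  have c8 := UG2_8_nonneg hL0 hL1 hh0 hh1 hb0 hb1 hJ0 hJ1
  have c9 := UG2_9_nonneg hL0 hL1 hh0 hh1 hb0 hb1 hJ0 hJ1
  have key : UG2 L h al b J =
      (al - 0) ^ 0 * (1 - al) ^ 9 * UG2_0 L h b J
      + (al - 0) ^ 1 * (1 - al) ^ 8 * UG2_1 L h b J
      + (al - 0) ^ 2 * (1 - al) ^ 7 * UG2_2 L h b J
      + (al - 0) ^ 3 * (1 - al) ^ 6 * UG2_3 L h b J
      + (al - 0) ^ 4 * (1 - al) ^ 5 * UG2_4 L h b J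
      + (al - 0) ^ 5 * (1 - al) ^ 4 * UG2_5 L h b J
      + (al - 0) ^ 6 * (1 - al) ^ 3 * UG2_6 L h b J
      + (al - 0) ^ 7 * (1 - al) ^ 2 * UG2_7 L h b J
      + (al - 0) ^ 8 * (1 - al) ^ 1 * UG2_8 L h b J
      + (al - 0) ^ 9 * (1 - al) ^ 0 * UG2_9 L h b J := by
    unfold UG2 UG2_0 UG2_1 UG2_2 UG2_3 UG2_4 UG2_5 UG2_6 UG2_7 UG2_8 UG2_9
    ring
  have hA : 0 ≤ al - 0 := by linarith
  have hB : 0 ≤ 1 - al := by linarith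
  rw [key]
  positivity

end Vale.Agent.Lib.P322.Pot
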