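import Mathlib
import Vale.Agent.Lib.P322.Pot.Mid.AX2

/-!
P322, potential method, range `7/8 ≤ ρ ≤ 23/25`.  Generated certificate: the polynomial `UG3` is nonnegative on a box (iterated expansion in the products
`(x - lo)^i (hi - x)^(n-i)`; all coefficients are affine in `(L, h)` and nonnegative).
-/

set_option linter.unusedSimpArgs false

namespace Vale.Agent.Lib.P322.Pot

noncomputable def UG3 (L h a b J : ℝ) : ℝ :=
  (0 + 2 * L + (-187 / 100) * h) * a ^ 0 * b ^ 0 * J ^ 2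
    + ((-11 / 25) + (13 / 50) * L + (-13 / 50) * h) * a ^ 0 * b ^ 0 * J ^ 3
    + ((-143 / 5000) + 0 * L + 0 * h) * a ^ 0 * b ^ 0 * J ^ 4
    + (0 + (-104 / 25) * L + (104 / 25) * h) * a ^ 1 * b ^ 0 * J ^ 1
    + ((286 / 625) + (-52 / 25) * L + (52 / 25) * h) * a ^ 1 * b ^ 0 * J ^ 2
    + ((286 / 625) + 0 * L + 0 * h) * a ^ 1 * b ^ 0 * J ^ 3
    + ((33 / 100) + 2 * L + (-3577 / 1250) * h) * a ^ 2 * b ^ 0 * J ^ 0
    + (0 + (2602 / 625) * L + (-2602 / 625) * h) * a ^ 2 * b ^ 0 * J ^ 1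
    + ((-14311 / 31250) + 0 * L + (-13 / 100) * h) * a ^ 2 * b ^ 0 * J ^ 2
    + (0 + (-13 / 50) * L + (13 / 50) * h) * a ^ 2 * b ^ 0 * J ^ 3
    + ((143 / 5000) + 0 * L + 0 * h) * a ^ 2 * b ^ 0 * J ^ 4
    + (0 + (-2) * L + 2 * h) * a ^ 2 * b ^ 1 * J ^ 2
    + ((11 / 25) + 0 * L + 0 * h) * a ^ 2 * b ^ 1 * J ^ 3
    + ((-363 / 1000) + 2 * L + (-71 / 500) * h) * a ^ 2 * b ^ 2 * J ^ 0
    + (0 + 2 * L + (-2) * h) * a ^ 2 * b ^ 2 * J ^ 1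
    + ((-11 / 50) + 0 * L + (-13 / 100) * h) * a ^ 2 * b ^ 2 * J ^ 2
    + (0 + (-13 / 50) * L + (13 / 50) * h) * a ^ 2 * b ^ 2 * J ^ 3
    + ((143 / 5000) + 0 * L + 0 * h) * a ^ 2 * b ^ 2 * J ^ 4
    + ((-429 / 1250) + (-52 / 25) * L + (1807 / 625) * h) * a ^ 3 * b ^ 0 * J ^ 0
    + (0 + (52 / 25) * L + (-52 / 25) * h) * a ^ 3 * b ^ 1 * J ^ 2
    + ((-286 / 625) + 0 * L + 0 * h) * a ^ 3 * b ^ 1 * J ^ 3
    + ((4719 / 12500) + (-52 / 25) * L + (7423 / 6250) * h) * a ^ 3 * b ^ 2 * J ^ 0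
    + ((-33 / 100) + 0 * L + (39 / 50) * h) * a ^ 4 * b ^ 0 * J ^ 0
    + ((-637 / 1000) + (-4) * L + (1071 / 500) * h) * a ^ 4 * b ^ 2 * J ^ 0
    + (0 + (-2) * L + 2 * h) * a ^ 4 * b ^ 2 * J ^ 1
    + ((11 / 50) + 0 * L + (13 / 100) * h) * a ^ 4 * b ^ 2 * J ^ 2
    + (0 + (13 / 50) * L + (-13 / 50) * h) * a ^ 4 * b ^ 2 * J ^ 3
    + ((-143 / 5000) + 0 * L + 0 * h) * a ^ 4 * b ^ 2 * J ^ 4
    + ((429 / 1250) + 0 * L + (-507 / 625) * h) * a ^ 5 * b ^ 0 * J ^ 0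
    + ((8281 / 12500) + (104 / 25) * L + (-20423 / 6250) * h) * a ^ 5 * b ^ 2 * J ^ 0
    + (0 + 2 * L + (-2) * h) * a ^ 6 * b ^ 2 * J ^ 0
    + (0 + (-52 / 25) * L + (52 / 25) * h) * a ^ 7 * b ^ 2 * J ^ 0
    + (1 + (-2) * L + 0 * h) * a ^ 8 * b ^ 4 * J ^ 0
    + ((-26 / 25) + (52 / 25) * L + 0 * h) * a ^ 9 * b ^ 4 * J ^ 0

noncomputable def UG3_0 (L h b J : ℝ) : ℝ :=
  (0 + 1024 * L + (-23936 / 25) * h) * b ^ 0 * J ^ 2
    + ((-5632 / 25) + (3328 / 25) * L + (-3328 / 25) * h) * b ^ 0 * J ^ 3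
    + ((-9152 / 625) + 0 * L + 0 * h) * b ^ 0 * J ^ 4

noncomputable def UG3_0_0 (L h J : ℝ) : ℝ :=
  (0 + 1024 * L + (-23936 / 25) * h) * J ^ 2
    + ((-5632 / 25) + (3328 / 25) * L + (-3328 / 25) * h) * J ^ 3
    + ((-9152 / 625) + 0 * L + 0 * h) * J ^ 4

lemma UG3_0_0_nonneg {L h J : ℝ} (hL0 : (6931471 / 10000000) ≤ L) (hL1 : L ≤ (433217 / 625000)) (hh0 : (67 / 400) ≤ h) (hh1 : h ≤ (117 / 500)) (hJ0 : (1 / 2) ≤ J) (hJ1 : J ≤ (39 / 50)) :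
    0 ≤ UG3_0_0 L h J := by
  obtain ⟨xl, hxl⟩ : ∃ x : ℝ, x = L - (6931471 / 10000000) := ⟨_, rfl⟩
  obtain ⟨xu, hxu⟩ : ∃ x : ℝ, x = (433217 / 625000) - L := ⟨_, rfl⟩
  obtain ⟨yl, hyl⟩ : ∃ x : ℝ, x = h - (67 / 400) := ⟨_, rfl⟩
  obtain ⟨yu, hyu⟩ : ∃ x : ℝ, x = (117 / 500) - h := ⟨_, rfl⟩
  obtain ⟨A, hA⟩ : ∃ x : ℝ, x = J - (1 / 2) := ⟨_, rfl⟩
  obtain ⟨B, hB⟩ : ∃ x : ℝ, x = (39 / 50) - J := ⟨_, rfl⟩
  have hxl0 : 0 ≤ xl := by rw [hxl]; linarith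
  have hxu0 : 0 ≤ xu := by rw [hxu]; linarith
  have hyl0 : 0 ≤ yl := by rw [hyl]; linarith
  have hyu0 : 0 ≤ yu := by rw [hyu]; linarith
  have hA0 : 0 ≤ A := by rw [hA]; linarith
  have hB0 : 0 ≤ B := by rw [hB]; linarith
  have key : UG3_0_0 L h J =
      ((781253323 / 48020) + (106500000 / 2401) * xl + (100000000 / 2401) * yu) * A ^ 0 * B ^ 4
      + ((48777936533 / 600250) + (548920000 / 2401) * xl + (515640000 / 2401) * yu) * A ^ 1 * B ^ 3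
      + ((1117566826556 / 7503125) + (1045235200 / 2401) * xl + (982356800 / 2401) * yu) * A ^ 2 * B ^ 2
      + ((44453032276731 / 375156250) + (870851904 / 2401) * xl + (818935104 / 2401) * yu) * A ^ 3 * B ^ 1
      + ((25903732416237 / 750312500) + (268036704 / 2401) * xl + (252218304 / 2401) * yu) * A ^ 4 * B ^ 0 := by
    simp only [hxl, hxu, hyl, hyu, hA, hB]
    unfold UG3_0_0
    ring
  rw [key]
  positivity

lemma UG3_0_nonneg {L h b J : ℝ} (hL0 : (6931471 / 10000000) ≤ L) (hL1 : L ≤ (433217 / 625000)) (hh0 : (67 / 400) ≤ h) (hh1 : h ≤ (117 / 500)) (hb0 : 0 ≤ b) (hb1 : b ≤ 1) (hJ0 : (1 / 2) ≤ J) (hJ1 : J ≤ (39 / 50)) :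
    0 ≤ UG3_0 L h b J := by
  have c0 := UG3_0_0_nonneg hL0 hL1 hh0 hh1 hJ0 hJ1
  have key : UG3_0 L h b J =
      (b - 0) ^ 0 * (1 - b) ^ 0 * UG3_0_0 L h J := by
    unfold UG3_0 UG3_0_0
    ring
  have hA : 0 ≤ b - 0 := by linarith
  have hB : 0 ≤ 1 - b := by linarith
  rw [key]
  positivity

noncomputable def UG3_1 (L h b J : ℝ) : ℝ :=
  (0 + (-26624 / 25) * L + (26624 / 25) * h) * b ^ 0 * J ^ 1
    + ((73216 / 625) + (217088 / 25) * L + (-202112 / 25) * h) * b ^ 0 * J ^ 2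
    + ((-1193984 / 625) + (29952 / 25) * L + (-29952 / 25) * h) * b ^ 0 * J ^ 3
    + ((-82368 / 625) + 0 * L + 0 * h) * b ^ 0 * J ^ 4

noncomputable def UG3_1_0 (L h J : ℝ) : ℝ :=
  (0 + (-26624 / 25) * L + (26624 / 25) * h) * J ^ 1
    + ((73216 / 625) + (217088 / 25) * L + (-202112 / 25) * h) * J ^ 2
    + ((-1193984 / 625) + (29952 / 25) * L + (-29952 / 25) * h) * J ^ 3
    + ((-82368 / 625) + 0 * L + 0 * h) * J ^ 4

lemma UG3_1_0_nonneg {L h J : ℝ} (hL0 : (6931471 / 10000000) ≤ L) (hL1 : L ≤ (433217 / 625000)) (hh0 : (67 / 400) ≤ h) (hh1 : h ≤ (117 / 500)) (hJ0 : (1 / 2) ≤ J) (hJ1 : J ≤ (39 / 50)) :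
    0 ≤ UG3_1_0 L h J := by
  obtain ⟨xl, hxl⟩ : ∃ x : ℝ, x = L - (6931471 / 10000000) := ⟨_, rfl⟩
  obtain ⟨xu, hxu⟩ : ∃ x : ℝ, x = (433217 / 625000) - L := ⟨_, rfl⟩
  obtain ⟨yl, hyl⟩ : ∃ x : ℝ, x = h - (67 / 400) := ⟨_, rfl⟩
  obtain ⟨yu, hyu⟩ : ∃ x : ℝ, x = (117 / 500) - h := ⟨_, rfl⟩
  obtain ⟨A, hA⟩ : ∃ x : ℝ, x = J - (1 / 2) := ⟨_, rfl⟩
  obtain ⟨B, hB⟩ : ∃ x : ℝ, x = (39 / 50) - J := ⟨_, rfl⟩
  have hxl0 : 0 ≤ xl := by rw [hxl]; linarith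
  have hxu0 : 0 ≤ xu := by rw [hxu]; linarith
  have hyl0 : 0 ≤ yl := by rw [hyl]; linarith
  have hyu0 : 0 ≤ yu := by rw [hyu]; linarith
  have hA0 : 0 ≤ A := by rw [hA]; linarith
  have hB0 : 0 ≤ B := by rw [hB]; linarith
  have key : UG3_1_0 L h J =
      ((4986914987 / 48020) + (698500000 / 2401) * xl + (640000000 / 2401) * yu) * A ^ 0 * B ^ 4
      + ((322333237469 / 600250) + (3725560000 / 2401) * xl + (3426040000 / 2401) * yu) * A ^ 1 * B ^ 3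
      + ((7604266240488 / 7503125) + (7306649600 / 2401) * xl + (6740744000 / 2401) * yu) * A ^ 2 * B ^ 2
      + ((309717182428979 / 375156250) + (6240892736 / 2401) * xl + (5773641536 / 2401) * yu) * A ^ 3 * B ^ 1
      + ((183904858189533 / 750312500) + (1961303136 / 2401) * xl + (1818937536 / 2401) * yu) * A ^ 4 * B ^ 0 := by
    simp only [hxl, hxu, hyl, hyu, hA, hB]
    unfold UG3_1_0
    ring
  rw [key]
  positivity

lemma UG3_1_nonneg {L h b J : ℝ} (hL0 : (6931471 / 10000000) ≤ L) (hL1 : L ≤ (433217 / 625000)) (hh0 : (67 / 400) ≤ h) (hh1 : h ≤ (117 / 500)) (hb0 : 0 ≤ b) (hb1 : b ≤ 1) (hJ0 : (1 / 2) ≤ J) (hJ1 : J ≤ (39 / 50)) :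
    0 ≤ UG3_1 L h b J := by
  have c0 := UG3_1_0_nonneg hL0 hL1 hh0 hh1 hJ0 hJ1
  have key : UG3_1 L h b J =
      (b - 0) ^ 0 * (1 - b) ^ 0 * UG3_1_0 L h J := by
    unfold UG3_1 UG3_1_0
    ring
  have hA : 0 ≤ b - 0 := by linarith
  have hB : 0 ≤ 1 - b := by linarith
  rw [key]
  positivity

noncomputable def UG3_2 (L h b J : ℝ) : ℝ :=
  ((1056 / 25) + 256 * L + (-228928 / 625) * h) * b ^ 0 * J ^ 0
    + (0 + (-4991744 / 625) * L + (4991744 / 625) * h) * b ^ 0 * J ^ 1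
    + ((13727296 / 15625) + (815104 / 25) * L + (-755616 / 25) * h) * b ^ 0 * J ^ 2
    + ((-4483072 / 625) + (118976 / 25) * L + (-118976 / 25) * h) * b ^ 0 * J ^ 3
    + ((-327184 / 625) + 0 * L + 0 * h) * b ^ 0 * J ^ 4
    + (0 + (-256) * L + 256 * h) * b ^ 1 * J ^ 2
    + ((1408 / 25) + 0 * L + 0 * h) * b ^ 1 * J ^ 3
    + ((-5808 / 125) + 256 * L + (-2272 / 125) * h) * b ^ 2 * J ^ 0
    + (0 + 256 * L + (-256) * h) * b ^ 2 * J ^ 1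
    + ((-704 / 25) + 0 * L + (-416 / 25) * h) * b ^ 2 * J ^ 2
    + (0 + (-832 / 25) * L + (832 / 25) * h) * b ^ 2 * J ^ 3
    + ((2288 / 625) + 0 * L + 0 * h) * b ^ 2 * J ^ 4

noncomputable def UG3_2_0 (L h J : ℝ) : ℝ :=
  ((1056 / 25) + 256 * L + (-228928 / 625) * h) * J ^ 0
    + (0 + (-4991744 / 625) * L + (4991744 / 625) * h) * J ^ 1
    + ((13727296 / 15625) + (815104 / 25) * L + (-755616 / 25) * h) * J ^ 2
    + ((-4483072 / 625) + (118976 / 25) * L + (-118976 / 25) * h) * J ^ 3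
    + ((-327184 / 625) + 0 * L + 0 * h) * J ^ 4

lemma UG3_2_0_nonneg {L h J : ℝ} (hL0 : (6931471 / 10000000) ≤ L) (hL1 : L ≤ (433217 / 625000)) (hh0 : (67 / 400) ≤ h) (hh1 : h ≤ (117 / 500)) (hJ0 : (1 / 2) ≤ J) (hJ1 : J ≤ (39 / 50)) :
    0 ≤ UG3_2_0 L h J := by
  obtain ⟨xl, hxl⟩ : ∃ x : ℝ, x = L - (6931471 / 10000000) := ⟨_, rfl⟩
  obtain ⟨xu, hxu⟩ : ∃ x : ℝ, x = (433217 / 625000) - L := ⟨_, rfl⟩
  obtain ⟨yl, hyl⟩ : ∃ x : ℝ, x = h - (67 / 400) := ⟨_, rfl⟩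
  obtain ⟨yu, hyu⟩ : ∃ x : ℝ, x = (117 / 500) - h := ⟨_, rfl⟩
  obtain ⟨A, hA⟩ : ∃ x : ℝ, x = J - (1 / 2) := ⟨_, rfl⟩
  obtain ⟨B, hB⟩ : ∃ x : ℝ, x = (39 / 50) - J := ⟨_, rfl⟩
  have hxl0 : 0 ≤ xl := by rw [hxl]; linarith
  have hxu0 : 0 ≤ xu := by rw [hxu]; linarith
  have hyl0 : 0 ≤ yl := by rw [hyl]; linarith
  have hyu0 : 0 ≤ yu := by rw [hyu]; linarith
  have hA0 : 0 ≤ A := by rw [hA]; linarith
  have hB0 : 0 ≤ B := by rw [hB]; linarith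
  have key : UG3_2_0 L h J =
      ((1363741289061 / 4802000) + (1956455000 / 2401) * xl + (1767160000 / 2401) * yu) * A ^ 0 * B ^ 4
      + ((92073852002227 / 60025000) + (10908734800 / 2401) * xl + (9891294800 / 2401) * yu) * A ^ 1 * B ^ 3
      + ((22521499306606 / 7503125) + (22204595200 / 2401) * xl + (20215172400 / 2401) * yu) * A ^ 2 * B ^ 2
      + ((3775394652977733 / 1500625000) + (19549614768 / 2401) * xl + (17865909168 / 2401) * yu) * A ^ 3 * B ^ 1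
      + ((2291972740193291 / 3001250000) + (6297299368 / 2401) * xl + (5774871568 / 2401) * yu) * A ^ 4 * B ^ 0 := by
    simp only [hxl, hxu, hyl, hyu, hA, hB]
    unfold UG3_2_0
    ring
  rw [key]
  positivity

noncomputable def UG3_2_1 (L h J : ℝ) : ℝ :=
  ((2112 / 25) + 512 * L + (-457856 / 625) * h) * J ^ 0
    + (0 + (-9983488 / 625) * L + (9983488 / 625) * h) * J ^ 1
    + ((27454592 / 15625) + (1623808 / 25) * L + (-1504832 / 25) * h) * J ^ 2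
    + ((-8930944 / 625) + (237952 / 25) * L + (-237952 / 25) * h) * J ^ 3
    + ((-654368 / 625) + 0 * L + 0 * h) * J ^ 4

lemma UG3_2_1_nonneg {L h J : ℝ} (hL0 : (6931471 / 10000000) ≤ L) (hL1 : L ≤ (433217 / 625000)) (hh0 : (67 / 400) ≤ h) (hh1 : h ≤ (117 / 500)) (hJ0 : (1 / 2) ≤ J) (hJ1 : J ≤ (39 / 50)) :
    0 ≤ UG3_2_1 L h J := by
  obtain ⟨xl, hxl⟩ : ∃ x : ℝ, x = L - (6931471 / 10000000) := ⟨_, rfl⟩
  obtain ⟨xu, hxu⟩ : ∃ x : ℝ, x = (433217 / 625000) - L := ⟨_, rfl⟩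
  obtain ⟨yl, hyl⟩ : ∃ x : ℝ, x = h - (67 / 400) := ⟨_, rfl⟩
  obtain ⟨yu, hyu⟩ : ∃ x : ℝ, x = (117 / 500) - h := ⟨_, rfl⟩
  obtain ⟨A, hA⟩ : ∃ x : ℝ, x = J - (1 / 2) := ⟨_, rfl⟩
  obtain ⟨B, hB⟩ : ∃ x : ℝ, x = (39 / 50) - J := ⟨_, rfl⟩
  have hxl0 : 0 ≤ xl := by rw [hxl]; linarith
  have hxu0 : 0 ≤ xu := by rw [hxu]; linarith
  have hyl0 : 0 ≤ yl := by rw [hyl]; linarith
  have hyu0 : 0 ≤ yu := by rw [hyu]; linarith
  have hA0 : 0 ≤ A := by rw [hA]; linarith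
  have hB0 : 0 ≤ B := by rw [hB]; linarith
  have key : UG3_2_1 L h J =
      ((193573230223 / 343000) + (3887910000 / 2401) * xl + (3509320000 / 2401) * yu) * A ^ 0 * B ^ 4
      + ((13076352377461 / 4287500) + (21689469600 / 2401) * xl + (19654589600 / 2401) * yu) * A ^ 1 * B ^ 3
      + ((6399851170341 / 1071875) + (44167350400 / 2401) * xl + (40188504800 / 2401) * yu) * A ^ 2 * B ^ 2
      + ((536611506276819 / 107187500) + (38899549536 / 2401) * xl + (35532138336 / 2401) * yu) * A ^ 3 * B ^ 1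
      + ((325862680245113 / 214375000) + (12533758736 / 2401) * xl + (11488903136 / 2401) * yu) * A ^ 4 * B ^ 0 := by
    simp only [hxl, hxu, hyl, hyu, hA, hB]
    unfold UG3_2_1
    ring
  rw [key]
  positivity

noncomputable def UG3_2_2 (L h J : ℝ) : ℝ :=
  ((-528 / 125) + 512 * L + (-240288 / 625) * h) * J ^ 0
    + (0 + (-4831744 / 625) * L + (4831744 / 625) * h) * J ^ 1
    + ((13287296 / 15625) + (808704 / 25) * L + (-749632 / 25) * h) * J ^ 2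
    + ((-4447872 / 625) + (118144 / 25) * L + (-118144 / 25) * h) * J ^ 3
    + ((-324896 / 625) + 0 * L + 0 * h) * J ^ 4

lemma UG3_2_2_nonneg {L h J : ℝ} (hL0 : (6931471 / 10000000) ≤ L) (hL1 : L ≤ (433217 / 625000)) (hh0 : (67 / 400) ≤ h) (hh1 : h ≤ (117 / 500)) (hJ0 : (1 / 2) ≤ J) (hJ1 : J ≤ (39 / 50)) :
    0 ≤ UG3_2_2 L h J := by
  obtain ⟨xl, hxl⟩ : ∃ x : ℝ, x = L - (6931471 / 10000000) := ⟨_, rfl⟩
  obtain ⟨xu, hxu⟩ : ∃ x : ℝ, x = (433217 / 625000) - L := ⟨_, rfl⟩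
  obtain ⟨yl, hyl⟩ : ∃ x : ℝ, x = h - (67 / 400) := ⟨_, rfl⟩
  obtain ⟨yu, hyu⟩ : ∃ x : ℝ, x = (117 / 500) - h := ⟨_, rfl⟩
  obtain ⟨A, hA⟩ : ∃ x : ℝ, x = J - (1 / 2) := ⟨_, rfl⟩
  obtain ⟨B, hB⟩ : ∃ x : ℝ, x = (39 / 50) - J := ⟨_, rfl⟩
  have hxl0 : 0 ≤ xl := by rw [hxl]; linarith
  have hxu0 : 0 ≤ xu := by rw [hxu]; linarith
  have hyl0 : 0 ≤ yl := by rw [hyl]; linarith
  have hyu0 : 0 ≤ yu := by rw [hyu]; linarith
  have hA0 : 0 ≤ A := by rw [hA]; linarith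
  have hB0 : 0 ≤ B := by rw [hB]; linarith
  have key : UG3_2_2 L h J =
      ((741815642993 / 2401000) + (2079830000 / 2401) * xl + (1799260000 / 2401) * yu) * A ^ 0 * B ^ 4
      + ((49034936529451 / 30012500) + (11399504800 / 2401) * xl + (10018784800 / 2401) * yu) * A ^ 1 * B ^ 3
      + ((23638138682467 / 7503125) + (22927286400 / 2401) * xl + (20396183200 / 2401) * yu) * A ^ 2 * B ^ 2
      + ((1961235252975501 / 750312500) + (20015901792 / 2401) * xl + (17973575392 / 2401) * yu) * A ^ 3 * B ^ 1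
      + ((1182174743763527 / 1500625000) + (6408290192 / 2401) * xl + (5796916992 / 2401) * yu) * A ^ 4 * B ^ 0 := by
    simp only [hxl, hxu, hyl, hyu, hA, hB]
    unfold UG3_2_2
    ring
  rw [key]
  positivity

lemma UG3_2_nonneg {L h b J : ℝ} (hL0 : (6931471 / 10000000) ≤ L) (hL1 : L ≤ (433217 / 625000)) (hh0 : (67 / 400) ≤ h) (hh1 : h ≤ (117 / 500)) (hb0 : 0 ≤ b) (hb1 : b ≤ 1) (hJ0 : (1 / 2) ≤ J) (hJ1 : J ≤ (39 / 50)) :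
    0 ≤ UG3_2 L h b J := by
  have c0 := UG3_2_0_nonneg hL0 hL1 hh0 hh1 hJ0 hJ1
  have c1 := UG3_2_1_nonneg hL0 hL1 hh0 hh1 hJ0 hJ1
  have c2 := UG3_2_2_nonneg hL0 hL1 hh0 hh1 hJ0 hJ1
  have key : UG3_2 L h b J =
      (b - 0) ^ 0 * (1 - b) ^ 2 * UG3_2_0 L h J
      + (b - 0) ^ 1 * (1 - b) ^ 1 * UG3_2_1 L h J
      + (b - 0) ^ 2 * (1 - b) ^ 0 * UG3_2_2 L h J := by
    unfold UG3_2 UG3_2_0 UG3_2_1 UG3_2_2
    ring
  have hA : 0 ≤ b - 0 := by linarith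
  have hB : 0 ≤ 1 - b := by linarith
  rw [key]
  positivity

noncomputable def UG3_3 (L h b J : ℝ) : ℝ :=
  ((171072 / 625) + (41472 / 25) * L + (-1486848 / 625) * h) * b ^ 0 * J ^ 0
    + (0 + (-16305408 / 625) * L + (16305408 / 625) * h) * b ^ 0 * J ^ 1
    + ((44839872 / 15625) + (1777664 / 25) * L + (-65632) * h) * b ^ 0 * J ^ 2
    + ((-9777152 / 625) + (273728 / 25) * L + (-273728 / 25) * h) * b ^ 0 * J ^ 3
    + ((-752752 / 625) + 0 * L + 0 * h) * b ^ 0 * J ^ 4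
    + (0 + (-41472 / 25) * L + (41472 / 25) * h) * b ^ 1 * J ^ 2
    + ((228096 / 625) + 0 * L + 0 * h) * b ^ 1 * J ^ 3
    + ((-940896 / 3125) + (41472 / 25) * L + (-160064 / 3125) * h) * b ^ 2 * J ^ 0
    + (0 + 1792 * L + (-1792) * h) * b ^ 2 * J ^ 1
    + ((-4928 / 25) + 0 * L + (-2912 / 25) * h) * b ^ 2 * J ^ 2
    + (0 + (-5824 / 25) * L + (5824 / 25) * h) * b ^ 2 * J ^ 3
    + ((16016 / 625) + 0 * L + 0 * h) * b ^ 2 * J ^ 4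

noncomputable def UG3_3_0 (L h J : ℝ) : ℝ :=
  ((171072 / 625) + (41472 / 25) * L + (-1486848 / 625) * h) * J ^ 0
    + (0 + (-16305408 / 625) * L + (16305408 / 625) * h) * J ^ 1
    + ((44839872 / 15625) + (1777664 / 25) * L + (-65632) * h) * J ^ 2
    + ((-9777152 / 625) + (273728 / 25) * L + (-273728 / 25) * h) * J ^ 3
    + ((-752752 / 625) + 0 * L + 0 * h) * J ^ 4

lemma UG3_3_0_nonneg {L h J : ℝ} (hL0 : (6931471 / 10000000) ≤ L) (hL1 : L ≤ (433217 / 625000)) (hh0 : (67 / 400) ≤ h) (hh1 : h ≤ (117 / 500)) (hJ0 : (1 / 2) ≤ J) (hJ1 : J ≤ (39 / 50)) :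
    0 ≤ UG3_3_0 L h J := by
  obtain ⟨xl, hxl⟩ : ∃ x : ℝ, x = L - (6931471 / 10000000) := ⟨_, rfl⟩
  obtain ⟨xu, hxu⟩ : ∃ x : ℝ, x = (433217 / 625000) - L := ⟨_, rfl⟩
  obtain ⟨yl, hyl⟩ : ∃ x : ℝ, x = h - (67 / 400) := ⟨_, rfl⟩
  obtain ⟨yu, hyu⟩ : ∃ x : ℝ, x = (117 / 500) - h := ⟨_, rfl⟩
  obtain ⟨A, hA⟩ : ∃ x : ℝ, x = J - (1 / 2) := ⟨_, rfl⟩
  obtain ⟨B, hB⟩ : ∃ x : ℝ, x = (39 / 50) - J := ⟨_, rfl⟩
  have hxl0 : 0 ≤ xl := by rw [hxl]; linarith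
  have hxu0 : 0 ≤ xu := by rw [hxu]; linarith
  have hyl0 : 0 ≤ yl := by rw [hyl]; linarith
  have hyu0 : 0 ≤ yu := by rw [hyu]; linarith
  have hA0 : 0 ≤ A := by rw [hA]; linarith
  have hB0 : 0 ≤ B := by rw [hB]; linarith
  have key : UG3_3_0 L h J =
      ((2089934714627 / 4802000) + (3031185000 / 2401) * xl + (2777840000 / 2401) * yu) * A ^ 0 * B ^ 4
      + ((148947553059589 / 60025000) + (17946743600 / 2401) * xl + (16334583600 / 2401) * yu) * A ^ 1 * B ^ 3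
      + ((38087088920782 / 7503125) + (38333734400 / 2401) * xl + (34849666000 / 2401) * yu) * A ^ 2 * B ^ 2
      + ((6606381660780099 / 1500625000) + (35045866704 / 2401) * xl + (31900829904 / 2401) * yu) * A ^ 3 * B ^ 1
      + ((4115481494480973 / 3001250000) + (11627690904 / 2401) * xl + (10607907504 / 2401) * yu) * A ^ 4 * B ^ 0 := by
    simp only [hxl, hxu, hyl, hyu, hA, hB]
    unfold UG3_3_0
    ring
  rw [key]
  positivity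

noncomputable def UG3_3_1 (L h J : ℝ) : ℝ :=
  ((342144 / 625) + (82944 / 25) * L + (-2973696 / 625) * h) * J ^ 0
    + (0 + (-32610816 / 625) * L + (32610816 / 625) * h) * J ^ 1
    + ((89679744 / 15625) + (3513856 / 25) * L + (-3240128 / 25) * h) * J ^ 2
    + ((-19326208 / 625) + (547456 / 25) * L + (-547456 / 25) * h) * J ^ 3
    + ((-1505504 / 625) + 0 * L + 0 * h) * J ^ 4

lemma UG3_3_1_nonneg {L h J : ℝ} (hL0 : (6931471 / 10000000) ≤ L) (hL1 : L ≤ (433217 / 625000)) (hh0 : (67 / 400) ≤ h) (hh1 : h ≤ (117 / 500)) (hJ0 : (1 / 2) ≤ J) (hJ1 : J ≤ (39 / 50)) :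
    0 ≤ UG3_3_1 L h J := by
  obtain ⟨xl, hxl⟩ : ∃ x : ℝ, x = L - (6931471 / 10000000) := ⟨_, rfl⟩
  obtain ⟨xu, hxu⟩ : ∃ x : ℝ, x = (433217 / 625000) - L := ⟨_, rfl⟩
  obtain ⟨yl, hyl⟩ : ∃ x : ℝ, x = h - (67 / 400) := ⟨_, rfl⟩
  obtain ⟨yu, hyu⟩ : ∃ x : ℝ, x = (117 / 500) - h := ⟨_, rfl⟩
  obtain ⟨A, hA⟩ : ∃ x : ℝ, x = J - (1 / 2) := ⟨_, rfl⟩
  obtain ⟨B, hB⟩ : ∃ x : ℝ, x = (39 / 50) - J := ⟨_, rfl⟩
  have hxl0 : 0 ≤ xl := by rw [hxl]; linarith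
  have hxu0 : 0 ≤ xu := by rw [hxu]; linarith
  have hyl0 : 0 ≤ yl := by rw [hyl]; linarith
  have hyu0 : 0 ≤ yu := by rw [hyu]; linarith
  have hA0 : 0 ≤ A := by rw [hA]; linarith
  have hB0 : 0 ≤ B := by rw [hB]; linarith
  have key : UG3_3_1 L h J =
      ((2033372884427 / 2401000) + (842910000 / 343) * xl + (5393680000 / 2401) * yu) * A ^ 0 * B ^ 4
      + ((145452335926789 / 30012500) + (715592800 / 49) * xl + (31839727200 / 2401) * yu) * A ^ 1 * B ^ 3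
      + ((74592795914618 / 7503125) + (10728620800 / 343) * xl + (68132208800 / 2401) * yu) * A ^ 2 * B ^ 2
      + ((6482522234200899 / 750312500) + (9828258144 / 343) * xl + (62507733408 / 2401) * yu) * A ^ 3 * B ^ 1
      + ((4044629313946773 / 1500625000) + (3265876944 / 343) * xl + (20821571808 / 2401) * yu) * A ^ 4 * B ^ 0 := by
    simp only [hxl, hxu, hyl, hyu, hA, hB]
    unfold UG3_3_1
    ring
  rw [key]
  positivity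

noncomputable def UG3_3_2 (L h J : ℝ) : ℝ :=
  ((-85536 / 3125) + (82944 / 25) * L + (-7594304 / 3125) * h) * J ^ 0
    + (0 + (-15185408 / 625) * L + (15185408 / 625) * h) * J ^ 1
    + ((41759872 / 15625) + (1736192 / 25) * L + (-320448 / 5) * h) * J ^ 2
    + ((-9549056 / 625) + (267904 / 25) * L + (-267904 / 25) * h) * J ^ 3
    + ((-736736 / 625) + 0 * L + 0 * h) * J ^ 4

lemma UG3_3_2_nonneg {L h J : ℝ} (hL0 : (6931471 / 10000000) ≤ L) (hL1 : L ≤ (433217 / 625000)) (hh0 : (67 / 400) ≤ h) (hh1 : h ≤ (117 / 500)) (hJ0 : (1 / 2) ≤ J) (hJ1 : J ≤ (39 / 50)) :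
    0 ≤ UG3_3_2 L h J := by
  obtain ⟨xl, hxl⟩ : ∃ x : ℝ, x = L - (6931471 / 10000000) := ⟨_, rfl⟩
  obtain ⟨xu, hxu⟩ : ∃ x : ℝ, x = (433217 / 625000) - L := ⟨_, rfl⟩
  obtain ⟨yl, hyl⟩ : ∃ x : ℝ, x = h - (67 / 400) := ⟨_, rfl⟩
  obtain ⟨yu, hyu⟩ : ∃ x : ℝ, x = (117 / 500) - h := ⟨_, rfl⟩
  obtain ⟨A, hA⟩ : ∃ x : ℝ, x = J - (1 / 2) := ⟨_, rfl⟩
  obtain ⟨B, hB⟩ : ∃ x : ℝ, x = (39 / 50) - J := ⟨_, rfl⟩
  have hxl0 : 0 ≤ xl := by rw [hxl]; linarith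
  have hxu0 : 0 ≤ xu := by rw [hxu]; linarith
  have hyl0 : 0 ≤ yl := by rw [hyl]; linarith
  have hyu0 : 0 ≤ yu := by rw [hyu]; linarith
  have hA0 : 0 ≤ A := by rw [hA]; linarith
  have hB0 : 0 ≤ B := by rw [hB]; linarith
  have key : UG3_3_2 L h J =
      ((1449463537651 / 2401000) + (78690000 / 49) * xl + (2985848000 / 2401) * yu) * A ^ 0 * B ^ 4
      + ((94757444555357 / 30012500) + (3034384800 / 343) * xl + (17174805600 / 2401) * yu) * A ^ 1 * B ^ 3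
      + ((45661883298138 / 7503125) + (6172332800 / 343) * xl + (36064346400 / 2401) * yu) * A ^ 2 * B ^ 2
      + ((3803323500997291 / 750312500) + (5457958496 / 343) * xl + (32639559072 / 2401) * yu) * A ^ 3 * B ^ 1
      + ((2304458955966957 / 1500625000) + (1769180496 / 343) * xl + (10764170272 / 2401) * yu) * A ^ 4 * B ^ 0 := by
    simp only [hxl, hxu, hyl, hyu, hA, hB]
    unfold UG3_3_2
    ring
  rw [key]
  positivity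

lemma UG3_3_nonneg {L h b J : ℝ} (hL0 : (6931471 / 10000000) ≤ L) (hL1 : L ≤ (433217 / 625000)) (hh0 : (67 / 400) ≤ h) (hh1 : h ≤ (117 / 500)) (hb0 : 0 ≤ b) (hb1 : b ≤ 1) (hJ0 : (1 / 2) ≤ J) (hJ1 : J ≤ (39 / 50)) :
    0 ≤ UG3_3 L h b J := by
  have c0 := UG3_3_0_nonneg hL0 hL1 hh0 hh1 hJ0 hJ1
  have c1 := UG3_3_1_nonneg hL0 hL1 hh0 hh1 hJ0 hJ1
  have c2 := UG3_3_2_nonneg hL0 hL1 hh0 hh1 hJ0 hJ1
  have key : UG3_3 L h b J =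
      (b - 0) ^ 0 * (1 - b) ^ 2 * UG3_3_0 L h J
      + (b - 0) ^ 1 * (1 - b) ^ 1 * UG3_3_1 L h J
      + (b - 0) ^ 2 * (1 - b) ^ 0 * UG3_3_2 L h J := by
    unfold UG3_3 UG3_3_0 UG3_3_1 UG3_3_2
    ring
  have hA : 0 ≤ b - 0 := by linarith
  have hB : 0 ≤ 1 - b := by linarith
  rw [key]
  positivity

noncomputable def UG3_4 (L h b J : ℝ) : ℝ :=
  ((465432 / 625) + (114432 / 25) * L + (-32784 / 5) * h) * b ^ 0 * J ^ 0
    + (0 + (-30279424 / 625) * L + (30279424 / 625) * h) * b ^ 0 * J ^ 1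
    + ((83268416 / 15625) + (2480128 / 25) * L + (-91168) * h) * b ^ 0 * J ^ 2
    + ((-13640704 / 625) + (401856 / 25) * L + (-401856 / 25) * h) * b ^ 0 * J ^ 3
    + ((-1105104 / 625) + 0 * L + 0 * h) * b ^ 0 * J ^ 4
    + (0 + (-114432 / 25) * L + (114432 / 25) * h) * b ^ 1 * J ^ 2
    + ((629376 / 625) + 0 * L + 0 * h) * b ^ 1 * J ^ 3
    + ((-2659876 / 3125) + (111232 / 25) * L + (446616 / 3125) * h) * b ^ 2 * J ^ 0
    + (0 + 5312 * L + (-5312) * h) * b ^ 2 * J ^ 1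
    + ((-14608 / 25) + 0 * L + (-8632 / 25) * h) * b ^ 2 * J ^ 2
    + (0 + (-17264 / 25) * L + (17264 / 25) * h) * b ^ 2 * J ^ 3
    + ((47476 / 625) + 0 * L + 0 * h) * b ^ 2 * J ^ 4

noncomputable def UG3_4_0 (L h J : ℝ) : ℝ :=
  ((465432 / 625) + (114432 / 25) * L + (-32784 / 5) * h) * J ^ 0
    + (0 + (-30279424 / 625) * L + (30279424 / 625) * h) * J ^ 1
    + ((83268416 / 15625) + (2480128 / 25) * L + (-91168) * h) * J ^ 2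
    + ((-13640704 / 625) + (401856 / 25) * L + (-401856 / 25) * h) * J ^ 3
    + ((-1105104 / 625) + 0 * L + 0 * h) * J ^ 4

lemma UG3_4_0_nonneg {L h J : ℝ} (hL0 : (6931471 / 10000000) ≤ L) (hL1 : L ≤ (433217 / 625000)) (hh0 : (67 / 400) ≤ h) (hh1 : h ≤ (117 / 500)) (hJ0 : (1 / 2) ≤ J) (hJ1 : J ≤ (39 / 50)) :
    0 ≤ UG3_4_0 L h J := by
  obtain ⟨xl, hxl⟩ : ∃ x : ℝ, x = L - (6931471 / 10000000) := ⟨_, rfl⟩
  obtain ⟨xu, hxu⟩ : ∃ x : ℝ, x = (433217 / 625000) - L := ⟨_, rfl⟩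
  obtain ⟨yl, hyl⟩ : ∃ x : ℝ, x = h - (67 / 400) := ⟨_, rfl⟩
  obtain ⟨yu, hyu⟩ : ∃ x : ℝ, x = (117 / 500) - h := ⟨_, rfl⟩
  obtain ⟨A, hA⟩ : ∃ x : ℝ, x = J - (1 / 2) := ⟨_, rfl⟩
  obtain ⟨B, hB⟩ : ∃ x : ℝ, x = (39 / 50) - J := ⟨_, rfl⟩
  have hxl0 : 0 ≤ xl := by rw [hxl]; linarith
  have hxu0 : 0 ≤ xu := by rw [hxu]; linarith
  have hyl0 : 0 ≤ yl := by rw [hyl]; linarith
  have hyu0 : 0 ≤ yu := by rw [hyu]; linarith
  have hA0 : 0 ≤ A := by rw [hA]; linarith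
  have hB0 : 0 ≤ B := by rw [hB]; linarith
  have key : UG3_4_0 L h J =
      ((1980286274881 / 4802000) + (2798555000 / 2401) * xl + (2786930000 / 2401) * yu) * A ^ 0 * B ^ 4
      + ((150414205821367 / 60025000) + (18064470800 / 2401) * xl + (17138910800 / 2401) * yu) * A ^ 1 * B ^ 3
      + ((40561971782238 / 7503125) + (41178649600 / 2401) * xl + (38225582800 / 2401) * yu) * A ^ 2 * B ^ 2
      + ((7322714098767073 / 1500625000) + (39495943408 / 2401) * xl + (36319989808 / 2401) * yu) * A ^ 3 * B ^ 1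
      + ((4698364144498671 / 3001250000) + (13583209608 / 2401) * xl + (12446387808 / 2401) * yu) * A ^ 4 * B ^ 0 := by
    simp only [hxl, hxu, hyl, hyu, hA, hB]
    unfold UG3_4_0
    ring
  rw [key]
  positivity

noncomputable def UG3_4_1 (L h J : ℝ) : ℝ :=
  ((930864 / 625) + (228864 / 25) * L + (-65568 / 5) * h) * J ^ 0
    + (0 + (-60558848 / 625) * L + (60558848 / 625) * h) * J ^ 1
    + ((166536832 / 15625) + (4845824 / 25) * L + (-4443968 / 25) * h) * J ^ 2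
    + ((-26652032 / 625) + (803712 / 25) * L + (-803712 / 25) * h) * J ^ 3
    + ((-2210208 / 625) + 0 * L + 0 * h) * J ^ 4

lemma UG3_4_1_nonneg {L h J : ℝ} (hL0 : (6931471 / 10000000) ≤ L) (hL1 : L ≤ (433217 / 625000)) (hh0 : (67 / 400) ≤ h) (hh1 : h ≤ (117 / 500)) (hJ0 : (1 / 2) ≤ J) (hJ1 : J ≤ (39 / 50)) :
    0 ≤ UG3_4_1 L h J := by
  obtain ⟨xl, hxl⟩ : ∃ x : ℝ, x = L - (6931471 / 10000000) := ⟨_, rfl⟩
  obtain ⟨xu, hxu⟩ : ∃ x : ℝ, x = (433217 / 625000) - L := ⟨_, rfl⟩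
  obtain ⟨yl, hyl⟩ : ∃ x : ℝ, x = h - (67 / 400) := ⟨_, rfl⟩
  obtain ⟨yu, hyu⟩ : ∃ x : ℝ, x = (117 / 500) - h := ⟨_, rfl⟩
  obtain ⟨A, hA⟩ : ∃ x : ℝ, x = J - (1 / 2) := ⟨_, rfl⟩
  obtain ⟨B, hB⟩ : ∃ x : ℝ, x = (39 / 50) - J := ⟨_, rfl⟩
  have hxl0 : 0 ≤ xl := by rw [hxl]; linarith
  have hxu0 : 0 ≤ xu := by rw [hxu]; linarith
  have hyl0 : 0 ≤ yl := by rw [hyl]; linarith
  have hyu0 : 0 ≤ yu := by rw [hyu]; linarith
  have hA0 : 0 ≤ A := by rw [hA]; linarith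
  have hB0 : 0 ≤ B := by rw [hB]; linarith
  have key : UG3_4_1 L h J =
      ((1824217521181 / 2401000) + (735730000 / 343) * xl + (5126860000 / 2401) * yu) * A ^ 0 * B ^ 4
      + ((140769995584567 / 30012500) + (690618400 / 49) * xl + (31989181600 / 2401) * yu) * A ^ 1 * B ^ 3
      + ((614084006721 / 60025) + (11147600000 / 343) * xl + (72127066400 / 2401) * yu) * A ^ 2 * B ^ 2
      + ((6980953829131873 / 750312500) + (10774515488 / 343) * xl + (69069701216 / 2401) * yu) * A ^ 3 * B ^ 1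
      + ((4502864609320971 / 1500625000) + (3725514288 / 343) * xl + (23804956416 / 2401) * yu) * A ^ 4 * B ^ 0 := by
    simp only [hxl, hxu, hyl, hyu, hA, hB]
    unfold UG3_4_1
    ring
  rw [key]
  positivity

noncomputable def UG3_4_2 (L h J : ℝ) : ℝ :=
  ((-332716 / 3125) + (225664 / 25) * L + (-20043384 / 3125) * h) * J ^ 0
    + (0 + (-26959424 / 625) * L + (26959424 / 625) * h) * J ^ 1
    + ((74138416 / 15625) + (2365696 / 25) * L + (-86936) * h) * J ^ 2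
    + ((-13011328 / 625) + (384592 / 25) * L + (-384592 / 25) * h) * J ^ 3
    + ((-1057628 / 625) + 0 * L + 0 * h) * J ^ 4

lemma UG3_4_2_nonneg {L h J : ℝ} (hL0 : (6931471 / 10000000) ≤ L) (hL1 : L ≤ (433217 / 625000)) (hh0 : (67 / 400) ≤ h) (hh1 : h ≤ (117 / 500)) (hJ0 : (1 / 2) ≤ J) (hJ1 : J ≤ (39 / 50)) :
    0 ≤ UG3_4_2 L h J := by
  obtain ⟨xl, hxl⟩ : ∃ x : ℝ, x = L - (6931471 / 10000000) := ⟨_, rfl⟩
  obtain ⟨xu, hxu⟩ : ∃ x : ℝ, x = (433217 / 625000) - L := ⟨_, rfl⟩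
  obtain ⟨yl, hyl⟩ : ∃ x : ℝ, x = h - (67 / 400) := ⟨_, rfl⟩
  obtain ⟨yu, hyu⟩ : ∃ x : ℝ, x = (117 / 500) - h := ⟨_, rfl⟩
  obtain ⟨A, hA⟩ : ∃ x : ℝ, x = J - (1 / 2) := ⟨_, rfl⟩
  obtain ⟨B, hB⟩ : ∃ x : ℝ, x = (39 / 50) - J := ⟨_, rfl⟩
  have hxl0 : 0 ≤ xl := by rw [hxl]; linarith
  have hxu0 : 0 ≤ xu := by rw [hxu]; linarith
  have hyl0 : 0 ≤ yl := by rw [hyl]; linarith
  have hyu0 : 0 ≤ yu := by rw [hyu]; linarith
  have hA0 : 0 ≤ A := by rw [hA]; linarith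
  have hB0 : 0 ≤ B := by rw [hB]; linarith
  have key : UG3_4_2 L h J =
      ((16937025242099 / 19208000) + (5093336250 / 2401) * xl + (3321603000 / 2401) * yu) * A ^ 0 * B ^ 4
      + ((1054940856975093 / 240100000) + (27267308300 / 2401) * xl + (19339080300 / 2401) * yu) * A ^ 1 * B ^ 3
      + ((123543082001993 / 15006250) + (54846572800 / 2401) * xl + (41456725700 / 2401) * yu) * A ^ 2 * B ^ 2
      + ((40517762088408019 / 6002500000) + (48396480756 / 2401) * xl + (38314537556 / 2401) * yu) * A ^ 3 * B ^ 1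
      + ((24342145729040413 / 12005000000) + (15723880006 / 2401) * xl + (12875289156 / 2401) * yu) * A ^ 4 * B ^ 0 := by
    simp only [hxl, hxu, hyl, hyu, hA, hB]
    unfold UG3_4_2
    ring
  rw [key]
  positivity

lemma UG3_4_nonneg {L h b J : ℝ} (hL0 : (6931471 / 10000000) ≤ L) (hL1 : L ≤ (433217 / 625000)) (hh0 : (67 / 400) ≤ h) (hh1 : h ≤ (117 / 500)) (hb0 : 0 ≤ b) (hb1 : b ≤ 1) (hJ0 : (1 / 2) ≤ J) (hJ1 : J ≤ (39 / 50)) :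
    0 ≤ UG3_4 L h b J := by
  have c0 := UG3_4_0_nonneg hL0 hL1 hh0 hh1 hJ0 hJ1
  have c1 := UG3_4_1_nonneg hL0 hL1 hh0 hh1 hJ0 hJ1
  have c2 := UG3_4_2_nonneg hL0 hL1 hh0 hh1 hJ0 hJ1
  have key : UG3_4 L h b J =
      (b - 0) ^ 0 * (1 - b) ^ 2 * UG3_4_0 L h J
      + (b - 0) ^ 1 * (1 - b) ^ 1 * UG3_4_1 L h J
      + (b - 0) ^ 2 * (1 - b) ^ 0 * UG3_4_2 L h J := by
    unfold UG3_4 UG3_4_0 UG3_4_1 UG3_4_2
    ring
  have hA : 0 ≤ b - 0 := by linarith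
  have hB : 0 ≤ 1 - b := by linarith
  rw [key]
  positivity

noncomputable def UG3_5 (L h b J : ℝ) : ℝ :=
  ((688512 / 625) + (34816 / 5) * L + (-6207872 / 625) * h) * b ^ 0 * J ^ 0
    + (0 + (-6987008 / 125) * L + (6987008 / 125) * h) * b ^ 0 * J ^ 1
    + ((19214272 / 3125) + (458752 / 5) * L + (-2098656 / 25) * h) * b ^ 0 * J ^ 2
    + ((-2523136 / 125) + (390208 / 25) * L + (-390208 / 25) * h) * b ^ 0 * J ^ 3
    + ((-1073072 / 625) + 0 * L + 0 * h) * b ^ 0 * J ^ 4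
    + (0 + (-34816 / 5) * L + (34816 / 5) * h) * b ^ 1 * J ^ 2
    + ((191488 / 125) + 0 * L + 0 * h) * b ^ 1 * J ^ 3
    + ((-4234816 / 3125) + (159744 / 25) * L + (2482656 / 3125) * h) * b ^ 2 * J ^ 0
    + (0 + 8640 * L + (-8640) * h) * b ^ 2 * J ^ 1
    + ((-4752 / 5) + 0 * L + (-2808 / 5) * h) * b ^ 2 * J ^ 2
    + (0 + (-5616 / 5) * L + (5616 / 5) * h) * b ^ 2 * J ^ 3
    + ((15444 / 125) + 0 * L + 0 * h) * b ^ 2 * J ^ 4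

noncomputable def UG3_5_0 (L h J : ℝ) : ℝ :=
  ((688512 / 625) + (34816 / 5) * L + (-6207872 / 625) * h) * J ^ 0
    + (0 + (-6987008 / 125) * L + (6987008 / 125) * h) * J ^ 1
    + ((19214272 / 3125) + (458752 / 5) * L + (-2098656 / 25) * h) * J ^ 2
    + ((-2523136 / 125) + (390208 / 25) * L + (-390208 / 25) * h) * J ^ 3
    + ((-1073072 / 625) + 0 * L + 0 * h) * J ^ 4

lemma UG3_5_0_nonneg {L h J : ℝ} (hL0 : (6931471 / 10000000) ≤ L) (hL1 : L ≤ (433217 / 625000)) (hh0 : (67 / 400) ≤ h) (hh1 : h ≤ (117 / 500)) (hJ0 : (1 / 2) ≤ J) (hJ1 : J ≤ (39 / 50)) :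
    0 ≤ UG3_5_0 L h J := by
  obtain ⟨xl, hxl⟩ : ∃ x : ℝ, x = L - (6931471 / 10000000) := ⟨_, rfl⟩
  obtain ⟨xu, hxu⟩ : ∃ x : ℝ, x = (433217 / 625000) - L := ⟨_, rfl⟩
  obtain ⟨yl, hyl⟩ : ∃ x : ℝ, x = h - (67 / 400) := ⟨_, rfl⟩
  obtain ⟨yu, hyu⟩ : ∃ x : ℝ, x = (117 / 500) - h := ⟨_, rfl⟩
  obtain ⟨A, hA⟩ : ∃ x : ℝ, x = J - (1 / 2) := ⟨_, rfl⟩
  obtain ⟨B, hB⟩ : ∃ x : ℝ, x = (39 / 50) - J := ⟨_, rfl⟩
  have hxl0 : 0 ≤ xl := by rw [hxl]; linarith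
  have hxu0 : 0 ≤ xu := by rw [hxu]; linarith
  have hyl0 : 0 ≤ yl := by rw [hyl]; linarith
  have hyu0 : 0 ≤ yu := by rw [hyu]; linarith
  have hA0 : 0 ≤ A := by rw [hA]; linarith
  have hB0 : 0 ≤ B := by rw [hB]; linarith
  have key : UG3_5_0 L h J =
      ((244131994587 / 960400) + (1524925000 / 2401) * xl + (1922720000 / 2401) * yu) * A ^ 0 * B ^ 4
      + ((19761550664749 / 12005000) + (11301638000 / 2401) * xl + (12039238000 / 2401) * yu) * A ^ 1 * B ^ 3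
      + ((28288758267566 / 7503125) + (28282227200 / 2401) * xl + (27869254800 / 2401) * yu) * A ^ 2 * B ^ 2
      + ((5342572173712839 / 1500625000) + (28893081744 / 2401) * xl + (27445516944 / 2401) * yu) * A ^ 3 * B ^ 1
      + ((3541963331758153 / 3001250000) + (10387567544 / 2401) * xl + (9692780144 / 2401) * yu) * A ^ 4 * B ^ 0 := by
    simp only [hxl, hxu, hyl, hyu, hA, hB]
    unfold UG3_5_0
    ring
  rw [key]
  positivity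

noncomputable def UG3_5_1 (L h J : ℝ) : ℝ :=
  ((1377024 / 625) + (69632 / 5) * L + (-12415744 / 625) * h) * J ^ 0
    + (0 + (-13974016 / 125) * L + (13974016 / 125) * h) * J ^ 1
    + ((38428544 / 3125) + (882688 / 5) * L + (-4023232 / 25) * h) * J ^ 2
    + ((-4854784 / 125) + (780416 / 25) * L + (-780416 / 25) * h) * J ^ 3
    + ((-2146144 / 625) + 0 * L + 0 * h) * J ^ 4

lemma UG3_5_1_nonneg {L h J : ℝ} (hL0 : (6931471 / 10000000) ≤ L) (hL1 : L ≤ (433217 / 625000)) (hh0 : (67 / 400) ≤ h) (hh1 : h ≤ (117 / 500)) (hJ0 : (1 / 2) ≤ J) (hJ1 : J ≤ (39 / 50)) :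
    0 ≤ UG3_5_1 L h J := by
  obtain ⟨xl, hxl⟩ : ∃ x : ℝ, x = L - (6931471 / 10000000) := ⟨_, rfl⟩
  obtain ⟨xu, hxu⟩ : ∃ x : ℝ, x = (433217 / 625000) - L := ⟨_, rfl⟩
  obtain ⟨yl, hyl⟩ : ∃ x : ℝ, x = h - (67 / 400) := ⟨_, rfl⟩
  obtain ⟨yu, hyu⟩ : ∃ x : ℝ, x = (117 / 500) - h := ⟨_, rfl⟩
  obtain ⟨A, hA⟩ : ∃ x : ℝ, x = J - (1 / 2) := ⟨_, rfl⟩
  obtain ⟨B, hB⟩ : ∃ x : ℝ, x = (39 / 50) - J := ⟨_, rfl⟩
  have hxl0 : 0 ≤ xl := by rw [hxl]; linarith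
  have hxu0 : 0 ≤ xu := by rw [hxu]; linarith
  have hyl0 : 0 ≤ yl := by rw [hyl]; linarith
  have hyu0 : 0 ≤ yu := by rw [hyu]; linarith
  have hA0 : 0 ≤ A := by rw [hA]; linarith
  have hB0 : 0 ≤ B := by rw [hB]; linarith
  have key : UG3_5_1 L h J =
      ((196647988987 / 480200) + (338550000 / 343) * xl + (3165440000 / 2401) * yu) * A ^ 0 * B ^ 4
      + ((16827294306349 / 6002500) + (2731668000 / 343) * xl + (20596876000 / 2401) * yu) * A ^ 1 * B ^ 3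
      + ((49939617088692 / 7503125) + (7140915200 / 343) * xl + (49160461600 / 2401) * yu) * A ^ 2 * B ^ 2
      + ((4822668407824839 / 750312500) + (7479266784 / 343) * xl + (49459737888 / 2401) * yu) * A ^ 3 * B ^ 1
      + ((3244559117170153 / 1500625000) + (2731469584 / 343) * xl + (17730712288 / 2401) * yu) * A ^ 4 * B ^ 0 := by
    simp only [hxl, hxu, hyl, hyu, hA, hB]
    unfold UG3_5_1
    ring
  rw [key]
  positivity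

noncomputable def UG3_5_2 (L h J : ℝ) : ℝ :=
  ((-792256 / 3125) + (333824 / 25) * L + (-28556704 / 3125) * h) * J ^ 0
    + (0 + (-5907008 / 125) * L + (5907008 / 125) * h) * J ^ 1
    + ((16244272 / 3125) + (423936 / 5) * L + (-1938616 / 25) * h) * J ^ 2
    + ((-2331648 / 125) + (362128 / 25) * L + (-362128 / 25) * h) * J ^ 3
    + ((-995852 / 625) + 0 * L + 0 * h) * J ^ 4

lemma UG3_5_2_nonneg {L h J : ℝ} (hL0 : (6931471 / 10000000) ≤ L) (hL1 : L ≤ (433217 / 625000)) (hh0 : (67 / 400) ≤ h) (hh1 : h ≤ (117 / 500)) (hJ0 : (1 / 2) ≤ J) (hJ1 : J ≤ (39 / 50)) :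
    0 ≤ UG3_5_2 L h J := by
  obtain ⟨xl, hxl⟩ : ∃ x : ℝ, x = L - (6931471 / 10000000) := ⟨_, rfl⟩
  obtain ⟨xu, hxu⟩ : ∃ x : ℝ, x = (433217 / 625000) - L := ⟨_, rfl⟩
  obtain ⟨yl, hyl⟩ : ∃ x : ℝ, x = h - (67 / 400) := ⟨_, rfl⟩
  obtain ⟨yu, hyu⟩ : ∃ x : ℝ, x = (117 / 500) - h := ⟨_, rfl⟩
  obtain ⟨A, hA⟩ : ∃ x : ℝ, x = J - (1 / 2) := ⟨_, rfl⟩
  obtain ⟨B, hB⟩ : ∃ x : ℝ, x = (39 / 50) - J := ⟨_, rfl⟩
  have hxl0 : 0 ≤ xl := by rw [hxl]; linarith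
  have hxu0 : 0 ≤ xu := by rw [hxu]; linarith
  have hyl0 : 0 ≤ yl := by rw [hyl]; linarith
  have hyu0 : 0 ≤ yu := by rw [hyu]; linarith
  have hA0 : 0 ≤ A := by rw [hA]; linarith
  have hB0 : 0 ≤ B := by rw [hB]; linarith
  have key : UG3_5_2 L h J =
      ((3669233054883 / 3841600) + (4973581250 / 2401) * xl + (2619888000 / 2401) * yu) * A ^ 0 * B ^ 4
      + ((214801460730021 / 48020000) + (25187525500 / 2401) * xl + (14980597500 / 2401) * yu) * A ^ 1 * B ^ 3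
      + ((120246009059807 / 15006250) + (48983107200 / 2401) * xl + (32262679300 / 2401) * yu) * A ^ 2 * B ^ 2
      + ((38253349530938671 / 6002500000) + (42422172804 / 2401) * xl + (30187328004 / 2401) * yu) * A ^ 3 * B ^ 1
      + ((22524775374811617 / 12005000000) + (13653009854 / 2401) * xl + (10285358204 / 2401) * yu) * A ^ 4 * B ^ 0 := by
    simp only [hxl, hxu, hyl, hyu, hA, hB]
    unfold UG3_5_2
    ring
  rw [key]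
  positivity

lemma UG3_5_nonneg {L h b J : ℝ} (hL0 : (6931471 / 10000000) ≤ L) (hL1 : L ≤ (433217 / 625000)) (hh0 : (67 / 400) ≤ h) (hh1 : h ≤ (117 / 500)) (hb0 : 0 ≤ b) (hb1 : b ≤ 1) (hJ0 : (1 / 2) ≤ J) (hJ1 : J ≤ (39 / 50)) :
    0 ≤ UG3_5 L h b J := by
  have c0 := UG3_5_0_nonneg hL0 hL1 hh0 hh1 hJ0 hJ1
  have c1 := UG3_5_1_nonneg hL0 hL1 hh0 hh1 hJ0 hJ1
  have c2 := UG3_5_2_nonneg hL0 hL1 hh0 hh1 hJ0 hJ1
  have key : UG3_5 L h b J =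
      (b - 0) ^ 0 * (1 - b) ^ 2 * UG3_5_0 L h J
      + (b - 0) ^ 1 * (1 - b) ^ 1 * UG3_5_1 L h J
      + (b - 0) ^ 2 * (1 - b) ^ 0 * UG3_5_2 L h J := by
    unfold UG3_5 UG3_5_0 UG3_5_1 UG3_5_2
    ring
  have hA : 0 ≤ b - 0 := by linarith
  have hB : 0 ≤ 1 - b := by linarith
  rw [key]
  positivity

noncomputable def UG3_6 (L h b J : ℝ) : ℝ :=
  ((597168 / 625) + (31488 / 5) * L + (-5575968 / 625) * h) * b ^ 0 * J ^ 0
    + (0 + (-5123328 / 125) * L + (5123328 / 125) * h) * b ^ 0 * J ^ 1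
    + ((14089152 / 3125) + (1404928 / 25) * L + (-1279712 / 25) * h) * b ^ 0 * J ^ 2
    + ((-7727104 / 625) + (250432 / 25) * L + (-250432 / 25) * h) * b ^ 0 * J ^ 3
    + ((-688688 / 625) + 0 * L + 0 * h) * b ^ 0 * J ^ 4
    + (0 + (-31488 / 5) * L + (31488 / 5) * h) * b ^ 1 * J ^ 2
    + ((173184 / 125) + 0 * L + 0 * h) * b ^ 1 * J ^ 3
    + ((-4076424 / 3125) + (132496 / 25) * L + (4201184 / 3125) * h) * b ^ 2 * J ^ 0
    + (0 + 8320 * L + (-8320) * h) * b ^ 2 * J ^ 1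
    + ((-4576 / 5) + 0 * L + (-2704 / 5) * h) * b ^ 2 * J ^ 2
    + (0 + (-5408 / 5) * L + (5408 / 5) * h) * b ^ 2 * J ^ 3
    + ((14872 / 125) + 0 * L + 0 * h) * b ^ 2 * J ^ 4

noncomputable def UG3_6_0 (L h J : ℝ) : ℝ :=
  ((597168 / 625) + (31488 / 5) * L + (-5575968 / 625) * h) * J ^ 0
    + (0 + (-5123328 / 125) * L + (5123328 / 125) * h) * J ^ 1
    + ((14089152 / 3125) + (1404928 / 25) * L + (-1279712 / 25) * h) * J ^ 2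
    + ((-7727104 / 625) + (250432 / 25) * L + (-250432 / 25) * h) * J ^ 3
    + ((-688688 / 625) + 0 * L + 0 * h) * J ^ 4

lemma UG3_6_0_nonneg {L h J : ℝ} (hL0 : (6931471 / 10000000) ≤ L) (hL1 : L ≤ (433217 / 625000)) (hh0 : (67 / 400) ≤ h) (hh1 : h ≤ (117 / 500)) (hJ0 : (1 / 2) ≤ J) (hJ1 : J ≤ (39 / 50)) :
    0 ≤ UG3_6_0 L h J := by
  obtain ⟨xl, hxl⟩ : ∃ x : ℝ, x = L - (6931471 / 10000000) := ⟨_, rfl⟩
  obtain ⟨xu, hxu⟩ : ∃ x : ℝ, x = (433217 / 625000) - L := ⟨_, rfl⟩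
  obtain ⟨yl, hyl⟩ : ∃ x : ℝ, x = h - (67 / 400) := ⟨_, rfl⟩
  obtain ⟨yu, hyu⟩ : ∃ x : ℝ, x = (117 / 500) - h := ⟨_, rfl⟩
  obtain ⟨A, hA⟩ : ∃ x : ℝ, x = J - (1 / 2) := ⟨_, rfl⟩
  obtain ⟨B, hB⟩ : ∃ x : ℝ, x = (39 / 50) - J := ⟨_, rfl⟩
  have hxl0 : 0 ≤ xl := by rw [hxl]; linarith
  have hxu0 : 0 ≤ xu := by rw [hxu]; linarith
  have hyl0 : 0 ≤ yl := by rw [hyl]; linarith
  have hyu0 : 0 ≤ yu := by rw [hyu]; linarith
  have hA0 : 0 ≤ A := by rw [hA]; linarith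
  have hB0 : 0 ≤ B := by rw [hB]; linarith
  have key : UG3_6_0 L h J =
      ((102344466467 / 960400) + (431925000 / 2401) * xl + (967780000 / 2401) * yu) * A ^ 0 * B ^ 4
      + ((8557331828869 / 12005000) + (4213078000 / 2401) * xl + (5808678000 / 2401) * yu) * A ^ 1 * B ^ 3
      + ((12987913968938 / 7503125) + (12228889600 / 2401) * xl + (13647170000 / 2401) * yu) * A ^ 2 * B ^ 2
      + ((2572398087671631 / 1500625000) + (13632143376 / 2401) * xl + (13825324176 / 2401) * yu) * A ^ 3 * B ^ 1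
      + ((1765830007499937 / 3001250000) + (5184406776 / 2401) * xl + (5019052176 / 2401) * yu) * A ^ 4 * B ^ 0 := by
    simp only [hxl, hxu, hyl, hyu, hA, hB]
    unfold UG3_6_0
    ring
  rw [key]
  positivity

noncomputable def UG3_6_1 (L h J : ℝ) : ℝ :=
  ((1194336 / 625) + (62976 / 5) * L + (-11151936 / 625) * h) * J ^ 0
    + (0 + (-10246656 / 125) * L + (10246656 / 125) * h) * J ^ 1
    + ((28178304 / 3125) + (2652416 / 25) * L + (-2401984 / 25) * h) * J ^ 2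
    + ((-14588288 / 625) + (500864 / 25) * L + (-500864 / 25) * h) * J ^ 3
    + ((-1377376 / 625) + 0 * L + 0 * h) * J ^ 4

lemma UG3_6_1_nonneg {L h J : ℝ} (hL0 : (6931471 / 10000000) ≤ L) (hL1 : L ≤ (433217 / 625000)) (hh0 : (67 / 400) ≤ h) (hh1 : h ≤ (117 / 500)) (hJ0 : (1 / 2) ≤ J) (hJ1 : J ≤ (39 / 50)) :
    0 ≤ UG3_6_1 L h J := by
  obtain ⟨xl, hxl⟩ : ∃ x : ℝ, x = L - (6931471 / 10000000) := ⟨_, rfl⟩
  obtain ⟨xu, hxu⟩ : ∃ x : ℝ, x = (433217 / 625000) - L := ⟨_, rfl⟩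
  obtain ⟨yl, hyl⟩ : ∃ x : ℝ, x = h - (67 / 400) := ⟨_, rfl⟩
  obtain ⟨yu, hyu⟩ : ∃ x : ℝ, x = (117 / 500) - h := ⟨_, rfl⟩
  obtain ⟨A, hA⟩ : ∃ x : ℝ, x = J - (1 / 2) := ⟨_, rfl⟩
  obtain ⟨B, hB⟩ : ∃ x : ℝ, x = (39 / 50) - J := ⟨_, rfl⟩
  have hxl0 : 0 ≤ xl := by rw [hxl]; linarith
  have hxu0 : 0 ≤ xu := by rw [hxu]; linarith
  have hyl0 : 0 ≤ yl := by rw [hyl]; linarith
  have hyu0 : 0 ≤ yu := by rw [hyu]; linarith
  have hA0 : 0 ≤ A := by rw [hA]; linarith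
  have hB0 : 0 ≤ B := by rw [hB]; linarith
  have key : UG3_6_1 L h J =
      ((59399373167 / 480200) + (35550000 / 343) * xl + (1320560000 / 2401) * yu) * A ^ 0 * B ^ 4
      + ((5903555857669 / 6002500) + (753908000 / 343) * xl + (8468556000 / 2401) * yu) * A ^ 1 * B ^ 3
      + ((19972433585581 / 7503125) + (377724800 / 49) * xl + (21345076000 / 2401) * yu) * A ^ 2 * B ^ 2
      + ((2102191005287631 / 750312500) + (3193165536 / 343) * xl + (22738520352 / 2401) * yu) * A ^ 3 * B ^ 1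
      + ((1496854136953437 / 1500625000) + (1267449936 / 343) * xl + (8541440352 / 2401) * yu) * A ^ 4 * B ^ 0 := by
    simp only [hxl, hxu, hyl, hyu, hA, hB]
    unfold UG3_6_1
    ring
  rw [key]
  positivity

noncomputable def UG3_6_2 (L h J : ℝ) : ℝ :=
  ((-1090584 / 3125) + (289936 / 25) * L + (-23678656 / 3125) * h) * J ^ 0
    + (0 + (-4083328 / 125) * L + (4083328 / 125) * h) * J ^ 1
    + ((11229152 / 3125) + (1247488 / 25) * L + (-1135792 / 25) * h) * J ^ 2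
    + ((-6861184 / 625) + (223392 / 25) * L + (-223392 / 25) * h) * J ^ 3
    + ((-614328 / 625) + 0 * L + 0 * h) * J ^ 4

lemma UG3_6_2_nonneg {L h J : ℝ} (hL0 : (6931471 / 10000000) ≤ L) (hL1 : L ≤ (433217 / 625000)) (hh0 : (67 / 400) ≤ h) (hh1 : h ≤ (117 / 500)) (hJ0 : (1 / 2) ≤ J) (hJ1 : J ≤ (39 / 50)) :
    0 ≤ UG3_6_2 L h J := by
  obtain ⟨xl, hxl⟩ : ∃ x : ℝ, x = L - (6931471 / 10000000) := ⟨_, rfl⟩
  obtain ⟨xu, hxu⟩ : ∃ x : ℝ, x = (433217 / 625000) - L := ⟨_, rfl⟩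
  obtain ⟨yl, hyl⟩ : ∃ x : ℝ, x = h - (67 / 400) := ⟨_, rfl⟩
  obtain ⟨yu, hyu⟩ : ∃ x : ℝ, x = (117 / 500) - h := ⟨_, rfl⟩
  obtain ⟨A, hA⟩ : ∃ x : ℝ, x = J - (1 / 2) := ⟨_, rfl⟩
  obtain ⟨B, hB⟩ : ∃ x : ℝ, x = (39 / 50) - J := ⟨_, rfl⟩
  have hxl0 : 0 ≤ xl := by rw [hxl]; linarith
  have hxu0 : 0 ≤ xu := by rw [hxu]; linarith
  have hyl0 : 0 ≤ yl := by rw [hyl]; linarith
  have hyu0 : 0 ≤ yu := by rw [hyu]; linarith
  have hA0 : 0 ≤ A := by rw [hA]; linarith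
  have hB0 : 0 ≤ B := by rw [hB]; linarith
  have key : UG3_6_2 L h J =
      ((1369993607379 / 1920800) + (3459362500 / 2401) * xl + (1452632000 / 2401) * yu) * A ^ 0 * B ^ 4
      + ((76050326500713 / 24010000) + (16455303000 / 2401) * xl + (7939711000 / 2401) * yu) * A ^ 1 * B ^ 3
      + ((162786090093877 / 30012500) + (30548389600 / 2401) * xl + (16905169000 / 2401) * yu) * A ^ 2 * B ^ 2
      + ((12506041668144747 / 3001250000) + (25644943656 / 2401) * xl + (15878356456 / 2401) * yu) * A ^ 3 * B ^ 1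
      + ((7180316913520969 / 6002500000) + (8092494556 / 2401) * xl + (5460266456 / 2401) * yu) * A ^ 4 * B ^ 0 := by
    simp only [hxl, hxu, hyl, hyu, hA, hB]
    unfold UG3_6_2
    ring
  rw [key]
  positivity

lemma UG3_6_nonneg {L h b J : ℝ} (hL0 : (6931471 / 10000000) ≤ L) (hL1 : L ≤ (433217 / 625000)) (hh0 : (67 / 400) ≤ h) (hh1 : h ≤ (117 / 500)) (hb0 : 0 ≤ b) (hb1 : b ≤ 1) (hJ0 : (1 / 2) ≤ J) (hJ1 : J ≤ (39 / 50)) :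
    0 ≤ UG3_6 L h b J := by
  have c0 := UG3_6_0_nonneg hL0 hL1 hh0 hh1 hJ0 hJ1
  have c1 := UG3_6_1_nonneg hL0 hL1 hh0 hh1 hJ0 hJ1
  have c2 := UG3_6_2_nonneg hL0 hL1 hh0 hh1 hJ0 hJ1
  have key : UG3_6 L h b J =
      (b - 0) ^ 0 * (1 - b) ^ 2 * UG3_6_0 L h J
      + (b - 0) ^ 1 * (1 - b) ^ 1 * UG3_6_1 L h J
      + (b - 0) ^ 2 * (1 - b) ^ 0 * UG3_6_2 L h J := by
    unfold UG3_6 UG3_6_0 UG3_6_1 UG3_6_2
    ring
  have hA : 0 ≤ b - 0 := by linarith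
  have hB : 0 ≤ 1 - b := by linarith
  rw [key]
  positivity

noncomputable def UG3_7 (L h b J : ℝ) : ℝ :=
  ((303072 / 625) + (16896 / 5) * L + (-593088 / 125) * h) * b ^ 0 * J ^ 0
    + (0 + (-11642624 / 625) * L + (11642624 / 625) * h) * b ^ 0 * J ^ 1
    + ((32017216 / 15625) + (548864 / 25) * L + (-497696 / 25) * h) * b ^ 0 * J ^ 2
    + ((-3018752 / 625) + (102336 / 25) * L + (-102336 / 25) * h) * b ^ 0 * J ^ 3
    + ((-281424 / 625) + 0 * L + 0 * h) * b ^ 0 * J ^ 4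
    + (0 + (-16896 / 5) * L + (16896 / 5) * h) * b ^ 1 * J ^ 2
    + ((92928 / 125) + 0 * L + 0 * h) * b ^ 1 * J ^ 3
    + ((-2354896 / 3125) + (63456 / 25) * L + (3407936 / 3125) * h) * b ^ 2 * J ^ 0
    + (0 + 4736 * L + (-4736) * h) * b ^ 2 * J ^ 1
    + ((-13024 / 25) + 0 * L + (-7696 / 25) * h) * b ^ 2 * J ^ 2
    + (0 + (-15392 / 25) * L + (15392 / 25) * h) * b ^ 2 * J ^ 3
    + ((42328 / 625) + 0 * L + 0 * h) * b ^ 2 * J ^ 4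

noncomputable def UG3_7_0 (L h J : ℝ) : ℝ :=
  ((303072 / 625) + (16896 / 5) * L + (-593088 / 125) * h) * J ^ 0
    + (0 + (-11642624 / 625) * L + (11642624 / 625) * h) * J ^ 1
    + ((32017216 / 15625) + (548864 / 25) * L + (-497696 / 25) * h) * J ^ 2
    + ((-3018752 / 625) + (102336 / 25) * L + (-102336 / 25) * h) * J ^ 3
    + ((-281424 / 625) + 0 * L + 0 * h) * J ^ 4

lemma UG3_7_0_nonneg {L h J : ℝ} (hL0 : (6931471 / 10000000) ≤ L) (hL1 : L ≤ (433217 / 625000)) (hh0 : (67 / 400) ≤ h) (hh1 : h ≤ (117 / 500)) (hJ0 : (1 / 2) ≤ J) (hJ1 : J ≤ (39 / 50)) :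
    0 ≤ UG3_7_0 L h J := by
  obtain ⟨xl, hxl⟩ : ∃ x : ℝ, x = L - (6931471 / 10000000) := ⟨_, rfl⟩
  obtain ⟨xu, hxu⟩ : ∃ x : ℝ, x = (433217 / 625000) - L := ⟨_, rfl⟩
  obtain ⟨yl, hyl⟩ : ∃ x : ℝ, x = h - (67 / 400) := ⟨_, rfl⟩
  obtain ⟨yu, hyu⟩ : ∃ x : ℝ, x = (117 / 500) - h := ⟨_, rfl⟩
  obtain ⟨A, hA⟩ : ∃ x : ℝ, x = J - (1 / 2) := ⟨_, rfl⟩
  obtain ⟨B, hB⟩ : ∃ x : ℝ, x = (39 / 50) - J := ⟨_, rfl⟩
  have hxl0 : 0 ≤ xl := by rw [hxl]; linarith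
  have hxu0 : 0 ≤ xu := by rw [hxu]; linarith
  have hyl0 : 0 ≤ yl := by rw [hyl]; linarith
  have hyu0 : 0 ≤ yu := by rw [hyu]; linarith
  have hA0 : 0 ≤ A := by rw [hA]; linarith
  have hB0 : 0 ≤ B := by rw [hB]; linarith
  have key : UG3_7_0 L h J =
      ((21823751183 / 686000) + (25555000 / 2401) * xl + (359080000 / 2401) * yu) * A ^ 0 * B ^ 4
      + ((1722945494681 / 8575000) + (801830800 / 2401) * xl + (1912070800 / 2401) * yu) * A ^ 1 * B ^ 3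
      + ((77734954554 / 153125) + (3112563200 / 2401) * xl + (4379452400 / 2401) * yu) * A ^ 2 * B ^ 2
      + ((112768175006159 / 214375000) + (3956955248 / 2401) * xl + (4494113648 / 2401) * yu) * A ^ 3 * B ^ 1
      + ((80192850641793 / 428750000) + (1620667848 / 2401) * xl + (1667652048 / 2401) * yu) * A ^ 4 * B ^ 0 := by
    simp only [hxl, hxu, hyl, hyu, hA, hB]
    unfold UG3_7_0
    ring
  rw [key]
  positivity

noncomputable def UG3_7_1 (L h J : ℝ) : ℝ :=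
  ((606144 / 625) + (33792 / 5) * L + (-1186176 / 125) * h) * J ^ 0
    + (0 + (-23285248 / 625) * L + (23285248 / 625) * h) * J ^ 1
    + ((64034432 / 15625) + (1013248 / 25) * L + (-910912 / 25) * h) * J ^ 2
    + ((-5572864 / 625) + (204672 / 25) * L + (-204672 / 25) * h) * J ^ 3
    + ((-562848 / 625) + 0 * L + 0 * h) * J ^ 4

lemma UG3_7_1_nonneg {L h J : ℝ} (hL0 : (6931471 / 10000000) ≤ L) (hL1 : L ≤ (433217 / 625000)) (hh0 : (67 / 400) ≤ h) (hh1 : h ≤ (117 / 500)) (hJ0 : (1 / 2) ≤ J) (hJ1 : J ≤ (39 / 50)) :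
    0 ≤ UG3_7_1 L h J := by
  obtain ⟨xl, hxl⟩ : ∃ x : ℝ, x = L - (6931471 / 10000000) := ⟨_, rfl⟩
  obtain ⟨xu, hxu⟩ : ∃ x : ℝ, x = (433217 / 625000) - L := ⟨_, rfl⟩
  obtain ⟨yl, hyl⟩ : ∃ x : ℝ, x = h - (67 / 400) := ⟨_, rfl⟩
  obtain ⟨yu, hyu⟩ : ∃ x : ℝ, x = (117 / 500) - h := ⟨_, rfl⟩
  obtain ⟨A, hA⟩ : ∃ x : ℝ, x = J - (1 / 2) := ⟨_, rfl⟩
  obtain ⟨B, hB⟩ : ∃ x : ℝ, x = (39 / 50) - J := ⟨_, rfl⟩
  have hxl0 : 0 ≤ xl := by rw [hxl]; linarith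
  have hxu0 : 0 ≤ xu := by rw [hxu]; linarith
  have hyl0 : 0 ≤ yl := by rw [hyl]; linarith
  have hyu0 : 0 ≤ yu := by rw [hyu]; linarith
  have hA0 : 0 ≤ A := by rw [hA]; linarith
  have hB0 : 0 ≤ B := by rw [hB]; linarith
  have key : UG3_7_1 L h J =
      ((4693460924 / 300125) + (278890000 / 2401) * xu + (388160000 / 2401) * yu) * A ^ 0 * B ^ 4
      + ((1235182900836 / 7503125) + (85938400 / 2401) * xu + (2134541600 / 2401) * yu) * A ^ 1 * B ^ 3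
      + ((4396691991402 / 7503125) + (3032838400 / 2401) * xl + (5566616800 / 2401) * yu) * A ^ 2 * B ^ 2
      + ((537070985715113 / 750312500) + (5278134496 / 2401) * xl + (6352451296 / 2401) * yu) * A ^ 3 * B ^ 1
      + ((417021438589551 / 1500625000) + (2438247696 / 2401) * xl + (2532216096 / 2401) * yu) * A ^ 4 * B ^ 0 := by
    simp only [hxl, hxu, hyl, hyu, hA, hB]
    unfold UG3_7_1
    ring
  rw [key]
  positivity

noncomputable def UG3_7_2 (L h J : ℝ) : ℝ :=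
  ((-839536 / 3125) + (147936 / 25) * L + (-11419264 / 3125) * h) * J ^ 0
    + (0 + (-8682624 / 625) * L + (8682624 / 625) * h) * J ^ 1
    + ((23877216 / 15625) + (464384 / 25) * L + (-420912 / 25) * h) * J ^ 2
    + ((-2554112 / 625) + (86944 / 25) * L + (-86944 / 25) * h) * J ^ 3
    + ((-239096 / 625) + 0 * L + 0 * h) * J ^ 4

lemma UG3_7_2_nonneg {L h J : ℝ} (hL0 : (6931471 / 10000000) ≤ L) (hL1 : L ≤ (433217 / 625000)) (hh0 : (67 / 400) ≤ h) (hh1 : h ≤ (117 / 500)) (hJ0 : (1 / 2) ≤ J) (hJ1 : J ≤ (39 / 50)) :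
    0 ≤ UG3_7_2 L h J := by
  obtain ⟨xl, hxl⟩ : ∃ x : ℝ, x = L - (6931471 / 10000000) := ⟨_, rfl⟩
  obtain ⟨xu, hxu⟩ : ∃ x : ℝ, x = (433217 / 625000) - L := ⟨_, rfl⟩
  obtain ⟨yl, hyl⟩ : ∃ x : ℝ, x = h - (67 / 400) := ⟨_, rfl⟩
  obtain ⟨yu, hyu⟩ : ∃ x : ℝ, x = (117 / 500) - h := ⟨_, rfl⟩
  obtain ⟨A, hA⟩ : ∃ x : ℝ, x = J - (1 / 2) := ⟨_, rfl⟩
  obtain ⟨B, hB⟩ : ∃ x : ℝ, x = (39 / 50) - J := ⟨_, rfl⟩
  have hxl0 : 0 ≤ xl := by rw [hxl]; linarith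
  have hxu0 : 0 ≤ xu := by rw [hxu]; linarith
  have hyl0 : 0 ≤ yl := by rw [hyl]; linarith
  have hyu0 : 0 ≤ yu := by rw [hyu]; linarith
  have hA0 : 0 ≤ A := by rw [hA]; linarith
  have hB0 : 0 ≤ B := by rw [hB]; linarith
  have key : UG3_7_2 L h J =
      ((3233567336387 / 9604000) + (1581992500 / 2401) * xl + (528088000 / 2401) * yu) * A ^ 0 * B ^ 4
      + ((172761834184509 / 120050000) + (7125475800 / 2401) * xl + (2719667800 / 2401) * yu) * A ^ 1 * B ^ 3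
      + ((35649170013269 / 15006250) + (12613102400 / 2401) * xl + (5665852200 / 2401) * yu) * A ^ 2 * B ^ 2
      + ((5309601334995179 / 3001250000) + (10207569192 / 2401) * xl + (5314874792 / 2401) * yu) * A ^ 3 * B ^ 1
      + ((2974350510682333 / 6002500000) + (3137950092 / 2401) * xl + (1840602392 / 2401) * yu) * A ^ 4 * B ^ 0 := by
    simp only [hxl, hxu, hyl, hyu, hA, hB]
    unfold UG3_7_2
    ring
  rw [key]
  positivity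

lemma UG3_7_nonneg {L h b J : ℝ} (hL0 : (6931471 / 10000000) ≤ L) (hL1 : L ≤ (433217 / 625000)) (hh0 : (67 / 400) ≤ h) (hh1 : h ≤ (117 / 500)) (hb0 : 0 ≤ b) (hb1 : b ≤ 1) (hJ0 : (1 / 2) ≤ J) (hJ1 : J ≤ (39 / 50)) :
    0 ≤ UG3_7 L h b J := by
  have c0 := UG3_7_0_nonneg hL0 hL1 hh0 hh1 hJ0 hJ1
  have c1 := UG3_7_1_nonneg hL0 hL1 hh0 hh1 hJ0 hJ1
  have c2 := UG3_7_2_nonneg hL0 hL1 hh0 hh1 hJ0 hJ1
  have key : UG3_7 L h b J =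
      (b - 0) ^ 0 * (1 - b) ^ 2 * UG3_7_0 L h J
      + (b - 0) ^ 1 * (1 - b) ^ 1 * UG3_7_1 L h J
      + (b - 0) ^ 2 * (1 - b) ^ 0 * UG3_7_2 L h J := by
    unfold UG3_7 UG3_7_0 UG3_7_1 UG3_7_2
    ring
  have hA : 0 ≤ b - 0 := by linarith
  have hB : 0 ≤ 1 - b := by linarith
  rw [key]
  positivity

noncomputable def UG3_8 (L h b J : ℝ) : ℝ :=
  ((16632 / 125) + (24832 / 25) * L + (-863056 / 625) * h) * b ^ 0 * J ^ 0
    + (0 + (-2993408 / 625) * L + (2993408 / 625) * h) * b ^ 0 * J ^ 1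
    + ((8231872 / 15625) + (123904 / 25) * L + (-22368 / 5) * h) * b ^ 0 * J ^ 2
    + ((-681472 / 625) + (24128 / 25) * L + (-24128 / 25) * h) * b ^ 0 * J ^ 3
    + ((-66352 / 625) + 0 * L + 0 * h) * b ^ 0 * J ^ 4
    + (0 + (-24832 / 25) * L + (24832 / 25) * h) * b ^ 1 * J ^ 2
    + ((136576 / 625) + 0 * L + 0 * h) * b ^ 1 * J ^ 3
    + ((-149876 / 625) + (16272 / 25) * L + (269416 / 625) * h) * b ^ 2 * J ^ 0
    + (0 + 1472 * L + (-1472) * h) * b ^ 2 * J ^ 1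
    + ((-4048 / 25) + 0 * L + (-2392 / 25) * h) * b ^ 2 * J ^ 2
    + (0 + (-4784 / 25) * L + (4784 / 25) * h) * b ^ 2 * J ^ 3
    + ((13156 / 625) + 0 * L + 0 * h) * b ^ 2 * J ^ 4
    + (2 + (-4) * L + 0 * h) * b ^ 4 * J ^ 0

noncomputable def UG3_8_0 (L h J : ℝ) : ℝ :=
  ((16632 / 125) + (24832 / 25) * L + (-863056 / 625) * h) * J ^ 0
    + (0 + (-2993408 / 625) * L + (2993408 / 625) * h) * J ^ 1
    + ((8231872 / 15625) + (123904 / 25) * L + (-22368 / 5) * h) * J ^ 2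
    + ((-681472 / 625) + (24128 / 25) * L + (-24128 / 25) * h) * J ^ 3
    + ((-66352 / 625) + 0 * L + 0 * h) * J ^ 4

lemma UG3_8_0_nonneg {L h J : ℝ} (hL0 : (6931471 / 10000000) ≤ L) (hL1 : L ≤ (433217 / 625000)) (hh0 : (67 / 400) ≤ h) (hh1 : h ≤ (117 / 500)) (hJ0 : (1 / 2) ≤ J) (hJ1 : J ≤ (39 / 50)) :
    0 ≤ UG3_8_0 L h J := by
  obtain ⟨xl, hxl⟩ : ∃ x : ℝ, x = L - (6931471 / 10000000) := ⟨_, rfl⟩
  obtain ⟨xu, hxu⟩ : ∃ x : ℝ, x = (433217 / 625000) - L := ⟨_, rfl⟩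
  obtain ⟨yl, hyl⟩ : ∃ x : ℝ, x = h - (67 / 400) := ⟨_, rfl⟩
  obtain ⟨yu, hyu⟩ : ∃ x : ℝ, x = (117 / 500) - h := ⟨_, rfl⟩
  obtain ⟨A, hA⟩ : ∃ x : ℝ, x = J - (1 / 2) := ⟨_, rfl⟩
  obtain ⟨B, hB⟩ : ∃ x : ℝ, x = (39 / 50) - J := ⟨_, rfl⟩
  have hxl0 : 0 ≤ xl := by rw [hxl]; linarith
  have hxu0 : 0 ≤ xu := by rw [hxu]; linarith
  have hyl0 : 0 ≤ yl := by rw [hyl]; linarith
  have hyu0 : 0 ≤ yu := by rw [hyu]; linarith
  have hA0 : 0 ≤ A := by rw [hA]; linarith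
  have hB0 : 0 ≤ B := by rw [hB]; linarith
  have key : UG3_8_0 L h J =
      ((1962331054 / 300125) + (16315000 / 2401) * xu + (87970000 / 2401) * yu) * A ^ 0 * B ^ 4
      + ((2056045118089 / 60025000) + (32143600 / 2401) * xl + (396503600 / 2401) * yu) * A ^ 1 * B ^ 3
      + ((647524661902 / 7503125) + (390438400 / 2401) * xl + (843030000 / 2401) * yu) * A ^ 2 * B ^ 2
      + ((139446457688799 / 1500625000) + (627461904 / 2401) * xl + (856705104 / 2401) * yu) * A ^ 3 * B ^ 1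
      + ((102743371637873 / 3001250000) + (285482104 / 2401) * xl + (322208704 / 2401) * yu) * A ^ 4 * B ^ 0 := by
    simp only [hxl, hxu, hyl, hyu, hA, hB]
    unfold UG3_8_0
    ring
  rw [key]
  positivity

noncomputable def UG3_8_1 (L h J : ℝ) : ℝ :=
  ((66528 / 125) + (99328 / 25) * L + (-3452224 / 625) * h) * J ^ 0
    + (0 + (-11973632 / 625) * L + (11973632 / 625) * h) * J ^ 1
    + ((32927488 / 15625) + (470784 / 25) * L + (-422528 / 25) * h) * J ^ 2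
    + ((-2589312 / 625) + (96512 / 25) * L + (-96512 / 25) * h) * J ^ 3
    + ((-265408 / 625) + 0 * L + 0 * h) * J ^ 4

lemma UG3_8_1_nonneg {L h J : ℝ} (hL0 : (6931471 / 10000000) ≤ L) (hL1 : L ≤ (433217 / 625000)) (hh0 : (67 / 400) ≤ h) (hh1 : h ≤ (117 / 500)) (hJ0 : (1 / 2) ≤ J) (hJ1 : J ≤ (39 / 50)) :
    0 ≤ UG3_8_1 L h J := by
  obtain ⟨xl, hxl⟩ : ∃ x : ℝ, x = L - (6931471 / 10000000) := ⟨_, rfl⟩
  obtain ⟨xu, hxu⟩ : ∃ x : ℝ, x = (433217 / 625000) - L := ⟨_, rfl⟩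
  obtain ⟨yl, hyl⟩ : ∃ x : ℝ, x = h - (67 / 400) := ⟨_, rfl⟩
  obtain ⟨yu, hyu⟩ : ∃ x : ℝ, x = (117 / 500) - h := ⟨_, rfl⟩
  obtain ⟨A, hA⟩ : ∃ x : ℝ, x = J - (1 / 2) := ⟨_, rfl⟩
  obtain ⟨B, hB⟩ : ∃ x : ℝ, x = (39 / 50) - J := ⟨_, rfl⟩
  have hxl0 : 0 ≤ xl := by rw [hxl]; linarith
  have hxu0 : 0 ≤ xu := by rw [hxu]; linarith
  have hyl0 : 0 ≤ yl := by rw [hyl]; linarith
  have hyu0 : 0 ≤ yu := by rw [hyu]; linarith
  have hA0 : 0 ≤ A := by rw [hA]; linarith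
  have hB0 : 0 ≤ B := by rw [hB]; linarith
  have key : UG3_8_1 L h J =
      ((3615914416 / 300125) + (23180000 / 343) * xu + (254880000 / 2401) * yu) * A ^ 0 * B ^ 4
      + ((504818644824 / 7503125) + (52580800 / 343) * xu + (1089374400 / 2401) * yu) * A ^ 1 * B ^ 3
      + ((1643221814807 / 7503125) + (89059200 / 343) * xl + (2433780800 / 2401) * yu) * A ^ 2 * B ^ 2
      + ((102365086151199 / 375156250) + (35409984 / 49) * xl + (2652062016 / 2401) * yu) * A ^ 3 * B ^ 1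
      + ((81531453391523 / 750312500) + (129409888 / 343) * xl + (1052775616 / 2401) * yu) * A ^ 4 * B ^ 0 := by
    simp only [hxl, hxu, hyl, hyu, hA, hB]
    unfold UG3_8_1
    ring
  rw [key]
  positivity

noncomputable def UG3_8_2 (L h J : ℝ) : ℝ :=
  ((349084 / 625) + (165264 / 25) * L + (-981784 / 125) * h) * J ^ 0
    + (0 + (-17040448 / 625) * L + (17040448 / 625) * h) * J ^ 1
    + ((46861232 / 15625) + (668928 / 25) * L + (-598936 / 25) * h) * J ^ 2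
    + ((-3679104 / 625) + (139984 / 25) * L + (-139984 / 25) * h) * J ^ 3
    + ((-384956 / 625) + 0 * L + 0 * h) * J ^ 4

lemma UG3_8_2_nonneg {L h J : ℝ} (hL0 : (6931471 / 10000000) ≤ L) (hL1 : L ≤ (433217 / 625000)) (hh0 : (67 / 400) ≤ h) (hh1 : h ≤ (117 / 500)) (hJ0 : (1 / 2) ≤ J) (hJ1 : J ≤ (39 / 50)) :
    0 ≤ UG3_8_2 L h J := by
  obtain ⟨xl, hxl⟩ : ∃ x : ℝ, x = L - (6931471 / 10000000) := ⟨_, rfl⟩
  obtain ⟨xu, hxu⟩ : ∃ x : ℝ, x = (433217 / 625000) - L := ⟨_, rfl⟩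
  obtain ⟨yl, hyl⟩ : ∃ x : ℝ, x = h - (67 / 400) := ⟨_, rfl⟩
  obtain ⟨yu, hyu⟩ : ∃ x : ℝ, x = (117 / 500) - h := ⟨_, rfl⟩
  obtain ⟨A, hA⟩ : ∃ x : ℝ, x = J - (1 / 2) := ⟨_, rfl⟩
  obtain ⟨B, hB⟩ : ∃ x : ℝ, x = (39 / 50) - J := ⟨_, rfl⟩
  have hxl0 : 0 ≤ xl := by rw [hxl]; linarith
  have hxu0 : 0 ≤ xu := by rw [hxu]; linarith
  have hyl0 : 0 ≤ yl := by rw [hyl]; linarith
  have hyu0 : 0 ≤ yu := by rw [hyu]; linarith
  have hA0 : 0 ≤ A := by rw [hA]; linarith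
  have hB0 : 0 ≤ B := by rw [hB]; linarith
  have key : UG3_8_2 L h J =
      ((1798255509923 / 19208000) + (143516250 / 2401) * xl + (355935000 / 2401) * yu) * A ^ 0 * B ^ 4
      + ((96765012044461 / 240100000) + (977869100 / 2401) * xl + (1521329100 / 2401) * yu) * A ^ 1 * B ^ 3
      + ((23272570791439 / 30012500) + (3149167200 / 2401) * xl + (3419294500 / 2401) * yu) * A ^ 2 * B ^ 2
      + ((4201984861701563 / 6002500000) + (3986806612 / 2401) * xl + (3746356212 / 2401) * yu) * A ^ 3 * B ^ 1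
      + ((2801888080500701 / 12005000000) + (1671992262 / 2401) * xl + (1492455812 / 2401) * yu) * A ^ 4 * B ^ 0 := by
    simp only [hxl, hxu, hyl, hyu, hA, hB]
    unfold UG3_8_2
    ring
  rw [key]
  positivity

noncomputable def UG3_8_3 (L h J : ℝ) : ℝ :=
  ((32888 / 625) + (131872 / 25) * L + (-2913392 / 625) * h) * J ^ 0
    + (0 + (-10133632 / 625) * L + (10133632 / 625) * h) * J ^ 1
    + ((27867488 / 15625) + (84224 / 5) * L + (-377648 / 25) * h) * J ^ 2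
    + ((-463232 / 125) + (86944 / 25) * L + (-86944 / 25) * h) * J ^ 3
    + ((-239096 / 625) + 0 * L + 0 * h) * J ^ 4

lemma UG3_8_3_nonneg {L h J : ℝ} (hL0 : (6931471 / 10000000) ≤ L) (hL1 : L ≤ (433217 / 625000)) (hh0 : (67 / 400) ≤ h) (hh1 : h ≤ (117 / 500)) (hJ0 : (1 / 2) ≤ J) (hJ1 : J ≤ (39 / 50)) :
    0 ≤ UG3_8_3 L h J := by
  obtain ⟨xl, hxl⟩ : ∃ x : ℝ, x = L - (6931471 / 10000000) := ⟨_, rfl⟩
  obtain ⟨xu, hxu⟩ : ∃ x : ℝ, x = (433217 / 625000) - L := ⟨_, rfl⟩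
  obtain ⟨yl, hyl⟩ : ∃ x : ℝ, x = h - (67 / 400) := ⟨_, rfl⟩
  obtain ⟨yu, hyu⟩ : ∃ x : ℝ, x = (117 / 500) - h := ⟨_, rfl⟩
  obtain ⟨A, hA⟩ : ∃ x : ℝ, x = J - (1 / 2) := ⟨_, rfl⟩
  obtain ⟨B, hB⟩ : ∃ x : ℝ, x = (39 / 50) - J := ⟨_, rfl⟩
  have hxl0 : 0 ≤ xl := by rw [hxl]; linarith
  have hxu0 : 0 ≤ xu := by rw [hxu]; linarith
  have hyl0 : 0 ≤ yl := by rw [hyl]; linarith
  have hyu0 : 0 ≤ yu := by rw [hyu]; linarith
  have hA0 : 0 ≤ A := by rw [hA]; linarith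
  have hB0 : 0 ≤ B := by rw [hB]; linarith
  have key : UG3_8_3 L h J =
      ((1702305932291 / 9604000) + (708552500 / 2401) * xl + (42730000 / 343) * yu) * A ^ 0 * B ^ 4
      + ((88982072516637 / 120050000) + (3188509400 / 2401) * xl + (194364200 / 343) * yu) * A ^ 1 * B ^ 3
      + ((18593437197813 / 15006250) + (5989844800 / 2401) * xl + (415623800 / 343) * yu) * A ^ 2 * B ^ 2
      + ((2860794455583179 / 3001250000) + (5278193192 / 2401) * xl + (423335256 / 343) * yu) * A ^ 3 * B ^ 1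
      + ((1667080172207133 / 6002500000) + (1768305292 / 2401) * xl + (159345656 / 343) * yu) * A ^ 4 * B ^ 0 := by
    simp only [hxl, hxu, hyl, hyu, hA, hB]
    unfold UG3_8_3
    ring
  rw [key]
  positivity

noncomputable def UG3_8_4 (L h J : ℝ) : ℝ :=
  ((-65466 / 625) + (41004 / 25) * L + (-118728 / 125) * h) * J ^ 0
    + (0 + (-2073408 / 625) * L + (2073408 / 625) * h) * J ^ 1
    + ((5701872 / 15625) + (99072 / 25) * L + (-3576) * h) * J ^ 2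
    + ((-544896 / 625) + (19344 / 25) * L + (-19344 / 25) * h) * J ^ 3
    + ((-53196 / 625) + 0 * L + 0 * h) * J ^ 4

lemma UG3_8_4_nonneg {L h J : ℝ} (hL0 : (6931471 / 10000000) ≤ L) (hL1 : L ≤ (433217 / 625000)) (hh0 : (67 / 400) ≤ h) (hh1 : h ≤ (117 / 500)) (hJ0 : (1 / 2) ≤ J) (hJ1 : J ≤ (39 / 50)) :
    0 ≤ UG3_8_4 L h J := by
  obtain ⟨xl, hxl⟩ : ∃ x : ℝ, x = L - (6931471 / 10000000) := ⟨_, rfl⟩
  obtain ⟨xu, hxu⟩ : ∃ x : ℝ, x = (433217 / 625000) - L := ⟨_, rfl⟩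
  obtain ⟨yl, hyl⟩ : ∃ x : ℝ, x = h - (67 / 400) := ⟨_, rfl⟩
  obtain ⟨yu, hyu⟩ : ∃ x : ℝ, x = (117 / 500) - h := ⟨_, rfl⟩
  obtain ⟨A, hA⟩ : ∃ x : ℝ, x = J - (1 / 2) := ⟨_, rfl⟩
  obtain ⟨B, hB⟩ : ∃ x : ℝ, x = (39 / 50) - J := ⟨_, rfl⟩
  have hxl0 : 0 ≤ xl := by rw [hxl]; linarith
  have hxu0 : 0 ≤ xu := by rw [hxu]; linarith
  have hyl0 : 0 ≤ yl := by rw [hyl]; linarith
  have hyu0 : 0 ≤ yu := by rw [hyu]; linarith
  have hA0 : 0 ≤ A := by rw [hA]; linarith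
  have hB0 : 0 ≤ B := by rw [hB]; linarith
  have key : UG3_8_4 L h J =
      ((1709771467833 / 19208000) + (417528750 / 2401) * xl + (110085000 / 2401) * yu) * A ^ 0 * B ^ 4
      + ((89008435893981 / 240100000) + (1804181100 / 2401) * xl + (532091100 / 2401) * yu) * A ^ 1 * B ^ 3
      + ((71497831160103 / 120050000) + (3064278600 / 2401) * xl + (1080822900 / 2401) * yu) * A ^ 2 * B ^ 2
      + ((2596641673691283 / 6002500000) + (2392763892 / 2401) * xl + (1012347492 / 2401) * yu) * A ^ 3 * B ^ 1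
      + ((1424293069907691 / 12005000000) + (715137642 / 2401) * xl + (353530692 / 2401) * yu) * A ^ 4 * B ^ 0 := by
    simp only [hxl, hxu, hyl, hyu, hA, hB]
    unfold UG3_8_4
    ring
  rw [key]
  positivity

lemma UG3_8_nonneg {L h b J : ℝ} (hL0 : (6931471 / 10000000) ≤ L) (hL1 : L ≤ (433217 / 625000)) (hh0 : (67 / 400) ≤ h) (hh1 : h ≤ (117 / 500)) (hb0 : 0 ≤ b) (hb1 : b ≤ 1) (hJ0 : (1 / 2) ≤ J) (hJ1 : J ≤ (39 / 50)) :
    0 ≤ UG3_8 L h b J := by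
  have c0 := UG3_8_0_nonneg hL0 hL1 hh0 hh1 hJ0 hJ1
  have c1 := UG3_8_1_nonneg hL0 hL1 hh0 hh1 hJ0 hJ1
  have c2 := UG3_8_2_nonneg hL0 hL1 hh0 hh1 hJ0 hJ1
  have c3 := UG3_8_3_nonneg hL0 hL1 hh0 hh1 hJ0 hJ1
  have c4 := UG3_8_4_nonneg hL0 hL1 hh0 hh1 hJ0 hJ1
  have key : UG3_8 L h b J =
      (b - 0) ^ 0 * (1 - b) ^ 4 * UG3_8_0 L h J
      + (b - 0) ^ 1 * (1 - b) ^ 3 * UG3_8_1 L h J
      + (b - 0) ^ 2 * (1 - b) ^ 2 * UG3_8_2 L h J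
      + (b - 0) ^ 3 * (1 - b) ^ 1 * UG3_8_3 L h J
      + (b - 0) ^ 4 * (1 - b) ^ 0 * UG3_8_4 L h J := by
    unfold UG3_8 UG3_8_0 UG3_8_1 UG3_8_2 UG3_8_3 UG3_8_4
    ring
  have hA : 0 ≤ b - 0 := by linarith
  have hB : 0 ≤ 1 - b := by linarith
  rw [key]
  positivity

noncomputable def UG3_9 (L h b J : ℝ) : ℝ :=
  ((9504 / 625) + (3072 / 25) * L + (-105792 / 625) * h) * b ^ 0 * J ^ 0
    + (0 + (-332544 / 625) * L + (332544 / 625) * h) * b ^ 0 * J ^ 1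
    + ((914496 / 15625) + (12288 / 25) * L + (-2208 / 5) * h) * b ^ 0 * J ^ 2
    + ((-67584 / 625) + (2496 / 25) * L + (-2496 / 25) * h) * b ^ 0 * J ^ 3
    + ((-6864 / 625) + 0 * L + 0 * h) * b ^ 0 * J ^ 4
    + (0 + (-3072 / 25) * L + (3072 / 25) * h) * b ^ 1 * J ^ 2
    + ((16896 / 625) + 0 * L + 0 * h) * b ^ 1 * J ^ 3
    + ((-100272 / 3125) + (1728 / 25) * L + (207552 / 3125) * h) * b ^ 2 * J ^ 0
    + (0 + 192 * L + (-192) * h) * b ^ 2 * J ^ 1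
    + ((-528 / 25) + 0 * L + (-312 / 25) * h) * b ^ 2 * J ^ 2
    + (0 + (-624 / 25) * L + (624 / 25) * h) * b ^ 2 * J ^ 3
    + ((1716 / 625) + 0 * L + 0 * h) * b ^ 2 * J ^ 4
    + ((24 / 25) + (-48 / 25) * L + 0 * h) * b ^ 4 * J ^ 0

noncomputable def UG3_9_0 (L h J : ℝ) : ℝ :=
  ((9504 / 625) + (3072 / 25) * L + (-105792 / 625) * h) * J ^ 0
    + (0 + (-332544 / 625) * L + (332544 / 625) * h) * J ^ 1
    + ((914496 / 15625) + (12288 / 25) * L + (-2208 / 5) * h) * J ^ 2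
    + ((-67584 / 625) + (2496 / 25) * L + (-2496 / 25) * h) * J ^ 3
    + ((-6864 / 625) + 0 * L + 0 * h) * J ^ 4

lemma UG3_9_0_nonneg {L h J : ℝ} (hL0 : (6931471 / 10000000) ≤ L) (hL1 : L ≤ (433217 / 625000)) (hh0 : (67 / 400) ≤ h) (hh1 : h ≤ (117 / 500)) (hJ0 : (1 / 2) ≤ J) (hJ1 : J ≤ (39 / 50)) :
    0 ≤ UG3_9_0 L h J := by
  obtain ⟨xl, hxl⟩ : ∃ x : ℝ, x = L - (6931471 / 10000000) := ⟨_, rfl⟩
  obtain ⟨xu, hxu⟩ : ∃ x : ℝ, x = (433217 / 625000) - L := ⟨_, rfl⟩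
  obtain ⟨yl, hyl⟩ : ∃ x : ℝ, x = h - (67 / 400) := ⟨_, rfl⟩
  obtain ⟨yu, hyu⟩ : ∃ x : ℝ, x = (117 / 500) - h := ⟨_, rfl⟩
  obtain ⟨A, hA⟩ : ∃ x : ℝ, x = J - (1 / 2) := ⟨_, rfl⟩
  obtain ⟨B, hB⟩ : ∃ x : ℝ, x = (39 / 50) - J := ⟨_, rfl⟩
  have hxl0 : 0 ≤ xl := by rw [hxl]; linarith
  have hxu0 : 0 ≤ xu := by rw [hxu]; linarith
  have hyl0 : 0 ≤ yl := by rw [hyl]; linarith
  have hyu0 : 0 ≤ yu := by rw [hyu]; linarith
  have hA0 : 0 ≤ A := by rw [hA]; linarith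
  have hB0 : 0 ≤ B := by rw [hB]; linarith
  have key : UG3_9_0 L h J =
      ((28750746 / 42875) + (435000 / 343) * xu + (10200000 / 2401) * yu) * A ^ 0 * B ^ 4
      + ((2844770094 / 1071875) + (1203600 / 343) * xu + (39094800 / 2401) * yu) * A ^ 1 * B ^ 3
      + ((6764334894 / 1071875) + (1804800 / 343) * xl + (74194800 / 2401) * yu) * A ^ 2 * B ^ 2
      + ((1509376708599 / 214375000) + (5602704 / 343) * xl + (72761328 / 2401) * yu) * A ^ 3 * B ^ 1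
      + ((1158711429273 / 428750000) + (3029304 / 343) * xl + (27461328 / 2401) * yu) * A ^ 4 * B ^ 0 := by
    simp only [hxl, hxu, hyl, hyu, hA, hB]
    unfold UG3_9_0
    ring
  rw [key]
  positivity

noncomputable def UG3_9_1 (L h J : ℝ) : ℝ :=
  ((38016 / 625) + (12288 / 25) * L + (-423168 / 625) * h) * J ^ 0
    + (0 + (-1330176 / 625) * L + (1330176 / 625) * h) * J ^ 1
    + ((3657984 / 15625) + (9216 / 5) * L + (-41088 / 25) * h) * J ^ 2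
    + ((-50688 / 125) + (9984 / 25) * L + (-9984 / 25) * h) * J ^ 3
    + ((-27456 / 625) + 0 * L + 0 * h) * J ^ 4

lemma UG3_9_1_nonneg {L h J : ℝ} (hL0 : (6931471 / 10000000) ≤ L) (hL1 : L ≤ (433217 / 625000)) (hh0 : (67 / 400) ≤ h) (hh1 : h ≤ (117 / 500)) (hJ0 : (1 / 2) ≤ J) (hJ1 : J ≤ (39 / 50)) :
    0 ≤ UG3_9_1 L h J := by
  obtain ⟨xl, hxl⟩ : ∃ x : ℝ, x = L - (6931471 / 10000000) := ⟨_, rfl⟩
  obtain ⟨xu, hxu⟩ : ∃ x : ℝ, x = (433217 / 625000) - L := ⟨_, rfl⟩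
  obtain ⟨yl, hyl⟩ : ∃ x : ℝ, x = h - (67 / 400) := ⟨_, rfl⟩
  obtain ⟨yu, hyu⟩ : ∃ x : ℝ, x = (117 / 500) - h := ⟨_, rfl⟩
  obtain ⟨A, hA⟩ : ∃ x : ℝ, x = J - (1 / 2) := ⟨_, rfl⟩
  obtain ⟨B, hB⟩ : ∃ x : ℝ, x = (39 / 50) - J := ⟨_, rfl⟩
  have hxl0 : 0 ≤ xl := by rw [hxl]; linarith
  have hxu0 : 0 ≤ xu := by rw [hxu]; linarith
  have hyl0 : 0 ≤ yl := by rw [hyl]; linarith
  have hyu0 : 0 ≤ yu := by rw [hyu]; linarith
  have hA0 : 0 ≤ A := by rw [hA]; linarith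
  have hB0 : 0 ≤ B := by rw [hB]; linarith
  have key : UG3_9_1 L h J =
      ((281300088 / 300125) + (24180000 / 2401) * xu + (28800000 / 2401) * yu) * A ^ 0 * B ^ 4
      + ((14927300232 / 7503125) + (95140800 / 2401) * xu + (94939200 / 2401) * yu) * A ^ 1 * B ^ 3
      + ((72261954552 / 7503125) + (65548800 / 2401) * xu + (180696000 / 2401) * yu) * A ^ 2 * B ^ 2
      + ((5978250790593 / 375156250) + (61029312 / 2401) * xl + (195198912 / 2401) * yu) * A ^ 3 * B ^ 1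
      + ((5486825170311 / 750312500) + (55617312 / 2401) * xl + (80642112 / 2401) * yu) * A ^ 4 * B ^ 0 := by
    simp only [hxl, hxu, hyl, hyu, hA, hB]
    unfold UG3_9_1
    ring
  rw [key]
  positivity

noncomputable def UG3_9_2 (L h J : ℝ) : ℝ :=
  ((184848 / 3125) + (4032 / 5) * L + (-2966208 / 3125) * h) * J ^ 0
    + (0 + (-1875264 / 625) * L + (1875264 / 625) * h) * J ^ 1
    + ((5156976 / 15625) + (64512 / 25) * L + (-57336 / 25) * h) * J ^ 2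
    + ((-354816 / 625) + (14352 / 25) * L + (-14352 / 25) * h) * J ^ 3
    + ((-39468 / 625) + 0 * L + 0 * h) * J ^ 4

lemma UG3_9_2_nonneg {L h J : ℝ} (hL0 : (6931471 / 10000000) ≤ L) (hL1 : L ≤ (433217 / 625000)) (hh0 : (67 / 400) ≤ h) (hh1 : h ≤ (117 / 500)) (hJ0 : (1 / 2) ≤ J) (hJ1 : J ≤ (39 / 50)) :
    0 ≤ UG3_9_2 L h J := by
  obtain ⟨xl, hxl⟩ : ∃ x : ℝ, x = L - (6931471 / 10000000) := ⟨_, rfl⟩
  obtain ⟨xu, hxu⟩ : ∃ x : ℝ, x = (433217 / 625000) - L := ⟨_, rfl⟩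
  obtain ⟨yl, hyl⟩ : ∃ x : ℝ, x = h - (67 / 400) := ⟨_, rfl⟩
  obtain ⟨yu, hyu⟩ : ∃ x : ℝ, x = (117 / 500) - h := ⟨_, rfl⟩
  obtain ⟨A, hA⟩ : ∃ x : ℝ, x = J - (1 / 2) := ⟨_, rfl⟩
  obtain ⟨B, hB⟩ : ∃ x : ℝ, x = (39 / 50) - J := ⟨_, rfl⟩
  have hxl0 : 0 ≤ xl := by rw [hxl]; linarith
  have hxu0 : 0 ≤ xu := by rw [hxu]; linarith
  have hyl0 : 0 ≤ yl := by rw [hyl]; linarith
  have hyu0 : 0 ≤ yu := by rw [hyu]; linarith
  have hA0 : 0 ≤ A := by rw [hA]; linarith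
  have hB0 : 0 ≤ B := by rw [hB]; linarith
  have key : UG3_9_2 L h J =
      ((189764792439 / 19208000) + (9011250 / 2401) * xl + (36756000 / 2401) * yu) * A ^ 0 * B ^ 4
      + ((8883781574673 / 240100000) + (37206300 / 2401) * xl + (116790300 / 2401) * yu) * A ^ 1 * B ^ 3
      + ((973551859149 / 15006250) + (162950400 / 2401) * xl + (226443300 / 2401) * yu) * A ^ 2 * B ^ 2
      + ((340536816063639 / 6002500000) + (255249636 / 2401) * xl + (254462436 / 2401) * yu) * A ^ 3 * B ^ 1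
      + ((227060126923353 / 12005000000) + (120494286 / 2401) * xl + (108053436 / 2401) * yu) * A ^ 4 * B ^ 0 := by
    simp only [hxl, hxu, hyl, hyu, hA, hB]
    unfold UG3_9_2
    ring
  rw [key]
  positivity

noncomputable def UG3_9_3 (L h J : ℝ) : ℝ :=
  ((-10464 / 3125) + (15744 / 25) * L + (-1700736 / 3125) * h) * J ^ 0
    + (0 + (-1090176 / 625) * L + (1090176 / 625) * h) * J ^ 1
    + ((2997984 / 15625) + (39936 / 25) * L + (-35568 / 25) * h) * J ^ 2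
    + ((-219648 / 625) + (8736 / 25) * L + (-8736 / 25) * h) * J ^ 3
    + ((-24024 / 625) + 0 * L + 0 * h) * J ^ 4

lemma UG3_9_3_nonneg {L h J : ℝ} (hL0 : (6931471 / 10000000) ≤ L) (hL1 : L ≤ (433217 / 625000)) (hh0 : (67 / 400) ≤ h) (hh1 : h ≤ (117 / 500)) (hJ0 : (1 / 2) ≤ J) (hJ1 : J ≤ (39 / 50)) :
    0 ≤ UG3_9_3 L h J := by
  obtain ⟨xl, hxl⟩ : ∃ x : ℝ, x = L - (6931471 / 10000000) := ⟨_, rfl⟩
  obtain ⟨xu, hxu⟩ : ∃ x : ℝ, x = (433217 / 625000) - L := ⟨_, rfl⟩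
  obtain ⟨yl, hyl⟩ : ∃ x : ℝ, x = h - (67 / 400) := ⟨_, rfl⟩
  obtain ⟨yu, hyu⟩ : ∃ x : ℝ, x = (117 / 500) - h := ⟨_, rfl⟩
  obtain ⟨A, hA⟩ : ∃ x : ℝ, x = J - (1 / 2) := ⟨_, rfl⟩
  obtain ⟨B, hB⟩ : ∃ x : ℝ, x = (39 / 50) - J := ⟨_, rfl⟩
  have hxl0 : 0 ≤ xl := by rw [hxl]; linarith
  have hxu0 : 0 ≤ xu := by rw [hxu]; linarith
  have hyl0 : 0 ≤ yl := by rw [hyl]; linarith
  have hyu0 : 0 ≤ yu := by rw [hyu]; linarith
  have hA0 : 0 ≤ A := by rw [hA]; linarith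
  have hB0 : 0 ≤ B := by rw [hB]; linarith
  have key : UG3_9_3 L h J =
      ((188520628263 / 9604000) + (11197500 / 343) * xl + (27912000 / 2401) * yu) * A ^ 0 * B ^ 4
      + ((9441726907041 / 120050000) + (6655800 / 49) * xl + (105142200 / 2401) * yu) * A ^ 1 * B ^ 3
      + ((946167311073 / 7503125) + (81868800 / 343) * xl + (207577800 / 2401) * yu) * A ^ 2 * B ^ 2
      + ((281583892770951 / 3001250000) + (69183864 / 343) * xl + (214373448 / 2401) * yu) * A ^ 3 * B ^ 1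
      + ((160264162875177 / 6002500000) + (22708164 / 343) * xl + (84025848 / 2401) * yu) * A ^ 4 * B ^ 0 := by
    simp only [hxl, hxu, hyl, hyu, hA, hB]
    unfold UG3_9_3
    ring
  rw [key]
  positivity

noncomputable def UG3_9_4 (L h J : ℝ) : ℝ :=
  ((-49752 / 3125) + (4752 / 25) * L + (-321408 / 3125) * h) * J ^ 0
    + (0 + (-212544 / 625) * L + (212544 / 625) * h) * J ^ 1
    + ((584496 / 15625) + (9216 / 25) * L + (-1656 / 5) * h) * J ^ 2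
    + ((-50688 / 625) + (1872 / 25) * L + (-1872 / 25) * h) * J ^ 3
    + ((-5148 / 625) + 0 * L + 0 * h) * J ^ 4

lemma UG3_9_4_nonneg {L h J : ℝ} (hL0 : (6931471 / 10000000) ≤ L) (hL1 : L ≤ (433217 / 625000)) (hh0 : (67 / 400) ≤ h) (hh1 : h ≤ (117 / 500)) (hJ0 : (1 / 2) ≤ J) (hJ1 : J ≤ (39 / 50)) :
    0 ≤ UG3_9_4 L h J := by
  obtain ⟨xl, hxl⟩ : ∃ x : ℝ, x = L - (6931471 / 10000000) := ⟨_, rfl⟩
  obtain ⟨xu, hxu⟩ : ∃ x : ℝ, x = (433217 / 625000) - L := ⟨_, rfl⟩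
  obtain ⟨yl, hyl⟩ : ∃ x : ℝ, x = h - (67 / 400) := ⟨_, rfl⟩
  obtain ⟨yu, hyu⟩ : ∃ x : ℝ, x = (117 / 500) - h := ⟨_, rfl⟩
  obtain ⟨A, hA⟩ : ∃ x : ℝ, x = J - (1 / 2) := ⟨_, rfl⟩
  obtain ⟨B, hB⟩ : ∃ x : ℝ, x = (39 / 50) - J := ⟨_, rfl⟩
  have hxl0 : 0 ≤ xl := by rw [hxl]; linarith
  have hxu0 : 0 ≤ xu := by rw [hxu]; linarith
  have hyl0 : 0 ≤ yl := by rw [hyl]; linarith
  have hyu0 : 0 ≤ yu := by rw [hyu]; linarith
  have hA0 : 0 ≤ A := by rw [hA]; linarith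
  have hB0 : 0 ≤ B := by rw [hB]; linarith
  have key : UG3_9_4 L h J =
      ((3902866731 / 392000) + (6783750 / 343) * xl + (9756000 / 2401) * yu) * A ^ 0 * B ^ 4
      + ((1397453440419 / 34300000) + (28458900 / 343) * xl + (44196300 / 2401) * yu) * A ^ 1 * B ^ 3
      + ((275192503533 / 4287500) + (46778400 / 343) * xl + (87635700 / 2401) * yu) * A ^ 2 * B ^ 2
      + ((39224547290997 / 857500000) + (35406828 / 343) * xl + (82348596 / 2401) * yu) * A ^ 3 * B ^ 1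
      + ((21155597129619 / 1715000000) + (10303578 / 343) * xl + (29153196 / 2401) * yu) * A ^ 4 * B ^ 0 := by
    simp only [hxl, hxu, hyl, hyu, hA, hB]
    unfold UG3_9_4
    ring
  rw [key]
  positivity

lemma UG3_9_nonneg {L h b J : ℝ} (hL0 : (6931471 / 10000000) ≤ L) (hL1 : L ≤ (433217 / 625000)) (hh0 : (67 / 400) ≤ h) (hh1 : h ≤ (117 / 500)) (hb0 : 0 ≤ b) (hb1 : b ≤ 1) (hJ0 : (1 / 2) ≤ J) (hJ1 : J ≤ (39 / 50)) :
    0 ≤ UG3_9 L h b J := by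
  have c0 := UG3_9_0_nonneg hL0 hL1 hh0 hh1 hJ0 hJ1
  have c1 := UG3_9_1_nonneg hL0 hL1 hh0 hh1 hJ0 hJ1
  have c2 := UG3_9_2_nonneg hL0 hL1 hh0 hh1 hJ0 hJ1
  have c3 := UG3_9_3_nonneg hL0 hL1 hh0 hh1 hJ0 hJ1
  have c4 := UG3_9_4_nonneg hL0 hL1 hh0 hh1 hJ0 hJ1
  have key : UG3_9 L h b J =
      (b - 0) ^ 0 * (1 - b) ^ 4 * UG3_9_0 L h J
      + (b - 0) ^ 1 * (1 - b) ^ 3 * UG3_9_1 L h J
      + (b - 0) ^ 2 * (1 - b) ^ 2 * UG3_9_2 L h J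
      + (b - 0) ^ 3 * (1 - b) ^ 1 * UG3_9_3 L h J
      + (b - 0) ^ 4 * (1 - b) ^ 0 * UG3_9_4 L h J := by
    unfold UG3_9 UG3_9_0 UG3_9_1 UG3_9_2 UG3_9_3 UG3_9_4
    ring
  have hA : 0 ≤ b - 0 := by linarith
  have hB : 0 ≤ 1 - b := by linarith
  rw [key]
  positivity

lemma UG3_nonneg {L h a b J : ℝ} (hL0 : (6931471 / 10000000) ≤ L) (hL1 : L ≤ (433217 / 625000)) (hh0 : (67 / 400) ≤ h) (hh1 : h ≤ (117 / 500)) (ha0 : 0 ≤ a) (ha1 : a ≤ (1 / 2)) (hb0 : 0 ≤ b) (hb1 : b ≤ 1) (hJ0 : (1 / 2) ≤ J) (hJ1 : J ≤ (39 / 50)) :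
    0 ≤ UG3 L h a b J := by
  have c0 := UG3_0_nonneg hL0 hL1 hh0 hh1 hb0 hb1 hJ0 hJ1
  have c1 := UG3_1_nonneg hL0 hL1 hh0 hh1 hb0 hb1 hJ0 hJ1
  have c2 := UG3_2_nonneg hL0 hL1 hh0 hh1 hb0 hb1 hJ0 hJ1
  have c3 := UG3_3_nonneg hL0 hL1 hh0 hh1 hb0 hb1 hJ0 hJ1
  have c4 := UG3_4_nonneg hL0 hL1 hh0 hh1 hb0 hb1 hJ0 hJ1
  have c5 := UG3_5_nonneg hL0 hL1 hh0 hh1 hb0 hb1 hJ0 hJ1
  have c6 := UG3_6_nonneg hL0 hL1 hh0 hh1 hb0 hb1 hJ0 hJ1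
  have c7 := UG3_7_nonneg hL0 hL1 hh0 hh1 hb0 hb1 hJ0 hJ1
  have c8 := UG3_8_nonneg hL0 hL1 hh0 hh1 hb0 hb1 hJ0 hJ1
  have c9 := UG3_9_nonneg hL0 hL1 hh0 hh1 hb0 hb1 hJ0 hJ1
  have key : UG3 L h a b J =
      (a - 0) ^ 0 * ((1 / 2) - a) ^ 9 * UG3_0 L h b J
      + (a - 0) ^ 1 * ((1 / 2) - a) ^ 8 * UG3_1 L h b J
      + (a - 0) ^ 2 * ((1 / 2) - a) ^ 7 * UG3_2 L h b J
      + (a - 0) ^ 3 * ((1 / 2) - a) ^ 6 * UG3_3 L h b J
      + (a - 0) ^ 4 * ((1 / 2) - a) ^ 5 * UG3_4 L h b J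
      + (a - 0) ^ 5 * ((1 / 2) - a) ^ 4 * UG3_5 L h b J
      + (a - 0) ^ 6 * ((1 / 2) - a) ^ 3 * UG3_6 L h b J
      + (a - 0) ^ 7 * ((1 / 2) - a) ^ 2 * UG3_7 L h b J
      + (a - 0) ^ 8 * ((1 / 2) - a) ^ 1 * UG3_8 L h b J
      + (a - 0) ^ 9 * ((1 / 2) - a) ^ 0 * UG3_9 L h b J := by
    unfold UG3 UG3_0 UG3_1 UG3_2 UG3_3 UG3_4 UG3_5 UG3_6 UG3_7 UG3_8 UG3_9
    ring
  have hA : 0 ≤ a - 0 := by linarith
  have hB : 0 ≤ (1 / 2) - a := by linarith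
  rw [key]
  positivity

end Vale.Agent.Lib.P322.Pot
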