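import Mathlib
import Vale.Agent.Lib.P322.Pot.Top.Box1

/-!
P322, potential method, range `7/8 ≤ ρ ≤ 23/25`.  Generated certificate: the polynomial `UX1` is nonnegative on a box (iterated expansion in the products
`(x - lo)^i (hi - x)^(n-i)`; all coefficients are affine in `(L, h)` and nonnegative).
-/

set_option linter.unusedSimpArgs false

namespace Vale.Agent.Lib.P322.Pot

noncomputable def UX1 (L h a d J : ℝ) : ℝ :=
  (0 + 2 * L + (-187 / 100) * h) * a ^ 0 * d ^ 0 * J ^ 2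
    + ((-11 / 25) + (13 / 50) * L + (-13 / 50) * h) * a ^ 0 * d ^ 0 * J ^ 3
    + ((-143 / 5000) + 0 * L + 0 * h) * a ^ 0 * d ^ 0 * J ^ 4
    + ((-363 / 1000) + 2 * L + (-71 / 500) * h) * a ^ 0 * d ^ 2 * J ^ 0
    + (0 + 2 * L + (-2) * h) * a ^ 0 * d ^ 2 * J ^ 1
    + ((-11 / 50) + 0 * L + (-13 / 100) * h) * a ^ 0 * d ^ 2 * J ^ 2
    + (0 + (-13 / 50) * L + (13 / 50) * h) * a ^ 0 * d ^ 2 * J ^ 3
    + ((143 / 5000) + 0 * L + 0 * h) * a ^ 0 * d ^ 2 * J ^ 4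
    + (0 + (-1087 / 250) * L + (1087 / 250) * h) * a ^ 1 * d ^ 0 * J ^ 1
    + ((11957 / 25000) + (-87 / 500) * L + (38 / 125) * h) * a ^ 1 * d ^ 0 * J ^ 2
    + ((957 / 25000) + (13 / 50) * L + (-13 / 50) * h) * a ^ 1 * d ^ 0 * J ^ 3
    + ((-143 / 5000) + 0 * L + 0 * h) * a ^ 1 * d ^ 0 * J ^ 4
    + (0 + (-2) * L + 2 * h) * a ^ 1 * d ^ 1 * J ^ 2
    + ((11 / 25) + 0 * L + 0 * h) * a ^ 1 * d ^ 1 * J ^ 3
    + ((31581 / 1000000) + (-87 / 500) * L + (549677 / 500000) * h) * a ^ 1 * d ^ 2 * J ^ 0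
    + (0 + 2 * L + (-2) * h) * a ^ 1 * d ^ 2 * J ^ 1
    + ((-11 / 50) + 0 * L + (-13 / 100) * h) * a ^ 1 * d ^ 2 * J ^ 2
    + (0 + (-13 / 50) * L + (13 / 50) * h) * a ^ 1 * d ^ 2 * J ^ 3
    + ((143 / 5000) + 0 * L + 0 * h) * a ^ 1 * d ^ 2 * J ^ 4
    + ((33 / 100) + 2 * L + (-2961569 / 1000000) * h) * a ^ 2 * d ^ 0 * J ^ 0
    + (0 + (181569 / 500000) * L + (-181569 / 500000) * h) * a ^ 2 * d ^ 0 * J ^ 1
    + ((-1997259 / 50000000) + 0 * L + 0 * h) * a ^ 2 * d ^ 0 * J ^ 2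
    + (0 + (87 / 500) * L + (-87 / 500) * h) * a ^ 2 * d ^ 1 * J ^ 2
    + ((-957 / 25000) + 0 * L + 0 * h) * a ^ 2 * d ^ 1 * J ^ 3
    + ((-637 / 1000) + (-4) * L + (1571 / 500) * h) * a ^ 2 * d ^ 2 * J ^ 0
    + ((-2871 / 100000) + (-87 / 500) * L + (249429 / 1000000) * h) * a ^ 3 * d ^ 0 * J ^ 0
    + (0 + (-7569 / 500000) * L + (7569 / 500000) * h) * a ^ 3 * d ^ 0 * J ^ 1
    + ((83259 / 50000000) + 0 * L + 0 * h) * a ^ 3 * d ^ 0 * J ^ 2
    + ((55419 / 1000000) + (87 / 250) * L + (-136677 / 500000) * h) * a ^ 3 * d ^ 2 * J ^ 0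
    + ((-33 / 100) + 0 * L + (39 / 50) * h) * a ^ 4 * d ^ 0 * J ^ 0
    + (0 + 2 * L + (-2) * h) * a ^ 4 * d ^ 2 * J ^ 0
    + (1 + (-2) * L + 0 * h) * a ^ 4 * d ^ 4 * J ^ 0
    + ((2871 / 100000) + 0 * L + (-3393 / 50000) * h) * a ^ 5 * d ^ 0 * J ^ 0
    + (0 + (-87 / 500) * L + (87 / 500) * h) * a ^ 5 * d ^ 2 * J ^ 0
    + ((-87 / 1000) + (87 / 500) * L + 0 * h) * a ^ 5 * d ^ 4 * J ^ 0

noncomputable def UX1_0 (L h d J : ℝ) : ℝ :=
  ((6060384 / 3125) + (1958912 / 125) * L + (-339243136 / 15625) * h) * d ^ 0 * J ^ 0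
    + (0 + (-1067575168 / 15625) * L + (1067575168 / 15625) * h) * d ^ 0 * J ^ 1
    + ((2935831712 / 390625) + (7835648 / 125) * L + (-7036928 / 125) * h) * d ^ 0 * J ^ 2
    + ((-43096064 / 3125) + (319488 / 25) * L + (-319488 / 25) * h) * d ^ 0 * J ^ 3
    + ((-878592 / 625) + 0 * L + 0 * h) * d ^ 0 * J ^ 4
    + (0 + (-3917824 / 125) * L + (3917824 / 125) * h) * d ^ 1 * J ^ 2
    + ((21548032 / 3125) + 0 * L + 0 * h) * d ^ 1 * J ^ 3
    + ((-255760448 / 15625) + (4407552 / 125) * L + (532195968 / 15625) * h) * d ^ 2 * J ^ 0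
    + (0 + 98304 * L + (-98304) * h) * d ^ 2 * J ^ 1
    + ((-270336 / 25) + 0 * L + (-159744 / 25) * h) * d ^ 2 * J ^ 2
    + (0 + (-319488 / 25) * L + (319488 / 25) * h) * d ^ 2 * J ^ 3
    + ((878592 / 625) + 0 * L + 0 * h) * d ^ 2 * J ^ 4
    + ((244864 / 125) + (-489728 / 125) * L + 0 * h) * d ^ 4 * J ^ 0

noncomputable def UX1_0_0 (L h J : ℝ) : ℝ :=
  ((1551458304 / 3125) + (501481472 / 125) * L + (-86846242816 / 15625) * h) * J ^ 0
    + (0 + (-273299243008 / 15625) * L + (273299243008 / 15625) * h) * J ^ 1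
    + ((751572918272 / 390625) + (2005925888 / 125) * L + (-1801453568 / 125) * h) * J ^ 2
    + ((-11032592384 / 3125) + (81788928 / 25) * L + (-81788928 / 25) * h) * J ^ 3
    + ((-224919552 / 625) + 0 * L + 0 * h) * J ^ 4

lemma UX1_0_0_nonneg {L h J : ℝ} (hL0 : (6931471 / 10000000) ≤ L) (hL1 : L ≤ (433217 / 625000)) (hh0 : (67 / 400) ≤ h) (hh1 : h ≤ (117 / 500)) (hJ0 : (39 / 100) ≤ J) (hJ1 : J ≤ (39 / 50)) :
    0 ≤ UX1_0_0 L h J := by
  obtain ⟨xl, hxl⟩ : ∃ x : ℝ, x = L - (6931471 / 10000000) := ⟨_, rfl⟩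
  obtain ⟨xu, hxu⟩ : ∃ x : ℝ, x = (433217 / 625000) - L := ⟨_, rfl⟩
  obtain ⟨yl, hyl⟩ : ∃ x : ℝ, x = h - (67 / 400) := ⟨_, rfl⟩
  obtain ⟨yu, hyu⟩ : ∃ x : ℝ, x = (117 / 500) - h := ⟨_, rfl⟩
  obtain ⟨A, hA⟩ : ∃ x : ℝ, x = J - (39 / 100) := ⟨_, rfl⟩
  obtain ⟨B, hB⟩ : ∃ x : ℝ, x = (39 / 50) - J := ⟨_, rfl⟩
  have hxl0 : 0 ≤ xl := by rw [hxl]; linarith
  have hxu0 : 0 ≤ xu := by rw [hxu]; linarith
  have hyl0 : 0 ≤ yl := by rw [hyl]; linarith
  have hyu0 : 0 ≤ yu := by rw [hyu]; linarith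
  have hA0 : 0 ≤ A := by rw [hA]; linarith
  have hB0 : 0 ≤ B := by rw [hB]; linarith
  have key : UX1_0_0 L h J =
      ((11717444687495168 / 1445900625) + (17482121216000 / 2313441) * xu + (112268463308800 / 2313441) * yu) * A ^ 0 * B ^ 4
      + ((1302186090749231104 / 180737578125) + (205701622267904 / 2313441) * xu + (263540332036096 / 2313441) * yu) * A ^ 1 * B ^ 3
      + ((1134940136655159296 / 60245859375) + (69970476138496 / 771147) * xu + (131476911816704 / 771147) * yu) * A ^ 2 * B ^ 2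
      + ((7561658736909467648 / 180737578125) + (146760074788864 / 2313441) * xl + (466720877707264 / 2313441) * yu) * A ^ 3 * B ^ 1
      + ((3929301398125838336 / 180737578125) + (168452002152448 / 2313441) * xl + (223562010984448 / 2313441) * yu) * A ^ 4 * B ^ 0 := by
    simp only [hxl, hxu, hyl, hyu, hA, hB]
    unfold UX1_0_0
    ring
  rw [key]
  positivity

noncomputable def UX1_0_1 (L h J : ℝ) : ℝ :=
  ((6205833216 / 3125) + (2005925888 / 125) * L + (-347384971264 / 15625) * h) * J ^ 0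
    + (0 + (-1093196972032 / 15625) * L + (1093196972032 / 15625) * h) * J ^ 1
    + ((3006291673088 / 390625) + (7772962816 / 125) * L + (-6955073536 / 125) * h) * J ^ 2
    + ((-42751295488 / 3125) + (327155712 / 25) * L + (-327155712 / 25) * h) * J ^ 3
    + ((-899678208 / 625) + 0 * L + 0 * h) * J ^ 4

lemma UX1_0_1_nonneg {L h J : ℝ} (hL0 : (6931471 / 10000000) ≤ L) (hL1 : L ≤ (433217 / 625000)) (hh0 : (67 / 400) ≤ h) (hh1 : h ≤ (117 / 500)) (hJ0 : (39 / 100) ≤ J) (hJ1 : J ≤ (39 / 50)) :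
    0 ≤ UX1_0_1 L h J := by
  obtain ⟨xl, hxl⟩ : ∃ x : ℝ, x = L - (6931471 / 10000000) := ⟨_, rfl⟩
  obtain ⟨xu, hxu⟩ : ∃ x : ℝ, x = (433217 / 625000) - L := ⟨_, rfl⟩
  obtain ⟨yl, hyl⟩ : ∃ x : ℝ, x = h - (67 / 400) := ⟨_, rfl⟩
  obtain ⟨yu, hyu⟩ : ∃ x : ℝ, x = (117 / 500) - h := ⟨_, rfl⟩
  obtain ⟨A, hA⟩ : ∃ x : ℝ, x = J - (39 / 100) := ⟨_, rfl⟩
  obtain ⟨B, hB⟩ : ∃ x : ℝ, x = (39 / 50) - J := ⟨_, rfl⟩
  have hxl0 : 0 ≤ xl := by rw [hxl]; linarith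
  have hxu0 : 0 ≤ xu := by rw [hxu]; linarith
  have hyl0 : 0 ≤ yl := by rw [hyl]; linarith
  have hyu0 : 0 ≤ yu := by rw [hyu]; linarith
  have hA0 : 0 ≤ A := by rw [hA]; linarith
  have hB0 : 0 ≤ B := by rw [hB]; linarith
  have key : UX1_0_1 L h J =
      ((993762083807952896 / 36147515625) + (100438617620480 / 2313441) * xu + (418563720478720 / 2313441) * yu) * A ^ 0 * B ^ 4
      + ((73786048383287296 / 180737578125) + (1005867285610496 / 2313441) * xu + (871100531605504 / 2313441) * yu) * A ^ 1 * B ^ 3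
      + ((1024330928942219264 / 60245859375) + (412092479832064 / 771147) * xu + (393697071988736 / 771147) * yu) * A ^ 2 * B ^ 2
      + ((21203800580535222272 / 180737578125) + (220918706077696 / 2313441) * xl + (1500761917751296 / 2313441) * yu) * A ^ 3 * B ^ 1
      + ((12975611781646843904 / 180737578125) + (551767477583872 / 2313441) * xl + (772207512911872 / 2313441) * yu) * A ^ 4 * B ^ 0 := by
    simp only [hxl, hxu, hyl, hyu, hA, hB]
    unfold UX1_0_1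
    ring
  rw [key]
  positivity

noncomputable def UX1_0_2 (L h J : ℝ) : ℝ :=
  ((42451581952 / 15625) + (3079409664 / 125) * L + (-512562321408 / 15625) * h) * J ^ 0
    + (0 + (-1615219458048 / 15625) * L + (1615219458048 / 15625) * h) * J ^ 1
    + ((4441853509632 / 390625) + (2256666624 / 25) * L + (-2013855744 / 25) * h) * J ^ 2
    + ((-12411666432 / 625) + (97124352 / 5) * L + (-97124352 / 5) * h) * J ^ 3
    + ((-267091968 / 125) + 0 * L + 0 * h) * J ^ 4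

lemma UX1_0_2_nonneg {L h J : ℝ} (hL0 : (6931471 / 10000000) ≤ L) (hL1 : L ≤ (433217 / 625000)) (hh0 : (67 / 400) ≤ h) (hh1 : h ≤ (117 / 500)) (hJ0 : (39 / 100) ≤ J) (hJ1 : J ≤ (39 / 50)) :
    0 ≤ UX1_0_2 L h J := by
  obtain ⟨xl, hxl⟩ : ∃ x : ℝ, x = L - (6931471 / 10000000) := ⟨_, rfl⟩
  obtain ⟨xu, hxu⟩ : ∃ x : ℝ, x = (433217 / 625000) - L := ⟨_, rfl⟩
  obtain ⟨yl, hyl⟩ : ∃ x : ℝ, x = h - (67 / 400) := ⟨_, rfl⟩
  obtain ⟨yu, hyu⟩ : ∃ x : ℝ, x = (117 / 500) - h := ⟨_, rfl⟩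
  obtain ⟨A, hA⟩ : ∃ x : ℝ, x = J - (39 / 100) := ⟨_, rfl⟩
  obtain ⟨B, hB⟩ : ∃ x : ℝ, x = (39 / 50) - J := ⟨_, rfl⟩
  have hxl0 : 0 ≤ xl := by rw [hxl]; linarith
  have hxu0 : 0 ≤ xu := by rw [hxu]; linarith
  have hyl0 : 0 ≤ yl := by rw [hyl]; linarith
  have hyu0 : 0 ≤ yu := by rw [hyu]; linarith
  have hA0 : 0 ≤ A := by rw [hA]; linarith
  have hB0 : 0 ≤ B := by rw [hB]; linarith
  have key : UX1_0_2 L h J =
      ((10050536577394638848 / 180737578125) + (26625891106816 / 771147) * xu + (196422437699584 / 771147) * yu) * A ^ 0 * B ^ 4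
      + ((1951015455638093824 / 36147515625) + (419835782103040 / 771147) * xu + (373873440194560 / 771147) * yu) * A ^ 1 * B ^ 3
      + ((5632426105462718464 / 60245859375) + (175624539865088 / 257049) * xu + (155574009331712 / 257049) * yu) * A ^ 2 * B ^ 2
      + ((38116889980582903808 / 180737578125) + (137665338933248 / 771147) * xl + (635922282446848 / 771147) * yu) * A ^ 3 * B ^ 1
      + ((20537960788783259648 / 180737578125) + (271329067532288 / 771147) * xl + (346651256946688 / 771147) * yu) * A ^ 4 * B ^ 0 := by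
    simp only [hxl, hxu, hyl, hyu, hA, hB]
    unfold UX1_0_2
    ring
  rw [key]
  positivity

noncomputable def UX1_0_3 (L h J : ℝ) : ℝ :=
  ((22844831744 / 15625) + (2146967552 / 125) * L + (-330354700288 / 15625) * h) * J ^ 0
    + (0 + (-1044044972032 / 15625) * L + (1044044972032 / 15625) * h) * J ^ 1
    + ((2871123673088 / 390625) + (7271481344 / 125) * L + (-6479151104 / 125) * h) * J ^ 2
    + ((-39993147392 / 3125) + (316932096 / 25) * L + (-316932096 / 25) * h) * J ^ 3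
    + ((-871563264 / 625) + 0 * L + 0 * h) * J ^ 4

lemma UX1_0_3_nonneg {L h J : ℝ} (hL0 : (6931471 / 10000000) ≤ L) (hL1 : L ≤ (433217 / 625000)) (hh0 : (67 / 400) ≤ h) (hh1 : h ≤ (117 / 500)) (hJ0 : (39 / 100) ≤ J) (hJ1 : J ≤ (39 / 50)) :
    0 ≤ UX1_0_3 L h J := by
  obtain ⟨xl, hxl⟩ : ∃ x : ℝ, x = L - (6931471 / 10000000) := ⟨_, rfl⟩
  obtain ⟨xu, hxu⟩ : ∃ x : ℝ, x = (433217 / 625000) - L := ⟨_, rfl⟩
  obtain ⟨yl, hyl⟩ : ∃ x : ℝ, x = h - (67 / 400) := ⟨_, rfl⟩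
  obtain ⟨yu, hyu⟩ : ∃ x : ℝ, x = (117 / 500) - h := ⟨_, rfl⟩
  obtain ⟨A, hA⟩ : ∃ x : ℝ, x = J - (39 / 100) := ⟨_, rfl⟩
  obtain ⟨B, hB⟩ : ∃ x : ℝ, x = (39 / 50) - J := ⟨_, rfl⟩
  have hxl0 : 0 ≤ xl := by rw [hxl]; linarith
  have hxu0 : 0 ≤ xu := by rw [hxu]; linarith
  have hyl0 : 0 ≤ yl := by rw [hyl]; linarith
  have hyu0 : 0 ≤ yu := by rw [hyu]; linarith
  have hA0 : 0 ≤ A := by rw [hA]; linarith
  have hB0 : 0 ≤ B := by rw [hB]; linarith
  have key : UX1_0_3 L h J =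
      ((1228151520199155712 / 20081953125) + (71632021356544 / 2313441) * xl + (371917317996544 / 2313441) * yu) * A ^ 0 * B ^ 4
      + ((24497540774228000768 / 180737578125) + (324219324858368 / 2313441) * xu + (684100374495232 / 2313441) * yu) * A ^ 1 * B ^ 3
      + ((2546323994143883264 / 12049171875) + (97351704248320 / 771147) * xu + (278260487290880 / 771147) * yu) * A ^ 2 * B ^ 2
      + ((4763223685244223488 / 20081953125) + (750276214521856 / 2313441) * xl + (1180131452256256 / 2313441) * yu) * A ^ 3 * B ^ 1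
      + ((5955430608376446976 / 60245859375) + (646479981051904 / 2313441) * xl + (657533046882304 / 2313441) * yu) * A ^ 4 * B ^ 0 := by
    simp only [hxl, hxu, hyl, hyu, hA, hB]
    unfold UX1_0_3
    ring
  rw [key]
  positivity

noncomputable def UX1_0_4 (L h J : ℝ) : ℝ :=
  ((3695732352 / 15625) + (571512576 / 125) * L + (-78331107328 / 15625) * h) * J ^ 0
    + (0 + (-248723243008 / 15625) * L + (248723243008 / 15625) * h) * J ^ 1
    + ((683988918272 / 390625) + (1755185152 / 125) * L + (-1563492352 / 125) * h) * J ^ 2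
    + ((-9653518336 / 3125) + (15335424 / 5) * L + (-15335424 / 5) * h) * J ^ 3
    + ((-42172416 / 125) + 0 * L + 0 * h) * J ^ 4

lemma UX1_0_4_nonneg {L h J : ℝ} (hL0 : (6931471 / 10000000) ≤ L) (hL1 : L ≤ (433217 / 625000)) (hh0 : (67 / 400) ≤ h) (hh1 : h ≤ (117 / 500)) (hJ0 : (39 / 100) ≤ J) (hJ1 : J ≤ (39 / 50)) :
    0 ≤ UX1_0_4 L h J := by
  obtain ⟨xl, hxl⟩ : ∃ x : ℝ, x = L - (6931471 / 10000000) := ⟨_, rfl⟩
  obtain ⟨xu, hxu⟩ : ∃ x : ℝ, x = (433217 / 625000) - L := ⟨_, rfl⟩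
  obtain ⟨yl, hyl⟩ : ∃ x : ℝ, x = h - (67 / 400) := ⟨_, rfl⟩
  obtain ⟨yu, hyu⟩ : ∃ x : ℝ, x = (117 / 500) - h := ⟨_, rfl⟩
  obtain ⟨A, hA⟩ : ∃ x : ℝ, x = J - (39 / 100) := ⟨_, rfl⟩
  obtain ⟨B, hB⟩ : ∃ x : ℝ, x = (39 / 50) - J := ⟨_, rfl⟩
  have hxl0 : 0 ≤ xl := by rw [hxl]; linarith
  have hxu0 : 0 ≤ xu := by rw [hxu]; linarith
  have hyl0 : 0 ≤ yl := by rw [hyl]; linarith
  have hyu0 : 0 ≤ yu := by rw [hyu]; linarith
  have hA0 : 0 ≤ A := by rw [hA]; linarith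
  have hB0 : 0 ≤ B := by rw [hB]; linarith
  have key : UX1_0_4 L h J =
      ((1500348371705712128 / 60245859375) + (22720471957504 / 771147) * xl + (88945262067712 / 2313441) * yu) * A ^ 0 * B ^ 4
      + ((99929000090970112 / 1338796875) + (14839469834240 / 257049) * xl + (170040253480960 / 2313441) * yu) * A ^ 1 * B ^ 3
      + ((2325586760619449344 / 20081953125) + (9624038539264 / 85683) * xl + (73758619467776 / 771147) * yu) * A ^ 2 * B ^ 2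
      + ((6123539214831220736 / 60245859375) + (136623899803648 / 771147) * xl + (306405644959744 / 2313441) * yu) * A ^ 3 * B ^ 1
      + ((235878873090010624 / 6693984375) + (2659462610944 / 28561) * xl + (166224777969664 / 2313441) * yu) * A ^ 4 * B ^ 0 := by
    simp only [hxl, hxu, hyl, hyu, hA, hB]
    unfold UX1_0_4
    ring
  rw [key]
  positivity

lemma UX1_0_nonneg {L h d J : ℝ} (hL0 : (6931471 / 10000000) ≤ L) (hL1 : L ≤ (433217 / 625000)) (hh0 : (67 / 400) ≤ h) (hh1 : h ≤ (117 / 500)) (hd0 : 0 ≤ d) (hd1 : d ≤ (1 / 4)) (hJ0 : (39 / 100) ≤ J) (hJ1 : J ≤ (39 / 50)) :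
    0 ≤ UX1_0 L h d J := by
  have c0 := UX1_0_0_nonneg hL0 hL1 hh0 hh1 hJ0 hJ1
  have c1 := UX1_0_1_nonneg hL0 hL1 hh0 hh1 hJ0 hJ1
  have c2 := UX1_0_2_nonneg hL0 hL1 hh0 hh1 hJ0 hJ1
  have c3 := UX1_0_3_nonneg hL0 hL1 hh0 hh1 hJ0 hJ1
  have c4 := UX1_0_4_nonneg hL0 hL1 hh0 hh1 hJ0 hJ1
  have key : UX1_0 L h d J =
      (d - 0) ^ 0 * ((1 / 4) - d) ^ 4 * UX1_0_0 L h J
      + (d - 0) ^ 1 * ((1 / 4) - d) ^ 3 * UX1_0_1 L h J
      + (d - 0) ^ 2 * ((1 / 4) - d) ^ 2 * UX1_0_2 L h J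
      + (d - 0) ^ 3 * ((1 / 4) - d) ^ 1 * UX1_0_3 L h J
      + (d - 0) ^ 4 * ((1 / 4) - d) ^ 0 * UX1_0_4 L h J := by
    unfold UX1_0 UX1_0_0 UX1_0_1 UX1_0_2 UX1_0_3 UX1_0_4
    ring
  have hA : 0 ≤ d - 0 := by linarith
  have hB : 0 ≤ (1 / 4) - d := by linarith
  rw [key]
  positivity

noncomputable def UX1_1 (L h d J : ℝ) : ℝ :=
  ((32253144 / 3125) + (10751744 / 125) * L + (-1850180704 / 15625) * h) * d ^ 0 * J ^ 0
    + (0 + (-5593633632 / 15625) * L + (5593633632 / 15625) * h) * d ^ 0 * J ^ 1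
    + ((15382492488 / 390625) + (39089152 / 125) * L + (-35028992 / 125) * h) * d ^ 0 * J ^ 2
    + ((-214990336 / 3125) + (1624064 / 25) * L + (-1624064 / 25) * h) * d ^ 0 * J ^ 3
    + ((-4466176 / 625) + 0 * L + 0 * h) * d ^ 0 * J ^ 4
    + (0 + (-20524032 / 125) * L + (20524032 / 125) * h) * d ^ 1 * J ^ 2
    + ((112882176 / 3125) + 0 * L + 0 * h) * d ^ 1 * J ^ 3
    + ((-1314888944 / 15625) + (20518464 / 125) * L + (2858785504 / 15625) * h) * d ^ 2 * J ^ 0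
    + (0 + 499712 * L + (-499712) * h) * d ^ 2 * J ^ 1
    + ((-1374208 / 25) + 0 * L + (-812032 / 25) * h) * d ^ 2 * J ^ 2
    + (0 + (-1624064 / 25) * L + (1624064 / 25) * h) * d ^ 2 * J ^ 3
    + ((4466176 / 625) + 0 * L + 0 * h) * d ^ 2 * J ^ 4
    + ((58656 / 5) + (-117312 / 5) * L + 0 * h) * d ^ 4 * J ^ 0

noncomputable def UX1_1_0 (L h J : ℝ) : ℝ :=
  ((8256804864 / 3125) + (2752446464 / 125) * L + (-473646260224 / 15625) * h) * J ^ 0
    + (0 + (-1431970209792 / 15625) * L + (1431970209792 / 15625) * h) * J ^ 1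
    + ((3937918076928 / 390625) + (10006822912 / 125) * L + (-8967421952 / 125) * h) * J ^ 2
    + ((-55037526016 / 3125) + (415760384 / 25) * L + (-415760384 / 25) * h) * J ^ 3
    + ((-1143341056 / 625) + 0 * L + 0 * h) * J ^ 4

lemma UX1_1_0_nonneg {L h J : ℝ} (hL0 : (6931471 / 10000000) ≤ L) (hL1 : L ≤ (433217 / 625000)) (hh0 : (67 / 400) ≤ h) (hh1 : h ≤ (117 / 500)) (hJ0 : (39 / 100) ≤ J) (hJ1 : J ≤ (39 / 50)) :
    0 ≤ UX1_1_0 L h J := by
  obtain ⟨xl, hxl⟩ : ∃ x : ℝ, x = L - (6931471 / 10000000) := ⟨_, rfl⟩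
  obtain ⟨xu, hxu⟩ : ∃ x : ℝ, x = (433217 / 625000) - L := ⟨_, rfl⟩
  obtain ⟨yl, hyl⟩ : ∃ x : ℝ, x = h - (67 / 400) := ⟨_, rfl⟩
  obtain ⟨yu, hyu⟩ : ∃ x : ℝ, x = (117 / 500) - h := ⟨_, rfl⟩
  obtain ⟨A, hA⟩ : ∃ x : ℝ, x = J - (39 / 100) := ⟨_, rfl⟩
  obtain ⟨B, hB⟩ : ∃ x : ℝ, x = (39 / 50) - J := ⟨_, rfl⟩
  have hxl0 : 0 ≤ xl := by rw [hxl]; linarith
  have hxu0 : 0 ≤ xu := by rw [hxu]; linarith
  have hyl0 : 0 ≤ yl := by rw [hyl]; linarith
  have hyu0 : 0 ≤ yu := by rw [hyu]; linarith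
  have hA0 : 0 ≤ A := by rw [hA]; linarith
  have hB0 : 0 ≤ B := by rw [hB]; linarith
  have key : UX1_1_0 L h J =
      ((9271280560783065088 / 180737578125) + (55960299634688 / 2313441) * xu + (646944285786112 / 2313441) * yu) * A ^ 0 * B ^ 4
      + ((9620630760436006912 / 180737578125) + (1066828535693312 / 2313441) * xu + (1491841188364288 / 2313441) * yu) * A ^ 1 * B ^ 3
      + ((5116444979607928832 / 60245859375) + (450381238239232 / 771147) * xu + (660321212039168 / 771147) * yu) * A ^ 2 * B ^ 2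
      + ((32976103788296056832 / 180737578125) + (373006939979776 / 2313441) * xl + (2172830811160576 / 2313441) * yu) * A ^ 3 * B ^ 1
      + ((17645484881231323136 / 180737578125) + (713282418638848 / 2313441) * xl + (1036764077621248 / 2313441) * yu) * A ^ 4 * B ^ 0 := by
    simp only [hxl, hxu, hyl, hyu, hA, hB]
    unfold UX1_1_0
    ring
  rw [key]
  positivity

noncomputable def UX1_1_1 (L h J : ℝ) : ℝ :=
  ((33027219456 / 3125) + (11009785856 / 125) * L + (-1894585040896 / 15625) * h) * J ^ 0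
    + (0 + (-5727880839168 / 15625) * L + (5727880839168 / 15625) * h) * J ^ 1
    + ((15751672307712 / 390625) + (1548550144 / 5) * L + (-6911229952 / 25) * h) * J ^ 2
    + ((-8517025792 / 125) + (1663041536 / 25) * L + (-1663041536 / 25) * h) * J ^ 3
    + ((-4573364224 / 625) + 0 * L + 0 * h) * J ^ 4

lemma UX1_1_1_nonneg {L h J : ℝ} (hL0 : (6931471 / 10000000) ≤ L) (hL1 : L ≤ (433217 / 625000)) (hh0 : (67 / 400) ≤ h) (hh1 : h ≤ (117 / 500)) (hJ0 : (39 / 100) ≤ J) (hJ1 : J ≤ (39 / 50)) :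
    0 ≤ UX1_1_1 L h J := by
  obtain ⟨xl, hxl⟩ : ∃ x : ℝ, x = L - (6931471 / 10000000) := ⟨_, rfl⟩
  obtain ⟨xu, hxu⟩ : ∃ x : ℝ, x = (433217 / 625000) - L := ⟨_, rfl⟩
  obtain ⟨yl, hyl⟩ : ∃ x : ℝ, x = h - (67 / 400) := ⟨_, rfl⟩
  obtain ⟨yu, hyu⟩ : ∃ x : ℝ, x = (117 / 500) - h := ⟨_, rfl⟩
  obtain ⟨A, hA⟩ : ∃ x : ℝ, x = J - (39 / 100) := ⟨_, rfl⟩
  obtain ⟨B, hB⟩ : ∃ x : ℝ, x = (39 / 50) - J := ⟨_, rfl⟩
  have hxl0 : 0 ≤ xl := by rw [hxl]; linarith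
  have hxu0 : 0 ≤ xu := by rw [hxu]; linarith
  have hyl0 : 0 ≤ yl := by rw [hyl]; linarith
  have hyu0 : 0 ≤ yu := by rw [hyu]; linarith
  have hA0 : 0 ≤ A := by rw [hA]; linarith
  have hB0 : 0 ≤ B := by rw [hB]; linarith
  have key : UX1_1_1 L h J =
      ((32423202560194772992 / 180737578125) + (383672508219392 / 2313441) * xu + (2427945833463808 / 2313441) * yu) * A ^ 0 * B ^ 4
      + ((11582374191822143488 / 180737578125) + (5226302000857088 / 2313441) * xu + (5008376895373312 / 2313441) * yu) * A ^ 1 * B ^ 3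
      + ((2049743371874336768 / 60245859375) + (2494127294906368 / 771147) * xu + (1948682506207232 / 771147) * yu) * A ^ 2 * B ^ 2
      + ((84532344596025573376 / 180737578125) + (425947956248576 / 2313441) * xu + (6773347528474624 / 2313441) * yu) * A ^ 3 * B ^ 1
      + ((56219742778715930624 / 180737578125) + (2213804435832832 / 2313441) * xl + (3507731071762432 / 2313441) * yu) * A ^ 4 * B ^ 0 := by
    simp only [hxl, hxu, hyl, hyu, hA, hB]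
    unfold UX1_1_1
    ring
  rw [key]
  positivity

noncomputable def UX1_1_2 (L h J : ℝ) : ℝ :=
  ((226665922816 / 15625) + (16842974208 / 125) * L + (-559227398656 / 3125) * h) * J ^ 0
    + (0 + (-8466893258752 / 15625) * L + (8466893258752 / 15625) * h) * J ^ 1
    + ((23283956461568 / 390625) + (56100323328 / 125) * L + (-49928880128 / 125) * h) * J ^ 2
    + ((-308551778304 / 3125) + (493715456 / 5) * L + (-493715456 / 5) * h) * J ^ 3
    + ((-1357717504 / 125) + 0 * L + 0 * h) * J ^ 4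

lemma UX1_1_2_nonneg {L h J : ℝ} (hL0 : (6931471 / 10000000) ≤ L) (hL1 : L ≤ (433217 / 625000)) (hh0 : (67 / 400) ≤ h) (hh1 : h ≤ (117 / 500)) (hJ0 : (39 / 100) ≤ J) (hJ1 : J ≤ (39 / 50)) :
    0 ≤ UX1_1_2 L h J := by
  obtain ⟨xl, hxl⟩ : ∃ x : ℝ, x = L - (6931471 / 10000000) := ⟨_, rfl⟩
  obtain ⟨xu, hxu⟩ : ∃ x : ℝ, x = (433217 / 625000) - L := ⟨_, rfl⟩
  obtain ⟨yl, hyl⟩ : ∃ x : ℝ, x = h - (67 / 400) := ⟨_, rfl⟩
  obtain ⟨yu, hyu⟩ : ∃ x : ℝ, x = (117 / 500) - h := ⟨_, rfl⟩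
  obtain ⟨A, hA⟩ : ∃ x : ℝ, x = J - (39 / 100) := ⟨_, rfl⟩
  obtain ⟨B, hB⟩ : ∃ x : ℝ, x = (39 / 50) - J := ⟨_, rfl⟩
  have hxl0 : 0 ≤ xl := by rw [hxl]; linarith
  have hxu0 : 0 ≤ xu := by rw [hxu]; linarith
  have hyl0 : 0 ≤ yl := by rw [hyl]; linarith
  have hyu0 : 0 ≤ yu := by rw [hyu]; linarith
  have hA0 : 0 ≤ A := by rw [hA]; linarith
  have hB0 : 0 ≤ B := by rw [hB]; linarith
  have key : UX1_1_2 L h J =
      ((4653226761642450944 / 13902890625) + (3048947187712 / 28561) * xu + (3422991459811328 / 2313441) * yu) * A ^ 0 * B ^ 4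
      + ((933056523881365504 / 2780578125) + (2237149116497920 / 771147) * xu + (6466494961418240 / 2313441) * yu) * A ^ 1 * B ^ 3
      + ((1599960085769715712 / 4634296875) + (1118784882737152 / 257049) * xu + (2231361562476544 / 771147) * yu) * A ^ 2 * B ^ 2
      + ((11709192050827132928 / 13902890625) + (45101176324096 / 257049) * xu + (8266384472539136 / 2313441) * yu) * A ^ 3 * B ^ 1
      + ((88014629889448589312 / 180737578125) + (1066223576809472 / 771147) * xl + (4615803286716416 / 2313441) * yu) * A ^ 4 * B ^ 0 := by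
    simp only [hxl, hxu, hyl, hyu, hA, hB]
    unfold UX1_1_2
    ring
  rw [key]
  positivity

noncomputable def UX1_1_3 (L h J : ℝ) : ℝ :=
  ((123059651072 / 15625) + (11666376704 / 125) * L + (-1803103904768 / 15625) * h) * J ^ 0
    + (0 + (-5478024839168 / 15625) * L + (5478024839168 / 15625) * h) * J ^ 1
    + ((15064568307712 / 390625) + (36086677504 / 125) * L + (-32058998784 / 125) * h) * J ^ 2
    + ((-198476726272 / 3125) + (1611071488 / 25) * L + (-1611071488 / 25) * h) * J ^ 3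
    + ((-4430446592 / 625) + 0 * L + 0 * h) * J ^ 4

lemma UX1_1_3_nonneg {L h J : ℝ} (hL0 : (6931471 / 10000000) ≤ L) (hL1 : L ≤ (433217 / 625000)) (hh0 : (67 / 400) ≤ h) (hh1 : h ≤ (117 / 500)) (hJ0 : (39 / 100) ≤ J) (hJ1 : J ≤ (39 / 50)) :
    0 ≤ UX1_1_3 L h J := by
  obtain ⟨xl, hxl⟩ : ∃ x : ℝ, x = L - (6931471 / 10000000) := ⟨_, rfl⟩
  obtain ⟨xu, hxu⟩ : ∃ x : ℝ, x = (433217 / 625000) - L := ⟨_, rfl⟩
  obtain ⟨yl, hyl⟩ : ∃ x : ℝ, x = h - (67 / 400) := ⟨_, rfl⟩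
  obtain ⟨yu, hyu⟩ : ∃ x : ℝ, x = (117 / 500) - h := ⟨_, rfl⟩
  obtain ⟨A, hA⟩ : ∃ x : ℝ, x = J - (39 / 100) := ⟨_, rfl⟩
  obtain ⟨B, hB⟩ : ∃ x : ℝ, x = (39 / 50) - J := ⟨_, rfl⟩
  have hxl0 : 0 ≤ xl := by rw [hxl]; linarith
  have hxu0 : 0 ≤ xu := by rw [hxu]; linarith
  have hyl0 : 0 ≤ yl := by rw [hyl]; linarith
  have hyu0 : 0 ≤ yu := by rw [hyu]; linarith
  have hA0 : 0 ≤ A := by rw [hA]; linarith
  have hB0 : 0 ≤ B := by rw [hB]; linarith
  have key : UX1_1_3 L h J =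
      ((1351097932900231168 / 4016390625) + (433246881710080 / 2313441) * xl + (2149922562375680 / 2313441) * yu) * A ^ 0 * B ^ 4
      + ((125032748570855112704 / 180737578125) + (2011302839189504 / 2313441) * xu + (3875223990173696 / 2313441) * yu) * A ^ 1 * B ^ 3
      + ((55915512032821313536 / 60245859375) + (1031852364660736 / 771147) * xu + (1257960454488064 / 771147) * yu) * A ^ 2 * B ^ 2
      + ((20305152338423406592 / 20081953125) + (1958050454831104 / 2313441) * xl + (4904049604296704 / 2313441) * yu) * A ^ 3 * B ^ 1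
      + ((25983990322558226432 / 60245859375) + (2609057827913728 / 2313441) * xl + (2855469668630528 / 2313441) * yu) * A ^ 4 * B ^ 0 := by
    simp only [hxl, hxu, hyl, hyu, hA, hB]
    unfold UX1_1_3
    ring
  rw [key]
  positivity

noncomputable def UX1_1_4 (L h J : ℝ) : ℝ :=
  ((20429101216 / 15625) + (3077809088 / 125) * L + (-85581138432 / 3125) * h) * J ^ 0
    + (0 + (-1307042209792 / 15625) * L + (1307042209792 / 15625) * h) * J ^ 1
    + ((3594366076928 / 390625) + (8693284864 / 125) * L + (-7718846464 / 125) * h) * J ^ 2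
    + ((-47813066752 / 3125) + (77955072 / 5) * L + (-77955072 / 5) * h) * J ^ 3
    + ((-214376448 / 125) + 0 * L + 0 * h) * J ^ 4

lemma UX1_1_4_nonneg {L h J : ℝ} (hL0 : (6931471 / 10000000) ≤ L) (hL1 : L ≤ (433217 / 625000)) (hh0 : (67 / 400) ≤ h) (hh1 : h ≤ (117 / 500)) (hJ0 : (39 / 100) ≤ J) (hJ1 : J ≤ (39 / 50)) :
    0 ≤ UX1_1_4 L h J := by
  obtain ⟨xl, hxl⟩ : ∃ x : ℝ, x = L - (6931471 / 10000000) := ⟨_, rfl⟩
  obtain ⟨xu, hxu⟩ : ∃ x : ℝ, x = (433217 / 625000) - L := ⟨_, rfl⟩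
  obtain ⟨yl, hyl⟩ : ∃ x : ℝ, x = h - (67 / 400) := ⟨_, rfl⟩
  obtain ⟨yu, hyu⟩ : ∃ x : ℝ, x = (117 / 500) - h := ⟨_, rfl⟩
  obtain ⟨A, hA⟩ : ∃ x : ℝ, x = J - (39 / 100) := ⟨_, rfl⟩
  obtain ⟨B, hB⟩ : ∃ x : ℝ, x = (39 / 50) - J := ⟨_, rfl⟩
  have hxl0 : 0 ≤ xl := by rw [hxl]; linarith
  have hxu0 : 0 ≤ xu := by rw [hxu]; linarith
  have hyl0 : 0 ≤ yl := by rw [hyl]; linarith
  have hyu0 : 0 ≤ yu := by rw [hyu]; linarith
  have hA0 : 0 ≤ A := by rw [hA]; linarith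
  have hB0 : 0 ≤ B := by rw [hB]; linarith
  have key : UX1_1_4 L h J =
      ((23423977845979985536 / 180737578125) + (350153155330048 / 2313441) * xl + (169310883414016 / 771147) * yu) * A ^ 0 * B ^ 4
      + ((13240839654447990272 / 36147515625) + (531286085140480 / 2313441) * xl + (102807192862720 / 257049) * yu) * A ^ 1 * B ^ 3
      + ((31978519389813394688 / 60245859375) + (276063746883584 / 771147) * xl + (34995576242176 / 85683) * yu) * A ^ 2 * B ^ 2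
      + ((81941499895609395712 / 180737578125) + (1555621185519616 / 2313441) * xl + (412727283023872 / 771147) * yu) * A ^ 3 * B ^ 1
      + ((28476195112280697472 / 180737578125) + (908562874679296 / 2313441) * xl + (78959264006144 / 257049) * yu) * A ^ 4 * B ^ 0 := by
    simp only [hxl, hxu, hyl, hyu, hA, hB]
    unfold UX1_1_4
    ring
  rw [key]
  positivity

lemma UX1_1_nonneg {L h d J : ℝ} (hL0 : (6931471 / 10000000) ≤ L) (hL1 : L ≤ (433217 / 625000)) (hh0 : (67 / 400) ≤ h) (hh1 : h ≤ (117 / 500)) (hd0 : 0 ≤ d) (hd1 : d ≤ (1 / 4)) (hJ0 : (39 / 100) ≤ J) (hJ1 : J ≤ (39 / 50)) :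
    0 ≤ UX1_1 L h d J := by
  have c0 := UX1_1_0_nonneg hL0 hL1 hh0 hh1 hJ0 hJ1
  have c1 := UX1_1_1_nonneg hL0 hL1 hh0 hh1 hJ0 hJ1
  have c2 := UX1_1_2_nonneg hL0 hL1 hh0 hh1 hJ0 hJ1
  have c3 := UX1_1_3_nonneg hL0 hL1 hh0 hh1 hJ0 hJ1
  have c4 := UX1_1_4_nonneg hL0 hL1 hh0 hh1 hJ0 hJ1
  have key : UX1_1 L h d J =
      (d - 0) ^ 0 * ((1 / 4) - d) ^ 4 * UX1_1_0 L h J
      + (d - 0) ^ 1 * ((1 / 4) - d) ^ 3 * UX1_1_1 L h J
      + (d - 0) ^ 2 * ((1 / 4) - d) ^ 2 * UX1_1_2 L h J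
      + (d - 0) ^ 3 * ((1 / 4) - d) ^ 1 * UX1_1_3 L h J
      + (d - 0) ^ 4 * ((1 / 4) - d) ^ 0 * UX1_1_4 L h J := by
    unfold UX1_1 UX1_1_0 UX1_1_1 UX1_1_2 UX1_1_3 UX1_1_4
    ring
  have hA : 0 ≤ d - 0 := by linarith
  have hB : 0 ≤ (1 / 4) - d := by linarith
  rw [key]
  positivity

noncomputable def UX1_2 (L h d J : ℝ) : ℝ :=
  ((68133252 / 3125) + (23529152 / 125) * L + (-804061892 / 3125) * h) * d ^ 0 * J ^ 0
    + (0 + (-467842376 / 625) * L + (467842376 / 625) * h) * d ^ 0 * J ^ 1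
    + ((1286566534 / 15625) + (78000128 / 125) * L + (-69746688 / 125) * h) * d ^ 0 * J ^ 2
    + ((-429000704 / 3125) + (3301376 / 25) * L + (-3301376 / 25) * h) * d ^ 0 * J ^ 3
    + ((-9078784 / 625) + 0 * L + 0 * h) * d ^ 0 * J ^ 4
    + (0 + (-42906752 / 125) * L + (42906752 / 125) * h) * d ^ 1 * J ^ 2
    + ((235987136 / 3125) + 0 * L + 0 * h) * d ^ 1 * J ^ 3
    + ((-2706382268 / 15625) + (37953824 / 125) * L + (6112778088 / 15625) * h) * d ^ 2 * J ^ 0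
    + (0 + 1015808 * L + (-1015808) * h) * d ^ 2 * J ^ 1
    + ((-2793472 / 25) + 0 * L + (-1650688 / 25) * h) * d ^ 2 * J ^ 2
    + (0 + (-3301376 / 25) * L + (3301376 / 25) * h) * d ^ 2 * J ^ 3
    + ((9078784 / 625) + 0 * L + 0 * h) * d ^ 2 * J ^ 4
    + (28048 + (-56096) * L + 0 * h) * d ^ 4 * J ^ 0

noncomputable def UX1_2_0 (L h J : ℝ) : ℝ :=
  ((17442112512 / 3125) + (6023462912 / 125) * L + (-205839844352 / 3125) * h) * J ^ 0
    + (0 + (-119767648256 / 625) * L + (119767648256 / 625) * h) * J ^ 1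
    + ((329361032704 / 15625) + (19968032768 / 125) * L + (-17855152128 / 125) * h) * J ^ 2
    + ((-109824180224 / 3125) + (845152256 / 25) * L + (-845152256 / 25) * h) * J ^ 3
    + ((-2324168704 / 625) + 0 * L + 0 * h) * J ^ 4

lemma UX1_2_0_nonneg {L h J : ℝ} (hL0 : (6931471 / 10000000) ≤ L) (hL1 : L ≤ (433217 / 625000)) (hh0 : (67 / 400) ≤ h) (hh1 : h ≤ (117 / 500)) (hJ0 : (39 / 100) ≤ J) (hJ1 : J ≤ (39 / 50)) :
    0 ≤ UX1_2_0 L h J := by
  obtain ⟨xl, hxl⟩ : ∃ x : ℝ, x = L - (6931471 / 10000000) := ⟨_, rfl⟩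
  obtain ⟨xu, hxu⟩ : ∃ x : ℝ, x = (433217 / 625000) - L := ⟨_, rfl⟩
  obtain ⟨yl, hyl⟩ : ∃ x : ℝ, x = h - (67 / 400) := ⟨_, rfl⟩
  obtain ⟨yu, hyu⟩ : ∃ x : ℝ, x = (117 / 500) - h := ⟨_, rfl⟩
  obtain ⟨A, hA⟩ : ∃ x : ℝ, x = J - (39 / 100) := ⟨_, rfl⟩
  obtain ⟨B, hB⟩ : ∃ x : ℝ, x = (39 / 50) - J := ⟨_, rfl⟩
  have hxl0 : 0 ≤ xl := by rw [hxl]; linarith
  have hxu0 : 0 ≤ xu := by rw [hxu]; linarith
  have hyl0 : 0 ≤ yl := by rw [hyl]; linarith
  have hyu0 : 0 ≤ yu := by rw [hyu]; linarith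
  have hA0 : 0 ≤ A := by rw [hA]; linarith
  have hB0 : 0 ≤ B := by rw [hB]; linarith
  have key : UX1_2_0 L h J =
      ((23192946230303432704 / 180737578125) + (24486347669504 / 2313441) * xu + (1486523025719296 / 2313441) * yu) * A ^ 0 * B ^ 4
      + ((28529939761334714368 / 180737578125) + (2110423147347968 / 2313441) * xu + (3419423713656832 / 2313441) * yu) * A ^ 1 * B ^ 3
      + ((10674452336187367424 / 60245859375) + (1051012696244224 / 771147) * xu + (1371116979224576 / 771147) * yu) * A ^ 2 * B ^ 2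
      + ((2377878247495279616 / 7229503125) + (127782220595200 / 2313441) * xl + (4115057183948800 / 2313441) * yu) * A ^ 3 * B ^ 1
      + ((32088480976778541056 / 180737578125) + (1194883509649408 / 2313441) * xl + (1934606934212608 / 2313441) * yu) * A ^ 4 * B ^ 0 := by
    simp only [hxl, hxu, hyl, hyu, hA, hB]
    unfold UX1_2_0
    ring
  rw [key]
  positivity

noncomputable def UX1_2_1 (L h J : ℝ) : ℝ :=
  ((69768450048 / 3125) + (24093851648 / 125) * L + (-823359377408 / 3125) * h) * J ^ 0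
    + (0 + (-479070593024 / 625) * L + (479070593024 / 625) * h) * J ^ 1
    + ((1317444130816 / 15625) + (77126098944 / 125) * L + (-68674576384 / 125) * h) * J ^ 2
    + ((-424193544192 / 3125) + (3380609024 / 25) * L + (-3380609024 / 25) * h) * J ^ 3
    + ((-9296674816 / 625) + 0 * L + 0 * h) * J ^ 4

lemma UX1_2_1_nonneg {L h J : ℝ} (hL0 : (6931471 / 10000000) ≤ L) (hL1 : L ≤ (433217 / 625000)) (hh0 : (67 / 400) ≤ h) (hh1 : h ≤ (117 / 500)) (hJ0 : (39 / 100) ≤ J) (hJ1 : J ≤ (39 / 50)) :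
    0 ≤ UX1_2_1 L h J := by
  obtain ⟨xl, hxl⟩ : ∃ x : ℝ, x = L - (6931471 / 10000000) := ⟨_, rfl⟩
  obtain ⟨xu, hxu⟩ : ∃ x : ℝ, x = (433217 / 625000) - L := ⟨_, rfl⟩
  obtain ⟨yl, hyl⟩ : ∃ x : ℝ, x = h - (67 / 400) := ⟨_, rfl⟩
  obtain ⟨yu, hyu⟩ : ∃ x : ℝ, x = (117 / 500) - h := ⟨_, rfl⟩
  obtain ⟨A, hA⟩ : ∃ x : ℝ, x = J - (39 / 100) := ⟨_, rfl⟩
  obtain ⟨B, hB⟩ : ∃ x : ℝ, x = (39 / 50) - J := ⟨_, rfl⟩
  have hxl0 : 0 ≤ xl := by rw [hxl]; linarith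
  have hxu0 : 0 ≤ xu := by rw [hxu]; linarith
  have hyl0 : 0 ≤ yl := by rw [hyl]; linarith
  have hyu0 : 0 ≤ yu := by rw [hyu]; linarith
  have hA0 : 0 ≤ A := by rw [hA]; linarith
  have hB0 : 0 ≤ B := by rw [hB]; linarith
  have key : UX1_2_1 L h J =
      ((83025754916986617856 / 180737578125) + (432082580013056 / 2313441) * xu + (5611954913542144 / 2313441) * yu) * A ^ 0 * B ^ 4
      + ((57883342367237619712 / 180737578125) + (10446515725402112 / 2313441) * xu + (11672871718617088 / 2313441) * yu) * A ^ 1 * B ^ 3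
      + ((4197951571867713536 / 60245859375) + (5651978605428736 / 771147) * xu + (4036540096446464 / 771147) * yu) * A ^ 2 * B ^ 2
      + ((27750715094017703936 / 36147515625) + (3498517389639680 / 2313441) * xu + (12450582463774720 / 2313441) * yu) * A ^ 3 * B ^ 1
      + ((98328867721038639104 / 180737578125) + (3442985281257472 / 2313441) * xl + (6401878979510272 / 2313441) * yu) * A ^ 4 * B ^ 0 := by
    simp only [hxl, hxu, hyl, hyu, hA, hB]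
    unfold UX1_2_1
    ring
  rw [key]
  positivity

noncomputable def UX1_2_2 (L h J : ℝ) : ℝ :=
  ((479961259072 / 15625) + (36748038656 / 125) * L + (-6077390881152 / 15625) * h) * J ^ 0
    + (0 + (-708447809536 / 625) * L + (708447809536 / 625) * h) * J ^ 1
    + ((1948231476224 / 15625) + (111570100224 / 125) * L + (-99024871424 / 125) * h) * J ^ 2
    + ((-613635551232 / 3125) + (1003618304 / 5) * L + (-1003618304 / 5) * h) * J ^ 3
    + ((-2759950336 / 125) + 0 * L + 0 * h) * J ^ 4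

lemma UX1_2_2_nonneg {L h J : ℝ} (hL0 : (6931471 / 10000000) ≤ L) (hL1 : L ≤ (433217 / 625000)) (hh0 : (67 / 400) ≤ h) (hh1 : h ≤ (117 / 500)) (hJ0 : (39 / 100) ≤ J) (hJ1 : J ≤ (39 / 50)) :
    0 ≤ UX1_2_2 L h J := by
  obtain ⟨xl, hxl⟩ : ∃ x : ℝ, x = L - (6931471 / 10000000) := ⟨_, rfl⟩
  obtain ⟨xu, hxu⟩ : ∃ x : ℝ, x = (433217 / 625000) - L := ⟨_, rfl⟩
  obtain ⟨yl, hyl⟩ : ∃ x : ℝ, x = h - (67 / 400) := ⟨_, rfl⟩
  obtain ⟨yu, hyu⟩ : ∃ x : ℝ, x = (117 / 500) - h := ⟨_, rfl⟩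
  obtain ⟨A, hA⟩ : ∃ x : ℝ, x = J - (39 / 100) := ⟨_, rfl⟩
  obtain ⟨B, hB⟩ : ∃ x : ℝ, x = (39 / 50) - J := ⟨_, rfl⟩
  have hxl0 : 0 ≤ xl := by rw [hxl]; linarith
  have hxu0 : 0 ≤ xu := by rw [hxu]; linarith
  have hyl0 : 0 ≤ yl := by rw [hyl]; linarith
  have hyu0 : 0 ≤ yu := by rw [hyu]; linarith
  have hA0 : 0 ≤ A := by rw [hA]; linarith
  have hB0 : 0 ≤ B := by rw [hB]; linarith
  have key : UX1_2_2 L h J =
      ((3242905232346963968 / 4016390625) + (42189911490560 / 2313441) * xu + (880908595855360 / 257049) * yu) * A ^ 0 * B ^ 4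
      + ((10882342955360567296 / 12049171875) + (13652185319997440 / 2313441) * xu + (5058758965329920 / 771147) * yu) * A ^ 1 * B ^ 3
      + ((802621489513054208 / 1338796875) + (7851849548431360 / 771147) * xu + (503004848783360 / 85683) * yu) * A ^ 2 * B ^ 2
      + ((5477171292744122368 / 4016390625) + (5132628293058560 / 2313441) * xu + (1615201475624960 / 257049) * yu) * A ^ 3 * B ^ 1
      + ((30286512889450167296 / 36147515625) + (4812924943728640 / 2313441) * xl + (2734593965588480 / 771147) * yu) * A ^ 4 * B ^ 0 := by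
    simp only [hxl, hxu, hyl, hyu, hA, hB]
    unfold UX1_2_2
    ring
  rw [key]
  positivity

noncomputable def UX1_2_3 (L h J : ℝ) : ℝ :=
  ((262238017664 / 15625) + (25308374016 / 125) * L + (-3921187988224 / 15625) * h) * J ^ 0
    + (0 + (-458754433024 / 625) * L + (458754433024 / 625) * h) * J ^ 1
    + ((1261574690816 / 15625) + (71634034688 / 125) * L + (-63446622208 / 125) * h) * J ^ 2
    + ((-393987190784 / 3125) + (3274964992 / 25) * L + (-3274964992 / 25) * h) * J ^ 3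
    + ((-9006153728 / 625) + 0 * L + 0 * h) * J ^ 4

lemma UX1_2_3_nonneg {L h J : ℝ} (hL0 : (6931471 / 10000000) ≤ L) (hL1 : L ≤ (433217 / 625000)) (hh0 : (67 / 400) ≤ h) (hh1 : h ≤ (117 / 500)) (hJ0 : (39 / 100) ≤ J) (hJ1 : J ≤ (39 / 50)) :
    0 ≤ UX1_2_3 L h J := by
  obtain ⟨xl, hxl⟩ : ∃ x : ℝ, x = L - (6931471 / 10000000) := ⟨_, rfl⟩
  obtain ⟨xu, hxu⟩ : ∃ x : ℝ, x = (433217 / 625000) - L := ⟨_, rfl⟩
  obtain ⟨yl, hyl⟩ : ∃ x : ℝ, x = h - (67 / 400) := ⟨_, rfl⟩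
  obtain ⟨yu, hyu⟩ : ∃ x : ℝ, x = (117 / 500) - h := ⟨_, rfl⟩
  obtain ⟨A, hA⟩ : ∃ x : ℝ, x = J - (39 / 100) := ⟨_, rfl⟩
  obtain ⟨B, hB⟩ : ∃ x : ℝ, x = (39 / 50) - J := ⟨_, rfl⟩
  have hxl0 : 0 ≤ xl := by rw [hxl]; linarith
  have hxu0 : 0 ≤ xu := by rw [hxu]; linarith
  have hyl0 : 0 ≤ yl := by rw [hyl]; linarith
  have hyu0 : 0 ≤ yu := by rw [hyu]; linarith
  have hA0 : 0 ≤ A := by rw [hA]; linarith
  have hB0 : 0 ≤ B := by rw [hB]; linarith
  have key : UX1_2_3 L h J =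
      ((135555982378960897024 / 180737578125) + (371307508793344 / 771147) * xl + (382044775972864 / 177957) * yu) * A ^ 0 * B ^ 4
      + ((266940020604443017216 / 180737578125) + (489612894797824 / 257049) * xu + (693202576211968 / 177957) * yu) * A ^ 1 * B ^ 3
      + ((102339888685321207808 / 60245859375) + (983938021851136 / 257049) * xu + (186841146589184 / 59319) * yu) * A ^ 2 * B ^ 2
      + ((62894502577409835008 / 36147515625) + (247141488394240 / 771147) * xl + (629392915824640 / 177957) * yu) * A ^ 3 * B ^ 1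
      + ((136232449638499919872 / 180737578125) + (452936453586944 / 257049) * xl + (380027276296192 / 177957) * yu) * A ^ 4 * B ^ 0 := by
    simp only [hxl, hxu, hyl, hyu, hA, hB]
    unfold UX1_2_3
    ring
  rw [key]
  positivity

noncomputable def UX1_2_4 (L h J : ℝ) : ℝ :=
  ((44346696272 / 15625) + (6623712096 / 125) * L + (-931394772352 / 15625) * h) * J ^ 0
    + (0 + (-109609568256 / 625) * L + (109609568256 / 625) * h) * J ^ 1
    + ((301426312704 / 15625) + (3444400128 / 25) * L + (-3048235008 / 25) * h) * J ^ 2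
    + ((-18944200704 / 625) + (158466048 / 5) * L + (-158466048 / 5) * h) * J ^ 3
    + ((-435781632 / 125) + 0 * L + 0 * h) * J ^ 4

lemma UX1_2_4_nonneg {L h J : ℝ} (hL0 : (6931471 / 10000000) ≤ L) (hL1 : L ≤ (433217 / 625000)) (hh0 : (67 / 400) ≤ h) (hh1 : h ≤ (117 / 500)) (hJ0 : (39 / 100) ≤ J) (hJ1 : J ≤ (39 / 50)) :
    0 ≤ UX1_2_4 L h J := by
  obtain ⟨xl, hxl⟩ : ∃ x : ℝ, x = L - (6931471 / 10000000) := ⟨_, rfl⟩
  obtain ⟨xu, hxu⟩ : ∃ x : ℝ, x = (433217 / 625000) - L := ⟨_, rfl⟩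
  obtain ⟨yl, hyl⟩ : ∃ x : ℝ, x = h - (67 / 400) := ⟨_, rfl⟩
  obtain ⟨yu, hyu⟩ : ∃ x : ℝ, x = (117 / 500) - h := ⟨_, rfl⟩
  obtain ⟨A, hA⟩ : ∃ x : ℝ, x = J - (39 / 100) := ⟨_, rfl⟩
  obtain ⟨B, hB⟩ : ∃ x : ℝ, x = (39 / 50) - J := ⟨_, rfl⟩
  have hxl0 : 0 ≤ xl := by rw [hxl]; linarith
  have hxu0 : 0 ≤ xu := by rw [hxu]; linarith
  have hyl0 : 0 ≤ yl := by rw [hyl]; linarith
  have hyu0 : 0 ≤ yu := by rw [hyu]; linarith
  have hA0 : 0 ≤ A := by rw [hA]; linarith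
  have hB0 : 0 ≤ B := by rw [hB]; linarith
  have key : UX1_2_4 L h J =
      ((9874682349638517056 / 36147515625) + (247635535175680 / 771147) * xl + (1163836612771840 / 2313441) * yu) * A ^ 0 * B ^ 4
      + ((26543936981513906432 / 36147515625) + (295712762920960 / 771147) * xl + (2088804599726080 / 2313441) * yu) * A ^ 1 * B ^ 3
      + ((11915225024656614016 / 12049171875) + (95950124564480 / 257049) * xl + (567314383831040 / 771147) * yu) * A ^ 2 * B ^ 2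
      + ((5878712974539150592 / 7229503125) + (741771582668800 / 771147) * xl + (1980819904921600 / 2313441) * yu) * A ^ 3 * B ^ 1
      + ((10191125043786836288 / 36147515625) + (501998436720640 / 771147) * xl + (1203844740382720 / 2313441) * yu) * A ^ 4 * B ^ 0 := by
    simp only [hxl, hxu, hyl, hyu, hA, hB]
    unfold UX1_2_4
    ring
  rw [key]
  positivity

lemma UX1_2_nonneg {L h d J : ℝ} (hL0 : (6931471 / 10000000) ≤ L) (hL1 : L ≤ (433217 / 625000)) (hh0 : (67 / 400) ≤ h) (hh1 : h ≤ (117 / 500)) (hd0 : 0 ≤ d) (hd1 : d ≤ (1 / 4)) (hJ0 : (39 / 100) ≤ J) (hJ1 : J ≤ (39 / 50)) :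
    0 ≤ UX1_2 L h d J := by
  have c0 := UX1_2_0_nonneg hL0 hL1 hh0 hh1 hJ0 hJ1
  have c1 := UX1_2_1_nonneg hL0 hL1 hh0 hh1 hJ0 hJ1
  have c2 := UX1_2_2_nonneg hL0 hL1 hh0 hh1 hJ0 hJ1
  have c3 := UX1_2_3_nonneg hL0 hL1 hh0 hh1 hJ0 hJ1
  have c4 := UX1_2_4_nonneg hL0 hL1 hh0 hh1 hJ0 hJ1
  have key : UX1_2 L h d J =
      (d - 0) ^ 0 * ((1 / 4) - d) ^ 4 * UX1_2_0 L h J
      + (d - 0) ^ 1 * ((1 / 4) - d) ^ 3 * UX1_2_1 L h J
      + (d - 0) ^ 2 * ((1 / 4) - d) ^ 2 * UX1_2_2 L h J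
      + (d - 0) ^ 3 * ((1 / 4) - d) ^ 1 * UX1_2_3 L h J
      + (d - 0) ^ 4 * ((1 / 4) - d) ^ 0 * UX1_2_4 L h J := by
    unfold UX1_2 UX1_2_0 UX1_2_1 UX1_2_2 UX1_2_3 UX1_2_4
    ring
  have hA : 0 ≤ d - 0 := by linarith
  have hB : 0 ≤ (1 / 4) - d := by linarith
  rw [key]
  positivity

noncomputable def UX1_3 (L h d J : ℝ) : ℝ :=
  ((14272269 / 625) + (5132944 / 25) * L + (-4350635737 / 15625) * h) * d ^ 0 * J ^ 0
    + (0 + (-12202143226 / 15625) * L + (12202143226 / 15625) * h) * d ^ 0 * J ^ 1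
    + ((67111787743 / 781250) + (77821952 / 125) * L + (-69435392 / 125) * h) * d ^ 0 * J ^ 2
    + ((-428020736 / 3125) + (3354624 / 25) * L + (-3354624 / 25) * h) * d ^ 0 * J ^ 3
    + ((-9225216 / 625) + 0 * L + 0 * h) * d ^ 0 * J ^ 4
    + (0 + (-44754304 / 125) * L + (44754304 / 125) * h) * d ^ 1 * J ^ 2
    + ((246148672 / 3125) + 0 * L + 0 * h) * d ^ 1 * J ^ 3
    + ((-2787362201 / 15625) + (34857512 / 125) * L + (6503742566 / 15625) * h) * d ^ 2 * J ^ 0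
    + (0 + 1032192 * L + (-1032192) * h) * d ^ 2 * J ^ 1
    + ((-2838528 / 25) + 0 * L + (-1677312 / 25) * h) * d ^ 2 * J ^ 2
    + (0 + (-3354624 / 25) * L + (3354624 / 25) * h) * d ^ 2 * J ^ 3
    + ((9225216 / 625) + 0 * L + 0 * h) * d ^ 2 * J ^ 4
    + (33460 + (-66920) * L + 0 * h) * d ^ 4 * J ^ 0

noncomputable def UX1_3_0 (L h J : ℝ) : ℝ :=
  ((3653700864 / 625) + (1314033664 / 25) * L + (-1113762748672 / 15625) * h) * J ^ 0
    + (0 + (-3123748665856 / 15625) * L + (3123748665856 / 15625) * h) * J ^ 1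
    + ((8590308831104 / 390625) + (19922419712 / 125) * L + (-17775460352 / 125) * h) * J ^ 2
    + ((-109573308416 / 3125) + (858783744 / 25) * L + (-858783744 / 25) * h) * J ^ 3
    + ((-2361655296 / 625) + 0 * L + 0 * h) * J ^ 4

lemma UX1_3_0_nonneg {L h J : ℝ} (hL0 : (6931471 / 10000000) ≤ L) (hL1 : L ≤ (433217 / 625000)) (hh0 : (67 / 400) ≤ h) (hh1 : h ≤ (117 / 500)) (hJ0 : (39 / 100) ≤ J) (hJ1 : J ≤ (39 / 50)) :
    0 ≤ UX1_3_0 L h J := by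
  obtain ⟨xl, hxl⟩ : ∃ x : ℝ, x = L - (6931471 / 10000000) := ⟨_, rfl⟩
  obtain ⟨xu, hxu⟩ : ∃ x : ℝ, x = (433217 / 625000) - L := ⟨_, rfl⟩
  obtain ⟨yl, hyl⟩ : ∃ x : ℝ, x = h - (67 / 400) := ⟨_, rfl⟩
  obtain ⟨yu, hyu⟩ : ∃ x : ℝ, x = (117 / 500) - h := ⟨_, rfl⟩
  obtain ⟨A, hA⟩ : ∃ x : ℝ, x = J - (39 / 100) := ⟨_, rfl⟩
  obtain ⟨B, hB⟩ : ∃ x : ℝ, x = (39 / 50) - J := ⟨_, rfl⟩
  have hxl0 : 0 ≤ xl := by rw [hxl]; linarith
  have hxu0 : 0 ≤ xu := by rw [hxu]; linarith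
  have hyl0 : 0 ≤ yl := by rw [hyl]; linarith
  have hyu0 : 0 ≤ yu := by rw [hyu]; linarith
  have hA0 : 0 ≤ A := by rw [hA]; linarith
  have hB0 : 0 ≤ B := by rw [hB]; linarith
  have key : UX1_3_0 L h J =
      ((28552355157190013696 / 180737578125) + (87186788220928 / 2313441) * xl + (1697891708796928 / 2313441) * yu) * A ^ 0 * B ^ 4
      + ((40705192105546842112 / 180737578125) + (1988503141056512 / 2313441) * xu + (3931832511397888 / 2313441) * yu) * A ^ 1 * B ^ 3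
      + ((12582606474972821504 / 60245859375) + (1151054602338304 / 771147) * xu + (1460790537322496 / 771147) * yu) * A ^ 2 * B ^ 2
      + ((55917627223355256832 / 180737578125) + (388302266335232 / 2313441) * xu + (3964581296570368 / 2313441) * yu) * A ^ 3 * B ^ 1
      + ((5927938512807886336 / 36147515625) + (989171611402240 / 2313441) * xl + (1816150487203840 / 2313441) * yu) * A ^ 4 * B ^ 0 := by
    simp only [hxl, hxu, hyl, hyu, hA, hB]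
    unfold UX1_3_0
    ring
  rw [key]
  positivity

noncomputable def UX1_3_1 (L h J : ℝ) : ℝ :=
  ((14614803456 / 625) + (5256134656 / 25) * L + (-4455050994688 / 15625) * h) * J ^ 0
    + (0 + (-12494994663424 / 15625) * L + (12494994663424 / 15625) * h) * J ^ 1
    + ((34361235324416 / 390625) + (76825403392 / 125) * L + (-68237565952 / 125) * h) * J ^ 2
    + ((-422539718656 / 3125) + (3435134976 / 25) * L + (-3435134976 / 25) * h) * J ^ 3
    + ((-9446621184 / 625) + 0 * L + 0 * h) * J ^ 4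

lemma UX1_3_1_nonneg {L h J : ℝ} (hL0 : (6931471 / 10000000) ≤ L) (hL1 : L ≤ (433217 / 625000)) (hh0 : (67 / 400) ≤ h) (hh1 : h ≤ (117 / 500)) (hJ0 : (39 / 100) ≤ J) (hJ1 : J ≤ (39 / 50)) :
    0 ≤ UX1_3_1 L h J := by
  obtain ⟨xl, hxl⟩ : ∃ x : ℝ, x = L - (6931471 / 10000000) := ⟨_, rfl⟩
  obtain ⟨xu, hxu⟩ : ∃ x : ℝ, x = (433217 / 625000) - L := ⟨_, rfl⟩
  obtain ⟨yl, hyl⟩ : ∃ x : ℝ, x = h - (67 / 400) := ⟨_, rfl⟩
  obtain ⟨yu, hyu⟩ : ∃ x : ℝ, x = (117 / 500) - h := ⟨_, rfl⟩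
  obtain ⟨A, hA⟩ : ∃ x : ℝ, x = J - (39 / 100) := ⟨_, rfl⟩
  obtain ⟨B, hB⟩ : ∃ x : ℝ, x = (39 / 50) - J := ⟨_, rfl⟩
  have hxl0 : 0 ≤ xl := by rw [hxl]; linarith
  have hxu0 : 0 ≤ xu := by rw [hxu]; linarith
  have hyl0 : 0 ≤ yl := by rw [hyl]; linarith
  have hyu0 : 0 ≤ yu := by rw [hyu]; linarith
  have hA0 : 0 ≤ A := by rw [hA]; linarith
  have hB0 : 0 ≤ B := by rw [hB]; linarith
  have key : UX1_3_1 L h J =
      ((104043732189477300224 / 180737578125) + (222115397632 / 2313441) * xl + (6443041797701632 / 2313441) * yu) * A ^ 0 * B ^ 4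
      + ((104162828341278588928 / 180737578125) + (10045162789142528 / 2313441) * xu + (13636179820675072 / 2313441) * yu) * A ^ 1 * B ^ 3
      + ((10172775683806109696 / 60245859375) + (6114493571792896 / 771147) * xu + (4332886986850304 / 771147) * yu) * A ^ 2 * B ^ 2
      + ((120371870082996748288 / 180737578125) + (5735509515173888 / 2313441) * xu + (11676024736448512 / 2313441) * yu) * A ^ 3 * B ^ 1
      + ((17448168813324445696 / 36147515625) + (2562586295664640 / 2313441) * xl + (5870501798871040 / 2313441) * yu) * A ^ 4 * B ^ 0 := by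
    simp only [hxl, hxu, hyl, hyu, hA, hB]
    unfold UX1_3_1
    ring
  rw [key]
  positivity

noncomputable def UX1_3_2 (L h J : ℝ) : ℝ :=
  ((503457334384 / 15625) + (39978730112 / 125) * L + (-6578516610976 / 15625) * h) * J ^ 0
    + (0 + (-18484443995136 / 15625) * L + (18484443995136 / 15625) * h) * J ^ 1
    + ((50832220986624 / 390625) + (110941691904 / 125) * L + (-98194120704 / 125) * h) * J ^ 2
    + ((-610179305472 / 3125) + (1019805696 / 5) * L + (-1019805696 / 5) * h) * J ^ 3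
    + ((-2804465664 / 125) + 0 * L + 0 * h) * J ^ 4

lemma UX1_3_2_nonneg {L h J : ℝ} (hL0 : (6931471 / 10000000) ≤ L) (hL1 : L ≤ (433217 / 625000)) (hh0 : (67 / 400) ≤ h) (hh1 : h ≤ (117 / 500)) (hJ0 : (39 / 100) ≤ J) (hJ1 : J ≤ (39 / 50)) :
    0 ≤ UX1_3_2 L h J := by
  obtain ⟨xl, hxl⟩ : ∃ x : ℝ, x = L - (6931471 / 10000000) := ⟨_, rfl⟩
  obtain ⟨xu, hxu⟩ : ∃ x : ℝ, x = (433217 / 625000) - L := ⟨_, rfl⟩
  obtain ⟨yl, hyl⟩ : ∃ x : ℝ, x = h - (67 / 400) := ⟨_, rfl⟩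
  obtain ⟨yu, hyu⟩ : ∃ x : ℝ, x = (117 / 500) - h := ⟨_, rfl⟩
  obtain ⟨A, hA⟩ : ∃ x : ℝ, x = J - (39 / 100) := ⟨_, rfl⟩
  obtain ⟨B, hB⟩ : ∃ x : ℝ, x = (39 / 50) - J := ⟨_, rfl⟩
  have hxl0 : 0 ≤ xl := by rw [hxl]; linarith
  have hxu0 : 0 ≤ xu := by rw [hxu]; linarith
  have hyl0 : 0 ≤ yl := by rw [hyl]; linarith
  have hyu0 : 0 ≤ yu := by rw [hyu]; linarith
  have hA0 : 0 ≤ A := by rw [hA]; linarith
  have hB0 : 0 ≤ B := by rw [hB]; linarith
  have key : UX1_3_2 L h J =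
      ((175087204545955863808 / 180737578125) + (555074030239744 / 2313441) * xl + (9123471787270144 / 2313441) * yu) * A ^ 0 * B ^ 4
      + ((2964370203365859328 / 2409834375) + (13288474704281600 / 2313441) * xu + (17882867396608000 / 2313441) * yu) * A ^ 1 * B ^ 3
      + ((13120765260137824256 / 20081953125) + (8688950659514368 / 771147) * xu + (4828554439442432 / 771147) * yu) * A ^ 2 * B ^ 2
      + ((68743561278837981184 / 60245859375) + (8838106641661952 / 2313441) * xu + (13026488677531648 / 2313441) * yu) * A ^ 3 * B ^ 1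
      + ((131329347762024153856 / 180737578125) + (3385196602359808 / 2313441) * xl + (7300220968542208 / 2313441) * yu) * A ^ 4 * B ^ 0 := by
    simp only [hxl, hxu, hyl, hyu, hA, hB]
    unfold UX1_3_2
    ring
  rw [key]
  positivity

noncomputable def UX1_3_3 (L h J : ℝ) : ℝ :=
  ((276174495968 / 15625) + (27396113664 / 125) * L + (-4246931232576 / 15625) * h) * J ^ 0
    + (0 + (-11978898663424 / 15625) * L + (11978898663424 / 15625) * h) * J ^ 1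
    + ((32941971324416 / 390625) + (14219370496 / 25) * L + (-12555476992 / 25) * h) * J ^ 2
    + ((-78206537728 / 625) + (3327787008 / 25) * L + (-3327787008 / 25) * h) * J ^ 3
    + ((-9151414272 / 625) + 0 * L + 0 * h) * J ^ 4

lemma UX1_3_3_nonneg {L h J : ℝ} (hL0 : (6931471 / 10000000) ≤ L) (hL1 : L ≤ (433217 / 625000)) (hh0 : (67 / 400) ≤ h) (hh1 : h ≤ (117 / 500)) (hJ0 : (39 / 100) ≤ J) (hJ1 : J ≤ (39 / 50)) :
    0 ≤ UX1_3_3 L h J := by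
  obtain ⟨xl, hxl⟩ : ∃ x : ℝ, x = L - (6931471 / 10000000) := ⟨_, rfl⟩
  obtain ⟨xu, hxu⟩ : ∃ x : ℝ, x = (433217 / 625000) - L := ⟨_, rfl⟩
  obtain ⟨yl, hyl⟩ : ∃ x : ℝ, x = h - (67 / 400) := ⟨_, rfl⟩
  obtain ⟨yu, hyu⟩ : ∃ x : ℝ, x = (117 / 500) - h := ⟨_, rfl⟩
  obtain ⟨A, hA⟩ : ∃ x : ℝ, x = J - (39 / 100) := ⟨_, rfl⟩
  obtain ⟨B, hB⟩ : ∃ x : ℝ, x = (39 / 50) - J := ⟨_, rfl⟩
  have hxl0 : 0 ≤ xl := by rw [hxl]; linarith
  have hxu0 : 0 ≤ xu := by rw [hxu]; linarith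
  have hyl0 : 0 ≤ yl := by rw [hyl]; linarith
  have hyu0 : 0 ≤ yu := by rw [hyu]; linarith
  have hA0 : 0 ≤ A := by rw [hA]; linarith
  have hB0 : 0 ≤ B := by rw [hB]; linarith
  have key : UX1_3_3 L h J =
      ((152252633152239881728 / 180737578125) + (486076289056768 / 771147) * xl + (1903128338874368 / 771147) * yu) * A ^ 0 * B ^ 4
      + ((294987813903230500864 / 180737578125) + (488385956151296 / 257049) * xu + (3528175125594112 / 771147) * yu) * A ^ 1 * B ^ 3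
      + ((98536690409299902464 / 60245859375) + (1212879671001088 / 257049) * xu + (833870022541312 / 257049) * yu) * A ^ 2 * B ^ 2
      + ((275016266317458669568 / 180737578125) + (674297934381056 / 771147) * xu + (2294409443999744 / 771147) * yu) * A ^ 3 * B ^ 1
      + ((119494933580339348992 / 180737578125) + (337702307037184 / 257049) * xl + (1417846163095552 / 771147) * yu) * A ^ 4 * B ^ 0 := by
    simp only [hxl, hxu, hyl, hyu, hA, hB]
    unfold UX1_3_3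
    ring
  rw [key]
  positivity

noncomputable def UX1_3_4 (L h J : ℝ) : ℝ :=
  ((47267538884 / 15625) + (7119523512 / 125) * L + (-1009702867616 / 15625) * h) * J ^ 0
    + (0 + (-2865700665856 / 15625) * L + (2865700665856 / 15625) * h) * J ^ 1
    + ((7880676831104 / 390625) + (17058144256 / 125) * L + (-15045369856 / 125) * h) * J ^ 2
    + ((-93819793408 / 3125) + (161021952 / 5) * L + (-161021952 / 5) * h) * J ^ 3
    + ((-442810368 / 125) + 0 * L + 0 * h) * J ^ 4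

lemma UX1_3_4_nonneg {L h J : ℝ} (hL0 : (6931471 / 10000000) ≤ L) (hL1 : L ≤ (433217 / 625000)) (hh0 : (67 / 400) ≤ h) (hh1 : h ≤ (117 / 500)) (hJ0 : (39 / 100) ≤ J) (hJ1 : J ≤ (39 / 50)) :
    0 ≤ UX1_3_4 L h J := by
  obtain ⟨xl, hxl⟩ : ∃ x : ℝ, x = L - (6931471 / 10000000) := ⟨_, rfl⟩
  obtain ⟨xu, hxu⟩ : ∃ x : ℝ, x = (433217 / 625000) - L := ⟨_, rfl⟩
  obtain ⟨yl, hyl⟩ : ∃ x : ℝ, x = h - (67 / 400) := ⟨_, rfl⟩
  obtain ⟨yu, hyu⟩ : ∃ x : ℝ, x = (117 / 500) - h := ⟨_, rfl⟩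
  obtain ⟨A, hA⟩ : ∃ x : ℝ, x = J - (39 / 100) := ⟨_, rfl⟩
  obtain ⟨B, hB⟩ : ∃ x : ℝ, x = (39 / 50) - J := ⟨_, rfl⟩
  have hxl0 : 0 ≤ xl := by rw [hxl]; linarith
  have hxu0 : 0 ≤ xu := by rw [hxu]; linarith
  have hyl0 : 0 ≤ yl := by rw [hyl]; linarith
  have hyu0 : 0 ≤ yu := by rw [hyu]; linarith
  have hA0 : 0 ≤ A := by rw [hA]; linarith
  have hB0 : 0 ≤ B := by rw [hB]; linarith
  have key : UX1_3_4 L h J =
      ((52555825920352554448 / 180737578125) + (269832721369088 / 771147) * xl + (1331063318257664 / 2313441) * yu) * A ^ 0 * B ^ 4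
      + ((27142751895946042688 / 36147515625) + (269857816944640 / 771147) * xl + (2406005289451520 / 2313441) * yu) * A ^ 1 * B ^ 3
      + ((56562603722589428384 / 60245859375) + (24496225685504 / 257049) * xl + (545152077709312 / 771147) * yu) * A ^ 2 * B ^ 2
      + ((132835894998917548096 / 180737578125) + (480412529893376 / 771147) * xl + (1568183094345728 / 2313441) * yu) * A ^ 3 * B ^ 1
      + ((45665757602679241936 / 180737578125) + (406948948412416 / 771147) * xl + (1007668832411648 / 2313441) * yu) * A ^ 4 * B ^ 0 := by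
    simp only [hxl, hxu, hyl, hyu, hA, hB]
    unfold UX1_3_4
    ring
  rw [key]
  positivity

lemma UX1_3_nonneg {L h d J : ℝ} (hL0 : (6931471 / 10000000) ≤ L) (hL1 : L ≤ (433217 / 625000)) (hh0 : (67 / 400) ≤ h) (hh1 : h ≤ (117 / 500)) (hd0 : 0 ≤ d) (hd1 : d ≤ (1 / 4)) (hJ0 : (39 / 100) ≤ J) (hJ1 : J ≤ (39 / 50)) :
    0 ≤ UX1_3 L h d J := by
  have c0 := UX1_3_0_nonneg hL0 hL1 hh0 hh1 hJ0 hJ1
  have c1 := UX1_3_1_nonneg hL0 hL1 hh0 hh1 hJ0 hJ1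
  have c2 := UX1_3_2_nonneg hL0 hL1 hh0 hh1 hJ0 hJ1
  have c3 := UX1_3_3_nonneg hL0 hL1 hh0 hh1 hJ0 hJ1
  have c4 := UX1_3_4_nonneg hL0 hL1 hh0 hh1 hJ0 hJ1
  have key : UX1_3 L h d J =
      (d - 0) ^ 0 * ((1 / 4) - d) ^ 4 * UX1_3_0 L h J
      + (d - 0) ^ 1 * ((1 / 4) - d) ^ 3 * UX1_3_1 L h J
      + (d - 0) ^ 2 * ((1 / 4) - d) ^ 2 * UX1_3_2 L h J
      + (d - 0) ^ 3 * ((1 / 4) - d) ^ 1 * UX1_3_3 L h J
      + (d - 0) ^ 4 * ((1 / 4) - d) ^ 0 * UX1_3_4 L h J := by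
    unfold UX1_3 UX1_3_0 UX1_3_1 UX1_3_2 UX1_3_3 UX1_3_4
    ring
  have hA : 0 ≤ d - 0 := by linarith
  have hB : 0 ≤ (1 / 4) - d := by linarith
  rw [key]
  positivity

noncomputable def UX1_4 (L h d J : ℝ) : ℝ :=
  ((11848683 / 1000) + (558176 / 5) * L + (-1875819149 / 12500) * h) * d ^ 0 * J ^ 0
    + (0 + (-1270553388 / 3125) * L + (1270553388 / 3125) * h) * d ^ 0 * J ^ 1
    + ((3494021817 / 78125) + (38821888 / 125) * L + (-34562048 / 125) * h) * d ^ 0 * J ^ 2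
    + ((-213520384 / 3125) + (1703936 / 25) * L + (-1703936 / 25) * h) * d ^ 0 * J ^ 3
    + ((-4685824 / 625) + 0 * L + 0 * h) * d ^ 0 * J ^ 4
    + (0 + (-4659072 / 25) * L + (4659072 / 25) * h) * d ^ 1 * J ^ 2
    + ((25624896 / 625) + 0 * L + 0 * h) * d ^ 1 * J ^ 3
    + ((-1436331134 / 15625) + (15891213 / 125) * L + (3443117419 / 15625) * h) * d ^ 2 * J ^ 0
    + (0 + 524288 * L + (-524288) * h) * d ^ 2 * J ^ 1
    + ((-1441792 / 25) + 0 * L + (-851968 / 25) * h) * d ^ 2 * J ^ 2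
    + (0 + (-1703936 / 25) * L + (1703936 / 25) * h) * d ^ 2 * J ^ 3
    + ((4685824 / 625) + 0 * L + 0 * h) * d ^ 2 * J ^ 4
    + ((39825 / 2) + (-39825) * L + 0 * h) * d ^ 4 * J ^ 0

noncomputable def UX1_4_0 (L h J : ℝ) : ℝ :=
  ((379157856 / 125) + (142893056 / 5) * L + (-120052425536 / 3125) * h) * J ^ 0
    + (0 + (-325261667328 / 3125) * L + (325261667328 / 3125) * h) * J ^ 1
    + ((894469585152 / 78125) + (9938403328 / 125) * L + (-8847884288 / 125) * h) * J ^ 2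
    + ((-54661218304 / 3125) + (436207616 / 25) * L + (-436207616 / 25) * h) * J ^ 3
    + ((-1199570944 / 625) + 0 * L + 0 * h) * J ^ 4

lemma UX1_4_0_nonneg {L h J : ℝ} (hL0 : (6931471 / 10000000) ≤ L) (hL1 : L ≤ (433217 / 625000)) (hh0 : (67 / 400) ≤ h) (hh1 : h ≤ (117 / 500)) (hJ0 : (39 / 100) ≤ J) (hJ1 : J ≤ (39 / 50)) :
    0 ≤ UX1_4_0 L h J := by
  obtain ⟨xl, hxl⟩ : ∃ x : ℝ, x = L - (6931471 / 10000000) := ⟨_, rfl⟩
  obtain ⟨xu, hxu⟩ : ∃ x : ℝ, x = (433217 / 625000) - L := ⟨_, rfl⟩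
  obtain ⟨yl, hyl⟩ : ∃ x : ℝ, x = h - (67 / 400) := ⟨_, rfl⟩
  obtain ⟨yu, hyu⟩ : ∃ x : ℝ, x = (117 / 500) - h := ⟨_, rfl⟩
  obtain ⟨A, hA⟩ : ∃ x : ℝ, x = J - (39 / 100) := ⟨_, rfl⟩
  obtain ⟨B, hB⟩ : ∃ x : ℝ, x = (39 / 50) - J := ⟨_, rfl⟩
  have hxl0 : 0 ≤ xl := by rw [hxl]; linarith
  have hxu0 : 0 ≤ xu := by rw [hxu]; linarith
  have hyl0 : 0 ≤ yl := by rw [hyl]; linarith
  have hyu0 : 0 ≤ yu := by rw [hyu]; linarith
  have hA0 : 0 ≤ A := by rw [hA]; linarith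
  have hB0 : 0 ≤ B := by rw [hB]; linarith
  have key : UX1_4_0 L h J =
      ((17285744979282739712 / 180737578125) + (111402026991616 / 2313441) * xl + (962524167356416 / 2313441) * yu) * A ^ 0 * B ^ 4
      + ((27784771716687413248 / 180737578125) + (884542871502848 / 2313441) * xu + (2254556976381952 / 2313441) * yu) * A ^ 1 * B ^ 3
      + ((7929242277339459584 / 60245859375) + (600743688208384 / 771147) * xu + (791880426684416 / 771147) * yu) * A ^ 2 * B ^ 2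
      + ((5516624896711417856 / 36147515625) + (401723808481280 / 2313441) * xu + (1941209898680320 / 2313441) * yu) * A ^ 3 * B ^ 1
      + ((13947528282439341056 / 180737578125) + (404562357649408 / 2313441) * xl + (857601427652608 / 2313441) * yu) * A ^ 4 * B ^ 0 := by
    simp only [hxl, hxu, hyl, hyu, hA, hB]
    unfold UX1_4_0
    ring
  rw [key]
  positivity

noncomputable def UX1_4_1 (L h J : ℝ) : ℝ :=
  ((1516631424 / 125) + (571572224 / 5) * L + (-480209702144 / 3125) * h) * J ^ 0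
    + (0 + (-1301046669312 / 3125) * L + (1301046669312 / 3125) * h) * J ^ 1
    + ((3577878340608 / 78125) + (38262710272 / 125) * L + (-33900634112 / 125) * h) * J ^ 2
    + ((-210444906496 / 3125) + (1744830464 / 25) * L + (-1744830464 / 25) * h) * J ^ 3
    + ((-4798283776 / 625) + 0 * L + 0 * h) * J ^ 4

lemma UX1_4_1_nonneg {L h J : ℝ} (hL0 : (6931471 / 10000000) ≤ L) (hL1 : L ≤ (433217 / 625000)) (hh0 : (67 / 400) ≤ h) (hh1 : h ≤ (117 / 500)) (hJ0 : (39 / 100) ≤ J) (hJ1 : J ≤ (39 / 50)) :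
    0 ≤ UX1_4_1 L h J := by
  obtain ⟨xl, hxl⟩ : ∃ x : ℝ, x = L - (6931471 / 10000000) := ⟨_, rfl⟩
  obtain ⟨xu, hxu⟩ : ∃ x : ℝ, x = (433217 / 625000) - L := ⟨_, rfl⟩
  obtain ⟨yl, hyl⟩ : ∃ x : ℝ, x = h - (67 / 400) := ⟨_, rfl⟩
  obtain ⟨yu, hyu⟩ : ∃ x : ℝ, x = (117 / 500) - h := ⟨_, rfl⟩
  obtain ⟨A, hA⟩ : ∃ x : ℝ, x = J - (39 / 100) := ⟨_, rfl⟩
  obtain ⟨B, hB⟩ : ∃ x : ℝ, x = (39 / 50) - J := ⟨_, rfl⟩
  have hxl0 : 0 ≤ xl := by rw [hxl]; linarith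
  have hxu0 : 0 ≤ xu := by rw [hxu]; linarith
  have hyl0 : 0 ≤ yl := by rw [hyl]; linarith
  have hyu0 : 0 ≤ yu := by rw [hyu]; linarith
  have hA0 : 0 ≤ A := by rw [hA]; linarith
  have hB0 : 0 ≤ B := by rw [hB]; linarith
  have key : UX1_4_1 L h J =
      ((63851569914621928448 / 180737578125) + (264195026059264 / 2313441) * xl + (3668683587518464 / 2313441) * yu) * A ^ 0 * B ^ 4
      + ((80606652912616456192 / 180737578125) + (4626649977454592 / 2313441) * xu + (7929749414084608 / 2313441) * yu) * A ^ 1 * B ^ 3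
      + ((10814243897995329536 / 60245859375) + (3189098107764736 / 771147) * xu + (2381398351806464 / 771147) * yu) * A ^ 2 * B ^ 2
      + ((11312767482783432704 / 36147515625) + (3783852216811520 / 2313441) * xu + (5587882611834880 / 2313441) * yu) * A ^ 3 * B ^ 1
      + ((39488611378358042624 / 180737578125) + (892597102968832 / 2313441) * xl + (2704753382981632 / 2313441) * yu) * A ^ 4 * B ^ 0 := by
    simp only [hxl, hxu, hyl, hyu, hA, hB]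
    unfold UX1_4_1
    ring
  rw [key]
  positivity

noncomputable def UX1_4_2 (L h J : ℝ) : ℝ :=
  ((261387093856 / 15625) + (21688217808 / 125) * L + (-3546482887376 / 15625) * h) * J ^ 0
    + (0 + (-1925355603968 / 3125) * L + (1925355603968 / 3125) * h) * J ^ 1
    + ((5294727910912 / 78125) + (55157710848 / 125) * L + (-48682754048 / 125) * h) * J ^ 2
    + ((-303367409664 / 3125) + (517996544 / 5) * L + (-517996544 / 5) * h) * J ^ 3
    + ((-1424490496 / 125) + 0 * L + 0 * h) * J ^ 4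

lemma UX1_4_2_nonneg {L h J : ℝ} (hL0 : (6931471 / 10000000) ≤ L) (hL1 : L ≤ (433217 / 625000)) (hh0 : (67 / 400) ≤ h) (hh1 : h ≤ (117 / 500)) (hJ0 : (39 / 100) ≤ J) (hJ1 : J ≤ (39 / 50)) :
    0 ≤ UX1_4_2 L h J := by
  obtain ⟨xl, hxl⟩ : ∃ x : ℝ, x = L - (6931471 / 10000000) := ⟨_, rfl⟩
  obtain ⟨xu, hxu⟩ : ∃ x : ℝ, x = (433217 / 625000) - L := ⟨_, rfl⟩
  obtain ⟨yl, hyl⟩ : ∃ x : ℝ, x = h - (67 / 400) := ⟨_, rfl⟩
  obtain ⟨yu, hyu⟩ : ∃ x : ℝ, x = (117 / 500) - h := ⟨_, rfl⟩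
  obtain ⟨A, hA⟩ : ∃ x : ℝ, x = J - (39 / 100) := ⟨_, rfl⟩
  obtain ⟨B, hB⟩ : ∃ x : ℝ, x = (39 / 50) - J := ⟨_, rfl⟩
  have hxl0 : 0 ≤ xl := by rw [hxl]; linarith
  have hxu0 : 0 ≤ xu := by rw [hxu]; linarith
  have hyl0 : 0 ≤ yl := by rw [hyl]; linarith
  have hyu0 : 0 ≤ yu := by rw [hyu]; linarith
  have hA0 : 0 ≤ A := by rw [hA]; linarith
  have hB0 : 0 ≤ B := by rw [hB]; linarith
  have key : UX1_4_2 L h J =
      ((1601337767995650016 / 2780578125) + (24009900175360 / 85683) * xl + (400562368778240 / 177957) * yu) * A ^ 0 * B ^ 4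
      + ((29745593360585611264 / 36147515625) + (2056188662333440 / 771147) * xu + (807066344898560 / 177957) * yu) * A ^ 1 * B ^ 3
      + ((5077152828962450432 / 12049171875) + (1537787701534720 / 257049) * xu + (205104164577280 / 59319) * yu) * A ^ 2 * B ^ 2
      + ((3651812929243314176 / 7229503125) + (662985634201600 / 257049) * xu + (458947792486400 / 177957) * yu) * A ^ 3 * B ^ 1
      + ((887990117904390112 / 2780578125) + (352128438087680 / 771147) * xl + (250139274874880 / 177957) * yu) * A ^ 4 * B ^ 0 := by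
    simp only [hxl, hxu, hyl, hyu, hA, hB]
    unfold UX1_4_2
    ring
  rw [key]
  positivity

noncomputable def UX1_4_3 (L h J : ℝ) : ℝ :=
  ((143616331712 / 15625) + (14797824416 / 125) * L + (-2290868753312 / 15625) * h) * J ^ 0
    + (0 + (-1248617869312 / 3125) * L + (1248617869312 / 3125) * h) * J ^ 1
    + ((3433699140608 / 78125) + (35280904192 / 125) * L + (-31055142912 / 125) * h) * J ^ 2
    + ((-194044973056 / 3125) + (1690304512 / 25) * L + (-1690304512 / 25) * h) * J ^ 3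
    + ((-4648337408 / 625) + 0 * L + 0 * h) * J ^ 4

lemma UX1_4_3_nonneg {L h J : ℝ} (hL0 : (6931471 / 10000000) ≤ L) (hL1 : L ≤ (433217 / 625000)) (hh0 : (67 / 400) ≤ h) (hh1 : h ≤ (117 / 500)) (hJ0 : (39 / 100) ≤ J) (hJ1 : J ≤ (39 / 50)) :
    0 ≤ UX1_4_3 L h J := by
  obtain ⟨xl, hxl⟩ : ∃ x : ℝ, x = L - (6931471 / 10000000) := ⟨_, rfl⟩
  obtain ⟨xu, hxu⟩ : ∃ x : ℝ, x = (433217 / 625000) - L := ⟨_, rfl⟩
  obtain ⟨yl, hyl⟩ : ∃ x : ℝ, x = h - (67 / 400) := ⟨_, rfl⟩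
  obtain ⟨yu, hyu⟩ : ∃ x : ℝ, x = (117 / 500) - h := ⟨_, rfl⟩
  obtain ⟨A, hA⟩ : ∃ x : ℝ, x = J - (39 / 100) := ⟨_, rfl⟩
  obtain ⟨B, hB⟩ : ∃ x : ℝ, x = (39 / 50) - J := ⟨_, rfl⟩
  have hxl0 : 0 ≤ xl := by rw [hxl]; linarith
  have hxu0 : 0 ≤ xu := by rw [hxu]; linarith
  have hyl0 : 0 ≤ yl := by rw [hyl]; linarith
  have hyu0 : 0 ≤ yu := by rw [hyu]; linarith
  have hA0 : 0 ≤ A := by rw [hA]; linarith
  have hB0 : 0 ≤ B := by rw [hB]; linarith
  have key : UX1_4_3 L h J =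
      ((1058792345835798464 / 2231328125) + (949557639258112 / 2313441) * xl + (3258667495104512 / 2313441) * yu) * A ^ 0 * B ^ 4
      + ((166775061734756397056 / 180737578125) + (1995353527648256 / 2313441) * xu + (6212704630636544 / 2313441) * yu) * A ^ 1 * B ^ 3
      + ((50045765704996354048 / 60245859375) + (2062406638747648 / 771147) * xu + (1356034930327552 / 771147) * yu) * A ^ 2 * B ^ 2
      + ((24646326430928515072 / 36147515625) + (2189079999119360 / 2313441) * xu + (2933834363863040 / 2313441) * yu) * A ^ 3 * B ^ 1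
      + ((17587664774084650304 / 60245859375) + (1053228750217216 / 2313441) * xl + (1819766708412416 / 2313441) * yu) * A ^ 4 * B ^ 0 := by
    simp only [hxl, hxu, hyl, hyu, hA, hB]
    unfold UX1_4_3
    ring
  rw [key]
  positivity

noncomputable def UX1_4_4 (L h J : ℝ) : ℝ :=
  ((49449133337 / 31250) + (3821607683 / 125) * L + (-545172248976 / 15625) * h) * J ^ 0
    + (0 + (-299047267328 / 3125) * L + (299047267328 / 3125) * h) * J ^ 1
    + ((822379985152 / 78125) + (8447500288 / 125) * L + (-7425138688 / 125) * h) * J ^ 2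
    + ((-46461251584 / 3125) + (81788928 / 5) * L + (-81788928 / 5) * h) * J ^ 3
    + ((-224919552 / 125) + 0 * L + 0 * h) * J ^ 4

lemma UX1_4_4_nonneg {L h J : ℝ} (hL0 : (6931471 / 10000000) ≤ L) (hL1 : L ≤ (433217 / 625000)) (hh0 : (67 / 400) ≤ h) (hh1 : h ≤ (117 / 500)) (hJ0 : (39 / 100) ≤ J) (hJ1 : J ≤ (39 / 50)) :
    0 ≤ UX1_4_4 L h J := by
  obtain ⟨xl, hxl⟩ : ∃ x : ℝ, x = L - (6931471 / 10000000) := ⟨_, rfl⟩
  obtain ⟨xu, hxu⟩ : ∃ x : ℝ, x = (433217 / 625000) - L := ⟨_, rfl⟩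
  obtain ⟨yl, hyl⟩ : ∃ x : ℝ, x = h - (67 / 400) := ⟨_, rfl⟩
  obtain ⟨yu, hyu⟩ : ∃ x : ℝ, x = (117 / 500) - h := ⟨_, rfl⟩
  obtain ⟨A, hA⟩ : ∃ x : ℝ, x = J - (39 / 100) := ⟨_, rfl⟩
  obtain ⟨B, hB⟩ : ∃ x : ℝ, x = (39 / 50) - J := ⟨_, rfl⟩
  have hxl0 : 0 ≤ xl := by rw [hxl]; linarith
  have hxu0 : 0 ≤ xu := by rw [hxu]; linarith
  have hyl0 : 0 ≤ yl := by rw [hyl]; linarith
  have hyu0 : 0 ≤ yu := by rw [hyu]; linarith
  have hA0 : 0 ≤ A := by rw [hA]; linarith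
  have hB0 : 0 ≤ B := by rw [hB]; linarith
  have key : UX1_4_4 L h J =
      ((5636191125574478906 / 36147515625) + (450100833591040 / 2313441) * xl + (252505373716480 / 771147) * yu) * A ^ 0 * B ^ 4
      + ((14125719031589987048 / 36147515625) + (415175353400320 / 2313441) * xl + (17234994872320 / 28561) * yu) * A ^ 1 * B ^ 3
      + ((1828320954514331456 / 4016390625) + (45362953699840 / 771147) * xu + (31022079549440 / 85683) * yu) * A ^ 2 * B ^ 2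
      + ((2427065646440447944 / 7229503125) + (379732300364800 / 2313441) * xl + (204728591564800 / 771147) * yu) * A ^ 3 * B ^ 1
      + ((820985014157523058 / 7229503125) + (480895681273600 / 2313441) * xl + (46123121152000 / 257049) * yu) * A ^ 4 * B ^ 0 := by
    simp only [hxl, hxu, hyl, hyu, hA, hB]
    unfold UX1_4_4
    ring
  rw [key]
  positivity

lemma UX1_4_nonneg {L h d J : ℝ} (hL0 : (6931471 / 10000000) ≤ L) (hL1 : L ≤ (433217 / 625000)) (hh0 : (67 / 400) ≤ h) (hh1 : h ≤ (117 / 500)) (hd0 : 0 ≤ d) (hd1 : d ≤ (1 / 4)) (hJ0 : (39 / 100) ≤ J) (hJ1 : J ≤ (39 / 50)) :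
    0 ≤ UX1_4 L h d J := by
  have c0 := UX1_4_0_nonneg hL0 hL1 hh0 hh1 hJ0 hJ1
  have c1 := UX1_4_1_nonneg hL0 hL1 hh0 hh1 hJ0 hJ1
  have c2 := UX1_4_2_nonneg hL0 hL1 hh0 hh1 hJ0 hJ1
  have c3 := UX1_4_3_nonneg hL0 hL1 hh0 hh1 hJ0 hJ1
  have c4 := UX1_4_4_nonneg hL0 hL1 hh0 hh1 hJ0 hJ1
  have key : UX1_4 L h d J =
      (d - 0) ^ 0 * ((1 / 4) - d) ^ 4 * UX1_4_0 L h J
      + (d - 0) ^ 1 * ((1 / 4) - d) ^ 3 * UX1_4_1 L h J
      + (d - 0) ^ 2 * ((1 / 4) - d) ^ 2 * UX1_4_2 L h J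
      + (d - 0) ^ 3 * ((1 / 4) - d) ^ 1 * UX1_4_3 L h J
      + (d - 0) ^ 4 * ((1 / 4) - d) ^ 0 * UX1_4_4 L h J := by
    unfold UX1_4 UX1_4_0 UX1_4_1 UX1_4_2 UX1_4_3 UX1_4_4
    ring
  have hA : 0 ≤ d - 0 := by linarith
  have hB : 0 ≤ (1 / 4) - d := by linarith
  rw [key]
  positivity

noncomputable def UX1_5 (L h d J : ℝ) : ℝ :=
  ((1947231 / 800) + 24208 * L + (-322247137 / 10000) * h) * d ^ 0 * J ^ 0
    + (0 + (-52824986 / 625) * L + (52824986 / 625) * h) * d ^ 0 * J ^ 1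
    + ((290537423 / 31250) + (1549312 / 25) * L + (-1376256 / 25) * h) * d ^ 0 * J ^ 2
    + ((-8521216 / 625) + (346112 / 25) * L + (-346112 / 25) * h) * d ^ 0 * J ^ 3
    + ((-951808 / 625) + 0 * L + 0 * h) * d ^ 0 * J ^ 4
    + (0 + (-193664 / 5) * L + (193664 / 5) * h) * d ^ 1 * J ^ 2
    + ((1065152 / 125) + 0 * L + 0 * h) * d ^ 1 * J ^ 3
    + ((-59244541 / 3125) + (2301273 / 100) * L + (580452899 / 12500) * h) * d ^ 2 * J ^ 0
    + (0 + 106496 * L + (-106496) * h) * d ^ 2 * J ^ 1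
    + ((-292864 / 25) + 0 * L + (-173056 / 25) * h) * d ^ 2 * J ^ 2
    + (0 + (-346112 / 25) * L + (346112 / 25) * h) * d ^ 2 * J ^ 3
    + ((951808 / 625) + 0 * L + 0 * h) * d ^ 2 * J ^ 4
    + ((37825 / 8) + (-37825 / 4) * L + 0 * h) * d ^ 4 * J ^ 0

noncomputable def UX1_5_0 (L h J : ℝ) : ℝ :=
  ((15577848 / 25) + 6197248 * L + (-5155954192 / 625) * h) * J ^ 0
    + (0 + (-13523196416 / 625) * L + (13523196416 / 625) * h) * J ^ 1
    + ((37188790144 / 15625) + (396623872 / 25) * L + (-352321536 / 25) * h) * J ^ 2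
    + ((-2181431296 / 625) + (88604672 / 25) * L + (-88604672 / 25) * h) * J ^ 3
    + ((-243662848 / 625) + 0 * L + 0 * h) * J ^ 4

lemma UX1_5_0_nonneg {L h J : ℝ} (hL0 : (6931471 / 10000000) ≤ L) (hL1 : L ≤ (433217 / 625000)) (hh0 : (67 / 400) ≤ h) (hh1 : h ≤ (117 / 500)) (hJ0 : (39 / 100) ≤ J) (hJ1 : J ≤ (39 / 50)) :
    0 ≤ UX1_5_0 L h J := by
  obtain ⟨xl, hxl⟩ : ∃ x : ℝ, x = L - (6931471 / 10000000) := ⟨_, rfl⟩
  obtain ⟨xu, hxu⟩ : ∃ x : ℝ, x = (433217 / 625000) - L := ⟨_, rfl⟩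
  obtain ⟨yl, hyl⟩ : ∃ x : ℝ, x = h - (67 / 400) := ⟨_, rfl⟩
  obtain ⟨yu, hyu⟩ : ∃ x : ℝ, x = (117 / 500) - h := ⟨_, rfl⟩
  obtain ⟨A, hA⟩ : ∃ x : ℝ, x = J - (39 / 100) := ⟨_, rfl⟩
  obtain ⟨B, hB⟩ : ∃ x : ℝ, x = (39 / 50) - J := ⟨_, rfl⟩
  have hxl0 : 0 ≤ xl := by rw [hxl]; linarith
  have hxu0 : 0 ≤ xu := by rw [hxu]; linarith
  have hyl0 : 0 ≤ yl := by rw [hyl]; linarith
  have hyu0 : 0 ≤ yu := by rw [hyu]; linarith
  have hA0 : 0 ≤ A := by rw [hA]; linarith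
  have hB0 : 0 ≤ B := by rw [hB]; linarith
  have key : UX1_5_0 L h J =
      ((4119761629758811904 / 180737578125) + (38207069519872 / 2313441) * xl + (216481399017472 / 2313441) * yu) * A ^ 0 * B ^ 4
      + ((7291177348868509696 / 180737578125) + (145335964368896 / 2313441) * xu + (513854271176704 / 2313441) * yu) * A ^ 1 * B ^ 3
      + ((2039634618641235968 / 60245859375) + (120291020013568 / 771147) * xu + (173366042796032 / 771147) * yu) * A ^ 2 * B ^ 2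
      + ((1139622054604439552 / 36147515625) + (111886186741760 / 2313441) * xu + (385582801469440 / 2313441) * yu) * A ^ 3 * B ^ 1
      + ((2680158873592965632 / 180737578125) + (65443839410176 / 2313441) * xl + (162857545240576 / 2313441) * yu) * A ^ 4 * B ^ 0 := by
    simp only [hxl, hxu, hyl, hyu, hA, hB]
    unfold UX1_5_0
    ring
  rw [key]
  positivity

noncomputable def UX1_5_1 (L h J : ℝ) : ℝ :=
  ((62311392 / 25) + 24788992 * L + (-20623816768 / 625) * h) * J ^ 0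
    + (0 + (-54092785664 / 625) * L + (54092785664 / 625) * h) * J ^ 1
    + ((148755160576 / 15625) + (1524523008 / 25) * L + (-1347313664 / 25) * h) * J ^ 2
    + ((-8384876544 / 625) + (354418688 / 25) * L + (-354418688 / 25) * h) * J ^ 3
    + ((-974651392 / 625) + 0 * L + 0 * h) * J ^ 4

lemma UX1_5_1_nonneg {L h J : ℝ} (hL0 : (6931471 / 10000000) ≤ L) (hL1 : L ≤ (433217 / 625000)) (hh0 : (67 / 400) ≤ h) (hh1 : h ≤ (117 / 500)) (hJ0 : (39 / 100) ≤ J) (hJ1 : J ≤ (39 / 50)) :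
    0 ≤ UX1_5_1 L h J := by
  obtain ⟨xl, hxl⟩ : ∃ x : ℝ, x = L - (6931471 / 10000000) := ⟨_, rfl⟩
  obtain ⟨xu, hxu⟩ : ∃ x : ℝ, x = (433217 / 625000) - L := ⟨_, rfl⟩
  obtain ⟨yl, hyl⟩ : ∃ x : ℝ, x = h - (67 / 400) := ⟨_, rfl⟩
  obtain ⟨yu, hyu⟩ : ∃ x : ℝ, x = (117 / 500) - h := ⟨_, rfl⟩
  obtain ⟨A, hA⟩ : ∃ x : ℝ, x = J - (39 / 100) := ⟨_, rfl⟩
  obtain ⟨B, hB⟩ : ∃ x : ℝ, x = (39 / 50) - J := ⟨_, rfl⟩
  have hxl0 : 0 ≤ xl := by rw [hxl]; linarith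
  have hxu0 : 0 ≤ xu := by rw [hxu]; linarith
  have hyl0 : 0 ≤ yl := by rw [hyl]; linarith
  have hyu0 : 0 ≤ yu := by rw [hyu]; linarith
  have hA0 : 0 ≤ A := by rw [hA]; linarith
  have hB0 : 0 ≤ B := by rw [hB]; linarith
  have key : UX1_5_1 L h J =
      ((15379304309936623616 / 180737578125) + (115124221247488 / 2313441) * xl + (828221539237888 / 2313441) * yu) * A ^ 0 * B ^ 4
      + ((22818989379456630784 / 180737578125) + (807568198467584 / 2313441) * xu + (1829192743714816 / 2313441) * yu) * A ^ 1 * B ^ 3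
      + ((3814212635284815872 / 60245859375) + (644548326326272 / 771147) * xu + (530079924912128 / 771147) * yu) * A ^ 2 * B ^ 2
      + ((2323482219153195008 / 36147515625) + (899993428951040 / 2313441) * xu + (1089882523893760 / 2313441) * yu) * A ^ 3 * B ^ 1
      + ((7332606681785366528 / 180737578125) + (110959130312704 / 2313441) * xl + (500613953634304 / 2313441) * yu) * A ^ 4 * B ^ 0 := by
    simp only [hxl, hxu, hyl, hyu, hA, hB]
    unfold UX1_5_1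
    ring
  rw [key]
  positivity

noncomputable def UX1_5_2 (L h J : ℝ) : ℝ :=
  ((10735473344 / 3125) + (938792292 / 25) * L + (-152356814164 / 3125) * h) * J ^ 0
    + (0 + (-80074218496 / 625) * L + (80074218496 / 625) * h) * J ^ 1
    + ((220204100864 / 15625) + (2193825792 / 25) * L + (-1930780672 / 25) * h) * J ^ 2
    + ((-12066041856 / 625) + (105218048 / 5) * L + (-105218048 / 5) * h) * J ^ 3
    + ((-289349632 / 125) + 0 * L + 0 * h) * J ^ 4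

lemma UX1_5_2_nonneg {L h J : ℝ} (hL0 : (6931471 / 10000000) ≤ L) (hL1 : L ≤ (433217 / 625000)) (hh0 : (67 / 400) ≤ h) (hh1 : h ≤ (117 / 500)) (hJ0 : (39 / 100) ≤ J) (hJ1 : J ≤ (39 / 50)) :
    0 ≤ UX1_5_2 L h J := by
  obtain ⟨xl, hxl⟩ : ∃ x : ℝ, x = L - (6931471 / 10000000) := ⟨_, rfl⟩
  obtain ⟨xu, hxu⟩ : ∃ x : ℝ, x = (433217 / 625000) - L := ⟨_, rfl⟩
  obtain ⟨yl, hyl⟩ : ∃ x : ℝ, x = h - (67 / 400) := ⟨_, rfl⟩
  obtain ⟨yu, hyu⟩ : ∃ x : ℝ, x = (117 / 500) - h := ⟨_, rfl⟩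
  obtain ⟨A, hA⟩ : ∃ x : ℝ, x = J - (39 / 100) := ⟨_, rfl⟩
  obtain ⟨B, hB⟩ : ∃ x : ℝ, x = (39 / 50) - J := ⟨_, rfl⟩
  have hxl0 : 0 ≤ xl := by rw [hxl]; linarith
  have hxu0 : 0 ≤ xu := by rw [hxu]; linarith
  have hyl0 : 0 ≤ yl := by rw [hyl]; linarith
  have hyu0 : 0 ≤ yu := by rw [hyu]; linarith
  have hA0 : 0 ≤ A := by rw [hA]; linarith
  have hB0 : 0 ≤ B := by rw [hB]; linarith
  have key : UX1_5_2 L h J =
      ((376757192497372792 / 2780578125) + (72696711162880 / 771147) * xl + (1178302367728640 / 2313441) * yu) * A ^ 0 * B ^ 4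
      + ((7748465007494485504 / 36147515625) + (40012507893760 / 85683) * xu + (2440437921812480 / 2313441) * yu) * A ^ 1 * B ^ 3
      + ((1394933669655886592 / 12049171875) + (315593840568320 / 257049) * xu + (600224094423040 / 771147) * yu) * A ^ 2 * B ^ 2
      + ((697412801803582976 / 7229503125) + (480828956364800 / 771147) * xu + (1118068859801600 / 2313441) * yu) * A ^ 3 * B ^ 1
      + ((159169988169496696 / 2780578125) + (11047761044480 / 257049) * xl + (579532130616320 / 2313441) * yu) * A ^ 4 * B ^ 0 := by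
    simp only [hxl, hxu, hyl, hyu, hA, hB]
    unfold UX1_5_2
    ring
  rw [key]
  positivity

noncomputable def UX1_5_3 (L h J : ℝ) : ℝ :=
  ((5893098688 / 3125) + (638134984 / 25) * L + (-98475460648 / 3125) * h) * J ^ 0
    + (0 + (-51962865664 / 625) * L + (51962865664 / 625) * h) * J ^ 1
    + ((142897880576 / 15625) + (1400578048 / 25) * L + (-1228906496 / 25) * h) * J ^ 2
    + ((-7703179264 / 625) + (343343104 / 25) * L + (-343343104 / 25) * h) * J ^ 3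
    + ((-944193536 / 625) + 0 * L + 0 * h) * J ^ 4

lemma UX1_5_3_nonneg {L h J : ℝ} (hL0 : (6931471 / 10000000) ≤ L) (hL1 : L ≤ (433217 / 625000)) (hh0 : (67 / 400) ≤ h) (hh1 : h ≤ (117 / 500)) (hJ0 : (39 / 100) ≤ J) (hJ1 : J ≤ (39 / 50)) :
    0 ≤ UX1_5_3 L h J := by
  obtain ⟨xl, hxl⟩ : ∃ x : ℝ, x = L - (6931471 / 10000000) := ⟨_, rfl⟩
  obtain ⟨xu, hxu⟩ : ∃ x : ℝ, x = (433217 / 625000) - L := ⟨_, rfl⟩
  obtain ⟨yl, hyl⟩ : ∃ x : ℝ, x = h - (67 / 400) := ⟨_, rfl⟩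
  obtain ⟨yu, hyu⟩ : ∃ x : ℝ, x = (117 / 500) - h := ⟨_, rfl⟩
  obtain ⟨A, hA⟩ : ∃ x : ℝ, x = J - (39 / 100) := ⟨_, rfl⟩
  obtain ⟨B, hB⟩ : ∃ x : ℝ, x = (39 / 50) - J := ⟨_, rfl⟩
  have hxl0 : 0 ≤ xl := by rw [hxl]; linarith
  have hxu0 : 0 ≤ xu := by rw [hxu]; linarith
  have hyl0 : 0 ≤ yl := by rw [hyl]; linarith
  have hyu0 : 0 ≤ yu := by rw [hyu]; linarith
  have hA0 : 0 ≤ A := by rw [hA]; linarith
  have hB0 : 0 ≤ B := by rw [hB]; linarith
  have key : UX1_5_3 L h J =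
      ((715539578291994064 / 6693984375) + (243635881314304 / 2313441) * xl + (737865713813504 / 2313441) * yu) * A ^ 0 * B ^ 4
      + ((38192391332049001472 / 180737578125) + (319314688335872 / 2313441) * xu + (1448714697187328 / 2313441) * yu) * A ^ 1 * B ^ 3
      + ((10665237265269362176 / 60245859375) + (441082144485376 / 771147) * xu + (303672585293824 / 771147) * yu) * A ^ 2 * B ^ 2
      + ((4562169578994002944 / 36147515625) + (632538198302720 / 2313441) * xu + (508821353799680 / 2313441) * yu) * A ^ 3 * B ^ 1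
      + ((3138304637016777808 / 60245859375) + (127757665503232 / 2313441) * xl + (308652581292032 / 2313441) * yu) * A ^ 4 * B ^ 0 := by
    simp only [hxl, hxu, hyl, hyu, hA, hB]
    unfold UX1_5_3
    ring
  rw [key]
  positivity

noncomputable def UX1_5_4 (L h J : ℝ) : ℝ :=
  ((8112749877 / 25000) + (655599543 / 100) * L + (-23457959364 / 3125) * h) * J ^ 0
    + (0 + (-12458236416 / 625) * L + (12458236416 / 625) * h) * J ^ 1
    + ((34260150144 / 15625) + (334651392 / 25) * L + (-293117952 / 25) * h) * J ^ 2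
    + ((-1840582656 / 625) + (16613376 / 5) * L + (-16613376 / 5) * h) * J ^ 3
    + ((-45686784 / 125) + 0 * L + 0 * h) * J ^ 4

lemma UX1_5_4_nonneg {L h J : ℝ} (hL0 : (6931471 / 10000000) ≤ L) (hL1 : L ≤ (433217 / 625000)) (hh0 : (67 / 400) ≤ h) (hh1 : h ≤ (117 / 500)) (hJ0 : (39 / 100) ≤ J) (hJ1 : J ≤ (39 / 50)) :
    0 ≤ UX1_5_4 L h J := by
  obtain ⟨xl, hxl⟩ : ∃ x : ℝ, x = L - (6931471 / 10000000) := ⟨_, rfl⟩
  obtain ⟨xu, hxu⟩ : ∃ x : ℝ, x = (433217 / 625000) - L := ⟨_, rfl⟩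
  obtain ⟨yl, hyl⟩ : ∃ x : ℝ, x = h - (67 / 400) := ⟨_, rfl⟩
  obtain ⟨yu, hyu⟩ : ∃ x : ℝ, x = (117 / 500) - h := ⟨_, rfl⟩
  obtain ⟨A, hA⟩ : ∃ x : ℝ, x = J - (39 / 100) := ⟨_, rfl⟩
  obtain ⟨B, hB⟩ : ∃ x : ℝ, x = (39 / 50) - J := ⟨_, rfl⟩
  have hxl0 : 0 ≤ xl := by rw [hxl]; linarith
  have hxu0 : 0 ≤ xu := by rw [hxu]; linarith
  have hyl0 : 0 ≤ yl := by rw [hyl]; linarith
  have hyu0 : 0 ≤ yu := by rw [hyu]; linarith
  have hA0 : 0 ≤ A := by rw [hA]; linarith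
  have hB0 : 0 ≤ B := by rw [hB]; linarith
  have key : UX1_5_4 L h J =
      ((810083288330598703 / 24098343750) + (33839091517760 / 771147) * xl + (57101162101760 / 771147) * yu) * A ^ 0 * B ^ 4
      + ((994720071756661598 / 12049171875) + (31669430232320 / 771147) * xl + (107871749304320 / 771147) * yu) * A ^ 1 * B ^ 3
      + ((362440578690150608 / 4016390625) + (6816393031040 / 257049) * xu + (20054124328960 / 257049) * yu) * A ^ 2 * B ^ 2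
      + ((149836693666351174 / 2409834375) + (6019642860800 / 771147) * xl + (31684072140800 / 771147) * yu) * A ^ 3 * B ^ 1
      + ((494272449196335919 / 24098343750) + (24299160668480 / 771147) * xl + (22292286356480 / 771147) * yu) * A ^ 4 * B ^ 0 := by
    simp only [hxl, hxu, hyl, hyu, hA, hB]
    unfold UX1_5_4
    ring
  rw [key]
  positivity

lemma UX1_5_nonneg {L h d J : ℝ} (hL0 : (6931471 / 10000000) ≤ L) (hL1 : L ≤ (433217 / 625000)) (hh0 : (67 / 400) ≤ h) (hh1 : h ≤ (117 / 500)) (hd0 : 0 ≤ d) (hd1 : d ≤ (1 / 4)) (hJ0 : (39 / 100) ≤ J) (hJ1 : J ≤ (39 / 50)) :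
    0 ≤ UX1_5 L h d J := by
  have c0 := UX1_5_0_nonneg hL0 hL1 hh0 hh1 hJ0 hJ1
  have c1 := UX1_5_1_nonneg hL0 hL1 hh0 hh1 hJ0 hJ1
  have c2 := UX1_5_2_nonneg hL0 hL1 hh0 hh1 hJ0 hJ1
  have c3 := UX1_5_3_nonneg hL0 hL1 hh0 hh1 hJ0 hJ1
  have c4 := UX1_5_4_nonneg hL0 hL1 hh0 hh1 hJ0 hJ1
  have key : UX1_5 L h d J =
      (d - 0) ^ 0 * ((1 / 4) - d) ^ 4 * UX1_5_0 L h J
      + (d - 0) ^ 1 * ((1 / 4) - d) ^ 3 * UX1_5_1 L h J
      + (d - 0) ^ 2 * ((1 / 4) - d) ^ 2 * UX1_5_2 L h J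
      + (d - 0) ^ 3 * ((1 / 4) - d) ^ 1 * UX1_5_3 L h J
      + (d - 0) ^ 4 * ((1 / 4) - d) ^ 0 * UX1_5_4 L h J := by
    unfold UX1_5 UX1_5_0 UX1_5_1 UX1_5_2 UX1_5_3 UX1_5_4
    ring
  have hA : 0 ≤ d - 0 := by linarith
  have hB : 0 ≤ (1 / 4) - d := by linarith
  rw [key]
  positivity

lemma UX1_nonneg {L h a d J : ℝ} (hL0 : (6931471 / 10000000) ≤ L) (hL1 : L ≤ (433217 / 625000)) (hh0 : (67 / 400) ≤ h) (hh1 : h ≤ (117 / 500)) (ha0 : (1 / 2) ≤ a) (ha1 : a ≤ (5 / 8)) (hd0 : 0 ≤ d) (hd1 : d ≤ (1 / 4)) (hJ0 : (39 / 100) ≤ J) (hJ1 : J ≤ (39 / 50)) :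
    0 ≤ UX1 L h a d J := by
  have c0 := UX1_0_nonneg hL0 hL1 hh0 hh1 hd0 hd1 hJ0 hJ1
  have c1 := UX1_1_nonneg hL0 hL1 hh0 hh1 hd0 hd1 hJ0 hJ1
  have c2 := UX1_2_nonneg hL0 hL1 hh0 hh1 hd0 hd1 hJ0 hJ1
  have c3 := UX1_3_nonneg hL0 hL1 hh0 hh1 hd0 hd1 hJ0 hJ1
  have c4 := UX1_4_nonneg hL0 hL1 hh0 hh1 hd0 hd1 hJ0 hJ1
  have c5 := UX1_5_nonneg hL0 hL1 hh0 hh1 hd0 hd1 hJ0 hJ1
  have key : UX1 L h a d J =
      (a - (1 / 2)) ^ 0 * ((5 / 8) - a) ^ 5 * UX1_0 L h d J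
      + (a - (1 / 2)) ^ 1 * ((5 / 8) - a) ^ 4 * UX1_1 L h d J
      + (a - (1 / 2)) ^ 2 * ((5 / 8) - a) ^ 3 * UX1_2 L h d J
      + (a - (1 / 2)) ^ 3 * ((5 / 8) - a) ^ 2 * UX1_3 L h d J
      + (a - (1 / 2)) ^ 4 * ((5 / 8) - a) ^ 1 * UX1_4 L h d J
      + (a - (1 / 2)) ^ 5 * ((5 / 8) - a) ^ 0 * UX1_5 L h d J := by
    unfold UX1 UX1_0 UX1_1 UX1_2 UX1_3 UX1_4 UX1_5
    ring
  have hA : 0 ≤ a - (1 / 2) := by linarith
  have hB : 0 ≤ (5 / 8) - a := by linarith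
  rw [key]
  positivity

end Vale.Agent.Lib.P322.Pot
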