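import Mathlib
import Vale.Agent.Lib.P322.Pot.Top.Box2

/-!
P322, potential method, range `7/8 ≤ ρ ≤ 23/25`.  Generated certificate: the polynomial `UX2` is nonnegative on a box (iterated expansion in the products
`(x - lo)^i (hi - x)^(n-i)`; all coefficients are affine in `(L, h)` and nonnegative).
-/

set_option linter.unusedSimpArgs false

namespace Vale.Agent.Lib.P322.Pot

noncomputable def UX2 (L h a d J : ℝ) : ℝ :=
  (0 + 2 * L + (-187 / 100) * h) * a ^ 0 * d ^ 0 * J ^ 2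
    + ((-11 / 25) + (13 / 50) * L + (-13 / 50) * h) * a ^ 0 * d ^ 0 * J ^ 3
    + ((-143 / 5000) + 0 * L + 0 * h) * a ^ 0 * d ^ 0 * J ^ 4
    + ((-363 / 1000) + 2 * L + (-71 / 500) * h) * a ^ 0 * d ^ 2 * J ^ 0
    + (0 + 2 * L + (-2) * h) * a ^ 0 * d ^ 2 * J ^ 1
    + ((-11 / 50) + 0 * L + (-13 / 100) * h) * a ^ 0 * d ^ 2 * J ^ 2
    + (0 + (-13 / 50) * L + (13 / 50) * h) * a ^ 0 * d ^ 2 * J ^ 3
    + ((143 / 5000) + 0 * L + 0 * h) * a ^ 0 * d ^ 2 * J ^ 4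
    + (0 + (-1087 / 250) * L + (1087 / 250) * h) * a ^ 1 * d ^ 0 * J ^ 1
    + ((11957 / 25000) + (-87 / 500) * L + (38 / 125) * h) * a ^ 1 * d ^ 0 * J ^ 2
    + ((957 / 25000) + (13 / 50) * L + (-13 / 50) * h) * a ^ 1 * d ^ 0 * J ^ 3
    + ((-143 / 5000) + 0 * L + 0 * h) * a ^ 1 * d ^ 0 * J ^ 4
    + (0 + (-2) * L + 2 * h) * a ^ 1 * d ^ 1 * J ^ 2
    + ((11 / 25) + 0 * L + 0 * h) * a ^ 1 * d ^ 1 * J ^ 3
    + ((31581 / 1000000) + (-87 / 500) * L + (549677 / 500000) * h) * a ^ 1 * d ^ 2 * J ^ 0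
    + (0 + 2 * L + (-2) * h) * a ^ 1 * d ^ 2 * J ^ 1
    + ((-11 / 50) + 0 * L + (-13 / 100) * h) * a ^ 1 * d ^ 2 * J ^ 2
    + (0 + (-13 / 50) * L + (13 / 50) * h) * a ^ 1 * d ^ 2 * J ^ 3
    + ((143 / 5000) + 0 * L + 0 * h) * a ^ 1 * d ^ 2 * J ^ 4
    + ((33 / 100) + 2 * L + (-2961569 / 1000000) * h) * a ^ 2 * d ^ 0 * J ^ 0
    + (0 + (181569 / 500000) * L + (-181569 / 500000) * h) * a ^ 2 * d ^ 0 * J ^ 1
    + ((-1997259 / 50000000) + 0 * L + 0 * h) * a ^ 2 * d ^ 0 * J ^ 2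
    + (0 + (87 / 500) * L + (-87 / 500) * h) * a ^ 2 * d ^ 1 * J ^ 2
    + ((-957 / 25000) + 0 * L + 0 * h) * a ^ 2 * d ^ 1 * J ^ 3
    + ((-637 / 1000) + (-4) * L + (1571 / 500) * h) * a ^ 2 * d ^ 2 * J ^ 0
    + ((-2871 / 100000) + (-87 / 500) * L + (249429 / 1000000) * h) * a ^ 3 * d ^ 0 * J ^ 0
    + (0 + (-7569 / 500000) * L + (7569 / 500000) * h) * a ^ 3 * d ^ 0 * J ^ 1
    + ((83259 / 50000000) + 0 * L + 0 * h) * a ^ 3 * d ^ 0 * J ^ 2
    + ((55419 / 1000000) + (87 / 250) * L + (-136677 / 500000) * h) * a ^ 3 * d ^ 2 * J ^ 0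
    + ((-33 / 100) + 0 * L + (39 / 50) * h) * a ^ 4 * d ^ 0 * J ^ 0
    + (0 + 2 * L + (-2) * h) * a ^ 4 * d ^ 2 * J ^ 0
    + (1 + (-2) * L + 0 * h) * a ^ 4 * d ^ 4 * J ^ 0
    + ((2871 / 100000) + 0 * L + (-3393 / 50000) * h) * a ^ 5 * d ^ 0 * J ^ 0
    + (0 + (-87 / 500) * L + (87 / 500) * h) * a ^ 5 * d ^ 2 * J ^ 0
    + ((-87 / 1000) + (87 / 500) * L + 0 * h) * a ^ 5 * d ^ 4 * J ^ 0

noncomputable def UX2_0 (L h d J : ℝ) : ℝ :=
  ((1947231 / 800) + 24208 * L + (-322247137 / 10000) * h) * d ^ 0 * J ^ 0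
    + (0 + (-52824986 / 625) * L + (52824986 / 625) * h) * d ^ 0 * J ^ 1
    + ((290537423 / 31250) + (1549312 / 25) * L + (-1376256 / 25) * h) * d ^ 0 * J ^ 2
    + ((-8521216 / 625) + (346112 / 25) * L + (-346112 / 25) * h) * d ^ 0 * J ^ 3
    + ((-951808 / 625) + 0 * L + 0 * h) * d ^ 0 * J ^ 4
    + (0 + (-193664 / 5) * L + (193664 / 5) * h) * d ^ 1 * J ^ 2
    + ((1065152 / 125) + 0 * L + 0 * h) * d ^ 1 * J ^ 3
    + ((-59244541 / 3125) + (2301273 / 100) * L + (580452899 / 12500) * h) * d ^ 2 * J ^ 0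
    + (0 + 106496 * L + (-106496) * h) * d ^ 2 * J ^ 1
    + ((-292864 / 25) + 0 * L + (-173056 / 25) * h) * d ^ 2 * J ^ 2
    + (0 + (-346112 / 25) * L + (346112 / 25) * h) * d ^ 2 * J ^ 3
    + ((951808 / 625) + 0 * L + 0 * h) * d ^ 2 * J ^ 4
    + ((37825 / 8) + (-37825 / 4) * L + 0 * h) * d ^ 4 * J ^ 0

noncomputable def UX2_0_0 (L h J : ℝ) : ℝ :=
  ((15577848 / 25) + 6197248 * L + (-5155954192 / 625) * h) * J ^ 0
    + (0 + (-13523196416 / 625) * L + (13523196416 / 625) * h) * J ^ 1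
    + ((37188790144 / 15625) + (396623872 / 25) * L + (-352321536 / 25) * h) * J ^ 2
    + ((-2181431296 / 625) + (88604672 / 25) * L + (-88604672 / 25) * h) * J ^ 3
    + ((-243662848 / 625) + 0 * L + 0 * h) * J ^ 4

lemma UX2_0_0_nonneg {L h J : ℝ} (hL0 : (6931471 / 10000000) ≤ L) (hL1 : L ≤ (433217 / 625000)) (hh0 : (67 / 400) ≤ h) (hh1 : h ≤ (117 / 500)) (hJ0 : (39 / 100) ≤ J) (hJ1 : J ≤ (39 / 50)) :
    0 ≤ UX2_0_0 L h J := by
  obtain ⟨xl, hxl⟩ : ∃ x : ℝ, x = L - (6931471 / 10000000) := ⟨_, rfl⟩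
  obtain ⟨xu, hxu⟩ : ∃ x : ℝ, x = (433217 / 625000) - L := ⟨_, rfl⟩
  obtain ⟨yl, hyl⟩ : ∃ x : ℝ, x = h - (67 / 400) := ⟨_, rfl⟩
  obtain ⟨yu, hyu⟩ : ∃ x : ℝ, x = (117 / 500) - h := ⟨_, rfl⟩
  obtain ⟨A, hA⟩ : ∃ x : ℝ, x = J - (39 / 100) := ⟨_, rfl⟩
  obtain ⟨B, hB⟩ : ∃ x : ℝ, x = (39 / 50) - J := ⟨_, rfl⟩
  have hxl0 : 0 ≤ xl := by rw [hxl]; linarith
  have hxu0 : 0 ≤ xu := by rw [hxu]; linarith
  have hyl0 : 0 ≤ yl := by rw [hyl]; linarith
  have hyu0 : 0 ≤ yu := by rw [hyu]; linarith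
  have hA0 : 0 ≤ A := by rw [hA]; linarith
  have hB0 : 0 ≤ B := by rw [hB]; linarith
  have key : UX2_0_0 L h J =
      ((4119761629758811904 / 180737578125) + (38207069519872 / 2313441) * xl + (216481399017472 / 2313441) * yu) * A ^ 0 * B ^ 4
      + ((7291177348868509696 / 180737578125) + (145335964368896 / 2313441) * xu + (513854271176704 / 2313441) * yu) * A ^ 1 * B ^ 3
      + ((2039634618641235968 / 60245859375) + (120291020013568 / 771147) * xu + (173366042796032 / 771147) * yu) * A ^ 2 * B ^ 2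
      + ((1139622054604439552 / 36147515625) + (111886186741760 / 2313441) * xu + (385582801469440 / 2313441) * yu) * A ^ 3 * B ^ 1
      + ((2680158873592965632 / 180737578125) + (65443839410176 / 2313441) * xl + (162857545240576 / 2313441) * yu) * A ^ 4 * B ^ 0 := by
    simp only [hxl, hxu, hyl, hyu, hA, hB]
    unfold UX2_0_0
    ring
  rw [key]
  positivity

noncomputable def UX2_0_1 (L h J : ℝ) : ℝ :=
  ((62311392 / 25) + 24788992 * L + (-20623816768 / 625) * h) * J ^ 0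
    + (0 + (-54092785664 / 625) * L + (54092785664 / 625) * h) * J ^ 1
    + ((148755160576 / 15625) + (1524523008 / 25) * L + (-1347313664 / 25) * h) * J ^ 2
    + ((-8384876544 / 625) + (354418688 / 25) * L + (-354418688 / 25) * h) * J ^ 3
    + ((-974651392 / 625) + 0 * L + 0 * h) * J ^ 4

lemma UX2_0_1_nonneg {L h J : ℝ} (hL0 : (6931471 / 10000000) ≤ L) (hL1 : L ≤ (433217 / 625000)) (hh0 : (67 / 400) ≤ h) (hh1 : h ≤ (117 / 500)) (hJ0 : (39 / 100) ≤ J) (hJ1 : J ≤ (39 / 50)) :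
    0 ≤ UX2_0_1 L h J := by
  obtain ⟨xl, hxl⟩ : ∃ x : ℝ, x = L - (6931471 / 10000000) := ⟨_, rfl⟩
  obtain ⟨xu, hxu⟩ : ∃ x : ℝ, x = (433217 / 625000) - L := ⟨_, rfl⟩
  obtain ⟨yl, hyl⟩ : ∃ x : ℝ, x = h - (67 / 400) := ⟨_, rfl⟩
  obtain ⟨yu, hyu⟩ : ∃ x : ℝ, x = (117 / 500) - h := ⟨_, rfl⟩
  obtain ⟨A, hA⟩ : ∃ x : ℝ, x = J - (39 / 100) := ⟨_, rfl⟩
  obtain ⟨B, hB⟩ : ∃ x : ℝ, x = (39 / 50) - J := ⟨_, rfl⟩
  have hxl0 : 0 ≤ xl := by rw [hxl]; linarith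
  have hxu0 : 0 ≤ xu := by rw [hxu]; linarith
  have hyl0 : 0 ≤ yl := by rw [hyl]; linarith
  have hyu0 : 0 ≤ yu := by rw [hyu]; linarith
  have hA0 : 0 ≤ A := by rw [hA]; linarith
  have hB0 : 0 ≤ B := by rw [hB]; linarith
  have key : UX2_0_1 L h J =
      ((15379304309936623616 / 180737578125) + (115124221247488 / 2313441) * xl + (828221539237888 / 2313441) * yu) * A ^ 0 * B ^ 4
      + ((22818989379456630784 / 180737578125) + (807568198467584 / 2313441) * xu + (1829192743714816 / 2313441) * yu) * A ^ 1 * B ^ 3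
      + ((3814212635284815872 / 60245859375) + (644548326326272 / 771147) * xu + (530079924912128 / 771147) * yu) * A ^ 2 * B ^ 2
      + ((2323482219153195008 / 36147515625) + (899993428951040 / 2313441) * xu + (1089882523893760 / 2313441) * yu) * A ^ 3 * B ^ 1
      + ((7332606681785366528 / 180737578125) + (110959130312704 / 2313441) * xl + (500613953634304 / 2313441) * yu) * A ^ 4 * B ^ 0 := by
    simp only [hxl, hxu, hyl, hyu, hA, hB]
    unfold UX2_0_1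
    ring
  rw [key]
  positivity

noncomputable def UX2_0_2 (L h J : ℝ) : ℝ :=
  ((10735473344 / 3125) + (938792292 / 25) * L + (-152356814164 / 3125) * h) * J ^ 0
    + (0 + (-80074218496 / 625) * L + (80074218496 / 625) * h) * J ^ 1
    + ((220204100864 / 15625) + (2193825792 / 25) * L + (-1930780672 / 25) * h) * J ^ 2
    + ((-12066041856 / 625) + (105218048 / 5) * L + (-105218048 / 5) * h) * J ^ 3
    + ((-289349632 / 125) + 0 * L + 0 * h) * J ^ 4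

lemma UX2_0_2_nonneg {L h J : ℝ} (hL0 : (6931471 / 10000000) ≤ L) (hL1 : L ≤ (433217 / 625000)) (hh0 : (67 / 400) ≤ h) (hh1 : h ≤ (117 / 500)) (hJ0 : (39 / 100) ≤ J) (hJ1 : J ≤ (39 / 50)) :
    0 ≤ UX2_0_2 L h J := by
  obtain ⟨xl, hxl⟩ : ∃ x : ℝ, x = L - (6931471 / 10000000) := ⟨_, rfl⟩
  obtain ⟨xu, hxu⟩ : ∃ x : ℝ, x = (433217 / 625000) - L := ⟨_, rfl⟩
  obtain ⟨yl, hyl⟩ : ∃ x : ℝ, x = h - (67 / 400) := ⟨_, rfl⟩
  obtain ⟨yu, hyu⟩ : ∃ x : ℝ, x = (117 / 500) - h := ⟨_, rfl⟩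
  obtain ⟨A, hA⟩ : ∃ x : ℝ, x = J - (39 / 100) := ⟨_, rfl⟩
  obtain ⟨B, hB⟩ : ∃ x : ℝ, x = (39 / 50) - J := ⟨_, rfl⟩
  have hxl0 : 0 ≤ xl := by rw [hxl]; linarith
  have hxu0 : 0 ≤ xu := by rw [hxu]; linarith
  have hyl0 : 0 ≤ yl := by rw [hyl]; linarith
  have hyu0 : 0 ≤ yu := by rw [hyu]; linarith
  have hA0 : 0 ≤ A := by rw [hA]; linarith
  have hB0 : 0 ≤ B := by rw [hB]; linarith
  have key : UX2_0_2 L h J =
      ((376757192497372792 / 2780578125) + (72696711162880 / 771147) * xl + (1178302367728640 / 2313441) * yu) * A ^ 0 * B ^ 4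
      + ((7748465007494485504 / 36147515625) + (40012507893760 / 85683) * xu + (2440437921812480 / 2313441) * yu) * A ^ 1 * B ^ 3
      + ((1394933669655886592 / 12049171875) + (315593840568320 / 257049) * xu + (600224094423040 / 771147) * yu) * A ^ 2 * B ^ 2
      + ((697412801803582976 / 7229503125) + (480828956364800 / 771147) * xu + (1118068859801600 / 2313441) * yu) * A ^ 3 * B ^ 1
      + ((159169988169496696 / 2780578125) + (11047761044480 / 257049) * xl + (579532130616320 / 2313441) * yu) * A ^ 4 * B ^ 0 := by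
    simp only [hxl, hxu, hyl, hyu, hA, hB]
    unfold UX2_0_2
    ring
  rw [key]
  positivity

noncomputable def UX2_0_3 (L h J : ℝ) : ℝ :=
  ((5893098688 / 3125) + (638134984 / 25) * L + (-98475460648 / 3125) * h) * J ^ 0
    + (0 + (-51962865664 / 625) * L + (51962865664 / 625) * h) * J ^ 1
    + ((142897880576 / 15625) + (1400578048 / 25) * L + (-1228906496 / 25) * h) * J ^ 2
    + ((-7703179264 / 625) + (343343104 / 25) * L + (-343343104 / 25) * h) * J ^ 3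
    + ((-944193536 / 625) + 0 * L + 0 * h) * J ^ 4

lemma UX2_0_3_nonneg {L h J : ℝ} (hL0 : (6931471 / 10000000) ≤ L) (hL1 : L ≤ (433217 / 625000)) (hh0 : (67 / 400) ≤ h) (hh1 : h ≤ (117 / 500)) (hJ0 : (39 / 100) ≤ J) (hJ1 : J ≤ (39 / 50)) :
    0 ≤ UX2_0_3 L h J := by
  obtain ⟨xl, hxl⟩ : ∃ x : ℝ, x = L - (6931471 / 10000000) := ⟨_, rfl⟩
  obtain ⟨xu, hxu⟩ : ∃ x : ℝ, x = (433217 / 625000) - L := ⟨_, rfl⟩
  obtain ⟨yl, hyl⟩ : ∃ x : ℝ, x = h - (67 / 400) := ⟨_, rfl⟩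
  obtain ⟨yu, hyu⟩ : ∃ x : ℝ, x = (117 / 500) - h := ⟨_, rfl⟩
  obtain ⟨A, hA⟩ : ∃ x : ℝ, x = J - (39 / 100) := ⟨_, rfl⟩
  obtain ⟨B, hB⟩ : ∃ x : ℝ, x = (39 / 50) - J := ⟨_, rfl⟩
  have hxl0 : 0 ≤ xl := by rw [hxl]; linarith
  have hxu0 : 0 ≤ xu := by rw [hxu]; linarith
  have hyl0 : 0 ≤ yl := by rw [hyl]; linarith
  have hyu0 : 0 ≤ yu := by rw [hyu]; linarith
  have hA0 : 0 ≤ A := by rw [hA]; linarith
  have hB0 : 0 ≤ B := by rw [hB]; linarith
  have key : UX2_0_3 L h J =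
      ((715539578291994064 / 6693984375) + (243635881314304 / 2313441) * xl + (737865713813504 / 2313441) * yu) * A ^ 0 * B ^ 4
      + ((38192391332049001472 / 180737578125) + (319314688335872 / 2313441) * xu + (1448714697187328 / 2313441) * yu) * A ^ 1 * B ^ 3
      + ((10665237265269362176 / 60245859375) + (441082144485376 / 771147) * xu + (303672585293824 / 771147) * yu) * A ^ 2 * B ^ 2
      + ((4562169578994002944 / 36147515625) + (632538198302720 / 2313441) * xu + (508821353799680 / 2313441) * yu) * A ^ 3 * B ^ 1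
      + ((3138304637016777808 / 60245859375) + (127757665503232 / 2313441) * xl + (308652581292032 / 2313441) * yu) * A ^ 4 * B ^ 0 := by
    simp only [hxl, hxu, hyl, hyu, hA, hB]
    unfold UX2_0_3
    ring
  rw [key]
  positivity

noncomputable def UX2_0_4 (L h J : ℝ) : ℝ :=
  ((8112749877 / 25000) + (655599543 / 100) * L + (-23457959364 / 3125) * h) * J ^ 0
    + (0 + (-12458236416 / 625) * L + (12458236416 / 625) * h) * J ^ 1
    + ((34260150144 / 15625) + (334651392 / 25) * L + (-293117952 / 25) * h) * J ^ 2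
    + ((-1840582656 / 625) + (16613376 / 5) * L + (-16613376 / 5) * h) * J ^ 3
    + ((-45686784 / 125) + 0 * L + 0 * h) * J ^ 4

lemma UX2_0_4_nonneg {L h J : ℝ} (hL0 : (6931471 / 10000000) ≤ L) (hL1 : L ≤ (433217 / 625000)) (hh0 : (67 / 400) ≤ h) (hh1 : h ≤ (117 / 500)) (hJ0 : (39 / 100) ≤ J) (hJ1 : J ≤ (39 / 50)) :
    0 ≤ UX2_0_4 L h J := by
  obtain ⟨xl, hxl⟩ : ∃ x : ℝ, x = L - (6931471 / 10000000) := ⟨_, rfl⟩
  obtain ⟨xu, hxu⟩ : ∃ x : ℝ, x = (433217 / 625000) - L := ⟨_, rfl⟩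
  obtain ⟨yl, hyl⟩ : ∃ x : ℝ, x = h - (67 / 400) := ⟨_, rfl⟩
  obtain ⟨yu, hyu⟩ : ∃ x : ℝ, x = (117 / 500) - h := ⟨_, rfl⟩
  obtain ⟨A, hA⟩ : ∃ x : ℝ, x = J - (39 / 100) := ⟨_, rfl⟩
  obtain ⟨B, hB⟩ : ∃ x : ℝ, x = (39 / 50) - J := ⟨_, rfl⟩
  have hxl0 : 0 ≤ xl := by rw [hxl]; linarith
  have hxu0 : 0 ≤ xu := by rw [hxu]; linarith
  have hyl0 : 0 ≤ yl := by rw [hyl]; linarith
  have hyu0 : 0 ≤ yu := by rw [hyu]; linarith
  have hA0 : 0 ≤ A := by rw [hA]; linarith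
  have hB0 : 0 ≤ B := by rw [hB]; linarith
  have key : UX2_0_4 L h J =
      ((810083288330598703 / 24098343750) + (33839091517760 / 771147) * xl + (57101162101760 / 771147) * yu) * A ^ 0 * B ^ 4
      + ((994720071756661598 / 12049171875) + (31669430232320 / 771147) * xl + (107871749304320 / 771147) * yu) * A ^ 1 * B ^ 3
      + ((362440578690150608 / 4016390625) + (6816393031040 / 257049) * xu + (20054124328960 / 257049) * yu) * A ^ 2 * B ^ 2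
      + ((149836693666351174 / 2409834375) + (6019642860800 / 771147) * xl + (31684072140800 / 771147) * yu) * A ^ 3 * B ^ 1
      + ((494272449196335919 / 24098343750) + (24299160668480 / 771147) * xl + (22292286356480 / 771147) * yu) * A ^ 4 * B ^ 0 := by
    simp only [hxl, hxu, hyl, hyu, hA, hB]
    unfold UX2_0_4
    ring
  rw [key]
  positivity

lemma UX2_0_nonneg {L h d J : ℝ} (hL0 : (6931471 / 10000000) ≤ L) (hL1 : L ≤ (433217 / 625000)) (hh0 : (67 / 400) ≤ h) (hh1 : h ≤ (117 / 500)) (hd0 : 0 ≤ d) (hd1 : d ≤ (1 / 4)) (hJ0 : (39 / 100) ≤ J) (hJ1 : J ≤ (39 / 50)) :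
    0 ≤ UX2_0 L h d J := by
  have c0 := UX2_0_0_nonneg hL0 hL1 hh0 hh1 hJ0 hJ1
  have c1 := UX2_0_1_nonneg hL0 hL1 hh0 hh1 hJ0 hJ1
  have c2 := UX2_0_2_nonneg hL0 hL1 hh0 hh1 hJ0 hJ1
  have c3 := UX2_0_3_nonneg hL0 hL1 hh0 hh1 hJ0 hJ1
  have c4 := UX2_0_4_nonneg hL0 hL1 hh0 hh1 hJ0 hJ1
  have key : UX2_0 L h d J =
      (d - 0) ^ 0 * ((1 / 4) - d) ^ 4 * UX2_0_0 L h J
      + (d - 0) ^ 1 * ((1 / 4) - d) ^ 3 * UX2_0_1 L h J
      + (d - 0) ^ 2 * ((1 / 4) - d) ^ 2 * UX2_0_2 L h J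
      + (d - 0) ^ 3 * ((1 / 4) - d) ^ 1 * UX2_0_3 L h J
      + (d - 0) ^ 4 * ((1 / 4) - d) ^ 0 * UX2_0_4 L h J := by
    unfold UX2_0 UX2_0_0 UX2_0_1 UX2_0_2 UX2_0_3 UX2_0_4
    ring
  have hA : 0 ≤ d - 0 := by linarith
  have hB : 0 ≤ (1 / 4) - d := by linarith
  rw [key]
  positivity

noncomputable def UX2_1 (L h d J : ℝ) : ℝ :=
  ((24983409 / 2000) + (652224 / 5) * L + (-4304540127 / 25000) * h) * d ^ 0 * J ^ 0
    + (0 + (-1370695912 / 3125) * L + (1370695912 / 3125) * h) * d ^ 0 * J ^ 1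
    + ((3769413758 / 78125) + (38643712 / 125) * L + (-34250752 / 125) * h) * d ^ 0 * J ^ 2
    + ((-212540416 / 3125) + (1757184 / 25) * L + (-1757184 / 25) * h) * d ^ 0 * J ^ 3
    + ((-4832256 / 625) + 0 * L + 0 * h) * d ^ 0 * J ^ 4
    + (0 + (-5024128 / 25) * L + (5024128 / 25) * h) * d ^ 1 * J ^ 2
    + ((27632704 / 625) + 0 * L + 0 * h) * d ^ 1 * J ^ 3
    + ((-1525895916 / 15625) + (25749399 / 250) * L + (7625087637 / 31250) * h) * d ^ 2 * J ^ 0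
    + (0 + 540672 * L + (-540672) * h) * d ^ 2 * J ^ 1
    + ((-1486848 / 25) + 0 * L + (-878592 / 25) * h) * d ^ 2 * J ^ 2
    + (0 + (-1757184 / 25) * L + (1757184 / 25) * h) * d ^ 2 * J ^ 3
    + ((4832256 / 625) + 0 * L + 0 * h) * d ^ 2 * J ^ 4
    + ((109475 / 4) + (-109475 / 2) * L + 0 * h) * d ^ 4 * J ^ 0

noncomputable def UX2_1_0 (L h J : ℝ) : ℝ :=
  ((399734544 / 125) + (166969344 / 5) * L + (-137745284064 / 3125) * h) * J ^ 0
    + (0 + (-350898153472 / 3125) * L + (350898153472 / 3125) * h) * J ^ 1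
    + ((964969922048 / 78125) + (9892790272 / 125) * L + (-8768192512 / 125) * h) * J ^ 2
    + ((-54410346496 / 3125) + (449839104 / 25) * L + (-449839104 / 25) * h) * J ^ 3
    + ((-1237057536 / 625) + 0 * L + 0 * h) * J ^ 4

lemma UX2_1_0_nonneg {L h J : ℝ} (hL0 : (6931471 / 10000000) ≤ L) (hL1 : L ≤ (433217 / 625000)) (hh0 : (67 / 400) ≤ h) (hh1 : h ≤ (117 / 500)) (hJ0 : (39 / 100) ≤ J) (hJ1 : J ≤ (39 / 50)) :
    0 ≤ UX2_1_0 L h J := by
  obtain ⟨xl, hxl⟩ : ∃ x : ℝ, x = L - (6931471 / 10000000) := ⟨_, rfl⟩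
  obtain ⟨xu, hxu⟩ : ∃ x : ℝ, x = (433217 / 625000) - L := ⟨_, rfl⟩
  obtain ⟨yl, hyl⟩ : ∃ x : ℝ, x = h - (67 / 400) := ⟨_, rfl⟩
  obtain ⟨yu, hyu⟩ : ∃ x : ℝ, x = (117 / 500) - h := ⟨_, rfl⟩
  obtain ⟨A, hA⟩ : ∃ x : ℝ, x = J - (39 / 100) := ⟨_, rfl⟩
  obtain ⟨B, hB⟩ : ∃ x : ℝ, x = (39 / 50) - J := ⟨_, rfl⟩
  have hxl0 : 0 ≤ xl := by rw [hxl]; linarith
  have hxu0 : 0 ≤ xu := by rw [hxu]; linarith
  have hyl0 : 0 ≤ yl := by rw [hyl]; linarith
  have hyu0 : 0 ≤ yu := by rw [hyu]; linarith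
  have hA0 : 0 ≤ A := by rw [hA]; linarith
  have hB0 : 0 ≤ B := by rw [hB]; linarith
  have key : UX2_1_0 L h J =
      ((7970623772768459776 / 60245859375) + (3341588496384 / 28561) * xl + (400763274272768 / 771147) * yu) * A ^ 0 * B ^ 4
      + ((15042333923999227904 / 60245859375) + (189605590728704 / 771147) * xu + (35604762165248 / 28561) * yu) * A ^ 1 * B ^ 3
      + ((4155701303024300032 / 20081953125) + (66907390214144 / 85683) * xu + (313926667091968 / 257049) * yu) * A ^ 2 * B ^ 2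
      + ((1959865216444325888 / 12049171875) + (79682006548480 / 257049) * xu + (638206038671360 / 771147) * yu) * A ^ 3 * B ^ 1
      + ((1428228939276701696 / 20081953125) + (83292012150784 / 771147) * xl + (28554593509376 / 85683) * yu) * A ^ 4 * B ^ 0 := by
    simp only [hxl, hxu, hyl, hyu, hA, hB]
    unfold UX2_1_0
    ring
  rw [key]
  positivity

noncomputable def UX2_1_1 (L h J : ℝ) : ℝ :=
  ((1598938176 / 125) + (667877376 / 5) * L + (-550981136256 / 3125) * h) * J ^ 0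
    + (0 + (-1403592613888 / 3125) * L + (1403592613888 / 3125) * h) * J ^ 1
    + ((3859879688192 / 78125) + (37963440128 / 125) * L + (-33465049088 / 125) * h) * J ^ 2
    + ((-208798920704 / 3125) + (1799356416 / 25) * L + (-1799356416 / 25) * h) * J ^ 3
    + ((-4948230144 / 625) + 0 * L + 0 * h) * J ^ 4

lemma UX2_1_1_nonneg {L h J : ℝ} (hL0 : (6931471 / 10000000) ≤ L) (hL1 : L ≤ (433217 / 625000)) (hh0 : (67 / 400) ≤ h) (hh1 : h ≤ (117 / 500)) (hJ0 : (39 / 100) ≤ J) (hJ1 : J ≤ (39 / 50)) :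
    0 ≤ UX2_1_1 L h J := by
  obtain ⟨xl, hxl⟩ : ∃ x : ℝ, x = L - (6931471 / 10000000) := ⟨_, rfl⟩
  obtain ⟨xu, hxu⟩ : ∃ x : ℝ, x = (433217 / 625000) - L := ⟨_, rfl⟩
  obtain ⟨yl, hyl⟩ : ∃ x : ℝ, x = h - (67 / 400) := ⟨_, rfl⟩
  obtain ⟨yu, hyu⟩ : ∃ x : ℝ, x = (117 / 500) - h := ⟨_, rfl⟩
  obtain ⟨A, hA⟩ : ∃ x : ℝ, x = J - (39 / 100) := ⟨_, rfl⟩
  obtain ⟨B, hB⟩ : ∃ x : ℝ, x = (39 / 50) - J := ⟨_, rfl⟩
  have hxl0 : 0 ≤ xl := by rw [hxl]; linarith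
  have hxu0 : 0 ≤ xu := by rw [hxu]; linarith
  have hyl0 : 0 ≤ yl := by rw [hyl]; linarith
  have hyu0 : 0 ≤ yu := by rw [hyu]; linarith
  have hA0 : 0 ≤ A := by rw [hA]; linarith
  have hB0 : 0 ≤ B := by rw [hB]; linarith
  have key : UX2_1_1 L h J =
      ((29980491061581435904 / 60245859375) + (98560798490624 / 257049) * xl + (1537843934953472 / 771147) * yu) * A ^ 0 * B ^ 4
      + ((49194413627316617216 / 60245859375) + (1149677335740416 / 771147) * xu + (383784371224576 / 85683) * yu) * A ^ 1 * B ^ 3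
      + ((3036431383872536576 / 6693984375) + (1085461718499328 / 257049) * xu + (108125959159808 / 28561) * yu) * A ^ 2 * B ^ 2
      + ((3974018236249505792 / 12049171875) + (579564674744320 / 257049) * xu + (1770314209034240 / 771147) * yu) * A ^ 3 * B ^ 1
      + ((1253239090351689728 / 6693984375) + (72331400052736 / 771147) * xl + (255709572595712 / 257049) * yu) * A ^ 4 * B ^ 0 := by
    simp only [hxl, hxu, hyl, hyu, hA, hB]
    unfold UX2_1_1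
    ring
  rw [key]
  positivity

noncomputable def UX2_1_2 (L h J : ℝ) : ℝ :=
  ((275386573344 / 15625) + (25251396792 / 125) * L + (-4071357820824 / 15625) * h) * J ^ 0
    + (0 + (-2078355320832 / 3125) * L + (2078355320832 / 3125) * h) * J ^ 1
    + ((5715477132288 / 78125) + (54533578752 / 125) * L + (-47856279552 / 125) * h) * J ^ 2
    + ((-299934683136 / 3125) + (534183936 / 5) * L + (-534183936 / 5) * h) * J ^ 3
    + ((-1469005824 / 125) + 0 * L + 0 * h) * J ^ 4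

lemma UX2_1_2_nonneg {L h J : ℝ} (hL0 : (6931471 / 10000000) ≤ L) (hL1 : L ≤ (433217 / 625000)) (hh0 : (67 / 400) ≤ h) (hh1 : h ≤ (117 / 500)) (hJ0 : (39 / 100) ≤ J) (hJ1 : J ≤ (39 / 50)) :
    0 ≤ UX2_1_2 L h J := by
  obtain ⟨xl, hxl⟩ : ∃ x : ℝ, x = L - (6931471 / 10000000) := ⟨_, rfl⟩
  obtain ⟨xu, hxu⟩ : ∃ x : ℝ, x = (433217 / 625000) - L := ⟨_, rfl⟩
  obtain ⟨yl, hyl⟩ : ∃ x : ℝ, x = h - (67 / 400) := ⟨_, rfl⟩
  obtain ⟨yu, hyu⟩ : ∃ x : ℝ, x = (117 / 500) - h := ⟨_, rfl⟩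
  obtain ⟨A, hA⟩ : ∃ x : ℝ, x = J - (39 / 100) := ⟨_, rfl⟩
  obtain ⟨B, hB⟩ : ∃ x : ℝ, x = (39 / 50) - J := ⟨_, rfl⟩
  have hxl0 : 0 ≤ xl := by rw [hxl]; linarith
  have hxu0 : 0 ≤ xu := by rw [hxu]; linarith
  have hyl0 : 0 ≤ yl := by rw [hyl]; linarith
  have hyu0 : 0 ≤ yu := by rw [hyu]; linarith
  have hA0 : 0 ≤ A := by rw [hA]; linarith
  have hB0 : 0 ≤ B := by rw [hB]; linarith
  have key : UX2_1_2 L h J =
      ((722078052326025968 / 926859375) + (510878010050560 / 771147) * xl + (2191904294389760 / 771147) * yu) * A ^ 0 * B ^ 4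
      + ((5304339634928804864 / 4016390625) + (1544937048104960 / 771147) * xu + (4637505578147840 / 771147) * yu) * A ^ 1 * B ^ 3
      + ((328599402503570944 / 446265625) + (1618150704148480 / 257049) * xu + (1111962268241920 / 257049) * yu) * A ^ 2 * B ^ 2
      + ((123048706992315392 / 267759375) + (2819332661043200 / 771147) * xu + (1738122431897600 / 771147) * yu) * A ^ 3 * B ^ 1
      + ((1016469648029649152 / 4016390625) + (20695606753280 / 771147) * xu + (847836910929920 / 771147) * yu) * A ^ 4 * B ^ 0 := by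
    simp only [hxl, hxu, hyl, hyu, hA, hB]
    unfold UX2_1_2
    ring
  rw [key]
  positivity

noncomputable def UX2_1_3 (L h J : ℝ) : ℝ :=
  ((151038602688 / 15625) + (17108924784 / 125) * L + (-2632904279088 / 15625) * h) * J ^ 0
    + (0 + (-1349525413888 / 3125) * L + (1349525413888 / 3125) * h) * J ^ 1
    + ((3711194888192 / 78125) + (34747998208 / 125) * L + (-30390181888 / 125) * h) * J ^ 2
    + ((-191113990144 / 3125) + (1743126528 / 25) * L + (-1743126528 / 25) * h) * J ^ 3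
    + ((-4793597952 / 625) + 0 * L + 0 * h) * J ^ 4

lemma UX2_1_3_nonneg {L h J : ℝ} (hL0 : (6931471 / 10000000) ≤ L) (hL1 : L ≤ (433217 / 625000)) (hh0 : (67 / 400) ≤ h) (hh1 : h ≤ (117 / 500)) (hJ0 : (39 / 100) ≤ J) (hJ1 : J ≤ (39 / 50)) :
    0 ≤ UX2_1_3 L h J := by
  obtain ⟨xl, hxl⟩ : ∃ x : ℝ, x = L - (6931471 / 10000000) := ⟨_, rfl⟩
  obtain ⟨xu, hxu⟩ : ∃ x : ℝ, x = (433217 / 625000) - L := ⟨_, rfl⟩
  obtain ⟨yl, hyl⟩ : ∃ x : ℝ, x = h - (67 / 400) := ⟨_, rfl⟩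
  obtain ⟨yu, hyu⟩ : ∃ x : ℝ, x = (117 / 500) - h := ⟨_, rfl⟩
  obtain ⟨A, hA⟩ : ∃ x : ℝ, x = J - (39 / 100) := ⟨_, rfl⟩
  obtain ⟨B, hB⟩ : ∃ x : ℝ, x = (39 / 50) - J := ⟨_, rfl⟩
  have hxl0 : 0 ≤ xl := by rw [hxl]; linarith
  have hxu0 : 0 ≤ xu := by rw [hxu]; linarith
  have hyl0 : 0 ≤ yl := by rw [hyl]; linarith
  have hyu0 : 0 ≤ yu := by rw [hyu]; linarith
  have hA0 : 0 ≤ A := by rw [hA]; linarith
  have hB0 : 0 ≤ B := by rw [hB]; linarith
  have key : UX2_1_3 L h J =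
      ((3979018745412545248 / 6693984375) + (495600391294976 / 771147) * xl + (457776627003392 / 257049) * yu) * A ^ 0 * B ^ 4
      + ((71716283861911205888 / 60245859375) + (133088150634496 / 257049) * xu + (2758147447078912 / 771147) * yu) * A ^ 1 * B ^ 3
      + ((18868868982565755904 / 20081953125) + (782804935368704 / 257049) * xu + (62247811948544 / 28561) * yu) * A ^ 2 * B ^ 2
      + ((6991789786337171456 / 12049171875) + (1378767327969280 / 771147) * xu + (239375463792640 / 257049) * yu) * A ^ 3 * B ^ 1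
      + ((13795381596083127776 / 60245859375) + (24927544979456 / 257049) * xl + (422253034835968 / 771147) * yu) * A ^ 4 * B ^ 0 := by
    simp only [hxl, hxu, hyl, hyu, hA, hB]
    unfold UX2_1_3
    ring
  rw [key]
  positivity

noncomputable def UX2_1_4 (L h J : ℝ) : ℝ :=
  ((103920480251 / 62500) + (8746773209 / 250) * L + (-627725719224 / 15625) * h) * J ^ 0
    + (0 + (-323864553472 / 3125) * L + (323864553472 / 3125) * h) * J ^ 1
    + ((890627522048 / 78125) + (8285069312 / 125) * L + (-7230758912 / 125) * h) * J ^ 2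
    + ((-45567881216 / 3125) + (84344832 / 5) * L + (-84344832 / 5) * h) * J ^ 3
    + ((-231948288 / 125) + 0 * L + 0 * h) * J ^ 4

lemma UX2_1_4_nonneg {L h J : ℝ} (hL0 : (6931471 / 10000000) ≤ L) (hL1 : L ≤ (433217 / 625000)) (hh0 : (67 / 400) ≤ h) (hh1 : h ≤ (117 / 500)) (hJ0 : (39 / 100) ≤ J) (hJ1 : J ≤ (39 / 50)) :
    0 ≤ UX2_1_4 L h J := by
  obtain ⟨xl, hxl⟩ : ∃ x : ℝ, x = L - (6931471 / 10000000) := ⟨_, rfl⟩
  obtain ⟨xu, hxu⟩ : ∃ x : ℝ, x = (433217 / 625000) - L := ⟨_, rfl⟩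
  obtain ⟨yl, hyl⟩ : ∃ x : ℝ, x = h - (67 / 400) := ⟨_, rfl⟩
  obtain ⟨yu, hyu⟩ : ∃ x : ℝ, x = (117 / 500) - h := ⟨_, rfl⟩
  obtain ⟨A, hA⟩ : ∃ x : ℝ, x = J - (39 / 100) := ⟨_, rfl⟩
  obtain ⟨B, hB⟩ : ∃ x : ℝ, x = (39 / 50) - J := ⟨_, rfl⟩
  have hxl0 : 0 ≤ xl := by rw [hxl]; linarith
  have hxu0 : 0 ≤ xu := by rw [hxu]; linarith
  have hyl0 : 0 ≤ yl := by rw [hyl]; linarith
  have hyu0 : 0 ≤ yu := by rw [hyu]; linarith
  have hA0 : 0 ≤ A := by rw [hA]; linarith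
  have hB0 : 0 ≤ B := by rw [hB]; linarith
  have key : UX2_1_4 L h J =
      ((6515058199384501639 / 36147515625) + (565071911941760 / 2313441) * xl + (318506247301120 / 771147) * yu) * A ^ 0 * B ^ 4
      + ((15715883121109860892 / 36147515625) + (534907553569280 / 2313441) * xl + (613372631490560 / 771147) * yu) * A ^ 1 * B ^ 3
      + ((199564981376352736 / 446265625) + (159128837231360 / 771147) * xu + (107475004641280 / 257049) * yu) * A ^ 2 * B ^ 2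
      + ((689345033772631744 / 2409834375) + (199143014540800 / 2313441) * xu + (112112129843200 / 771147) * yu) * A ^ 3 * B ^ 1
      + ((661832333431484699 / 7229503125) + (248079138780800 / 2313441) * xl + (84553500108800 / 771147) * yu) * A ^ 4 * B ^ 0 := by
    simp only [hxl, hxu, hyl, hyu, hA, hB]
    unfold UX2_1_4
    ring
  rw [key]
  positivity

lemma UX2_1_nonneg {L h d J : ℝ} (hL0 : (6931471 / 10000000) ≤ L) (hL1 : L ≤ (433217 / 625000)) (hh0 : (67 / 400) ≤ h) (hh1 : h ≤ (117 / 500)) (hd0 : 0 ≤ d) (hd1 : d ≤ (1 / 4)) (hJ0 : (39 / 100) ≤ J) (hJ1 : J ≤ (39 / 50)) :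
    0 ≤ UX2_1 L h d J := by
  have c0 := UX2_1_0_nonneg hL0 hL1 hh0 hh1 hJ0 hJ1
  have c1 := UX2_1_1_nonneg hL0 hL1 hh0 hh1 hJ0 hJ1
  have c2 := UX2_1_2_nonneg hL0 hL1 hh0 hh1 hJ0 hJ1
  have c3 := UX2_1_3_nonneg hL0 hL1 hh0 hh1 hJ0 hJ1
  have c4 := UX2_1_4_nonneg hL0 hL1 hh0 hh1 hJ0 hJ1
  have key : UX2_1 L h d J =
      (d - 0) ^ 0 * ((1 / 4) - d) ^ 4 * UX2_1_0 L h J
      + (d - 0) ^ 1 * ((1 / 4) - d) ^ 3 * UX2_1_1 L h J
      + (d - 0) ^ 2 * ((1 / 4) - d) ^ 2 * UX2_1_2 L h J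
      + (d - 0) ^ 3 * ((1 / 4) - d) ^ 1 * UX2_1_3 L h J
      + (d - 0) ^ 4 * ((1 / 4) - d) ^ 0 * UX2_1_4 L h J := by
    unfold UX2_1 UX2_1_0 UX2_1_1 UX2_1_2 UX2_1_3 UX2_1_4
    ring
  have hA : 0 ≤ d - 0 := by linarith
  have hB : 0 ≤ (1 / 4) - d := by linarith
  rw [key]
  positivity

noncomputable def UX2_2 (L h d J : ℝ) : ℝ :=
  ((63519291 / 2500) + (7013904 / 25) * L + (-11465780619 / 31250) * h) * d ^ 0 * J ^ 0
    + (0 + (-14204993706 / 15625) * L + (14204993706 / 15625) * h) * d ^ 0 * J ^ 1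
    + ((78127465383 / 781250) + (77109248 / 125) * L + (-68190208 / 125) * h) * d ^ 0 * J ^ 2
    + ((-424100864 / 3125) + (3567616 / 25) * L + (-3567616 / 25) * h) * d ^ 0 * J ^ 3
    + ((-9810944 / 625) + 0 * L + 0 * h) * d ^ 0 * J ^ 4
    + (0 + (-52055424 / 125) * L + (52055424 / 125) * h) * d ^ 1 * J ^ 2
    + ((286304832 / 3125) + 0 * L + 0 * h) * d ^ 1 * J ^ 3
    + ((-3145621329 / 15625) + (22791458 / 125) * L + (7981448164 / 15625) * h) * d ^ 2 * J ^ 0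
    + (0 + 1097728 * L + (-1097728) * h) * d ^ 2 * J ^ 1
    + ((-3018752 / 25) + 0 * L + (-1783808 / 25) * h) * d ^ 2 * J ^ 2
    + (0 + (-3567616 / 25) * L + (3567616 / 25) * h) * d ^ 2 * J ^ 3
    + ((9810944 / 625) + 0 * L + 0 * h) * d ^ 2 * J ^ 4
    + (63285 + (-126570) * L + 0 * h) * d ^ 4 * J ^ 0

noncomputable def UX2_2_0 (L h J : ℝ) : ℝ :=
  ((4065234624 / 625) + (1795559424 / 25) * L + (-1467619919232 / 15625) * h) * J ^ 0
    + (0 + (-3636478388736 / 15625) * L + (3636478388736 / 15625) * h) * J ^ 1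
    + ((10000315569024 / 390625) + (19739967488 / 125) * L + (-17456693248 / 125) * h) * J ^ 2
    + ((-108569821184 / 3125) + (913309696 / 25) * L + (-913309696 / 25) * h) * J ^ 3
    + ((-2511601664 / 625) + 0 * L + 0 * h) * J ^ 4

lemma UX2_2_0_nonneg {L h J : ℝ} (hL0 : (6931471 / 10000000) ≤ L) (hL1 : L ≤ (433217 / 625000)) (hh0 : (67 / 400) ≤ h) (hh1 : h ≤ (117 / 500)) (hJ0 : (39 / 100) ≤ J) (hJ1 : J ≤ (39 / 50)) :
    0 ≤ UX2_2_0 L h J := by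
  obtain ⟨xl, hxl⟩ : ∃ x : ℝ, x = L - (6931471 / 10000000) := ⟨_, rfl⟩
  obtain ⟨xu, hxu⟩ : ∃ x : ℝ, x = (433217 / 625000) - L := ⟨_, rfl⟩
  obtain ⟨yl, hyl⟩ : ∃ x : ℝ, x = h - (67 / 400) := ⟨_, rfl⟩
  obtain ⟨yu, hyu⟩ : ∃ x : ℝ, x = (117 / 500) - h := ⟨_, rfl⟩
  obtain ⟨A, hA⟩ : ∃ x : ℝ, x = J - (39 / 100) := ⟨_, rfl⟩
  obtain ⟨B, hB⟩ : ∃ x : ℝ, x = (39 / 50) - J := ⟨_, rfl⟩
  have hxl0 : 0 ≤ xl := by rw [hxl]; linarith
  have hxu0 : 0 ≤ xu := by rw [hxu]; linarith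
  have hyl0 : 0 ≤ yl := by rw [hyl]; linarith
  have hyu0 : 0 ≤ yu := by rw [hyu]; linarith
  have hA0 : 0 ≤ A := by rw [hA]; linarith
  have hB0 : 0 ≤ B := by rw [hB]; linarith
  have key : UX2_2_0 L h J =
      ((3670457367552038144 / 12049171875) + (241417784360960 / 771147) * xl + (885651443548160 / 771147) * yu) * A ^ 0 * B ^ 4
      + ((36691370775595974656 / 60245859375) + (241866247929856 / 771147) * xu + (2149849182470144 / 771147) * yu) * A ^ 1 * B ^ 3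
      + ((10244684333968861184 / 20081953125) + (385581965737984 / 257049) * xu + (228932092854272 / 85683) * yu) * A ^ 2 * B ^ 2
      + ((21059014091928817664 / 60245859375) + (549986422718464 / 771147) * xu + (1286071388635136 / 771147) * yu) * A ^ 3 * B ^ 1
      + ((8421940416081109504 / 60245859375) + (123475442204672 / 771147) * xl + (489880291868672 / 771147) * yu) * A ^ 4 * B ^ 0 := by
    simp only [hxl, hxu, hyl, hyu, hA, hB]
    unfold UX2_2_0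
    ring
  rw [key]
  positivity

noncomputable def UX2_2_1 (L h J : ℝ) : ℝ :=
  ((16260938496 / 625) + (7182237696 / 25) * L + (-5870479676928 / 15625) * h) * J ^ 0
    + (0 + (-14545913554944 / 15625) * L + (14545913554944 / 15625) * h) * J ^ 1
    + ((40001262276096 / 390625) + (75628322816 / 125) * L + (-66495225856 / 125) * h) * J ^ 2
    + ((-415955775488 / 3125) + (3653238784 / 25) * L + (-3653238784 / 25) * h) * J ^ 3
    + ((-10046406656 / 625) + 0 * L + 0 * h) * J ^ 4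

lemma UX2_2_1_nonneg {L h J : ℝ} (hL0 : (6931471 / 10000000) ≤ L) (hL1 : L ≤ (433217 / 625000)) (hh0 : (67 / 400) ≤ h) (hh1 : h ≤ (117 / 500)) (hJ0 : (39 / 100) ≤ J) (hJ1 : J ≤ (39 / 50)) :
    0 ≤ UX2_2_1 L h J := by
  obtain ⟨xl, hxl⟩ : ∃ x : ℝ, x = L - (6931471 / 10000000) := ⟨_, rfl⟩
  obtain ⟨xu, hxu⟩ : ∃ x : ℝ, x = (433217 / 625000) - L := ⟨_, rfl⟩
  obtain ⟨yl, hyl⟩ : ∃ x : ℝ, x = h - (67 / 400) := ⟨_, rfl⟩
  obtain ⟨yu, hyu⟩ : ∃ x : ℝ, x = (117 / 500) - h := ⟨_, rfl⟩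
  obtain ⟨A, hA⟩ : ∃ x : ℝ, x = J - (39 / 100) := ⟨_, rfl⟩
  obtain ⟨B, hB⟩ : ∃ x : ℝ, x = (39 / 50) - J := ⟨_, rfl⟩
  have hxl0 : 0 ≤ xl := by rw [hxl]; linarith
  have hxu0 : 0 ≤ xu := by rw [hxu]; linarith
  have hyl0 : 0 ≤ yl := by rw [hyl]; linarith
  have hyu0 : 0 ≤ yu := by rw [hyu]; linarith
  have hA0 : 0 ≤ A := by rw [hA]; linarith
  have hB0 : 0 ≤ B := by rw [hB]; linarith
  have key : UX2_2_1 L h J =
      ((13893556351331121152 / 12049171875) + (830543585607680 / 771147) * xl + (3407478222356480 / 771147) * yu) * A ^ 0 * B ^ 4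
      + ((124023060072870723584 / 60245859375) + (1778230302736384 / 771147) * xu + (7788631418863616 / 771147) * yu) * A ^ 1 * B ^ 3
      + ((25409109970412036096 / 20081953125) + (2127880587575296 / 257049) * xu + (720544129875968 / 85683) * yu) * A ^ 2 * B ^ 2
      + ((44185871534099480576 / 60245859375) + (3821476312907776 / 771147) * xu + (3522754932506624 / 771147) * yu) * A ^ 3 * B ^ 1
      + ((21545406406262423552 / 60245859375) + (46608438525952 / 771147) * xu + (1419010960130048 / 771147) * yu) * A ^ 4 * B ^ 0 := by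
    simp only [hxl, hxu, hyl, hyu, hA, hB]
    unfold UX2_2_1
    ring
  rw [key]
  positivity

noncomputable def UX2_2_2 (L h J : ℝ) : ℝ :=
  ((559455252336 / 15625) + (54231446048 / 125) * L + (-8678016344768 / 15625) * h) * J ^ 0
    + (0 + (-21544438332416 / 15625) * L + (21544438332416 / 15625) * h) * J ^ 1
    + ((59247205414144 / 390625) + (21689032704 / 25) * L + (-18977644544 / 25) * h) * J ^ 2
    + ((-119289679872 / 625) + (1084555264 / 5) * L + (-1084555264 / 5) * h) * J ^ 3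
    + ((-2982526976 / 125) + 0 * L + 0 * h) * J ^ 4

lemma UX2_2_2_nonneg {L h J : ℝ} (hL0 : (6931471 / 10000000) ≤ L) (hL1 : L ≤ (433217 / 625000)) (hh0 : (67 / 400) ≤ h) (hh1 : h ≤ (117 / 500)) (hJ0 : (39 / 100) ≤ J) (hJ1 : J ≤ (39 / 50)) :
    0 ≤ UX2_2_2 L h J := by
  obtain ⟨xl, hxl⟩ : ∃ x : ℝ, x = L - (6931471 / 10000000) := ⟨_, rfl⟩
  obtain ⟨xu, hxu⟩ : ∃ x : ℝ, x = (433217 / 625000) - L := ⟨_, rfl⟩
  obtain ⟨yl, hyl⟩ : ∃ x : ℝ, x = h - (67 / 400) := ⟨_, rfl⟩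
  obtain ⟨yu, hyu⟩ : ∃ x : ℝ, x = (117 / 500) - h := ⟨_, rfl⟩
  obtain ⟨A, hA⟩ : ∃ x : ℝ, x = J - (39 / 100) := ⟨_, rfl⟩
  obtain ⟨B, hB⟩ : ∃ x : ℝ, x = (39 / 50) - J := ⟨_, rfl⟩
  have hxl0 : 0 ≤ xl := by rw [hxl]; linarith
  have hxu0 : 0 ≤ xu := by rw [hxu]; linarith
  have hyl0 : 0 ≤ yl := by rw [hyl]; linarith
  have hyu0 : 0 ≤ yu := by rw [hyu]; linarith
  have hA0 : 0 ≤ A := by rw [hA]; linarith
  have hB0 : 0 ≤ B := by rw [hB]; linarith
  have key : UX2_2_2 L h J =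
      ((321960265681387114688 / 180737578125) + (314810840915968 / 177957) * xl + (14597080143478784 / 2313441) * yu) * A ^ 0 * B ^ 4
      + ((116439406465582419968 / 36147515625) + (550265794887680 / 177957) * xu + (31565484399656960 / 2313441) * yu) * A ^ 1 * B ^ 3
      + ((115262916553092773888 / 60245859375) + (742562053144576 / 59319) * xu + (7506685100326912 / 771147) * yu) * A ^ 2 * B ^ 2
      + ((173280899791434084352 / 180737578125) + (1446355057147904 / 177957) * xu + (10018672651010048 / 2313441) * yu) * A ^ 3 * B ^ 1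
      + ((83416447187026957312 / 180737578125) + (83745533517824 / 177957) * xu + (4467021606207488 / 2313441) * yu) * A ^ 4 * B ^ 0 := by
    simp only [hxl, hxu, hyl, hyu, hA, hB]
    unfold UX2_2_2
    ring
  rw [key]
  positivity

noncomputable def UX2_2_3 (L h J : ℝ) : ℝ :=
  ((305863579872 / 15625) + (36640515136 / 125) * L + (-1123014667136 / 3125) * h) * J ^ 0
    + (0 + (-13997049554944 / 15625) * L + (13997049554944 / 15625) * h) * J ^ 1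
    + ((38491886276096 / 390625) + (68965228544 / 125) * L + (-60117540864 / 125) * h) * J ^ 2
    + ((-379308756992 / 3125) + (3539075072 / 25) * L + (-3539075072 / 25) * h) * J ^ 3
    + ((-9732456448 / 625) + 0 * L + 0 * h) * J ^ 4

lemma UX2_2_3_nonneg {L h J : ℝ} (hL0 : (6931471 / 10000000) ≤ L) (hL1 : L ≤ (433217 / 625000)) (hh0 : (67 / 400) ≤ h) (hh1 : h ≤ (117 / 500)) (hJ0 : (39 / 100) ≤ J) (hJ1 : J ≤ (39 / 50)) :
    0 ≤ UX2_2_3 L h J := by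
  obtain ⟨xl, hxl⟩ : ∃ x : ℝ, x = L - (6931471 / 10000000) := ⟨_, rfl⟩
  obtain ⟨xu, hxu⟩ : ∃ x : ℝ, x = (433217 / 625000) - L := ⟨_, rfl⟩
  obtain ⟨yl, hyl⟩ : ∃ x : ℝ, x = h - (67 / 400) := ⟨_, rfl⟩
  obtain ⟨yu, hyu⟩ : ∃ x : ℝ, x = (117 / 500) - h := ⟨_, rfl⟩
  obtain ⟨A, hA⟩ : ∃ x : ℝ, x = J - (39 / 100) := ⟨_, rfl⟩
  obtain ⟨B, hB⟩ : ∃ x : ℝ, x = (39 / 50) - J := ⟨_, rfl⟩
  have hxl0 : 0 ≤ xl := by rw [hxl]; linarith
  have hxu0 : 0 ≤ xu := by rw [hxu]; linarith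
  have hyl0 : 0 ≤ yl := by rw [hyl]; linarith
  have hyu0 : 0 ≤ yu := by rw [hyu]; linarith
  have hA0 : 0 ≤ A := by rw [hA]; linarith
  have hB0 : 0 ≤ B := by rw [hB]; linarith
  have key : UX2_2_3 L h J =
      ((238937937605996066176 / 180737578125) + (3607203005677568 / 2313441) * xl + (9154673608327168 / 2313441) * yu) * A ^ 0 * B ^ 4
      + ((488482973307139383296 / 180737578125) + (1205232917610496 / 2313441) * xu + (18831476219183104 / 2313441) * yu) * A ^ 1 * B ^ 3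
      + ((24956011076020711424 / 12049171875) + (4782671682437120 / 771147) * xu + (3800234036756480 / 771147) * yu) * A ^ 2 * B ^ 2
      + ((201597124879118655488 / 180737578125) + (9811781742297088 / 2313441) * xu + (3765407573082112 / 2313441) * yu) * A ^ 3 * B ^ 1
      + ((73987533286488123392 / 180737578125) + (276202618273792 / 2313441) * xu + (2041508073668608 / 2313441) * yu) * A ^ 4 * B ^ 0 := by
    simp only [hxl, hxu, hyl, hyu, hA, hB]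
    unfold UX2_2_3
    ring
  rw [key]
  positivity

noncomputable def UX2_2_4 (L h J : ℝ) : ℝ :=
  ((52289752461 / 15625) + (9326639198 / 125) * L + (-1339916748608 / 15625) * h) * J ^ 0
    + (0 + (-3362046388736 / 15625) * L + (3362046388736 / 15625) * h) * J ^ 1
    + ((9245627569024 / 390625) + (16408420352 / 125) * L + (-14267850752 / 125) * h) * J ^ 2
    + ((-90246311936 / 3125) + (171245568 / 5) * L + (-171245568 / 5) * h) * J ^ 3
    + ((-470925312 / 125) + 0 * L + 0 * h) * J ^ 4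

lemma UX2_2_4_nonneg {L h J : ℝ} (hL0 : (6931471 / 10000000) ≤ L) (hL1 : L ≤ (433217 / 625000)) (hh0 : (67 / 400) ≤ h) (hh1 : h ≤ (117 / 500)) (hJ0 : (39 / 100) ≤ J) (hJ1 : J ≤ (39 / 50)) :
    0 ≤ UX2_2_4 L h J := by
  obtain ⟨xl, hxl⟩ : ∃ x : ℝ, x = L - (6931471 / 10000000) := ⟨_, rfl⟩
  obtain ⟨xu, hxu⟩ : ∃ x : ℝ, x = (433217 / 625000) - L := ⟨_, rfl⟩
  obtain ⟨yl, hyl⟩ : ∃ x : ℝ, x = h - (67 / 400) := ⟨_, rfl⟩
  obtain ⟨yu, hyu⟩ : ∃ x : ℝ, x = (117 / 500) - h := ⟨_, rfl⟩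
  obtain ⟨A, hA⟩ : ∃ x : ℝ, x = J - (39 / 100) := ⟨_, rfl⟩
  obtain ⟨B, hB⟩ : ∃ x : ℝ, x = (39 / 50) - J := ⟨_, rfl⟩
  have hxl0 : 0 ≤ xl := by rw [hxl]; linarith
  have hxu0 : 0 ≤ xu := by rw [hxu]; linarith
  have hyl0 : 0 ≤ yl := by rw [hyl]; linarith
  have hyu0 : 0 ≤ yu := by rw [hyu]; linarith
  have hA0 : 0 ≤ A := by rw [hA]; linarith
  have hB0 : 0 ≤ B := by rw [hB]; linarith
  have key : UX2_2_4 L h J =
      ((70133167396553009108 / 180737578125) + (1269382477510144 / 2313441) * xl + (2123073801273344 / 2313441) * yu) * A ^ 0 * B ^ 4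
      + ((33503408254025538064 / 36147515625) + (1288502251509760 / 2313441) * xl + (4182338528706560 / 2313441) * yu) * A ^ 1 * B ^ 3
      + ((54628436969090307968 / 60245859375) + (381574857069568 / 771147) * xu + (718057269624832 / 771147) * yu) * A ^ 2 * B ^ 2
      + ((96932839879696559872 / 180737578125) + (874263669942272 / 2313441) * xu + (456785553686528 / 2313441) * yu) * A ^ 3 * B ^ 1
      + ((29750489530075406036 / 180737578125) + (289580675266048 / 2313441) * xl + (361878472245248 / 2313441) * yu) * A ^ 4 * B ^ 0 := by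
    simp only [hxl, hxu, hyl, hyu, hA, hB]
    unfold UX2_2_4
    ring
  rw [key]
  positivity

lemma UX2_2_nonneg {L h d J : ℝ} (hL0 : (6931471 / 10000000) ≤ L) (hL1 : L ≤ (433217 / 625000)) (hh0 : (67 / 400) ≤ h) (hh1 : h ≤ (117 / 500)) (hd0 : 0 ≤ d) (hd1 : d ≤ (1 / 4)) (hJ0 : (39 / 100) ≤ J) (hJ1 : J ≤ (39 / 50)) :
    0 ≤ UX2_2 L h d J := by
  have c0 := UX2_2_0_nonneg hL0 hL1 hh0 hh1 hJ0 hJ1
  have c1 := UX2_2_1_nonneg hL0 hL1 hh0 hh1 hJ0 hJ1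
  have c2 := UX2_2_2_nonneg hL0 hL1 hh0 hh1 hJ0 hJ1
  have c3 := UX2_2_3_nonneg hL0 hL1 hh0 hh1 hJ0 hJ1
  have c4 := UX2_2_4_nonneg hL0 hL1 hh0 hh1 hJ0 hJ1
  have key : UX2_2 L h d J =
      (d - 0) ^ 0 * ((1 / 4) - d) ^ 4 * UX2_2_0 L h J
      + (d - 0) ^ 1 * ((1 / 4) - d) ^ 3 * UX2_2_1 L h J
      + (d - 0) ^ 2 * ((1 / 4) - d) ^ 2 * UX2_2_2 L h J
      + (d - 0) ^ 3 * ((1 / 4) - d) ^ 1 * UX2_2_3 L h J
      + (d - 0) ^ 4 * ((1 / 4) - d) ^ 0 * UX2_2_4 L h J := by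
    unfold UX2_2 UX2_2_0 UX2_2_1 UX2_2_2 UX2_2_3 UX2_2_4
    ring
  have hA : 0 ≤ d - 0 := by linarith
  have hB : 0 ≤ (1 / 4) - d := by linarith
  rw [key]
  positivity

noncomputable def UX2_3 (L h d J : ℝ) : ℝ :=
  ((159786561 / 6250) + (37633568 / 125) * L + (-6089822617 / 15625) * h) * d ^ 0 * J ^ 0
    + (0 + (-14700365396 / 15625) * L + (14700365396 / 15625) * h) * d ^ 0 * J ^ 1
    + ((40426004839 / 390625) + (76931072 / 125) * L + (-67878912 / 125) * h) * d ^ 0 * J ^ 2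
    + ((-423120896 / 3125) + (3620864 / 25) * L + (-3620864 / 25) * h) * d ^ 0 * J ^ 3
    + ((-9957376 / 625) + 0 * L + 0 * h) * d ^ 0 * J ^ 4
    + (0 + (-53858432 / 125) * L + (53858432 / 125) * h) * d ^ 1 * J ^ 2
    + ((296221376 / 3125) + 0 * L + 0 * h) * d ^ 1 * J ^ 3
    + ((-3243660122 / 15625) + (19929436 / 125) * L + (8320149152 / 15625) * h) * d ^ 2 * J ^ 0
    + (0 + 1114112 * L + (-1114112) * h) * d ^ 2 * J ^ 1
    + ((-3063808 / 25) + 0 * L + (-1810432 / 25) * h) * d ^ 2 * J ^ 2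
    + (0 + (-3620864 / 25) * L + (3620864 / 25) * h) * d ^ 2 * J ^ 3
    + ((9957376 / 625) + 0 * L + 0 * h) * d ^ 2 * J ^ 4
    + (73062 + (-146124) * L + 0 * h) * d ^ 4 * J ^ 0

noncomputable def UX2_3_0 (L h J : ℝ) : ℝ :=
  ((20452679808 / 3125) + (9634193408 / 125) * L + (-1558994589952 / 15625) * h) * J ^ 0
    + (0 + (-3763293541376 / 15625) * L + (3763293541376 / 15625) * h) * J ^ 1
    + ((10349057238784 / 390625) + (19694354432 / 125) * L + (-17377001472 / 125) * h) * J ^ 2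
    + ((-108318949376 / 3125) + (926941184 / 25) * L + (-926941184 / 25) * h) * J ^ 3
    + ((-2549088256 / 625) + 0 * L + 0 * h) * J ^ 4

lemma UX2_3_0_nonneg {L h J : ℝ} (hL0 : (6931471 / 10000000) ≤ L) (hL1 : L ≤ (433217 / 625000)) (hh0 : (67 / 400) ≤ h) (hh1 : h ≤ (117 / 500)) (hJ0 : (39 / 100) ≤ J) (hJ1 : J ≤ (39 / 50)) :
    0 ≤ UX2_3_0 L h J := by
  obtain ⟨xl, hxl⟩ : ∃ x : ℝ, x = L - (6931471 / 10000000) := ⟨_, rfl⟩
  obtain ⟨xu, hxu⟩ : ∃ x : ℝ, x = (433217 / 625000) - L := ⟨_, rfl⟩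
  obtain ⟨yl, hyl⟩ : ∃ x : ℝ, x = h - (67 / 400) := ⟨_, rfl⟩
  obtain ⟨yu, hyu⟩ : ∃ x : ℝ, x = (117 / 500) - h := ⟨_, rfl⟩
  obtain ⟨A, hA⟩ : ∃ x : ℝ, x = J - (39 / 100) := ⟨_, rfl⟩
  obtain ⟨B, hB⟩ : ∃ x : ℝ, x = (39 / 50) - J := ⟨_, rfl⟩
  have hxl0 : 0 ≤ xl := by rw [hxl]; linarith
  have hxu0 : 0 ≤ xu := by rw [hxu]; linarith
  have hyl0 : 0 ≤ yl := by rw [hyl]; linarith
  have hyu0 : 0 ≤ yu := by rw [hyu]; linarith
  have hA0 : 0 ≤ A := by rw [hA]; linarith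
  have hB0 : 0 ≤ B := by rw [hB]; linarith
  have key : UX2_3_0 L h J =
      ((62844235399456257536 / 180737578125) + (930523990786048 / 2313441) * xl + (2918759131906048 / 2313441) * yu) * A ^ 0 * B ^ 4
      + ((132160879580929196032 / 180737578125) + (218443932434432 / 2313441) * xu + (7170545615699968 / 2313441) * yu) * A ^ 1 * B ^ 3
      + ((37690141348801409024 / 60245859375) + (1060748001869824 / 771147) * xu + (2257779427966976 / 771147) * yu) * A ^ 2 * B ^ 2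
      + ((69912640390856630272 / 180737578125) + (1767119354396672 / 2313441) * xu + (3930017144700928 / 2313441) * yu) * A ^ 3 * B ^ 1
      + ((5084341103270222848 / 36147515625) + (266156727992320 / 2313441) * xl + (1408465344593920 / 2313441) * yu) * A ^ 4 * B ^ 0 := by
    simp only [hxl, hxu, hyl, hyu, hA, hB]
    unfold UX2_3_0
    ring
  rw [key]
  positivity

noncomputable def UX2_3_1 (L h J : ℝ) : ℝ :=
  ((81810719232 / 3125) + (38536773632 / 125) * L + (-6235978359808 / 15625) * h) * J ^ 0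
    + (0 + (-15053174165504 / 15625) * L + (15053174165504 / 15625) * h) * J ^ 1
    + ((41396228955136 / 390625) + (15066095616 / 25) * L + (-13212213248 / 25) * h) * J ^ 2
    + ((-82863525888 / 625) + (3707764736 / 25) * L + (-3707764736 / 25) * h) * J ^ 3
    + ((-10196353024 / 625) + 0 * L + 0 * h) * J ^ 4

lemma UX2_3_1_nonneg {L h J : ℝ} (hL0 : (6931471 / 10000000) ≤ L) (hL1 : L ≤ (433217 / 625000)) (hh0 : (67 / 400) ≤ h) (hh1 : h ≤ (117 / 500)) (hJ0 : (39 / 100) ≤ J) (hJ1 : J ≤ (39 / 50)) :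
    0 ≤ UX2_3_1 L h J := by
  obtain ⟨xl, hxl⟩ : ∃ x : ℝ, x = L - (6931471 / 10000000) := ⟨_, rfl⟩
  obtain ⟨xu, hxu⟩ : ∃ x : ℝ, x = (433217 / 625000) - L := ⟨_, rfl⟩
  obtain ⟨yl, hyl⟩ : ∃ x : ℝ, x = h - (67 / 400) := ⟨_, rfl⟩
  obtain ⟨yu, hyu⟩ : ∃ x : ℝ, x = (117 / 500) - h := ⟨_, rfl⟩
  obtain ⟨A, hA⟩ : ∃ x : ℝ, x = J - (39 / 100) := ⟨_, rfl⟩
  obtain ⟨B, hB⟩ : ∃ x : ℝ, x = (39 / 50) - J := ⟨_, rfl⟩
  have hxl0 : 0 ≤ xl := by rw [hxl]; linarith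
  have hxu0 : 0 ≤ xu := by rw [hxu]; linarith
  have hyl0 : 0 ≤ yl := by rw [hyl]; linarith
  have hyu0 : 0 ≤ yu := by rw [hyu]; linarith
  have hA0 : 0 ≤ A := by rw [hA]; linarith
  have hB0 : 0 ≤ B := by rw [hB]; linarith
  have key : UX2_3_1 L h J =
      ((239143301688235633664 / 180737578125) + (3302672346775552 / 2313441) * xl + (11255612911255552 / 2313441) * yu) * A ^ 0 * B ^ 4
      + ((458053108134169427968 / 180737578125) + (3390317427949568 / 2313441) * xu + (26165640764588032 / 2313441) * yu) * A ^ 1 * B ^ 3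
      + ((102433859801866305536 / 60245859375) + (6060494345076736 / 771147) * xu + (7213615374270464 / 771147) * yu) * A ^ 2 * B ^ 2
      + ((155338434755158048768 / 180737578125) + (12101560814010368 / 2313441) * xu + (10686985182380032 / 2313441) * yu) * A ^ 3 * B ^ 1
      + ((12799610670268153856 / 36147515625) + (613067553505280 / 2313441) * xu + (3956166912901120 / 2313441) * yu) * A ^ 4 * B ^ 0 := by
    simp only [hxl, hxu, hyl, hyu, hA, hB]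
    unfold UX2_3_1
    ring
  rw [key]
  positivity

noncomputable def UX2_3_2 (L h J : ℝ) : ℝ :=
  ((561681832288 / 15625) + (58124031424 / 125) * L + (-1844169030656 / 3125) * h) * J ^ 0
    + (0 + (-22301233248256 / 15625) * L + (22301233248256 / 15625) * h) * J ^ 1
    + ((61328391432704 / 390625) + (107825307648 / 125) * L + (-94066024448 / 125) * h) * J ^ 2
    + ((-593039192064 / 3125) + (1100742656 / 5) * L + (-1100742656 / 5) * h) * J ^ 3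
    + ((-3027042304 / 125) + 0 * L + 0 * h) * J ^ 4

lemma UX2_3_2_nonneg {L h J : ℝ} (hL0 : (6931471 / 10000000) ≤ L) (hL1 : L ≤ (433217 / 625000)) (hh0 : (67 / 400) ≤ h) (hh1 : h ≤ (117 / 500)) (hJ0 : (39 / 100) ≤ J) (hJ1 : J ≤ (39 / 50)) :
    0 ≤ UX2_3_2 L h J := by
  obtain ⟨xl, hxl⟩ : ∃ x : ℝ, x = L - (6931471 / 10000000) := ⟨_, rfl⟩
  obtain ⟨xu, hxu⟩ : ∃ x : ℝ, x = (433217 / 625000) - L := ⟨_, rfl⟩
  obtain ⟨yl, hyl⟩ : ∃ x : ℝ, x = h - (67 / 400) := ⟨_, rfl⟩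
  obtain ⟨yu, hyu⟩ : ∃ x : ℝ, x = (117 / 500) - h := ⟨_, rfl⟩
  obtain ⟨A, hA⟩ : ∃ x : ℝ, x = J - (39 / 100) := ⟨_, rfl⟩
  obtain ⟨B, hB⟩ : ∃ x : ℝ, x = (39 / 50) - J := ⟨_, rfl⟩
  have hxl0 : 0 ≤ xl := by rw [hxl]; linarith
  have hxu0 : 0 ≤ xu := by rw [hxu]; linarith
  have hyl0 : 0 ≤ yl := by rw [hyl]; linarith
  have hyu0 : 0 ≤ yu := by rw [hyu]; linarith
  have hA0 : 0 ≤ A := by rw [hA]; linarith
  have hB0 : 0 ≤ B := by rw [hB]; linarith
  have key : UX2_3_2 L h J =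
      ((40626997155959734912 / 20081953125) + (5261429458386944 / 2313441) * xl + (16101383720402944 / 2313441) * yu) * A ^ 0 * B ^ 4
      + ((140129249382349807616 / 36147515625) + (4460096268206080 / 2313441) * xu + (35551261620305920 / 2313441) * yu) * A ^ 1 * B ^ 3
      + ((148770936041253982208 / 60245859375) + (9303661634551808 / 771147) * xu + (8469711203336192 / 771147) * yu) * A ^ 2 * B ^ 2
      + ((194649240906775601152 / 180737578125) + (20090064096919552 / 2313441) * xu + (9875916312936448 / 2313441) * yu) * A ^ 3 * B ^ 1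
      + ((78962861826952394752 / 180737578125) + (1900604919857152 / 2313441) * xu + (3916660602830848 / 2313441) * yu) * A ^ 4 * B ^ 0 := by
    simp only [hxl, hxu, hyl, hyu, hA, hB]
    unfold UX2_3_2
    ring
  rw [key]
  positivity

noncomputable def UX2_3_3 (L h J : ℝ) : ℝ :=
  ((305256472256 / 15625) + (39174515584 / 125) * L + (-5969733586944 / 15625) * h) * J ^ 0
    + (0 + (-14496118165504 / 15625) * L + (14496118165504 / 15625) * h) * J ^ 1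
    + ((39864324955136 / 390625) + (68436598784 / 125) * L + (-59456856064 / 125) * h) * J ^ 2
    + ((-376401293312 / 3125) + (3591897088 / 25) * L + (-3591897088 / 25) * h) * J ^ 3
    + ((-9877716992 / 625) + 0 * L + 0 * h) * J ^ 4

lemma UX2_3_3_nonneg {L h J : ℝ} (hL0 : (6931471 / 10000000) ≤ L) (hL1 : L ≤ (433217 / 625000)) (hh0 : (67 / 400) ≤ h) (hh1 : h ≤ (117 / 500)) (hJ0 : (39 / 100) ≤ J) (hJ1 : J ≤ (39 / 50)) :
    0 ≤ UX2_3_3 L h J := by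
  obtain ⟨xl, hxl⟩ : ∃ x : ℝ, x = L - (6931471 / 10000000) := ⟨_, rfl⟩
  obtain ⟨xu, hxu⟩ : ∃ x : ℝ, x = (433217 / 625000) - L := ⟨_, rfl⟩
  obtain ⟨yl, hyl⟩ : ∃ x : ℝ, x = h - (67 / 400) := ⟨_, rfl⟩
  obtain ⟨yu, hyu⟩ : ∃ x : ℝ, x = (117 / 500) - h := ⟨_, rfl⟩
  obtain ⟨A, hA⟩ : ∃ x : ℝ, x = J - (39 / 100) := ⟨_, rfl⟩
  obtain ⟨B, hB⟩ : ∃ x : ℝ, x = (39 / 50) - J := ⟨_, rfl⟩
  have hxl0 : 0 ≤ xl := by rw [hxl]; linarith
  have hxu0 : 0 ≤ xu := by rw [hxu]; linarith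
  have hyl0 : 0 ≤ yl := by rw [hyl]; linarith
  have hyu0 : 0 ≤ yu := by rw [hyu]; linarith
  have hA0 : 0 ≤ A := by rw [hA]; linarith
  have hB0 : 0 ≤ B := by rw [hB]; linarith
  have key : UX2_3_3 L h J =
      ((265232985340393357568 / 180737578125) + (4336937839591424 / 2313441) * xl + (3370321744887808 / 771147) * yu) * A ^ 0 * B ^ 4
      + ((555776684799518938112 / 180737578125) + (376984017698816 / 2313441) * xl + (2365309267738624 / 257049) * yu) * A ^ 1 * B ^ 3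
      + ((15666762008012742656 / 6693984375) + (4668832241352704 / 771147) * xu + (160359036878848 / 28561) * yu) * A ^ 2 * B ^ 2
      + ((67644579703834525696 / 60245859375) + (10943923169394688 / 2313441) * xu + (1136981885845504 / 771147) * yu) * A ^ 3 * B ^ 1
      + ((7513154886964965376 / 20081953125) + (897380267229184 / 2313441) * xu + (177631316148224 / 257049) * yu) * A ^ 4 * B ^ 0 := by
    simp only [hxl, hxu, hyl, hyu, hA, hB]
    unfold UX2_3_3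
    ring
  rw [key]
  positivity

noncomputable def UX2_3_4 (L h J : ℝ) : ℝ :=
  ((51506430838 / 15625) + (9934798884 / 125) * L + (-285174440704 / 3125) * h) * J ^ 0
    + (0 + (-3484765541376 / 15625) * L + (3484765541376 / 15625) * h) * J ^ 1
    + ((9583105238784 / 390625) + (16247414784 / 125) * L + (-14074896384 / 125) * h) * J ^ 2
    + ((-89360781312 / 3125) + (173801472 / 5) * L + (-173801472 / 5) * h) * J ^ 3
    + ((-477954048 / 125) + 0 * L + 0 * h) * J ^ 4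

lemma UX2_3_4_nonneg {L h J : ℝ} (hL0 : (6931471 / 10000000) ≤ L) (hL1 : L ≤ (433217 / 625000)) (hh0 : (67 / 400) ≤ h) (hh1 : h ≤ (117 / 500)) (hJ0 : (39 / 100) ≤ J) (hJ1 : J ≤ (39 / 50)) :
    0 ≤ UX2_3_4 L h J := by
  obtain ⟨xl, hxl⟩ : ∃ x : ℝ, x = L - (6931471 / 10000000) := ⟨_, rfl⟩
  obtain ⟨xu, hxu⟩ : ∃ x : ℝ, x = (433217 / 625000) - L := ⟨_, rfl⟩
  obtain ⟨yl, hyl⟩ : ∃ x : ℝ, x = h - (67 / 400) := ⟨_, rfl⟩
  obtain ⟨yu, hyu⟩ : ∃ x : ℝ, x = (117 / 500) - h := ⟨_, rfl⟩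
  obtain ⟨A, hA⟩ : ∃ x : ℝ, x = J - (39 / 100) := ⟨_, rfl⟩
  obtain ⟨B, hB⟩ : ∃ x : ℝ, x = (39 / 50) - J := ⟨_, rfl⟩
  have hxl0 : 0 ≤ xl := by rw [hxl]; linarith
  have hxu0 : 0 ≤ xu := by rw [hxu]; linarith
  have hyl0 : 0 ≤ yl := by rw [hyl]; linarith
  have hyu0 : 0 ≤ yu := by rw [hyu]; linarith
  have hA0 : 0 ≤ A := by rw [hA]; linarith
  have hB0 : 0 ≤ B := by rw [hB]; linarith
  have key : UX2_3_4 L h J =
      ((5820660131026499576 / 13902890625) + (477681445731328 / 771147) * xl + (2346435293609984 / 2313441) * yu) * A ^ 0 * B ^ 4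
      + ((2771394989046264928 / 2780578125) + (535585730129920 / 771147) * xl + (4731616938229760 / 2313441) * yu) * A ^ 1 * B ^ 3
      + ((56532649211225598208 / 60245859375) + (131380583335936 / 257049) * xu + (815818738696192 / 771147) * yu) * A ^ 2 * B ^ 2
      + ((92828310023629394432 / 180737578125) + (415583377362944 / 771147) * xu + (291997382279168 / 2313441) * yu) * A ^ 3 * B ^ 1
      + ((2077798570802229752 / 13902890625) + (36462657043456 / 771147) * xl + (229722810810368 / 2313441) * yu) * A ^ 4 * B ^ 0 := by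
    simp only [hxl, hxu, hyl, hyu, hA, hB]
    unfold UX2_3_4
    ring
  rw [key]
  positivity

lemma UX2_3_nonneg {L h d J : ℝ} (hL0 : (6931471 / 10000000) ≤ L) (hL1 : L ≤ (433217 / 625000)) (hh0 : (67 / 400) ≤ h) (hh1 : h ≤ (117 / 500)) (hd0 : 0 ≤ d) (hd1 : d ≤ (1 / 4)) (hJ0 : (39 / 100) ≤ J) (hJ1 : J ≤ (39 / 50)) :
    0 ≤ UX2_3 L h d J := by
  have c0 := UX2_3_0_nonneg hL0 hL1 hh0 hh1 hJ0 hJ1
  have c1 := UX2_3_1_nonneg hL0 hL1 hh0 hh1 hJ0 hJ1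
  have c2 := UX2_3_2_nonneg hL0 hL1 hh0 hh1 hJ0 hJ1
  have c3 := UX2_3_3_nonneg hL0 hL1 hh0 hh1 hJ0 hJ1
  have c4 := UX2_3_4_nonneg hL0 hL1 hh0 hh1 hJ0 hJ1
  have key : UX2_3 L h d J =
      (d - 0) ^ 0 * ((1 / 4) - d) ^ 4 * UX2_3_0 L h J
      + (d - 0) ^ 1 * ((1 / 4) - d) ^ 3 * UX2_3_1 L h J
      + (d - 0) ^ 2 * ((1 / 4) - d) ^ 2 * UX2_3_2 L h J
      + (d - 0) ^ 3 * ((1 / 4) - d) ^ 1 * UX2_3_3 L h J
      + (d - 0) ^ 4 * ((1 / 4) - d) ^ 0 * UX2_3_4 L h J := by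
    unfold UX2_3 UX2_3_0 UX2_3_1 UX2_3_2 UX2_3_3 UX2_3_4
    ring
  have hA : 0 ≤ d - 0 := by linarith
  have hB : 0 ≤ (1 / 4) - d := by linarith
  rw [key]
  positivity

noncomputable def UX2_4 (L h d J : ℝ) : ℝ :=
  ((79395327 / 6250) + (20150976 / 125) * L + (-3224697873 / 15625) * h) * d ^ 0 * J ^ 0
    + (0 + (-7596544664 / 15625) * L + (7596544664 / 15625) * h) * d ^ 0 * J ^ 1
    + ((20890497826 / 390625) + (38376448 / 125) * L + (-33783808 / 125) * h) * d ^ 0 * J ^ 2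
    + ((-211070464 / 3125) + (1837056 / 25) * L + (-1837056 / 25) * h) * d ^ 0 * J ^ 3
    + ((-5051904 / 625) + 0 * L + 0 * h) * d ^ 0 * J ^ 4
    + (0 + (-27825152 / 125) * L + (27825152 / 125) * h) * d ^ 1 * J ^ 2
    + ((153038336 / 3125) + 0 * L + 0 * h) * d ^ 1 * J ^ 3
    + ((-1672926396 / 15625) + (8601796 / 125) * L + (4318116436 / 15625) * h) * d ^ 2 * J ^ 0
    + (0 + 565248 * L + (-565248) * h) * d ^ 2 * J ^ 1
    + ((-1554432 / 25) + 0 * L + (-918528 / 25) * h) * d ^ 2 * J ^ 2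
    + (0 + (-1837056 / 25) * L + (1837056 / 25) * h) * d ^ 2 * J ^ 3
    + ((5051904 / 625) + 0 * L + 0 * h) * d ^ 2 * J ^ 4
    + ((210546 / 5) + (-421092 / 5) * L + 0 * h) * d ^ 4 * J ^ 0

noncomputable def UX2_4_0 (L h J : ℝ) : ℝ :=
  ((10162601856 / 3125) + (5158649856 / 125) * L + (-825522655488 / 15625) * h) * J ^ 0
    + (0 + (-1944715433984 / 15625) * L + (1944715433984 / 15625) * h) * J ^ 1
    + ((5347967443456 / 390625) + (9824370688 / 125) * L + (-8648654848 / 125) * h) * J ^ 2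
    + ((-54034038784 / 3125) + (470286336 / 25) * L + (-470286336 / 25) * h) * J ^ 3
    + ((-1293287424 / 625) + 0 * L + 0 * h) * J ^ 4

lemma UX2_4_0_nonneg {L h J : ℝ} (hL0 : (6931471 / 10000000) ≤ L) (hL1 : L ≤ (433217 / 625000)) (hh0 : (67 / 400) ≤ h) (hh1 : h ≤ (117 / 500)) (hJ0 : (39 / 100) ≤ J) (hJ1 : J ≤ (39 / 50)) :
    0 ≤ UX2_4_0 L h J := by
  obtain ⟨xl, hxl⟩ : ∃ x : ℝ, x = L - (6931471 / 10000000) := ⟨_, rfl⟩
  obtain ⟨xu, hxu⟩ : ∃ x : ℝ, x = (433217 / 625000) - L := ⟨_, rfl⟩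
  obtain ⟨yl, hyl⟩ : ∃ x : ℝ, x = h - (67 / 400) := ⟨_, rfl⟩
  obtain ⟨yu, hyu⟩ : ∃ x : ℝ, x = (117 / 500) - h := ⟨_, rfl⟩
  obtain ⟨A, hA⟩ : ∃ x : ℝ, x = J - (39 / 100) := ⟨_, rfl⟩
  obtain ⟨B, hB⟩ : ∃ x : ℝ, x = (39 / 50) - J := ⟨_, rfl⟩
  have hxl0 : 0 ≤ xl := by rw [hxl]; linarith
  have hxu0 : 0 ≤ xu := by rw [hxu]; linarith
  have hyl0 : 0 ≤ yl := by rw [hyl]; linarith
  have hyu0 : 0 ≤ yu := by rw [hyu]; linarith
  have hA0 : 0 ≤ A := by rw [hA]; linarith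
  have hB0 : 0 ≤ B := by rw [hB]; linarith
  have key : UX2_4_0 L h J =
      ((3951649804610917376 / 20081953125) + (64436360839168 / 257049) * xl + (177032361607168 / 257049) * yu) * A ^ 0 * B ^ 4
      + ((26048222820815571968 / 60245859375) + (63773699866624 / 771147) * xl + (1319551640141824 / 771147) * yu) * A ^ 1 * B ^ 3
      + ((7614976650322829312 / 20081953125) + (50941028859904 / 85683) * xu + (45720352325632 / 28561) * yu) * A ^ 2 * B ^ 2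
      + ((4376515889766940672 / 20081953125) + (11030644523008 / 28561) * xu + (74647592370176 / 85683) * yu) * A ^ 3 * B ^ 1
      + ((870645106131245056 / 12049171875) + (31106474967040 / 771147) * xl + (225833373859840 / 771147) * yu) * A ^ 4 * B ^ 0 := by
    simp only [hxl, hxu, hyl, hyu, hA, hB]
    unfold UX2_4_0
    ring
  rw [key]
  positivity

noncomputable def UX2_4_1 (L h J : ℝ) : ℝ :=
  ((40650407424 / 3125) + (20634599424 / 125) * L + (-3302090621952 / 15625) * h) * J ^ 0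
    + (0 + (-7778861735936 / 15625) * L + (7778861735936 / 15625) * h) * J ^ 1
    + ((21391869773824 / 390625) + (37516673024 / 125) * L + (-32813809664 / 125) * h) * J ^ 2
    + ((-206341701632 / 3125) + (1881145344 / 25) * L + (-1881145344 / 25) * h) * J ^ 3
    + ((-5173149696 / 625) + 0 * L + 0 * h) * J ^ 4

lemma UX2_4_1_nonneg {L h J : ℝ} (hL0 : (6931471 / 10000000) ≤ L) (hL1 : L ≤ (433217 / 625000)) (hh0 : (67 / 400) ≤ h) (hh1 : h ≤ (117 / 500)) (hJ0 : (39 / 100) ≤ J) (hJ1 : J ≤ (39 / 50)) :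
    0 ≤ UX2_4_1 L h J := by
  obtain ⟨xl, hxl⟩ : ∃ x : ℝ, x = L - (6931471 / 10000000) := ⟨_, rfl⟩
  obtain ⟨xu, hxu⟩ : ∃ x : ℝ, x = (433217 / 625000) - L := ⟨_, rfl⟩
  obtain ⟨yl, hyl⟩ : ∃ x : ℝ, x = h - (67 / 400) := ⟨_, rfl⟩
  obtain ⟨yu, hyu⟩ : ∃ x : ℝ, x = (117 / 500) - h := ⟨_, rfl⟩
  obtain ⟨A, hA⟩ : ∃ x : ℝ, x = J - (39 / 100) := ⟨_, rfl⟩
  obtain ⟨B, hB⟩ : ∃ x : ℝ, x = (39 / 50) - J := ⟨_, rfl⟩
  have hxl0 : 0 ≤ xl := by rw [hxl]; linarith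
  have hxu0 : 0 ≤ xu := by rw [hxu]; linarith
  have hyl0 : 0 ≤ yl := by rw [hyl]; linarith
  have hyu0 : 0 ≤ yu := by rw [hyu]; linarith
  have hA0 : 0 ≤ A := by rw [hA]; linarith
  have hB0 : 0 ≤ B := by rw [hB]; linarith
  have key : UX2_4_1 L h J =
      ((1678260076393394176 / 2231328125) + (77889631944704 / 85683) * xl + (228017632968704 / 85683) * yu) * A ^ 0 * B ^ 4
      + ((92036400657006198784 / 60245859375) + (178283055939584 / 771147) * xu + (4844828705161216 / 771147) * yu) * A ^ 1 * B ^ 3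
      + ((22137483792337174528 / 20081953125) + (924287464112128 / 257049) * xu + (1332937565929472 / 257049) * yu) * A ^ 2 * B ^ 2
      + ((10370063791951249408 / 20081953125) + (228673924366336 / 85683) * xu + (202284179390464 / 85683) * yu) * A ^ 3 * B ^ 1
      + ((2184491151606874112 / 12049171875) + (164492670402560 / 771147) * xu + (614414925168640 / 771147) * yu) * A ^ 4 * B ^ 0 := by
    simp only [hxl, hxu, hyl, hyu, hA, hB]
    unfold UX2_4_1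
    ring
  rw [key]
  positivity

noncomputable def UX2_4_2 (L h J : ℝ) : ℝ :=
  ((278111233344 / 15625) + (31089527872 / 125) * L + (-4884046069952 / 15625) * h) * J ^ 0
    + (0 + (-11526980603904 / 15625) * L + (11526980603904 / 15625) * h) * J ^ 1
    + ((31699196660736 / 390625) + (53603794944 / 125) * L + (-46622982144 / 125) * h) * J ^ 2
    + ((-294820872192 / 3125) + (558465024 / 5) * L + (-558465024 / 5) * h) * J ^ 3
    + ((-1535778816 / 125) + 0 * L + 0 * h) * J ^ 4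

lemma UX2_4_2_nonneg {L h J : ℝ} (hL0 : (6931471 / 10000000) ≤ L) (hL1 : L ≤ (433217 / 625000)) (hh0 : (67 / 400) ≤ h) (hh1 : h ≤ (117 / 500)) (hJ0 : (39 / 100) ≤ J) (hJ1 : J ≤ (39 / 50)) :
    0 ≤ UX2_4_2 L h J := by
  obtain ⟨xl, hxl⟩ : ∃ x : ℝ, x = L - (6931471 / 10000000) := ⟨_, rfl⟩
  obtain ⟨xu, hxu⟩ : ∃ x : ℝ, x = (433217 / 625000) - L := ⟨_, rfl⟩
  obtain ⟨yl, hyl⟩ : ∃ x : ℝ, x = h - (67 / 400) := ⟨_, rfl⟩
  obtain ⟨yu, hyu⟩ : ∃ x : ℝ, x = (117 / 500) - h := ⟨_, rfl⟩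
  obtain ⟨A, hA⟩ : ∃ x : ℝ, x = J - (39 / 100) := ⟨_, rfl⟩
  obtain ⟨B, hB⟩ : ∃ x : ℝ, x = (39 / 50) - J := ⟨_, rfl⟩
  have hxl0 : 0 ≤ xl := by rw [hxl]; linarith
  have hxu0 : 0 ≤ xu := by rw [hxu]; linarith
  have hyl0 : 0 ≤ yl := by rw [hyl]; linarith
  have hyu0 : 0 ≤ yu := by rw [hyu]; linarith
  have hA0 : 0 ≤ A := by rw [hA]; linarith
  have hB0 : 0 ≤ B := by rw [hB]; linarith
  have key : UX2_4_2 L h J =
      ((206170304796732356992 / 180737578125) + (252718478016512 / 177957) * xl + (8822187462803456 / 2313441) * yu) * A ^ 0 * B ^ 4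
      + ((83146469012804902912 / 36147515625) + (45946768261120 / 177957) * xu + (19851230403952640 / 2313441) * yu) * A ^ 1 * B ^ 3
      + ((94304177595980787712 / 60245859375) + (333174365978624 / 59319) * xu + (4760435369279488 / 771147) * yu) * A ^ 2 * B ^ 2
      + ((114472130217492635648 / 180737578125) + (799366460932096 / 177957) * xu + (4960222590205952 / 2313441) * yu) * A ^ 3 * B ^ 1
      + ((38901028480205846528 / 180737578125) + (98508609273856 / 177957) * xu + (1707959423516672 / 2313441) * yu) * A ^ 4 * B ^ 0 := by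
    simp only [hxl, hxu, hyl, hyu, hA, hB]
    unfold UX2_4_2
    ring
  rw [key]
  positivity

noncomputable def UX2_4_3 (L h J : ℝ) : ℝ :=
  ((149718392448 / 15625) + (20909856896 / 125) * L + (-25311287168 / 125) * h) * J ^ 0
    + (0 + (-7496237735936 / 15625) * L + (7496237735936 / 15625) * h) * J ^ 1
    + ((20614653773824 / 390625) + (33955053568 / 125) * L + (-29399154688 / 125) * h) * J ^ 2
    + ((-186752794624 / 3125) + (1822359552 / 25) * L + (-1822359552 / 25) * h) * J ^ 3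
    + ((-5011488768 / 625) + 0 * L + 0 * h) * J ^ 4

lemma UX2_4_3_nonneg {L h J : ℝ} (hL0 : (6931471 / 10000000) ≤ L) (hL1 : L ≤ (433217 / 625000)) (hh0 : (67 / 400) ≤ h) (hh1 : h ≤ (117 / 500)) (hJ0 : (39 / 100) ≤ J) (hJ1 : J ≤ (39 / 50)) :
    0 ≤ UX2_4_3 L h J := by
  obtain ⟨xl, hxl⟩ : ∃ x : ℝ, x = L - (6931471 / 10000000) := ⟨_, rfl⟩
  obtain ⟨xu, hxu⟩ : ∃ x : ℝ, x = (433217 / 625000) - L := ⟨_, rfl⟩
  obtain ⟨yl, hyl⟩ : ∃ x : ℝ, x = h - (67 / 400) := ⟨_, rfl⟩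
  obtain ⟨yu, hyu⟩ : ∃ x : ℝ, x = (117 / 500) - h := ⟨_, rfl⟩
  obtain ⟨A, hA⟩ : ∃ x : ℝ, x = J - (39 / 100) := ⟨_, rfl⟩
  obtain ⟨B, hB⟩ : ∃ x : ℝ, x = (39 / 50) - J := ⟨_, rfl⟩
  have hxl0 : 0 ≤ xl := by rw [hxl]; linarith
  have hxu0 : 0 ≤ xu := by rw [hxu]; linarith
  have hyl0 : 0 ≤ yl := by rw [hyl]; linarith
  have hyu0 : 0 ≤ yu := by rw [hyu]; linarith
  have hA0 : 0 ≤ A := by rw [hA]; linarith
  have hB0 : 0 ≤ B := by rw [hB]; linarith
  have key : UX2_4_3 L h J =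
      ((146782803995862954752 / 180737578125) + (2581329231118336 / 2313441) * xl + (5548111672999936 / 2313441) * yu) * A ^ 0 * B ^ 4
      + ((315715754862190035968 / 180737578125) + (1175215927066624 / 2313441) * xl + (11933622143156224 / 2313441) * yu) * A ^ 1 * B ^ 3
      + ((80750720864800956416 / 60245859375) + (2177823377391616 / 771147) * xu + (2462230696361984 / 771147) * yu) * A ^ 2 * B ^ 2
      + ((106507110083911401472 / 180737578125) + (5834868936015872 / 2313441) * xu + (1597366625763328 / 2313441) * yu) * A ^ 3 * B ^ 1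
      + ((31738664422209089536 / 180737578125) + (707512107892736 / 2313441) * xu + (596185006833664 / 2313441) * yu) * A ^ 4 * B ^ 0 := by
    simp only [hxl, hxu, hyl, hyu, hA, hB]
    unfold UX2_4_3
    ring
  rw [key]
  positivity

noncomputable def UX2_4_4 (L h J : ℝ) : ℝ :=
  ((24704143194 / 15625) + (5285751292 / 125) * L + (-756432792512 / 15625) * h) * J ^ 0
    + (0 + (-1803403433984 / 15625) * L + (1803403433984 / 15625) * h) * J ^ 1
    + ((4959359443456 / 390625) + (1608712192 / 25) * L + (-1388265472 / 25) * h) * J ^ 2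
    + ((-8847917056 / 625) + (88178688 / 5) * L + (-88178688 / 5) * h) * J ^ 3
    + ((-242491392 / 125) + 0 * L + 0 * h) * J ^ 4

lemma UX2_4_4_nonneg {L h J : ℝ} (hL0 : (6931471 / 10000000) ≤ L) (hL1 : L ≤ (433217 / 625000)) (hh0 : (67 / 400) ≤ h) (hh1 : h ≤ (117 / 500)) (hJ0 : (39 / 100) ≤ J) (hJ1 : J ≤ (39 / 50)) :
    0 ≤ UX2_4_4 L h J := by
  obtain ⟨xl, hxl⟩ : ∃ x : ℝ, x = L - (6931471 / 10000000) := ⟨_, rfl⟩
  obtain ⟨xu, hxu⟩ : ∃ x : ℝ, x = (433217 / 625000) - L := ⟨_, rfl⟩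
  obtain ⟨yl, hyl⟩ : ∃ x : ℝ, x = h - (67 / 400) := ⟨_, rfl⟩
  obtain ⟨yu, hyu⟩ : ∃ x : ℝ, x = (117 / 500) - h := ⟨_, rfl⟩
  obtain ⟨A, hA⟩ : ∃ x : ℝ, x = J - (39 / 100) := ⟨_, rfl⟩
  obtain ⟨B, hB⟩ : ∃ x : ℝ, x = (39 / 50) - J := ⟨_, rfl⟩
  have hxl0 : 0 ≤ xl := by rw [hxl]; linarith
  have hxu0 : 0 ≤ xu := by rw [hxu]; linarith
  have hyl0 : 0 ≤ yl := by rw [hyl]; linarith
  have hyu0 : 0 ≤ yu := by rw [hyu]; linarith
  have hA0 : 0 ≤ A := by rw [hA]; linarith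
  have hB0 : 0 ≤ B := by rw [hB]; linarith
  have key : UX2_4_4 L h J =
      ((40859634803882894632 / 180737578125) + (810659991858176 / 2313441) * xl + (1289109045886976 / 2313441) * yu) * A ^ 0 * B ^ 4
      + ((19487922690464074784 / 36147515625) + (1012666287042560 / 2313441) * xl + (2658222934261760 / 2313441) * yu) * A ^ 1 * B ^ 3
      + ((2289223067695631104 / 4634296875) + (177793432266752 / 771147) * xu + (466158512078848 / 771147) * yu) * A ^ 2 * B ^ 2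
      + ((3497583181264426496 / 13902890625) + (757506055426048 / 2313441) * xu + (83331885105152 / 2313441) * yu) * A ^ 3 * B ^ 1
      + ((955249499051513216 / 13902890625) + (22119463441408 / 2313441) * xu + (53970237243392 / 2313441) * yu) * A ^ 4 * B ^ 0 := by
    simp only [hxl, hxu, hyl, hyu, hA, hB]
    unfold UX2_4_4
    ring
  rw [key]
  positivity

lemma UX2_4_nonneg {L h d J : ℝ} (hL0 : (6931471 / 10000000) ≤ L) (hL1 : L ≤ (433217 / 625000)) (hh0 : (67 / 400) ≤ h) (hh1 : h ≤ (117 / 500)) (hd0 : 0 ≤ d) (hd1 : d ≤ (1 / 4)) (hJ0 : (39 / 100) ≤ J) (hJ1 : J ≤ (39 / 50)) :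
    0 ≤ UX2_4 L h d J := by
  have c0 := UX2_4_0_nonneg hL0 hL1 hh0 hh1 hJ0 hJ1
  have c1 := UX2_4_1_nonneg hL0 hL1 hh0 hh1 hJ0 hJ1
  have c2 := UX2_4_2_nonneg hL0 hL1 hh0 hh1 hJ0 hJ1
  have c3 := UX2_4_3_nonneg hL0 hL1 hh0 hh1 hJ0 hJ1
  have c4 := UX2_4_4_nonneg hL0 hL1 hh0 hh1 hJ0 hJ1
  have key : UX2_4 L h d J =
      (d - 0) ^ 0 * ((1 / 4) - d) ^ 4 * UX2_4_0 L h J
      + (d - 0) ^ 1 * ((1 / 4) - d) ^ 3 * UX2_4_1 L h J
      + (d - 0) ^ 2 * ((1 / 4) - d) ^ 2 * UX2_4_2 L h J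
      + (d - 0) ^ 3 * ((1 / 4) - d) ^ 1 * UX2_4_3 L h J
      + (d - 0) ^ 4 * ((1 / 4) - d) ^ 0 * UX2_4_4 L h J := by
    unfold UX2_4 UX2_4_0 UX2_4_1 UX2_4_2 UX2_4_3 UX2_4_4
    ring
  have hA : 0 ≤ d - 0 := by linarith
  have hB : 0 ≤ (1 / 4) - d := by linarith
  rw [key]
  positivity

noncomputable def UX2_5 (L h d J : ℝ) : ℝ :=
  ((7773381 / 3125) + (4307328 / 125) * L + (-680940198 / 15625) * h) * d ^ 0 * J ^ 0
    + (0 + (-1568318064 / 15625) * L + (1568318064 / 15625) * h) * d ^ 0 * J ^ 1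
    + ((4312874676 / 390625) + (7657472 / 125) * L + (-6725632 / 125) * h) * d ^ 0 * J ^ 2
    + ((-42116096 / 3125) + (372736 / 25) * L + (-372736 / 25) * h) * d ^ 0 * J ^ 3
    + ((-1025024 / 625) + 0 * L + 0 * h) * d ^ 0 * J ^ 4
    + (0 + (-5743104 / 125) * L + (5743104 / 125) * h) * d ^ 1 * J ^ 2
    + ((31587072 / 3125) + 0 * L + 0 * h) * d ^ 1 * J ^ 3
    + ((-345214392 / 15625) + (1465688 / 125) * L + (892440472 / 15625) * h) * d ^ 2 * J ^ 0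
    + (0 + 114688 * L + (-114688) * h) * d ^ 2 * J ^ 1
    + ((-315392 / 25) + 0 * L + (-186368 / 25) * h) * d ^ 2 * J ^ 2
    + (0 + (-372736 / 25) * L + (372736 / 25) * h) * d ^ 2 * J ^ 3
    + ((1025024 / 625) + 0 * L + 0 * h) * d ^ 2 * J ^ 4
    + ((1211436 / 125) + (-2422872 / 125) * L + 0 * h) * d ^ 4 * J ^ 0

noncomputable def UX2_5_0 (L h J : ℝ) : ℝ :=
  ((1989985536 / 3125) + (1102675968 / 125) * L + (-174320690688 / 15625) * h) * J ^ 0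
    + (0 + (-401489424384 / 15625) * L + (401489424384 / 15625) * h) * J ^ 1
    + ((1104095917056 / 390625) + (1960312832 / 125) * L + (-1721761792 / 125) * h) * J ^ 2
    + ((-10781720576 / 3125) + (95420416 / 25) * L + (-95420416 / 25) * h) * J ^ 3
    + ((-262406144 / 625) + 0 * L + 0 * h) * J ^ 4

lemma UX2_5_0_nonneg {L h J : ℝ} (hL0 : (6931471 / 10000000) ≤ L) (hL1 : L ≤ (433217 / 625000)) (hh0 : (67 / 400) ≤ h) (hh1 : h ≤ (117 / 500)) (hJ0 : (39 / 100) ≤ J) (hJ1 : J ≤ (39 / 50)) :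
    0 ≤ UX2_5_0 L h J := by
  obtain ⟨xl, hxl⟩ : ∃ x : ℝ, x = L - (6931471 / 10000000) := ⟨_, rfl⟩
  obtain ⟨xu, hxu⟩ : ∃ x : ℝ, x = (433217 / 625000) - L := ⟨_, rfl⟩
  obtain ⟨yl, hyl⟩ : ∃ x : ℝ, x = h - (67 / 400) := ⟨_, rfl⟩
  obtain ⟨yu, hyu⟩ : ∃ x : ℝ, x = (117 / 500) - h := ⟨_, rfl⟩
  obtain ⟨A, hA⟩ : ∃ x : ℝ, x = J - (39 / 100) := ⟨_, rfl⟩
  obtain ⟨B, hB⟩ : ∃ x : ℝ, x = (39 / 50) - J := ⟨_, rfl⟩
  have hxl0 : 0 ≤ xl := by rw [hxl]; linarith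
  have hxu0 : 0 ≤ xu := by rw [hxu]; linarith
  have hyl0 : 0 ≤ yl := by rw [hyl]; linarith
  have hyu0 : 0 ≤ yu := by rw [hyu]; linarith
  have hA0 : 0 ≤ A := by rw [hA]; linarith
  have hB0 : 0 ≤ B := by rw [hB]; linarith
  have key : UX2_5_0 L h J =
      ((295755160307259392 / 6693984375) + (1743148285952 / 28561) * xl + (38408862957568 / 257049) * yu) * A ^ 0 * B ^ 4
      + ((224965186234066944 / 2231328125) + (1328976494592 / 28561) * xl + (32130827288576 / 85683) * yu) * A ^ 1 * B ^ 3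
      + ((140036503504666624 / 1544765625) + (24197221056512 / 257049) * xu + (89549478821888 / 257049) * yu) * A ^ 2 * B ^ 2
      + ((5886442843701248 / 118828125) + (19007805325312 / 257049) * xu + (46072627724288 / 257049) * yu) * A ^ 3 * B ^ 1
      + ((60664809010745344 / 4016390625) + (1461869608960 / 257049) * xl + (14506767810560 / 257049) * yu) * A ^ 4 * B ^ 0 := by
    simp only [hxl, hxu, hyl, hyu, hA, hB]
    unfold UX2_5_0
    ring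
  rw [key]
  positivity

noncomputable def UX2_5_1 (L h J : ℝ) : ℝ :=
  ((7959942144 / 3125) + (4410703872 / 125) * L + (-697282762752 / 15625) * h) * J ^ 0
    + (0 + (-1605957697536 / 15625) * L + (1605957697536 / 15625) * h) * J ^ 1
    + ((4416383668224 / 390625) + (7473692672 / 125) * L + (-6519488512 / 125) * h) * J ^ 2
    + ((-41105309696 / 3125) + (381681664 / 25) * L + (-381681664 / 25) * h) * J ^ 3
    + ((-1049624576 / 625) + 0 * L + 0 * h) * J ^ 4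

lemma UX2_5_1_nonneg {L h J : ℝ} (hL0 : (6931471 / 10000000) ≤ L) (hL1 : L ≤ (433217 / 625000)) (hh0 : (67 / 400) ≤ h) (hh1 : h ≤ (117 / 500)) (hJ0 : (39 / 100) ≤ J) (hJ1 : J ≤ (39 / 50)) :
    0 ≤ UX2_5_1 L h J := by
  obtain ⟨xl, hxl⟩ : ∃ x : ℝ, x = L - (6931471 / 10000000) := ⟨_, rfl⟩
  obtain ⟨xu, hxu⟩ : ∃ x : ℝ, x = (433217 / 625000) - L := ⟨_, rfl⟩
  obtain ⟨yl, hyl⟩ : ∃ x : ℝ, x = h - (67 / 400) := ⟨_, rfl⟩
  obtain ⟨yu, hyu⟩ : ∃ x : ℝ, x = (117 / 500) - h := ⟨_, rfl⟩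
  obtain ⟨A, hA⟩ : ∃ x : ℝ, x = J - (39 / 100) := ⟨_, rfl⟩
  obtain ⟨B, hB⟩ : ∃ x : ℝ, x = (39 / 50) - J := ⟨_, rfl⟩
  have hxl0 : 0 ≤ xl := by rw [hxl]; linarith
  have hxu0 : 0 ≤ xu := by rw [hxu]; linarith
  have hyl0 : 0 ≤ yl := by rw [hyl]; linarith
  have hyu0 : 0 ≤ yu := by rw [hyu]; linarith
  have hA0 : 0 ≤ A := by rw [hA]; linarith
  have hB0 : 0 ≤ B := by rw [hB]; linarith
  have key : UX2_5_1 L h J =
      ((378235105442820096 / 2231328125) + (19261315088384 / 85683) * xl + (148666058801152 / 257049) * yu) * A ^ 0 * B ^ 4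
      + ((806931257651593216 / 2231328125) + (2002977292288 / 28561) * xl + (118584523096064 / 85683) * yu) * A ^ 1 * B ^ 3
      + ((428011716896751616 / 1544765625) + (161390993604608 / 257049) * xu + (293595805908992 / 257049) * yu) * A ^ 2 * B ^ 2
      + ((14830573380042752 / 118828125) + (135663937650688 / 257049) * xu + (124657794547712 / 257049) * yu) * A ^ 3 * B ^ 1
      + ((11796215729094656 / 308953125) + (14030093680640 / 257049) * xu + (38149499125760 / 257049) * yu) * A ^ 4 * B ^ 0 := by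
    simp only [hxl, hxu, hyl, hyu, hA, hB]
    unfold UX2_5_1
    ring
  rw [key]
  positivity

noncomputable def UX2_5_2 (L h J : ℝ) : ℝ :=
  ((54176135808 / 15625) + (6639506816 / 125) * L + (-1031645096576 / 15625) * h) * J ^ 0
    + (0 + (-2380264546304 / 15625) * L + (2380264546304 / 15625) * h) * J ^ 1
    + ((6545727502336 / 390625) + (10659201024 / 125) * L + (-9242804224 / 125) * h) * J ^ 2
    + ((-58625605632 / 3125) + (113311744 / 5) * L + (-113311744 / 5) * h) * J ^ 3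
    + ((-311607296 / 125) + 0 * L + 0 * h) * J ^ 4

lemma UX2_5_2_nonneg {L h J : ℝ} (hL0 : (6931471 / 10000000) ≤ L) (hL1 : L ≤ (433217 / 625000)) (hh0 : (67 / 400) ≤ h) (hh1 : h ≤ (117 / 500)) (hJ0 : (39 / 100) ≤ J) (hJ1 : J ≤ (39 / 50)) :
    0 ≤ UX2_5_2 L h J := by
  obtain ⟨xl, hxl⟩ : ∃ x : ℝ, x = L - (6931471 / 10000000) := ⟨_, rfl⟩
  obtain ⟨xu, hxu⟩ : ∃ x : ℝ, x = (433217 / 625000) - L := ⟨_, rfl⟩
  obtain ⟨yl, hyl⟩ : ∃ x : ℝ, x = h - (67 / 400) := ⟨_, rfl⟩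
  obtain ⟨yu, hyu⟩ : ∃ x : ℝ, x = (117 / 500) - h := ⟨_, rfl⟩
  obtain ⟨A, hA⟩ : ∃ x : ℝ, x = J - (39 / 100) := ⟨_, rfl⟩
  obtain ⟨B, hB⟩ : ∃ x : ℝ, x = (39 / 50) - J := ⟨_, rfl⟩
  have hxl0 : 0 ≤ xl := by rw [hxl]; linarith
  have hxu0 : 0 ≤ xu := by rw [hxu]; linarith
  have hyl0 : 0 ≤ yl := by rw [hyl]; linarith
  have hyu0 : 0 ≤ yu := by rw [hyu]; linarith
  have hA0 : 0 ≤ A := by rw [hA]; linarith
  have hB0 : 0 ≤ B := by rw [hB]; linarith
  have key : UX2_5_2 L h J =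
      ((46171737365906600192 / 180737578125) + (801907512672256 / 2313441) * xl + (1920483515334656 / 2313441) * yu) * A ^ 0 * B ^ 4
      + ((19466149163111750656 / 36147515625) + (263805264855040 / 2313441) * xl + (4393414950256640 / 2313441) * yu) * A ^ 1 * B ^ 3
      + ((23410195083453734912 / 60245859375) + (773241780109312 / 771147) * xu + (1061766845759488 / 771147) * yu) * A ^ 2 * B ^ 2
      + ((27481807858101403648 / 180737578125) + (2088805637685248 / 2313441) * xu + (1006721071972352 / 2313441) * yu) * A ^ 3 * B ^ 1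
      + ((7959673669427580928 / 180737578125) + (307182545174528 / 2313441) * xu + (294351969615872 / 2313441) * yu) * A ^ 4 * B ^ 0 := by
    simp only [hxl, hxu, hyl, hyu, hA, hB]
    unfold UX2_5_2
    ring
  rw [key]
  positivity

noncomputable def UX2_5_3 (L h J : ℝ) : ℝ :=
  ((28752850176 / 15625) + (4457605888 / 125) * L + (-668724667648 / 15625) * h) * J ^ 0
    + (0 + (-1548613697536 / 15625) * L + (1548613697536 / 15625) * h) * J ^ 1
    + ((4258687668224 / 390625) + (1347715072 / 25) * L + (-1162838016 / 25) * h) * J ^ 2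
    + ((-7412432896 / 625) + (369754112 / 25) * L + (-369754112 / 25) * h) * J ^ 3
    + ((-1016823808 / 625) + 0 * L + 0 * h) * J ^ 4

lemma UX2_5_3_nonneg {L h J : ℝ} (hL0 : (6931471 / 10000000) ≤ L) (hL1 : L ≤ (433217 / 625000)) (hh0 : (67 / 400) ≤ h) (hh1 : h ≤ (117 / 500)) (hJ0 : (39 / 100) ≤ J) (hJ1 : J ≤ (39 / 50)) :
    0 ≤ UX2_5_3 L h J := by
  obtain ⟨xl, hxl⟩ : ∃ x : ℝ, x = L - (6931471 / 10000000) := ⟨_, rfl⟩
  obtain ⟨xu, hxu⟩ : ∃ x : ℝ, x = (433217 / 625000) - L := ⟨_, rfl⟩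
  obtain ⟨yl, hyl⟩ : ∃ x : ℝ, x = h - (67 / 400) := ⟨_, rfl⟩
  obtain ⟨yu, hyu⟩ : ∃ x : ℝ, x = (117 / 500) - h := ⟨_, rfl⟩
  obtain ⟨A, hA⟩ : ∃ x : ℝ, x = J - (39 / 100) := ⟨_, rfl⟩
  obtain ⟨B, hB⟩ : ∃ x : ℝ, x = (39 / 50) - J := ⟨_, rfl⟩
  have hxl0 : 0 ≤ xl := by rw [hxl]; linarith
  have hxu0 : 0 ≤ xu := by rw [hxu]; linarith
  have hyl0 : 0 ≤ yl := by rw [hyl]; linarith
  have hyu0 : 0 ≤ yu := by rw [hyu]; linarith
  have hA0 : 0 ≤ A := by rw [hA]; linarith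
  have hB0 : 0 ≤ B := by rw [hB]; linarith
  have key : UX2_5_3 L h J =
      ((32373901422391931392 / 180737578125) + (608428547833856 / 2313441) * xl + (1209702509510656 / 2313441) * yu) * A ^ 0 * B ^ 4
      + ((71465916361618044928 / 180737578125) + (471475431931904 / 2313441) * xl + (2651612876898304 / 2313441) * yu) * A ^ 1 * B ^ 3
      + ((18588713836715524096 / 60245859375) + (384331270455296 / 771147) * xu + (555765184200704 / 771147) * yu) * A ^ 2 * B ^ 2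
      + ((23104827644146122752 / 180737578125) + (1198965950513152 / 2313441) * xu + (306296289230848 / 2313441) * yu) * A ^ 3 * B ^ 1
      + ((6136654767379030016 / 180737578125) + (182925255049216 / 2313441) * xu + (80911104016384 / 2313441) * yu) * A ^ 4 * B ^ 0 := by
    simp only [hxl, hxu, hyl, hyu, hA, hB]
    unfold UX2_5_3
    ring
  rw [key]
  positivity

noncomputable def UX2_5_4 (L h J : ℝ) : ℝ :=
  ((4577926908 / 15625) + (1123704104 / 125) * L + (-160041643136 / 15625) * h) * J ^ 0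
    + (0 + (-372817424384 / 15625) * L + (372817424384 / 15625) * h) * J ^ 1
    + ((1025247917056 / 390625) + (1592754176 / 125) * L + (-1369112576 / 125) * h) * J ^ 2
    + ((-8760147968 / 3125) + (17891328 / 5) * L + (-17891328 / 5) * h) * J ^ 3
    + ((-49201152 / 125) + 0 * L + 0 * h) * J ^ 4

lemma UX2_5_4_nonneg {L h J : ℝ} (hL0 : (6931471 / 10000000) ≤ L) (hL1 : L ≤ (433217 / 625000)) (hh0 : (67 / 400) ≤ h) (hh1 : h ≤ (117 / 500)) (hJ0 : (39 / 100) ≤ J) (hJ1 : J ≤ (39 / 50)) :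
    0 ≤ UX2_5_4 L h J := by
  obtain ⟨xl, hxl⟩ : ∃ x : ℝ, x = L - (6931471 / 10000000) := ⟨_, rfl⟩
  obtain ⟨xu, hxu⟩ : ∃ x : ℝ, x = (433217 / 625000) - L := ⟨_, rfl⟩
  obtain ⟨yl, hyl⟩ : ∃ x : ℝ, x = h - (67 / 400) := ⟨_, rfl⟩
  obtain ⟨yu, hyu⟩ : ∃ x : ℝ, x = (117 / 500) - h := ⟨_, rfl⟩
  obtain ⟨A, hA⟩ : ∃ x : ℝ, x = J - (39 / 100) := ⟨_, rfl⟩
  obtain ⟨B, hB⟩ : ∃ x : ℝ, x = (39 / 50) - J := ⟨_, rfl⟩
  have hxl0 : 0 ≤ xl := by rw [hxl]; linarith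
  have hxu0 : 0 ≤ xu := by rw [hxu]; linarith
  have hyl0 : 0 ≤ yl := by rw [hyl]; linarith
  have hyu0 : 0 ≤ yu := by rw [hyu]; linarith
  have hA0 : 0 ≤ A := by rw [hA]; linarith
  have hB0 : 0 ≤ B := by rw [hB]; linarith
  have key : UX2_5_4 L h J =
      ((8824570100278305392 / 180737578125) + (183443233785856 / 2313441) * xl + (281533756768256 / 2313441) * yu) * A ^ 0 * B ^ 4
      + ((4231485931152223936 / 36147515625) + (254511041290240 / 2313441) * xl + (592447713443840 / 2313441) * yu) * A ^ 1 * B ^ 3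
      + ((6351055707708303872 / 60245859375) + (26547403190272 / 771147) * xu + (106137319702528 / 771147) * yu) * A ^ 2 * B ^ 2
      + ((9110049596130546688 / 180737578125) + (167818694156288 / 2313441) * xu + (6841718669312 / 2313441) * yu) * A ^ 3 * B ^ 1
      + ((771731002680778496 / 60245859375) + (17108677081088 / 2313441) * xu + (656283762688 / 2313441) * yl) * A ^ 4 * B ^ 0 := by
    simp only [hxl, hxu, hyl, hyu, hA, hB]
    unfold UX2_5_4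
    ring
  rw [key]
  positivity

lemma UX2_5_nonneg {L h d J : ℝ} (hL0 : (6931471 / 10000000) ≤ L) (hL1 : L ≤ (433217 / 625000)) (hh0 : (67 / 400) ≤ h) (hh1 : h ≤ (117 / 500)) (hd0 : 0 ≤ d) (hd1 : d ≤ (1 / 4)) (hJ0 : (39 / 100) ≤ J) (hJ1 : J ≤ (39 / 50)) :
    0 ≤ UX2_5 L h d J := by
  have c0 := UX2_5_0_nonneg hL0 hL1 hh0 hh1 hJ0 hJ1
  have c1 := UX2_5_1_nonneg hL0 hL1 hh0 hh1 hJ0 hJ1
  have c2 := UX2_5_2_nonneg hL0 hL1 hh0 hh1 hJ0 hJ1
  have c3 := UX2_5_3_nonneg hL0 hL1 hh0 hh1 hJ0 hJ1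
  have c4 := UX2_5_4_nonneg hL0 hL1 hh0 hh1 hJ0 hJ1
  have key : UX2_5 L h d J =
      (d - 0) ^ 0 * ((1 / 4) - d) ^ 4 * UX2_5_0 L h J
      + (d - 0) ^ 1 * ((1 / 4) - d) ^ 3 * UX2_5_1 L h J
      + (d - 0) ^ 2 * ((1 / 4) - d) ^ 2 * UX2_5_2 L h J
      + (d - 0) ^ 3 * ((1 / 4) - d) ^ 1 * UX2_5_3 L h J
      + (d - 0) ^ 4 * ((1 / 4) - d) ^ 0 * UX2_5_4 L h J := by
    unfold UX2_5 UX2_5_0 UX2_5_1 UX2_5_2 UX2_5_3 UX2_5_4
    ring
  have hA : 0 ≤ d - 0 := by linarith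
  have hB : 0 ≤ (1 / 4) - d := by linarith
  rw [key]
  positivity

lemma UX2_nonneg {L h a d J : ℝ} (hL0 : (6931471 / 10000000) ≤ L) (hL1 : L ≤ (433217 / 625000)) (hh0 : (67 / 400) ≤ h) (hh1 : h ≤ (117 / 500)) (ha0 : (5 / 8) ≤ a) (ha1 : a ≤ (3 / 4)) (hd0 : 0 ≤ d) (hd1 : d ≤ (1 / 4)) (hJ0 : (39 / 100) ≤ J) (hJ1 : J ≤ (39 / 50)) :
    0 ≤ UX2 L h a d J := by
  have c0 := UX2_0_nonneg hL0 hL1 hh0 hh1 hd0 hd1 hJ0 hJ1
  have c1 := UX2_1_nonneg hL0 hL1 hh0 hh1 hd0 hd1 hJ0 hJ1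
  have c2 := UX2_2_nonneg hL0 hL1 hh0 hh1 hd0 hd1 hJ0 hJ1
  have c3 := UX2_3_nonneg hL0 hL1 hh0 hh1 hd0 hd1 hJ0 hJ1
  have c4 := UX2_4_nonneg hL0 hL1 hh0 hh1 hd0 hd1 hJ0 hJ1
  have c5 := UX2_5_nonneg hL0 hL1 hh0 hh1 hd0 hd1 hJ0 hJ1
  have key : UX2 L h a d J =
      (a - (5 / 8)) ^ 0 * ((3 / 4) - a) ^ 5 * UX2_0 L h d J
      + (a - (5 / 8)) ^ 1 * ((3 / 4) - a) ^ 4 * UX2_1 L h d J
      + (a - (5 / 8)) ^ 2 * ((3 / 4) - a) ^ 3 * UX2_2 L h d J
      + (a - (5 / 8)) ^ 3 * ((3 / 4) - a) ^ 2 * UX2_3 L h d J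
      + (a - (5 / 8)) ^ 4 * ((3 / 4) - a) ^ 1 * UX2_4 L h d J
      + (a - (5 / 8)) ^ 5 * ((3 / 4) - a) ^ 0 * UX2_5 L h d J := by
    unfold UX2 UX2_0 UX2_1 UX2_2 UX2_3 UX2_4 UX2_5
    ring
  have hA : 0 ≤ a - (5 / 8) := by linarith
  have hB : 0 ≤ (3 / 4) - a := by linarith
  rw [key]
  positivity

end Vale.Agent.Lib.P322.Pot
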