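import Mathlib
import Vale.Agent.Lib.P322.Pot.Ult.CertX1

/-!
P322, potential method, range `7/8 ≤ ρ ≤ 23/25`.  Generated certificate: the polynomial `UX4` is nonnegative on a box (iterated expansion in the products
`(x - lo)^i (hi - x)^(n-i)`; all coefficients are affine in `(L, h)` and nonnegative).
-/

set_option linter.unusedSimpArgs false

namespace Vale.Agent.Lib.P322.Pot

noncomputable def UX4 (L h a d J : ℝ) : ℝ :=
  (0 + 2 * L + (-187 / 100) * h) * a ^ 0 * d ^ 0 * J ^ 2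
    + ((-11 / 25) + (13 / 50) * L + (-13 / 50) * h) * a ^ 0 * d ^ 0 * J ^ 3
    + ((-143 / 5000) + 0 * L + 0 * h) * a ^ 0 * d ^ 0 * J ^ 4
    + ((-363 / 1000) + 2 * L + (-71 / 500) * h) * a ^ 0 * d ^ 2 * J ^ 0
    + (0 + 2 * L + (-2) * h) * a ^ 0 * d ^ 2 * J ^ 1
    + ((-11 / 50) + 0 * L + (-13 / 100) * h) * a ^ 0 * d ^ 2 * J ^ 2
    + (0 + (-13 / 50) * L + (13 / 50) * h) * a ^ 0 * d ^ 2 * J ^ 3
    + ((143 / 5000) + 0 * L + 0 * h) * a ^ 0 * d ^ 2 * J ^ 4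
    + (0 + (-1087 / 250) * L + (1087 / 250) * h) * a ^ 1 * d ^ 0 * J ^ 1
    + ((11957 / 25000) + (-87 / 500) * L + (38 / 125) * h) * a ^ 1 * d ^ 0 * J ^ 2
    + ((957 / 25000) + (13 / 50) * L + (-13 / 50) * h) * a ^ 1 * d ^ 0 * J ^ 3
    + ((-143 / 5000) + 0 * L + 0 * h) * a ^ 1 * d ^ 0 * J ^ 4
    + (0 + (-2) * L + 2 * h) * a ^ 1 * d ^ 1 * J ^ 2
    + ((11 / 25) + 0 * L + 0 * h) * a ^ 1 * d ^ 1 * J ^ 3
    + ((31581 / 1000000) + (-87 / 500) * L + (549677 / 500000) * h) * a ^ 1 * d ^ 2 * J ^ 0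
    + (0 + 2 * L + (-2) * h) * a ^ 1 * d ^ 2 * J ^ 1
    + ((-11 / 50) + 0 * L + (-13 / 100) * h) * a ^ 1 * d ^ 2 * J ^ 2
    + (0 + (-13 / 50) * L + (13 / 50) * h) * a ^ 1 * d ^ 2 * J ^ 3
    + ((143 / 5000) + 0 * L + 0 * h) * a ^ 1 * d ^ 2 * J ^ 4
    + ((33 / 100) + 2 * L + (-2961569 / 1000000) * h) * a ^ 2 * d ^ 0 * J ^ 0
    + (0 + (181569 / 500000) * L + (-181569 / 500000) * h) * a ^ 2 * d ^ 0 * J ^ 1
    + ((-1997259 / 50000000) + 0 * L + 0 * h) * a ^ 2 * d ^ 0 * J ^ 2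
    + (0 + (87 / 500) * L + (-87 / 500) * h) * a ^ 2 * d ^ 1 * J ^ 2
    + ((-957 / 25000) + 0 * L + 0 * h) * a ^ 2 * d ^ 1 * J ^ 3
    + ((-637 / 1000) + (-4) * L + (1571 / 500) * h) * a ^ 2 * d ^ 2 * J ^ 0
    + ((-2871 / 100000) + (-87 / 500) * L + (249429 / 1000000) * h) * a ^ 3 * d ^ 0 * J ^ 0
    + (0 + (-7569 / 500000) * L + (7569 / 500000) * h) * a ^ 3 * d ^ 0 * J ^ 1
    + ((83259 / 50000000) + 0 * L + 0 * h) * a ^ 3 * d ^ 0 * J ^ 2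
    + ((55419 / 1000000) + (87 / 250) * L + (-136677 / 500000) * h) * a ^ 3 * d ^ 2 * J ^ 0
    + ((-33 / 100) + 0 * L + (39 / 50) * h) * a ^ 4 * d ^ 0 * J ^ 0
    + (0 + 2 * L + (-2) * h) * a ^ 4 * d ^ 2 * J ^ 0
    + (1 + (-2) * L + 0 * h) * a ^ 4 * d ^ 4 * J ^ 0
    + ((2871 / 100000) + 0 * L + (-3393 / 50000) * h) * a ^ 5 * d ^ 0 * J ^ 0
    + (0 + (-87 / 500) * L + (87 / 500) * h) * a ^ 5 * d ^ 2 * J ^ 0
    + ((-87 / 1000) + (87 / 500) * L + 0 * h) * a ^ 5 * d ^ 4 * J ^ 0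

noncomputable def UX4_0 (L h d J : ℝ) : ℝ :=
  ((7773381 / 100000) + (134604 / 125) * L + (-340470099 / 250000) * h) * d ^ 0 * J ^ 0
    + (0 + (-98019879 / 31250) * L + (98019879 / 31250) * h) * d ^ 0 * J ^ 1
    + ((1078218669 / 3125000) + (239296 / 125) * L + (-210176 / 125) * h) * d ^ 0 * J ^ 2
    + ((-1316128 / 3125) + (11648 / 25) * L + (-11648 / 25) * h) * d ^ 0 * J ^ 3
    + ((-32032 / 625) + 0 * L + 0 * h) * d ^ 0 * J ^ 4
    + (0 + (-179472 / 125) * L + (179472 / 125) * h) * d ^ 1 * J ^ 2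
    + ((987096 / 3125) + 0 * L + 0 * h) * d ^ 1 * J ^ 3
    + ((-43151799 / 62500) + (183211 / 500) * L + (111555059 / 62500) * h) * d ^ 2 * J ^ 0
    + (0 + 3584 * L + (-3584) * h) * d ^ 2 * J ^ 1
    + ((-9856 / 25) + 0 * L + (-5824 / 25) * h) * d ^ 2 * J ^ 2
    + (0 + (-11648 / 25) * L + (11648 / 25) * h) * d ^ 2 * J ^ 3
    + ((32032 / 625) + 0 * L + 0 * h) * d ^ 2 * J ^ 4
    + ((302859 / 1000) + (-302859 / 500) * L + 0 * h) * d ^ 4 * J ^ 0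

noncomputable def UX4_0_0 (L h J : ℝ) : ℝ :=
  ((7773381 / 6250) + (2153664 / 125) * L + (-340470099 / 15625) * h) * J ^ 0
    + (0 + (-784159032 / 15625) * L + (784159032 / 15625) * h) * J ^ 1
    + ((2156437338 / 390625) + (3828736 / 125) * L + (-3362816 / 125) * h) * J ^ 2
    + ((-21058048 / 3125) + (186368 / 25) * L + (-186368 / 25) * h) * J ^ 3
    + ((-512512 / 625) + 0 * L + 0 * h) * J ^ 4

lemma UX4_0_0_nonneg {L h J : ℝ} (hL0 : (6931471 / 10000000) ≤ L) (hL1 : L ≤ (433217 / 625000)) (hh0 : (67 / 400) ≤ h) (hh1 : h ≤ (117 / 500)) (hJ0 : 0 ≤ J) (hJ1 : J ≤ (39 / 50)) :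
    0 ≤ UX4_0_0 L h J := by
  obtain ⟨xl, hxl⟩ : ∃ x : ℝ, x = L - (6931471 / 10000000) := ⟨_, rfl⟩
  obtain ⟨xu, hxu⟩ : ∃ x : ℝ, x = (433217 / 625000) - L := ⟨_, rfl⟩
  obtain ⟨yl, hyl⟩ : ∃ x : ℝ, x = h - (67 / 400) := ⟨_, rfl⟩
  obtain ⟨yu, hyu⟩ : ∃ x : ℝ, x = (117 / 500) - h := ⟨_, rfl⟩
  obtain ⟨A, hA⟩ : ∃ x : ℝ, x = J - 0 := ⟨_, rfl⟩
  obtain ⟨B, hB⟩ : ∃ x : ℝ, x = (39 / 50) - J := ⟨_, rfl⟩
  have hxl0 : 0 ≤ xl := by rw [hxl]; linarith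
  have hxu0 : 0 ≤ xu := by rw [hxu]; linarith
  have hyl0 : 0 ≤ yl := by rw [hyl]; linarith
  have hyu0 : 0 ≤ yu := by rw [hyu]; linarith
  have hA0 : 0 ≤ A := by rw [hA]; linarith
  have hB0 : 0 ≤ B := by rw [hB]; linarith
  have key : UX4_0_0 L h J =
      ((140404659812 / 6426225) + (11964800000 / 257049) * xl + (15132004400 / 257049) * yu) * A ^ 0 * B ^ 4
      + ((173319587845329 / 4462656250) + (6891673408 / 85683) * xl + (11114612608 / 85683) * yu) * A ^ 1 * B ^ 3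
      + ((764889959527403 / 40163906250) + (3177388352 / 257049) * xl + (20605805152 / 257049) * yu) * A ^ 2 * B ^ 2
      + ((809964125176 / 171640625) + (1784793664 / 85683) * xu + (4164817408 / 257049) * yu) * A ^ 3 * B ^ 1
      + ((14810744387389 / 8032781250) + (178450880 / 257049) * xl + (1770845680 / 257049) * yu) * A ^ 4 * B ^ 0 := by
    simp only [hxl, hxu, hyl, hyu, hA, hB]
    unfold UX4_0_0
    ring
  rw [key]
  positivity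

noncomputable def UX4_0_1 (L h J : ℝ) : ℝ :=
  ((15546762 / 3125) + (8614656 / 125) * L + (-1361880396 / 15625) * h) * J ^ 0
    + (0 + (-3136636128 / 15625) * L + (3136636128 / 15625) * h) * J ^ 1
    + ((8625749352 / 390625) + (13879168 / 125) * L + (-12015488 / 125) * h) * J ^ 2
    + ((-76335424 / 3125) + (745472 / 25) * L + (-745472 / 25) * h) * J ^ 3
    + ((-2050048 / 625) + 0 * L + 0 * h) * J ^ 4

lemma UX4_0_1_nonneg {L h J : ℝ} (hL0 : (6931471 / 10000000) ≤ L) (hL1 : L ≤ (433217 / 625000)) (hh0 : (67 / 400) ≤ h) (hh1 : h ≤ (117 / 500)) (hJ0 : 0 ≤ J) (hJ1 : J ≤ (39 / 50)) :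
    0 ≤ UX4_0_1 L h J := by
  obtain ⟨xl, hxl⟩ : ∃ x : ℝ, x = L - (6931471 / 10000000) := ⟨_, rfl⟩
  obtain ⟨xu, hxu⟩ : ∃ x : ℝ, x = (433217 / 625000) - L := ⟨_, rfl⟩
  obtain ⟨yl, hyl⟩ : ∃ x : ℝ, x = h - (67 / 400) := ⟨_, rfl⟩
  obtain ⟨yu, hyu⟩ : ∃ x : ℝ, x = (117 / 500) - h := ⟨_, rfl⟩
  obtain ⟨A, hA⟩ : ∃ x : ℝ, x = J - 0 := ⟨_, rfl⟩
  obtain ⟨B, hB⟩ : ∃ x : ℝ, x = (39 / 50) - J := ⟨_, rfl⟩
  have hxl0 : 0 ≤ xl := by rw [hxl]; linarith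
  have hxu0 : 0 ≤ xu := by rw [hxu]; linarith
  have hyl0 : 0 ≤ yl := by rw [hyl]; linarith
  have hyu0 : 0 ≤ yu := by rw [hyu]; linarith
  have hA0 : 0 ≤ A := by rw [hA]; linarith
  have hB0 : 0 ≤ B := by rw [hB]; linarith
  have key : UX4_0_1 L h J =
      ((561618639248 / 6426225) + (47859200000 / 257049) * xl + (60528017600 / 257049) * yu) * A ^ 0 * B ^ 4
      + ((346639175690658 / 2231328125) + (27566693632 / 85683) * xl + (44458450432 / 85683) * yu) * A ^ 1 * B ^ 3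
      + ((1355701366955146 / 20081953125) + (7856630528 / 257049) * xl + (77570297728 / 257049) * yu) * A ^ 2 * B ^ 2
      + ((2460654561952 / 514921875) + (3458152192 / 28561) * xu + (6953423872 / 257049) * yu) * A ^ 3 * B ^ 1
      + ((601359335344 / 308953125) + (4139119360 / 257049) * xu + (2230459840 / 257049) * yu) * A ^ 4 * B ^ 0 := by
    simp only [hxl, hxu, hyl, hyu, hA, hB]
    unfold UX4_0_1
    ring
  rw [key]
  positivity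

noncomputable def UX4_0_2 (L h J : ℝ) : ℝ :=
  ((73448916 / 15625) + (2621039 / 25) * L + (-386253107 / 3125) * h) * J ^ 0
    + (0 + (-4480954192 / 15625) * L + (4480954192 / 15625) * h) * J ^ 1
    + ((12322624028 / 390625) + (18665088 / 125) * L + (-15986048 / 125) * h) * J ^ 2
    + ((-102657984 / 3125) + (1071616 / 25) * L + (-1071616 / 25) * h) * J ^ 3
    + ((-2946944 / 625) + 0 * L + 0 * h) * J ^ 4

lemma UX4_0_2_nonneg {L h J : ℝ} (hL0 : (6931471 / 10000000) ≤ L) (hL1 : L ≤ (433217 / 625000)) (hh0 : (67 / 400) ≤ h) (hh1 : h ≤ (117 / 500)) (hJ0 : 0 ≤ J) (hJ1 : J ≤ (39 / 50)) :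
    0 ≤ UX4_0_2 L h J := by
  obtain ⟨xl, hxl⟩ : ∃ x : ℝ, x = L - (6931471 / 10000000) := ⟨_, rfl⟩
  obtain ⟨xu, hxu⟩ : ∃ x : ℝ, x = (433217 / 625000) - L := ⟨_, rfl⟩
  obtain ⟨yl, hyl⟩ : ∃ x : ℝ, x = h - (67 / 400) := ⟨_, rfl⟩
  obtain ⟨yu, hyu⟩ : ∃ x : ℝ, x = (117 / 500) - h := ⟨_, rfl⟩
  obtain ⟨A, hA⟩ : ∃ x : ℝ, x = J - 0 := ⟨_, rfl⟩
  obtain ⟨B, hB⟩ : ∃ x : ℝ, x = (39 / 50) - J := ⟨_, rfl⟩
  have hxl0 : 0 ≤ xl := by rw [hxl]; linarith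
  have hxu0 : 0 ≤ xu := by rw [hxu]; linarith
  have hyl0 : 0 ≤ yl := by rw [hyl]; linarith
  have hyu0 : 0 ≤ yu := by rw [hyu]; linarith
  have hA0 : 0 ≤ A := by rw [hA]; linarith
  have hB0 : 0 ≤ B := by rw [hB]; linarith
  have key : UX4_0_2 L h J =
      ((12112180311329 / 92537640) + (655259750000 / 2313441) * xl + (772506214000 / 2313441) * yu) * A ^ 0 * B ^ 4
      + ((88953732643145519 / 361475156250) + (1222981292096 / 2313441) * xl + (1691967148096 / 2313441) * yu) * A ^ 1 * B ^ 3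
      + ((30292517485714373 / 240983437500) + (101725784416 / 771147) * xl + (309053246816 / 771147) * yu) * A ^ 2 * B ^ 2
      + ((1186688432723828 / 60245859375) + (310415790784 / 2313441) * xu + (4422728384 / 2313441) * yl) * A ^ 3 * B ^ 1
      + ((256249348952287 / 60245859375) + (47871601936 / 2313441) * xu + (12121534736 / 2313441) * yl) * A ^ 4 * B ^ 0 := by
    simp only [hxl, hxu, hyl, hyu, hA, hB]
    unfold UX4_0_2
    ring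
  rw [key]
  positivity

noncomputable def UX4_0_3 (L h J : ℝ) : ℝ :=
  ((-8569788 / 15625) + (8981078 / 125) * L + (-1138770278 / 15625) * h) * J ^ 0
    + (0 + (-2688636128 / 15625) * L + (2688636128 / 15625) * h) * J ^ 1
    + ((7393749352 / 390625) + (11007616 / 125) * L + (-9376896 / 125) * h) * J ^ 2
    + ((-60541888 / 3125) + (652288 / 25) * L + (-652288 / 25) * h) * J ^ 3
    + ((-1793792 / 625) + 0 * L + 0 * h) * J ^ 4

lemma UX4_0_3_nonneg {L h J : ℝ} (hL0 : (6931471 / 10000000) ≤ L) (hL1 : L ≤ (433217 / 625000)) (hh0 : (67 / 400) ≤ h) (hh1 : h ≤ (117 / 500)) (hJ0 : 0 ≤ J) (hJ1 : J ≤ (39 / 50)) :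
    0 ≤ UX4_0_3 L h J := by
  obtain ⟨xl, hxl⟩ : ∃ x : ℝ, x = L - (6931471 / 10000000) := ⟨_, rfl⟩
  obtain ⟨xu, hxu⟩ : ∃ x : ℝ, x = (433217 / 625000) - L := ⟨_, rfl⟩
  obtain ⟨yl, hyl⟩ : ∃ x : ℝ, x = h - (67 / 400) := ⟨_, rfl⟩
  obtain ⟨yu, hyu⟩ : ∃ x : ℝ, x = (117 / 500) - h := ⟨_, rfl⟩
  obtain ⟨A, hA⟩ : ∃ x : ℝ, x = J - 0 := ⟨_, rfl⟩
  obtain ⟨B, hB⟩ : ∃ x : ℝ, x = (39 / 50) - J := ⟨_, rfl⟩
  have hxl0 : 0 ≤ xl := by rw [hxl]; linarith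
  have hxu0 : 0 ≤ xu := by rw [hxu]; linarith
  have hyl0 : 0 ≤ yl := by rw [hyl]; linarith
  have hyu0 : 0 ≤ yu := by rw [hyu]; linarith
  have hA0 : 0 ≤ A := by rw [hA]; linarith
  have hB0 : 0 ≤ B := by rw [hB]; linarith
  have key : UX4_0_3 L h J =
      ((20124359530789 / 231344100) + (449053900000 / 2313441) * xl + (455508111200 / 2313441) * yu) * A ^ 0 * B ^ 4
      + ((32798186181258923 / 180737578125) + (957361128064 / 2313441) * xl + (983177972864 / 2313441) * yu) * A ^ 1 * B ^ 3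
      + ((15068572394850581 / 120491718750) + (170870554304 / 771147) * xl + (167243475904 / 771147) * yu) * A ^ 2 * B ^ 2
      + ((7744200365849407 / 180737578125) + (26741685376 / 2313441) * xl + (46654474624 / 2313441) * yl) * A ^ 3 * B ^ 1
      + ((7333626168293209 / 722950312500) + (22437250528 / 2313441) * xl + (20715040672 / 2313441) * yl) * A ^ 4 * B ^ 0 := by
    simp only [hxl, hxu, hyl, hyu, hA, hB]
    unfold UX4_0_3
    ring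
  rw [key]
  positivity

noncomputable def UX4_0_4 (L h J : ℝ) : ℝ :=
  ((-151889397 / 125000) + (9044641 / 500) * L + (-45783008 / 3125) * h) * J ^ 0
    + (0 + (-560159032 / 15625) * L + (560159032 / 15625) * h) * J ^ 1
    + ((1540437338 / 390625) + (478592 / 25) * L + (-408704 / 25) * h) * J ^ 2
    + ((-2632256 / 625) + (139776 / 25) * L + (-139776 / 25) * h) * J ^ 3
    + ((-384384 / 625) + 0 * L + 0 * h) * J ^ 4

lemma UX4_0_4_nonneg {L h J : ℝ} (hL0 : (6931471 / 10000000) ≤ L) (hL1 : L ≤ (433217 / 625000)) (hh0 : (67 / 400) ≤ h) (hh1 : h ≤ (117 / 500)) (hJ0 : 0 ≤ J) (hJ1 : J ≤ (39 / 50)) :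
    0 ≤ UX4_0_4 L h J := by
  obtain ⟨xl, hxl⟩ : ∃ x : ℝ, x = L - (6931471 / 10000000) := ⟨_, rfl⟩
  obtain ⟨xu, hxu⟩ : ∃ x : ℝ, x = (433217 / 625000) - L := ⟨_, rfl⟩
  obtain ⟨yl, hyl⟩ : ∃ x : ℝ, x = h - (67 / 400) := ⟨_, rfl⟩
  obtain ⟨yu, hyu⟩ : ∃ x : ℝ, x = (117 / 500) - h := ⟨_, rfl⟩
  obtain ⟨A, hA⟩ : ∃ x : ℝ, x = J - 0 := ⟨_, rfl⟩
  obtain ⟨B, hB⟩ : ∃ x : ℝ, x = (39 / 50) - J := ⟨_, rfl⟩
  have hxl0 : 0 ≤ xl := by rw [hxl]; linarith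
  have hxu0 : 0 ≤ xu := by rw [hxu]; linarith
  have hyl0 : 0 ≤ yl := by rw [hyl]; linarith
  have hyu0 : 0 ≤ yu := by rw [hyu]; linarith
  have hA0 : 0 ≤ A := by rw [hA]; linarith
  have hB0 : 0 ≤ B := by rw [hB]; linarith
  have key : UX4_0_4 L h J =
      ((39475932721711 / 1850752800) + (113058012500 / 2313441) * xl + (91566016000 / 2313441) * yu) * A ^ 0 * B ^ 4
      + ((73209187714433471 / 1445900625000) + (277462432016 / 2313441) * xl + (191494446016 / 2313441) * yu) * A ^ 1 * B ^ 3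
      + ((44266805252420867 / 963933750000) + (75611021416 / 771147) * xl + (29083706816 / 771147) * yu) * A ^ 2 * B ^ 2
      + ((32774558411695591 / 1445900625000) + (90093627536 / 2313441) * xl + (17134288064 / 2313441) * yl) * A ^ 3 * B ^ 1
      + ((33522467128948171 / 5783602500000) + (27664982804 / 2313441) * xl + (4456978496 / 2313441) * yl) * A ^ 4 * B ^ 0 := by
    simp only [hxl, hxu, hyl, hyu, hA, hB]
    unfold UX4_0_4
    ring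
  rw [key]
  positivity

lemma UX4_0_nonneg {L h d J : ℝ} (hL0 : (6931471 / 10000000) ≤ L) (hL1 : L ≤ (433217 / 625000)) (hh0 : (67 / 400) ≤ h) (hh1 : h ≤ (117 / 500)) (hd0 : 0 ≤ d) (hd1 : d ≤ (1 / 2)) (hJ0 : 0 ≤ J) (hJ1 : J ≤ (39 / 50)) :
    0 ≤ UX4_0 L h d J := by
  have c0 := UX4_0_0_nonneg hL0 hL1 hh0 hh1 hJ0 hJ1
  have c1 := UX4_0_1_nonneg hL0 hL1 hh0 hh1 hJ0 hJ1
  have c2 := UX4_0_2_nonneg hL0 hL1 hh0 hh1 hJ0 hJ1
  have c3 := UX4_0_3_nonneg hL0 hL1 hh0 hh1 hJ0 hJ1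
  have c4 := UX4_0_4_nonneg hL0 hL1 hh0 hh1 hJ0 hJ1
  have key : UX4_0 L h d J =
      (d - 0) ^ 0 * ((1 / 2) - d) ^ 4 * UX4_0_0 L h J
      + (d - 0) ^ 1 * ((1 / 2) - d) ^ 3 * UX4_0_1 L h J
      + (d - 0) ^ 2 * ((1 / 2) - d) ^ 2 * UX4_0_2 L h J
      + (d - 0) ^ 3 * ((1 / 2) - d) ^ 1 * UX4_0_3 L h J
      + (d - 0) ^ 4 * ((1 / 2) - d) ^ 0 * UX4_0_4 L h J := by
    unfold UX4_0 UX4_0_0 UX4_0_1 UX4_0_2 UX4_0_3 UX4_0_4
    ring
  have hA : 0 ≤ d - 0 := by linarith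
  have hB : 0 ≤ (1 / 2) - d := by linarith
  rw [key]
  positivity

noncomputable def UX4_1 (L h d J : ℝ) : ℝ :=
  ((9301347 / 25000) + (759624 / 125) * L + (-470588403 / 62500) * h) * d ^ 0 * J ^ 0
    + (0 + (-260365051 / 15625) * L + (260365051 / 15625) * h) * d ^ 0 * J ^ 1
    + ((2864015561 / 1562500) + (1190912 / 125) * L + (-1041152 / 125) * h) * d ^ 0 * J ^ 2
    + ((-6550016 / 3125) + (59904 / 25) * L + (-59904 / 25) * h) * d ^ 0 * J ^ 3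
    + ((-164736 / 625) + 0 * L + 0 * h) * d ^ 0 * J ^ 4
    + (0 + (-953008 / 125) * L + (953008 / 125) * h) * d ^ 1 * J ^ 2
    + ((5241544 / 3125) + 0 * L + 0 * h) * d ^ 1 * J ^ 3
    + ((-114522693 / 31250) + (149429 / 125) * L + (148449194 / 15625) * h) * d ^ 2 * J ^ 0
    + (0 + 18432 * L + (-18432) * h) * d ^ 2 * J ^ 1
    + ((-50688 / 25) + 0 * L + (-29952 / 25) * h) * d ^ 2 * J ^ 2
    + (0 + (-59904 / 25) * L + (59904 / 25) * h) * d ^ 2 * J ^ 3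
    + ((164736 / 625) + 0 * L + 0 * h) * d ^ 2 * J ^ 4
    + ((95553 / 50) + (-95553 / 25) * L + 0 * h) * d ^ 4 * J ^ 0

noncomputable def UX4_1_0 (L h J : ℝ) : ℝ :=
  ((18602694 / 3125) + (12153984 / 125) * L + (-1882353612 / 15625) * h) * J ^ 0
    + (0 + (-4165840816 / 15625) * L + (4165840816 / 15625) * h) * J ^ 1
    + ((11456062244 / 390625) + (19054592 / 125) * L + (-16658432 / 125) * h) * J ^ 2
    + ((-104800256 / 3125) + (958464 / 25) * L + (-958464 / 25) * h) * J ^ 3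
    + ((-2635776 / 625) + 0 * L + 0 * h) * J ^ 4

lemma UX4_1_0_nonneg {L h J : ℝ} (hL0 : (6931471 / 10000000) ≤ L) (hL1 : L ≤ (433217 / 625000)) (hh0 : (67 / 400) ≤ h) (hh1 : h ≤ (117 / 500)) (hJ0 : 0 ≤ J) (hJ1 : J ≤ (39 / 50)) :
    0 ≤ UX4_1_0 L h J := by
  obtain ⟨xl, hxl⟩ : ∃ x : ℝ, x = L - (6931471 / 10000000) := ⟨_, rfl⟩
  obtain ⟨xu, hxu⟩ : ∃ x : ℝ, x = (433217 / 625000) - L := ⟨_, rfl⟩
  obtain ⟨yl, hyl⟩ : ∃ x : ℝ, x = h - (67 / 400) := ⟨_, rfl⟩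
  obtain ⟨yu, hyu⟩ : ∃ x : ℝ, x = (117 / 500) - h := ⟨_, rfl⟩
  obtain ⟨A, hA⟩ : ∃ x : ℝ, x = J - 0 := ⟨_, rfl⟩
  obtain ⟨B, hB⟩ : ∃ x : ℝ, x = (39 / 50) - J := ⟨_, rfl⟩
  have hxl0 : 0 ≤ xl := by rw [hxl]; linarith
  have hxu0 : 0 ≤ xu := by rw [hxu]; linarith
  have hyl0 : 0 ≤ yl := by rw [hyl]; linarith
  have hyu0 : 0 ≤ yu := by rw [hyu]; linarith
  have hA0 : 0 ≤ A := by rw [hA]; linarith
  have hB0 : 0 ≤ B := by rw [hB]; linarith
  have key : UX4_1_0 L h J =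
      ((2352016900576 / 19278675) + (202566400000 / 771147) * xl + (250980481600 / 771147) * yu) * A ^ 0 * B ^ 4
      + ((13859249703159727 / 60245859375) + (377018155136 / 771147) * xl + (570674481536 / 771147) * yu) * A ^ 1 * B ^ 3
      + ((861829191936149 / 6693984375) + (36289876096 / 257049) * xl + (125019018496 / 257049) * yu) * A ^ 2 * B ^ 2
      + ((2104746215755888 / 60245859375) + (65146191488 / 771147) * xu + (79916010112 / 771147) * yu) * A ^ 3 * B ^ 1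
      + ((120681908352179 / 12049171875) + (435935360 / 771147) * xl + (24552954560 / 771147) * yu) * A ^ 4 * B ^ 0 := by
    simp only [hxl, hxu, hyl, hyu, hA, hB]
    unfold UX4_1_0
    ring
  rw [key]
  positivity

noncomputable def UX4_1_1 (L h J : ℝ) : ℝ :=
  ((74410776 / 3125) + (48615936 / 125) * L + (-7529414448 / 15625) * h) * J ^ 0
    + (0 + (-16663363264 / 15625) * L + (16663363264 / 15625) * h) * J ^ 1
    + ((45824248976 / 390625) + (68594304 / 125) * L + (-59009664 / 125) * h) * J ^ 2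
    + ((-377268672 / 3125) + (3833856 / 25) * L + (-3833856 / 25) * h) * J ^ 3
    + ((-10543104 / 625) + 0 * L + 0 * h) * J ^ 4

lemma UX4_1_1_nonneg {L h J : ℝ} (hL0 : (6931471 / 10000000) ≤ L) (hL1 : L ≤ (433217 / 625000)) (hh0 : (67 / 400) ≤ h) (hh1 : h ≤ (117 / 500)) (hJ0 : 0 ≤ J) (hJ1 : J ≤ (39 / 50)) :
    0 ≤ UX4_1_1 L h J := by
  obtain ⟨xl, hxl⟩ : ∃ x : ℝ, x = L - (6931471 / 10000000) := ⟨_, rfl⟩
  obtain ⟨xu, hxu⟩ : ∃ x : ℝ, x = (433217 / 625000) - L := ⟨_, rfl⟩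
  obtain ⟨yl, hyl⟩ : ∃ x : ℝ, x = h - (67 / 400) := ⟨_, rfl⟩
  obtain ⟨yu, hyu⟩ : ∃ x : ℝ, x = (117 / 500) - h := ⟨_, rfl⟩
  obtain ⟨A, hA⟩ : ∃ x : ℝ, x = J - 0 := ⟨_, rfl⟩
  obtain ⟨B, hB⟩ : ∃ x : ℝ, x = (39 / 50) - J := ⟨_, rfl⟩
  have hxl0 : 0 ≤ xl := by rw [hxl]; linarith
  have hxu0 : 0 ≤ xu := by rw [hxu]; linarith
  have hyl0 : 0 ≤ yl := by rw [hyl]; linarith
  have hyu0 : 0 ≤ yu := by rw [hyu]; linarith
  have hA0 : 0 ≤ A := by rw [hA]; linarith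
  have hB0 : 0 ≤ B := by rw [hB]; linarith
  have key : UX4_1_1 L h J =
      ((9408067602304 / 19278675) + (810265600000 / 771147) * xl + (1003921926400 / 771147) * yu) * A ^ 0 * B ^ 4
      + ((55436998812638908 / 60245859375) + (1508072620544 / 771147) * xl + (2282697926144 / 771147) * yu) * A ^ 1 * B ^ 3
      + ((9417581862589048 / 20081953125) + (39796722688 / 85683) * xl + (158102245888 / 85683) * yu) * A ^ 2 * B ^ 2
      + ((3909183506337472 / 60245859375) + (415200783872 / 771147) * xu + (165048022528 / 771147) * yu) * A ^ 3 * B ^ 1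
      + ((135388549976704 / 12049171875) + (75564267520 / 771147) * xu + (20903809280 / 771147) * yu) * A ^ 4 * B ^ 0 := by
    simp only [hxl, hxu, hyl, hyu, hA, hB]
    unfold UX4_1_1
    ring
  rw [key]
  positivity

noncomputable def UX4_1_2 (L h J : ℝ) : ℝ :=
  ((329035434 / 15625) + (14704324 / 25) * L + (-10700324896 / 15625) * h) * J ^ 0
    + (0 + (-23843044896 / 15625) * L + (23843044896 / 15625) * h) * J ^ 1
    + ((65568373464 / 390625) + (18291072 / 25) * L + (-15535488 / 25) * h) * J ^ 2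
    + ((-100600896 / 625) + (5511168 / 25) * L + (-5511168 / 25) * h) * J ^ 3
    + ((-15155712 / 625) + 0 * L + 0 * h) * J ^ 4

lemma UX4_1_2_nonneg {L h J : ℝ} (hL0 : (6931471 / 10000000) ≤ L) (hL1 : L ≤ (433217 / 625000)) (hh0 : (67 / 400) ≤ h) (hh1 : h ≤ (117 / 500)) (hJ0 : 0 ≤ J) (hJ1 : J ≤ (39 / 50)) :
    0 ≤ UX4_1_2 L h J := by
  obtain ⟨xl, hxl⟩ : ∃ x : ℝ, x = L - (6931471 / 10000000) := ⟨_, rfl⟩
  obtain ⟨xu, hxu⟩ : ∃ x : ℝ, x = (433217 / 625000) - L := ⟨_, rfl⟩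
  obtain ⟨yl, hyl⟩ : ∃ x : ℝ, x = h - (67 / 400) := ⟨_, rfl⟩
  obtain ⟨yu, hyu⟩ : ∃ x : ℝ, x = (117 / 500) - h := ⟨_, rfl⟩
  obtain ⟨A, hA⟩ : ∃ x : ℝ, x = J - 0 := ⟨_, rfl⟩
  obtain ⟨B, hB⟩ : ∃ x : ℝ, x = (39 / 50) - J := ⟨_, rfl⟩
  have hxl0 : 0 ≤ xl := by rw [hxl]; linarith
  have hxu0 : 0 ≤ xu := by rw [hxu]; linarith
  have hyl0 : 0 ≤ yl := by rw [hyl]; linarith
  have hyu0 : 0 ≤ yu := by rw [hyu]; linarith
  have hA0 : 0 ≤ A := by rw [hA]; linarith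
  have hB0 : 0 ≤ B := by rw [hB]; linarith
  have key : UX4_1_2 L h J =
      ((3356257295699 / 4626882) + (3676081000000 / 2313441) * xl + (4280129958400 / 2313441) * yu) * A ^ 0 * B ^ 4
      + ((257570745048243836 / 180737578125) + (7265293992448 / 2313441) * xl + (9681489826048 / 2313441) * yu) * A ^ 1 * B ^ 3
      + ((47803877710433761 / 60245859375) + (840489342848 / 771147) * xl + (1908879150848 / 771147) * yu) * A ^ 2 * B ^ 2
      + ((24682659991516672 / 180737578125) + (1394787971072 / 2313441) * xu + (183159209728 / 2313441) * yu) * A ^ 3 * B ^ 1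
      + ((2616899575360568 / 180737578125) + (327043007168 / 2313441) * xu + (142118375168 / 2313441) * yl) * A ^ 4 * B ^ 0 := by
    simp only [hxl, hxu, hyl, hyu, hA, hB]
    unfold UX4_1_2
    ring
  rw [key]
  positivity

noncomputable def UX4_1_3 (L h J : ℝ) : ℝ :=
  ((-86036892 / 15625) + (49811368 / 125) * L + (-6341820896 / 15625) * h) * J ^ 0
    + (0 + (-14359363264 / 15625) * L + (14359363264 / 15625) * h) * J ^ 1
    + ((39488248976 / 390625) + (53346176 / 125) * L + (-44959616 / 125) * h) * J ^ 2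
    + ((-293403968 / 3125) + (3354624 / 25) * L + (-3354624 / 25) * h) * J ^ 3
    + ((-9225216 / 625) + 0 * L + 0 * h) * J ^ 4

lemma UX4_1_3_nonneg {L h J : ℝ} (hL0 : (6931471 / 10000000) ≤ L) (hL1 : L ≤ (433217 / 625000)) (hh0 : (67 / 400) ≤ h) (hh1 : h ≤ (117 / 500)) (hJ0 : 0 ≤ J) (hJ1 : J ≤ (39 / 50)) :
    0 ≤ UX4_1_3 L h J := by
  obtain ⟨xl, hxl⟩ : ∃ x : ℝ, x = L - (6931471 / 10000000) := ⟨_, rfl⟩
  obtain ⟨xu, hxu⟩ : ∃ x : ℝ, x = (433217 / 625000) - L := ⟨_, rfl⟩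
  obtain ⟨yl, hyl⟩ : ∃ x : ℝ, x = h - (67 / 400) := ⟨_, rfl⟩
  obtain ⟨yu, hyu⟩ : ∃ x : ℝ, x = (117 / 500) - h := ⟨_, rfl⟩
  obtain ⟨A, hA⟩ : ∃ x : ℝ, x = J - 0 := ⟨_, rfl⟩
  obtain ⟨B, hB⟩ : ∃ x : ℝ, x = (39 / 50) - J := ⟨_, rfl⟩
  have hxl0 : 0 ≤ xl := by rw [hxl]; linarith
  have hxu0 : 0 ≤ xu := by rw [hxu]; linarith
  have hyl0 : 0 ≤ yl := by rw [hyl]; linarith
  have hyu0 : 0 ≤ yu := by rw [hyu]; linarith
  have hA0 : 0 ≤ A := by rw [hA]; linarith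
  have hB0 : 0 ≤ B := by rw [hB]; linarith
  have key : UX4_1_3 L h J =
      ((27458026778651 / 57836025) + (2490568400000 / 2313441) * xl + (2536728358400 / 2313441) * yu) * A ^ 0 * B ^ 4
      + ((182519497220654224 / 180737578125) + (5482152261632 / 2313441) * xl + (5666792095232 / 2313441) * yu) * A ^ 1 * B ^ 3
      + ((41875369567267454 / 60245859375) + (1041945686272 / 771147) * xl + (1049225884672 / 771147) * yu) * A ^ 2 * B ^ 2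
      + ((12869246550139712 / 60245859375) + (165476814848 / 2313441) * xl + (160121661952 / 2313441) * yl) * A ^ 3 * B ^ 1
      + ((2311845188611541 / 60245859375) + (31223617664 / 2313441) * xl + (177735579136 / 2313441) * yl) * A ^ 4 * B ^ 0 := by
    simp only [hxl, hxu, hyl, hyu, hA, hB]
    unfold UX4_1_3
    ring
  rw [key]
  positivity

noncomputable def UX4_1_4 (L h J : ℝ) : ℝ :=
  ((-212343207 / 31250) + (2454787 / 25) * L + (-1288556836 / 15625) * h) * J ^ 0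
    + (0 + (-3013840816 / 15625) * L + (3013840816 / 15625) * h) * J ^ 1
    + ((8288062244 / 390625) + (11430528 / 125) * L + (-9633408 / 125) * h) * J ^ 2
    + ((-62867904 / 3125) + (718848 / 25) * L + (-718848 / 25) * h) * J ^ 3
    + ((-1976832 / 625) + 0 * L + 0 * h) * J ^ 4

lemma UX4_1_4_nonneg {L h J : ℝ} (hL0 : (6931471 / 10000000) ≤ L) (hL1 : L ≤ (433217 / 625000)) (hh0 : (67 / 400) ≤ h) (hh1 : h ≤ (117 / 500)) (hJ0 : 0 ≤ J) (hJ1 : J ≤ (39 / 50)) :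
    0 ≤ UX4_1_4 L h J := by
  obtain ⟨xl, hxl⟩ : ∃ x : ℝ, x = L - (6931471 / 10000000) := ⟨_, rfl⟩
  obtain ⟨xu, hxu⟩ : ∃ x : ℝ, x = (433217 / 625000) - L := ⟨_, rfl⟩
  obtain ⟨yl, hyl⟩ : ∃ x : ℝ, x = h - (67 / 400) := ⟨_, rfl⟩
  obtain ⟨yu, hyu⟩ : ∃ x : ℝ, x = (117 / 500) - h := ⟨_, rfl⟩
  obtain ⟨A, hA⟩ : ∃ x : ℝ, x = J - 0 := ⟨_, rfl⟩
  obtain ⟨B, hB⟩ : ∃ x : ℝ, x = (39 / 50) - J := ⟨_, rfl⟩
  have hxl0 : 0 ≤ xl := by rw [hxl]; linarith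
  have hxu0 : 0 ≤ xu := by rw [hxu]; linarith
  have hyl0 : 0 ≤ yl := by rw [hyl]; linarith
  have hyu0 : 0 ≤ yu := by rw [hyu]; linarith
  have hA0 : 0 ≤ A := by rw [hA]; linarith
  have hB0 : 0 ≤ B := by rw [hB]; linarith
  have key : UX4_1_4 L h J =
      ((10492182451693 / 92537640) + (613696750000 / 2313441) * xl + (515422734400 / 2313441) * yu) * A ^ 0 * B ^ 4
      + ((96480282619461487 / 361475156250) + (1514468665408 / 2313441) * xl + (1121372603008 / 2313441) * yu) * A ^ 1 * B ^ 3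
      + ((55387382486467609 / 240983437500) + (402980719328 / 771147) * xl + (188209891328 / 771147) * yu) * A ^ 2 * B ^ 2
      + ((12181215693419009 / 120491718750) + (414548008768 / 2313441) * xl + (87884834432 / 2313441) * yl) * A ^ 3 * B ^ 1
      + ((10991719820837759 / 481966875000) + (106377766192 / 2313441) * xl + (46564639808 / 2313441) * yl) * A ^ 4 * B ^ 0 := by
    simp only [hxl, hxu, hyl, hyu, hA, hB]
    unfold UX4_1_4
    ring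
  rw [key]
  positivity

lemma UX4_1_nonneg {L h d J : ℝ} (hL0 : (6931471 / 10000000) ≤ L) (hL1 : L ≤ (433217 / 625000)) (hh0 : (67 / 400) ≤ h) (hh1 : h ≤ (117 / 500)) (hd0 : 0 ≤ d) (hd1 : d ≤ (1 / 2)) (hJ0 : 0 ≤ J) (hJ1 : J ≤ (39 / 50)) :
    0 ≤ UX4_1 L h d J := by
  have c0 := UX4_1_0_nonneg hL0 hL1 hh0 hh1 hJ0 hJ1
  have c1 := UX4_1_1_nonneg hL0 hL1 hh0 hh1 hJ0 hJ1
  have c2 := UX4_1_2_nonneg hL0 hL1 hh0 hh1 hJ0 hJ1
  have c3 := UX4_1_3_nonneg hL0 hL1 hh0 hh1 hJ0 hJ1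
  have c4 := UX4_1_4_nonneg hL0 hL1 hh0 hh1 hJ0 hJ1
  have key : UX4_1 L h d J =
      (d - 0) ^ 0 * ((1 / 2) - d) ^ 4 * UX4_1_0 L h J
      + (d - 0) ^ 1 * ((1 / 2) - d) ^ 3 * UX4_1_1 L h J
      + (d - 0) ^ 2 * ((1 / 2) - d) ^ 2 * UX4_1_2 L h J
      + (d - 0) ^ 3 * ((1 / 2) - d) ^ 1 * UX4_1_3 L h J
      + (d - 0) ^ 4 * ((1 / 2) - d) ^ 0 * UX4_1_4 L h J := by
    unfold UX4_1 UX4_1_0 UX4_1_1 UX4_1_2 UX4_1_3 UX4_1_4
    ring
  have hA : 0 ≤ d - 0 := by linarith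
  have hB : 0 ≤ (1 / 2) - d := by linarith
  rw [key]
  positivity

noncomputable def UX4_2 (L h d J : ℝ) : ℝ :=
  ((4152093 / 6250) + (1705324 / 125) * L + (-1031394917 / 62500) * h) * d ^ 0 * J ^ 0
    + (0 + (-1102063463 / 31250) * L + (1102063463 / 31250) * h) * d ^ 0 * J ^ 1
    + ((12122698093 / 3125000) + (2370688 / 125) * L + (-2062848 / 125) * h) * d ^ 0 * J ^ 2
    + ((-13038784 / 3125) + (123136 / 25) * L + (-123136 / 25) * h) * d ^ 0 * J ^ 3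
    + ((-338624 / 625) + 0 * L + 0 * h) * d ^ 0 * J ^ 4
    + (0 + (-403184 / 25) * L + (403184 / 25) * h) * d ^ 1 * J ^ 2
    + ((2217512 / 625) + 0 * L + 0 * h) * d ^ 1 * J ^ 3
    + ((-486712783 / 62500) + (32416 / 25) * L + (622840289 / 31250) * h) * d ^ 2 * J ^ 0
    + (0 + 37888 * L + (-37888) * h) * d ^ 2 * J ^ 1
    + ((-104192 / 25) + 0 * L + (-61568 / 25) * h) * d ^ 2 * J ^ 2
    + (0 + (-123136 / 25) * L + (123136 / 25) * h) * d ^ 2 * J ^ 3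
    + ((338624 / 625) + 0 * L + 0 * h) * d ^ 2 * J ^ 4
    + ((120204 / 25) + (-240408 / 25) * L + 0 * h) * d ^ 4 * J ^ 0

noncomputable def UX4_2_0 (L h J : ℝ) : ℝ :=
  ((33216744 / 3125) + (27285184 / 125) * L + (-4125579668 / 15625) * h) * J ^ 0
    + (0 + (-8816507704 / 15625) * L + (8816507704 / 15625) * h) * J ^ 1
    + ((24245396186 / 390625) + (37931008 / 125) * L + (-33005568 / 125) * h) * J ^ 2
    + ((-208620544 / 3125) + (1970176 / 25) * L + (-1970176 / 25) * h) * J ^ 3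
    + ((-5417984 / 625) + 0 * L + 0 * h) * J ^ 4

lemma UX4_2_0_nonneg {L h J : ℝ} (hL0 : (6931471 / 10000000) ≤ L) (hL1 : L ≤ (433217 / 625000)) (hh0 : (67 / 400) ≤ h) (hh1 : h ≤ (117 / 500)) (hJ0 : 0 ≤ J) (hJ1 : J ≤ (39 / 50)) :
    0 ≤ UX4_2_0 L h J := by
  obtain ⟨xl, hxl⟩ : ∃ x : ℝ, x = L - (6931471 / 10000000) := ⟨_, rfl⟩
  obtain ⟨xu, hxu⟩ : ∃ x : ℝ, x = (433217 / 625000) - L := ⟨_, rfl⟩
  obtain ⟨yl, hyl⟩ : ∃ x : ℝ, x = h - (67 / 400) := ⟨_, rfl⟩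
  obtain ⟨yu, hyu⟩ : ∃ x : ℝ, x = (117 / 500) - h := ⟨_, rfl⟩
  obtain ⟨A, hA⟩ : ∃ x : ℝ, x = J - 0 := ⟨_, rfl⟩
  obtain ⟨B, hB⟩ : ∃ x : ℝ, x = (39 / 50) - J := ⟨_, rfl⟩
  have hxl0 : 0 ≤ xl := by rw [hxl]; linarith
  have hxu0 : 0 ≤ xu := by rw [hxu]; linarith
  have hyl0 : 0 ≤ yl := by rw [hyl]; linarith
  have hyu0 : 0 ≤ yu := by rw [hyu]; linarith
  have hA0 : 0 ≤ A := by rw [hA]; linarith
  have hB0 : 0 ≤ B := by rw [hB]; linarith
  have key : UX4_2_0 L h J =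
      ((15647788480088 / 57836025) + (1364259200000 / 2313441) * xl + (1650231867200 / 2313441) * yu) * A ^ 0 * B ^ 4
      + ((193851107211761153 / 361475156250) + (2706286396352 / 2313441) * xl + (3850177065152 / 2313441) * yu) * A ^ 1 * B ^ 3
      + ((39965579260154833 / 120491718750) + (362388417472 / 771147) * xl + (884389790272 / 771147) * yu) * A ^ 2 * B ^ 2
      + ((17632853858125736 / 180737578125) + (253754143936 / 2313441) * xu + (590472755264 / 2313441) * yu) * A ^ 3 * B ^ 1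
      + ((13260570449873 / 578360250) + (1107800000 / 2313441) * xl + (137248582400 / 2313441) * yu) * A ^ 4 * B ^ 0 := by
    simp only [hxl, hxu, hyl, hyu, hA, hB]
    unfold UX4_2_0
    ring
  rw [key]
  positivity

noncomputable def UX4_2_1 (L h J : ℝ) : ℝ :=
  ((132866976 / 3125) + (109140736 / 125) * L + (-16502318672 / 15625) * h) * J ^ 0
    + (0 + (-35266030816 / 15625) * L + (35266030816 / 15625) * h) * J ^ 1
    + ((96981584744 / 390625) + (135596672 / 125) * L + (-115894912 / 125) * h) * J ^ 2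
    + ((-745781696 / 3125) + (7880704 / 25) * L + (-7880704 / 25) * h) * J ^ 3
    + ((-21671936 / 625) + 0 * L + 0 * h) * J ^ 4

lemma UX4_2_1_nonneg {L h J : ℝ} (hL0 : (6931471 / 10000000) ≤ L) (hL1 : L ≤ (433217 / 625000)) (hh0 : (67 / 400) ≤ h) (hh1 : h ≤ (117 / 500)) (hJ0 : 0 ≤ J) (hJ1 : J ≤ (39 / 50)) :
    0 ≤ UX4_2_1 L h J := by
  obtain ⟨xl, hxl⟩ : ∃ x : ℝ, x = L - (6931471 / 10000000) := ⟨_, rfl⟩
  obtain ⟨xu, hxu⟩ : ∃ x : ℝ, x = (433217 / 625000) - L := ⟨_, rfl⟩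
  obtain ⟨yl, hyl⟩ : ∃ x : ℝ, x = h - (67 / 400) := ⟨_, rfl⟩
  obtain ⟨yu, hyu⟩ : ∃ x : ℝ, x = (117 / 500) - h := ⟨_, rfl⟩
  obtain ⟨A, hA⟩ : ∃ x : ℝ, x = J - 0 := ⟨_, rfl⟩
  obtain ⟨B, hB⟩ : ∃ x : ℝ, x = (39 / 50) - J := ⟨_, rfl⟩
  have hxl0 : 0 ≤ xl := by rw [hxl]; linarith
  have hxu0 : 0 ≤ xu := by rw [hxu]; linarith
  have hyl0 : 0 ≤ yl := by rw [hyl]; linarith
  have hyu0 : 0 ≤ yu := by rw [hyu]; linarith
  have hA0 : 0 ≤ A := by rw [hA]; linarith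
  have hB0 : 0 ≤ B := by rw [hB]; linarith
  have key : UX4_2_1 L h J =
      ((62591153920352 / 57836025) + (5457036800000 / 2313441) * xl + (6600927468800 / 2313441) * yu) * A ^ 0 * B ^ 4
      + ((387702214423522306 / 180737578125) + (10825145585408 / 2313441) * xl + (15400708260608 / 2313441) * yu) * A ^ 1 * B ^ 3
      + ((74065144299449366 / 60245859375) + (1286022239488 / 771147) * xl + (3374027730688 / 771147) * yu) * A ^ 2 * B ^ 2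
      + ((41912352158205344 / 180737578125) + (1996205158144 / 2313441) * xu + (1380702438656 / 2313441) * yu) * A ^ 3 * B ^ 1
      + ((222187852720448 / 7229503125) + (486163091200 / 2313441) * xu + (58400038400 / 2313441) * yu) * A ^ 4 * B ^ 0 := by
    simp only [hxl, hxu, hyl, hyu, hA, hB]
    unfold UX4_2_1
    ring
  rw [key]
  positivity

noncomputable def UX4_2_2 (L h J : ℝ) : ℝ :=
  ((509789537 / 15625) + (164359424 / 125) * L + (-4701559486 / 3125) * h) * J ^ 0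
    + (0 + (-50531046224 / 15625) * L + (50531046224 / 15625) * h) * J ^ 1
    + ((138960377116 / 390625) + (179203968 / 125) * L + (-150882688 / 125) * h) * J ^ 2
    + ((-985621824 / 3125) + (11328512 / 25) * L + (-11328512 / 25) * h) * J ^ 3
    + ((-31153408 / 625) + 0 * L + 0 * h) * J ^ 4

lemma UX4_2_2_nonneg {L h J : ℝ} (hL0 : (6931471 / 10000000) ≤ L) (hL1 : L ≤ (433217 / 625000)) (hh0 : (67 / 400) ≤ h) (hh1 : h ≤ (117 / 500)) (hJ0 : 0 ≤ J) (hJ1 : J ≤ (39 / 50)) :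
    0 ≤ UX4_2_2 L h J := by
  obtain ⟨xl, hxl⟩ : ∃ x : ℝ, x = L - (6931471 / 10000000) := ⟨_, rfl⟩
  obtain ⟨xu, hxu⟩ : ∃ x : ℝ, x = (433217 / 625000) - L := ⟨_, rfl⟩
  obtain ⟨yl, hyl⟩ : ∃ x : ℝ, x = h - (67 / 400) := ⟨_, rfl⟩
  obtain ⟨yu, hyu⟩ : ∃ x : ℝ, x = (117 / 500) - h := ⟨_, rfl⟩
  obtain ⟨A, hA⟩ : ∃ x : ℝ, x = J - 0 := ⟨_, rfl⟩
  obtain ⟨B, hB⟩ : ∃ x : ℝ, x = (39 / 50) - J := ⟨_, rfl⟩
  have hxl0 : 0 ≤ xl := by rw [hxl]; linarith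
  have hxu0 : 0 ≤ xu := by rw [hxu]; linarith
  have hyl0 : 0 ≤ yl := by rw [hyl]; linarith
  have hyu0 : 0 ≤ yu := by rw [hyu]; linarith
  have hA0 : 0 ≤ A := by rw [hA]; linarith
  have hB0 : 0 ≤ B := by rw [hB]; linarith
  have key : UX4_2_2 L h J =
      ((10277358001432 / 6426225) + (8217971200000 / 2313441) * xl + (723316844000 / 177957) * yu) * A ^ 0 * B ^ 4
      + ((196891310467261153 / 60245859375) + (17106198378112 / 2313441) * xl + (1680522266624 / 177957) * yu) * A ^ 1 * B ^ 3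
      + ((4378923473893837 / 2231328125) + (2487384213632 / 771147) * xl + (351577075264 / 59319) * yu) * A ^ 2 * B ^ 2
      + ((68694099257198288 / 180737578125) + (2178413045888 / 2313441) * xu + (64547028224 / 177957) * yu) * A ^ 3 * B ^ 1
      + ((4388244662781022 / 180737578125) + (752338508672 / 2313441) * xu + (32978774944 / 177957) * yl) * A ^ 4 * B ^ 0 := by
    simp only [hxl, hxu, hyl, hyu, hA, hB]
    unfold UX4_2_2
    ring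
  rw [key]
  positivity

noncomputable def UX4_2_3 (L h J : ℝ) : ℝ :=
  ((-309090686 / 15625) + (110437376 / 125) * L + (-14010957516 / 15625) * h) * J ^ 0
    + (0 + (-30530030816 / 15625) * L + (30530030816 / 15625) * h) * J ^ 1
    + ((83957584744 / 390625) + (103341952 / 125) * L + (-86102912 / 125) * h) * J ^ 2
    + ((-568380736 / 3125) + (6895616 / 25) * L + (-6895616 / 25) * h) * J ^ 3
    + ((-18962944 / 625) + 0 * L + 0 * h) * J ^ 4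

lemma UX4_2_3_nonneg {L h J : ℝ} (hL0 : (6931471 / 10000000) ≤ L) (hL1 : L ≤ (433217 / 625000)) (hh0 : (67 / 400) ≤ h) (hh1 : h ≤ (117 / 500)) (hJ0 : 0 ≤ J) (hJ1 : J ≤ (39 / 50)) :
    0 ≤ UX4_2_3 L h J := by
  obtain ⟨xl, hxl⟩ : ∃ x : ℝ, x = L - (6931471 / 10000000) := ⟨_, rfl⟩
  obtain ⟨xu, hxu⟩ : ∃ x : ℝ, x = (433217 / 625000) - L := ⟨_, rfl⟩
  obtain ⟨yl, hyl⟩ : ∃ x : ℝ, x = h - (67 / 400) := ⟨_, rfl⟩
  obtain ⟨yu, hyu⟩ : ∃ x : ℝ, x = (117 / 500) - h := ⟨_, rfl⟩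
  obtain ⟨A, hA⟩ : ∃ x : ℝ, x = J - 0 := ⟨_, rfl⟩
  obtain ⟨B, hB⟩ : ∃ x : ℝ, x = (39 / 50) - J := ⟨_, rfl⟩
  have hxl0 : 0 ≤ xl := by rw [hxl]; linarith
  have hxu0 : 0 ≤ xu := by rw [hxu]; linarith
  have hyl0 : 0 ≤ yl := by rw [hyl]; linarith
  have hyu0 : 0 ≤ yu := by rw [hyu]; linarith
  have hA0 : 0 ≤ A := by rw [hA]; linarith
  have hB0 : 0 ≤ B := by rw [hB]; linarith
  have key : UX4_2_3 L h J =
      ((4600779706544 / 4448925) + (5521868800000 / 2313441) * xl + (1868127668800 / 771147) * yu) * A ^ 0 * B ^ 4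
      + ((31226417996655562 / 13902890625) + (12562105585408 / 2313441) * xl + (477487496704 / 85683) * yu) * A ^ 1 * B ^ 3
      + ((7245968708632982 / 4634296875) + (2566255378688 / 771147) * xl + (852159975296 / 257049) * yu) * A ^ 2 * B ^ 2
      + ((81652664230905934 / 180737578125) + (616772806912 / 2313441) * xl + (33997853696 / 771147) * yl) * A ^ 3 * B ^ 1
      + ((1181121246998716 / 20081953125) + (41756543744 / 2313441) * xu + (5971036224 / 28561) * yl) * A ^ 4 * B ^ 0 := by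
    simp only [hxl, hxu, hyl, hyu, hA, hB]
    unfold UX4_2_3
    ring
  rw [key]
  positivity

noncomputable def UX4_2_4 (L h J : ℝ) : ℝ :=
  ((-245501563 / 15625) + (26731464 / 125) * L + (-575979818 / 3125) * h) * J ^ 0
    + (0 + (-6448507704 / 15625) * L + (6448507704 / 15625) * h) * J ^ 1
    + ((17733396186 / 390625) + (21803648 / 125) * L + (-18109568 / 125) * h) * J ^ 2
    + ((-119920064 / 3125) + (1477632 / 25) * L + (-1477632 / 25) * h) * J ^ 3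
    + ((-4063488 / 625) + 0 * L + 0 * h) * J ^ 4

lemma UX4_2_4_nonneg {L h J : ℝ} (hL0 : (6931471 / 10000000) ≤ L) (hL1 : L ≤ (433217 / 625000)) (hh0 : (67 / 400) ≤ h) (hh1 : h ≤ (117 / 500)) (hJ0 : 0 ≤ J) (hJ1 : J ≤ (39 / 50)) :
    0 ≤ UX4_2_4 L h J := by
  obtain ⟨xl, hxl⟩ : ∃ x : ℝ, x = L - (6931471 / 10000000) := ⟨_, rfl⟩
  obtain ⟨xu, hxu⟩ : ∃ x : ℝ, x = (433217 / 625000) - L := ⟨_, rfl⟩
  obtain ⟨yl, hyl⟩ : ∃ x : ℝ, x = h - (67 / 400) := ⟨_, rfl⟩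
  obtain ⟨yu, hyu⟩ : ∃ x : ℝ, x = (117 / 500) - h := ⟨_, rfl⟩
  obtain ⟨A, hA⟩ : ∃ x : ℝ, x = J - 0 := ⟨_, rfl⟩
  obtain ⟨B, hB⟩ : ∃ x : ℝ, x = (39 / 50) - J := ⟨_, rfl⟩
  have hxl0 : 0 ≤ xl := by rw [hxl]; linarith
  have hxu0 : 0 ≤ xu := by rw [hxu]; linarith
  have hyl0 : 0 ≤ yl := by rw [hyl]; linarith
  have hyu0 : 0 ≤ yu := by rw [hyu]; linarith
  have hA0 : 0 ≤ A := by rw [hA]; linarith
  have hB0 : 0 ≤ B := by rw [hB]; linarith
  have key : UX4_2_4 L h J =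
      ((13967066437343 / 57836025) + (445524400000 / 771147) * xl + (1151959636000 / 2313441) * yu) * A ^ 0 * B ^ 4
      + ((204836997367136153 / 361475156250) + (1111452798784 / 771147) * xl + (2595904140352 / 2313441) * yu) * A ^ 1 * B ^ 3
      + ((56470363484121733 / 120491718750) + (32677814336 / 28561) * xl + (475615887872 / 771147) * yu) * A ^ 2 * B ^ 2
      + ((66712879115217763 / 361475156250) + (270775612864 / 771147) * xl + (150875244608 / 2313441) * yl) * A ^ 3 * B ^ 1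
      + ((12672107721815467 / 361475156250) + (54403024576 / 771147) * xl + (133778403872 / 2313441) * yl) * A ^ 4 * B ^ 0 := by
    simp only [hxl, hxu, hyl, hyu, hA, hB]
    unfold UX4_2_4
    ring
  rw [key]
  positivity

lemma UX4_2_nonneg {L h d J : ℝ} (hL0 : (6931471 / 10000000) ≤ L) (hL1 : L ≤ (433217 / 625000)) (hh0 : (67 / 400) ≤ h) (hh1 : h ≤ (117 / 500)) (hd0 : 0 ≤ d) (hd1 : d ≤ (1 / 2)) (hJ0 : 0 ≤ J) (hJ1 : J ≤ (39 / 50)) :
    0 ≤ UX4_2 L h d J := by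
  have c0 := UX4_2_0_nonneg hL0 hL1 hh0 hh1 hJ0 hJ1
  have c1 := UX4_2_1_nonneg hL0 hL1 hh0 hh1 hJ0 hJ1
  have c2 := UX4_2_2_nonneg hL0 hL1 hh0 hh1 hJ0 hJ1
  have c3 := UX4_2_3_nonneg hL0 hL1 hh0 hh1 hJ0 hJ1
  have c4 := UX4_2_4_nonneg hL0 hL1 hh0 hh1 hJ0 hJ1
  have key : UX4_2 L h d J =
      (d - 0) ^ 0 * ((1 / 2) - d) ^ 4 * UX4_2_0 L h J
      + (d - 0) ^ 1 * ((1 / 2) - d) ^ 3 * UX4_2_1 L h J
      + (d - 0) ^ 2 * ((1 / 2) - d) ^ 2 * UX4_2_2 L h J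
      + (d - 0) ^ 3 * ((1 / 2) - d) ^ 1 * UX4_2_3 L h J
      + (d - 0) ^ 4 * ((1 / 2) - d) ^ 0 * UX4_2_4 L h J := by
    unfold UX4_2 UX4_2_0 UX4_2_1 UX4_2_2 UX4_2_3 UX4_2_4
    ring
  have hA : 0 ≤ d - 0 := by linarith
  have hB : 0 ≤ (1 / 2) - d := by linarith
  rw [key]
  positivity

noncomputable def UX4_3 (L h d J : ℝ) : ℝ :=
  ((65538 / 125) + (380784 / 25) * L + (-279905466 / 15625) * h) * d ^ 0 * J ^ 0
    + (0 + (-581008068 / 15625) * L + (581008068 / 15625) * h) * d ^ 0 * J ^ 1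
    + ((1597772187 / 390625) + (2359552 / 125) * L + (-2043392 / 125) * h) * d ^ 0 * J ^ 2
    + ((-12977536 / 3125) + (126464 / 25) * L + (-126464 / 25) * h) * d ^ 0 * J ^ 3
    + ((-347776 / 625) + 0 * L + 0 * h) * d ^ 0 * J ^ 4
    + (0 + (-2124432 / 125) * L + (2124432 / 125) * h) * d ^ 1 * J ^ 2
    + ((11684376 / 3125) + 0 * L + 0 * h) * d ^ 1 * J ^ 3
    + ((-129332151 / 15625) + (58432 / 125) * L + (321129266 / 15625) * h) * d ^ 2 * J ^ 0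
    + (0 + 38912 * L + (-38912) * h) * d ^ 2 * J ^ 1
    + ((-107008 / 25) + 0 * L + (-63232 / 25) * h) * d ^ 2 * J ^ 2
    + (0 + (-126464 / 25) * L + (126464 / 25) * h) * d ^ 2 * J ^ 3
    + ((347776 / 625) + 0 * L + 0 * h) * d ^ 2 * J ^ 4
    + ((150672 / 25) + (-301344 / 25) * L + 0 * h) * d ^ 4 * J ^ 0

noncomputable def UX4_3_0 (L h J : ℝ) : ℝ :=
  ((1048608 / 125) + (6092544 / 25) * L + (-4478487456 / 15625) * h) * J ^ 0
    + (0 + (-9296129088 / 15625) * L + (9296129088 / 15625) * h) * J ^ 1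
    + ((25564354992 / 390625) + (37752832 / 125) * L + (-32694272 / 125) * h) * J ^ 2
    + ((-207640576 / 3125) + (2023424 / 25) * L + (-2023424 / 25) * h) * J ^ 3
    + ((-5564416 / 625) + 0 * L + 0 * h) * J ^ 4

lemma UX4_3_0_nonneg {L h J : ℝ} (hL0 : (6931471 / 10000000) ≤ L) (hL1 : L ≤ (433217 / 625000)) (hh0 : (67 / 400) ≤ h) (hh1 : h ≤ (117 / 500)) (hJ0 : 0 ≤ J) (hJ1 : J ≤ (39 / 50)) :
    0 ≤ UX4_3_0 L h J := by
  obtain ⟨xl, hxl⟩ : ∃ x : ℝ, x = L - (6931471 / 10000000) := ⟨_, rfl⟩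
  obtain ⟨xu, hxu⟩ : ∃ x : ℝ, x = (433217 / 625000) - L := ⟨_, rfl⟩
  obtain ⟨yl, hyl⟩ : ∃ x : ℝ, x = h - (67 / 400) := ⟨_, rfl⟩
  obtain ⟨yu, hyu⟩ : ∃ x : ℝ, x = (117 / 500) - h := ⟨_, rfl⟩
  obtain ⟨A, hA⟩ : ∃ x : ℝ, x = J - 0 := ⟨_, rfl⟩
  obtain ⟨B, hB⟩ : ∃ x : ℝ, x = (39 / 50) - J := ⟨_, rfl⟩
  have hxl0 : 0 ≤ xl := by rw [hxl]; linarith
  have hxu0 : 0 ≤ xu := by rw [hxu]; linarith
  have hyl0 : 0 ≤ yl := by rw [hyl]; linarith
  have hyu0 : 0 ≤ yu := by rw [hyu]; linarith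
  have hA0 : 0 ≤ A := by rw [hA]; linarith
  have hB0 : 0 ≤ B := by rw [hB]; linarith
  have key : UX4_3_0 L h J =
      ((229667091808 / 771147) + (507712000000 / 771147) * xl + (597131660800 / 771147) * yu) * A ^ 0 * B ^ 4
      + ((37091104155155636 / 60245859375) + (1064050574848 / 771147) * xl + (1421729218048 / 771147) * yu) * A ^ 1 * B ^ 3
      + ((8255667301448756 / 20081953125) + (176231147008 / 257049) * xl + (112657511936 / 85683) * yu) * A ^ 2 * B ^ 2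
      + ((7769887686678592 / 60245859375) + (23898516992 / 771147) * xu + (231192529408 / 771147) * yu) * A ^ 3 * B ^ 1
      + ((1614875738551124 / 60245859375) + (3746616832 / 771147) * xl + (41872479232 / 771147) * yu) * A ^ 4 * B ^ 0 := by
    simp only [hxl, hxu, hyl, hyu, hA, hB]
    unfold UX4_3_0
    ring
  rw [key]
  positivity

noncomputable def UX4_3_1 (L h J : ℝ) : ℝ :=
  ((4194432 / 125) + (24370176 / 25) * L + (-17913949824 / 15625) * h) * J ^ 0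
    + (0 + (-37184516352 / 15625) * L + (37184516352 / 15625) * h) * J ^ 1
    + ((102257419968 / 390625) + (134015872 / 125) * L + (-113781632 / 125) * h) * J ^ 2
    + ((-737087296 / 3125) + (8093696 / 25) * L + (-8093696 / 25) * h) * J ^ 3
    + ((-22257664 / 625) + 0 * L + 0 * h) * J ^ 4

lemma UX4_3_1_nonneg {L h J : ℝ} (hL0 : (6931471 / 10000000) ≤ L) (hL1 : L ≤ (433217 / 625000)) (hh0 : (67 / 400) ≤ h) (hh1 : h ≤ (117 / 500)) (hJ0 : 0 ≤ J) (hJ1 : J ≤ (39 / 50)) :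
    0 ≤ UX4_3_1 L h J := by
  obtain ⟨xl, hxl⟩ : ∃ x : ℝ, x = L - (6931471 / 10000000) := ⟨_, rfl⟩
  obtain ⟨xu, hxu⟩ : ∃ x : ℝ, x = (433217 / 625000) - L := ⟨_, rfl⟩
  obtain ⟨yl, hyl⟩ : ∃ x : ℝ, x = h - (67 / 400) := ⟨_, rfl⟩
  obtain ⟨yu, hyu⟩ : ∃ x : ℝ, x = (117 / 500) - h := ⟨_, rfl⟩
  obtain ⟨A, hA⟩ : ∃ x : ℝ, x = J - 0 := ⟨_, rfl⟩
  obtain ⟨B, hB⟩ : ∃ x : ℝ, x = (39 / 50) - J := ⟨_, rfl⟩
  have hxl0 : 0 ≤ xl := by rw [hxl]; linarith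
  have hxu0 : 0 ≤ xu := by rw [hxu]; linarith
  have hyl0 : 0 ≤ yl := by rw [hyl]; linarith
  have hyu0 : 0 ≤ yu := by rw [hyu]; linarith
  have hA0 : 0 ≤ A := by rw [hA]; linarith
  have hB0 : 0 ≤ B := by rw [hB]; linarith
  have key : UX4_3_1 L h J =
      ((918668367232 / 771147) + (2030848000000 / 771147) * xl + (2388526643200 / 771147) * yu) * A ^ 0 * B ^ 4
      + ((148364416620622544 / 60245859375) + (4256202299392 / 771147) * xl + (5686916872192 / 771147) * yu) * A ^ 1 * B ^ 3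
      + ((30962080107806564 / 20081953125) + (647479946752 / 257049) * xl + (431481833984 / 85683) * yu) * A ^ 2 * B ^ 2
      + ((21026365132546048 / 60245859375) + (440261915648 / 771147) * xu + (580102269952 / 771147) * yu) * A ^ 3 * B ^ 1
      + ((2562919967782112 / 60245859375) + (157347456512 / 771147) * xu + (4844006912 / 771147) * yl) * A ^ 4 * B ^ 0 := by
    simp only [hxl, hxu, hyl, hyu, hA, hB]
    unfold UX4_3_1
    ring
  rw [key]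
  positivity

noncomputable def UX4_3_2 (L h J : ℝ) : ℝ :=
  ((269127396 / 15625) + (183010048 / 125) * L + (-25586407672 / 15625) * h) * J ^ 0
    + (0 + (-53344774528 / 15625) * L + (53344774528 / 15625) * h) * J ^ 1
    + ((146698129952 / 390625) + (175530624 / 125) * L + (-146443904 / 125) * h) * J ^ 2
    + ((-965418432 / 3125) + (11634688 / 25) * L + (-11634688 / 25) * h) * J ^ 3
    + ((-31995392 / 625) + 0 * L + 0 * h) * J ^ 4

lemma UX4_3_2_nonneg {L h J : ℝ} (hL0 : (6931471 / 10000000) ≤ L) (hL1 : L ≤ (433217 / 625000)) (hh0 : (67 / 400) ≤ h) (hh1 : h ≤ (117 / 500)) (hJ0 : 0 ≤ J) (hJ1 : J ≤ (39 / 50)) :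
    0 ≤ UX4_3_2 L h J := by
  obtain ⟨xl, hxl⟩ : ∃ x : ℝ, x = L - (6931471 / 10000000) := ⟨_, rfl⟩
  obtain ⟨xu, hxu⟩ : ∃ x : ℝ, x = (433217 / 625000) - L := ⟨_, rfl⟩
  obtain ⟨yl, hyl⟩ : ∃ x : ℝ, x = h - (67 / 400) := ⟨_, rfl⟩
  obtain ⟨yu, hyu⟩ : ∃ x : ℝ, x = (117 / 500) - h := ⟨_, rfl⟩
  obtain ⟨A, hA⟩ : ∃ x : ℝ, x = J - 0 := ⟨_, rfl⟩
  obtain ⟨B, hB⟩ : ∃ x : ℝ, x = (39 / 50) - J := ⟨_, rfl⟩
  have hxl0 : 0 ≤ xl := by rw [hxl]; linarith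
  have hxu0 : 0 ≤ xu := by rw [hxu]; linarith
  have hyl0 : 0 ≤ yl := by rw [hyl]; linarith
  have hyu0 : 0 ≤ yu := by rw [hyu]; linarith
  have hA0 : 0 ≤ A := by rw [hA]; linarith
  have hB0 : 0 ≤ B := by rw [hB]; linarith
  have key : UX4_3_2 L h J =
      ((101385185060096 / 57836025) + (703884800000 / 177957) * xl + (10234563068800 / 2313441) * yu) * A ^ 0 * B ^ 4
      + ((670295536712001448 / 180737578125) + (1535264611328 / 177957) * xl + (24294682622464 / 2313441) * yu) * A ^ 1 * B ^ 3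
      + ((143063823859781468 / 60245859375) + (264408898048 / 59319) * xl + (5310497671424 / 771147) * yu) * A ^ 2 * B ^ 2
      + ((92739702435202304 / 180737578125) + (97623083008 / 177957) * xu + (1297506551296 / 2313441) * yu) * A ^ 3 * B ^ 1
      + ((1593739581572104 / 60245859375) + (59469965824 / 177957) * xu + (573866909312 / 2313441) * yl) * A ^ 4 * B ^ 0 := by
    simp only [hxl, hxu, hyl, hyu, hA, hB]
    unfold UX4_3_2
    ring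
  rw [key]
  positivity

noncomputable def UX4_3_3 (L h J : ℝ) : ℝ :=
  ((-510353208 / 15625) + (122318336 / 125) * L + (-15344915696 / 15625) * h) * J ^ 0
    + (0 + (-32320516352 / 15625) * L + (32320516352 / 15625) * h) * J ^ 1
    + ((88881419968 / 390625) + (20004992 / 25) * L + (-658560) * h) * J ^ 2
    + ((-110027456 / 625) + (7081984 / 25) * L + (-7081984 / 25) * h) * J ^ 3
    + ((-19475456 / 625) + 0 * L + 0 * h) * J ^ 4

lemma UX4_3_3_nonneg {L h J : ℝ} (hL0 : (6931471 / 10000000) ≤ L) (hL1 : L ≤ (433217 / 625000)) (hh0 : (67 / 400) ≤ h) (hh1 : h ≤ (117 / 500)) (hJ0 : 0 ≤ J) (hJ1 : J ≤ (39 / 50)) :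
    0 ≤ UX4_3_3 L h J := by
  obtain ⟨xl, hxl⟩ : ∃ x : ℝ, x = L - (6931471 / 10000000) := ⟨_, rfl⟩
  obtain ⟨xu, hxu⟩ : ∃ x : ℝ, x = (433217 / 625000) - L := ⟨_, rfl⟩
  obtain ⟨yl, hyl⟩ : ∃ x : ℝ, x = h - (67 / 400) := ⟨_, rfl⟩
  obtain ⟨yu, hyu⟩ : ∃ x : ℝ, x = (117 / 500) - h := ⟨_, rfl⟩
  obtain ⟨A, hA⟩ : ∃ x : ℝ, x = J - 0 := ⟨_, rfl⟩
  obtain ⟨B, hB⟩ : ∃ x : ℝ, x = (39 / 50) - J := ⟨_, rfl⟩
  have hxl0 : 0 ≤ xl := by rw [hxl]; linarith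
  have hxu0 : 0 ≤ xu := by rw [hxu]; linarith
  have hyl0 : 0 ≤ yl := by rw [hyl]; linarith
  have hyu0 : 0 ≤ yu := by rw [hyu]; linarith
  have hA0 : 0 ≤ A := by rw [hA]; linarith
  have hB0 : 0 ≤ B := by rw [hB]; linarith
  have key : UX4_3_3 L h J =
      ((64970115035392 / 57836025) + (6115916800000 / 2313441) * xl + (6137966278400 / 2313441) * yu) * A ^ 0 * B ^ 4
      + ((450404573700267632 / 180737578125) + (14379666098176 / 2313441) * xl + (14467864011776 / 2313441) * yu) * A ^ 1 * B ^ 3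
      + ((106536934366688932 / 60245859375) + (3162085592576 / 771147) * xl + (3026656254976 / 771147) * yu) * A ^ 2 * B ^ 2
      + ((17896152406378408 / 36147515625) + (1137374878720 / 2313441) * xl + (148403025920 / 2313441) * yu) * A ^ 3 * B ^ 1
      + ((2828384790124144 / 60245859375) + (85132600832 / 2313441) * xu + (601668005632 / 2313441) * yl) * A ^ 4 * B ^ 0 := by
    simp only [hxl, hxu, hyl, hyu, hA, hB]
    unfold UX4_3_3
    ring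
  rw [key]
  positivity

noncomputable def UX4_3_4 (L h J : ℝ) : ℝ :=
  ((-292082604 / 15625) + (29189728 / 125) * L + (-3193970392 / 15625) * h) * J ^ 0
    + (0 + (-6864129088 / 15625) * L + (6864129088 / 15625) * h) * J ^ 1
    + ((18876354992 / 390625) + (20757376 / 125) * L + (-16963456 / 125) * h) * J ^ 2
    + ((-114165568 / 3125) + (1517568 / 25) * L + (-1517568 / 25) * h) * J ^ 3
    + ((-4173312 / 625) + 0 * L + 0 * h) * J ^ 4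

lemma UX4_3_4_nonneg {L h J : ℝ} (hL0 : (6931471 / 10000000) ≤ L) (hL1 : L ≤ (433217 / 625000)) (hh0 : (67 / 400) ≤ h) (hh1 : h ≤ (117 / 500)) (hJ0 : 0 ≤ J) (hJ1 : J ≤ (39 / 50)) :
    0 ≤ UX4_3_4 L h J := by
  obtain ⟨xl, hxl⟩ : ∃ x : ℝ, x = L - (6931471 / 10000000) := ⟨_, rfl⟩
  obtain ⟨xu, hxu⟩ : ∃ x : ℝ, x = (433217 / 625000) - L := ⟨_, rfl⟩
  obtain ⟨yl, hyl⟩ : ∃ x : ℝ, x = h - (67 / 400) := ⟨_, rfl⟩
  obtain ⟨yu, hyu⟩ : ∃ x : ℝ, x = (117 / 500) - h := ⟨_, rfl⟩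
  obtain ⟨A, hA⟩ : ∃ x : ℝ, x = J - 0 := ⟨_, rfl⟩
  obtain ⟨B, hB⟩ : ∃ x : ℝ, x = (39 / 50) - J := ⟨_, rfl⟩
  have hxl0 : 0 ≤ xl := by rw [hxl]; linarith
  have hxu0 : 0 ≤ xu := by rw [hxu]; linarith
  have hyl0 : 0 ≤ yl := by rw [hyl]; linarith
  have hyu0 : 0 ≤ yu := by rw [hyu]; linarith
  have hA0 : 0 ≤ A := by rw [hA]; linarith
  have hB0 : 0 ≤ B := by rw [hB]; linarith
  have key : UX4_3_4 L h J =
      ((14896252383956 / 57836025) + (1459486400000 / 2313441) * xl + (1277588156800 / 2313441) * yu) * A ^ 0 * B ^ 4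
      + ((109381808782916908 / 180737578125) + (3696337324544 / 2313441) * xl + (2968744351744 / 2313441) * yu) * A ^ 1 * B ^ 3
      + ((29318766125105888 / 60245859375) + (987844317184 / 771147) * xl + (585577481984 / 771147) * yu) * A ^ 2 * B ^ 2
      + ((31431459676294892 / 180737578125) + (856040761856 / 2313441) * xl + (102374303744 / 2313441) * yl) * A ^ 3 * B ^ 1
      + ((4758653381642636 / 180737578125) + (129358734848 / 2313441) * xl + (167950554752 / 2313441) * yl) * A ^ 4 * B ^ 0 := by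
    simp only [hxl, hxu, hyl, hyu, hA, hB]
    unfold UX4_3_4
    ring
  rw [key]
  positivity

lemma UX4_3_nonneg {L h d J : ℝ} (hL0 : (6931471 / 10000000) ≤ L) (hL1 : L ≤ (433217 / 625000)) (hh0 : (67 / 400) ≤ h) (hh1 : h ≤ (117 / 500)) (hd0 : 0 ≤ d) (hd1 : d ≤ (1 / 2)) (hJ0 : 0 ≤ J) (hJ1 : J ≤ (39 / 50)) :
    0 ≤ UX4_3 L h d J := by
  have c0 := UX4_3_0_nonneg hL0 hL1 hh0 hh1 hJ0 hJ1
  have c1 := UX4_3_1_nonneg hL0 hL1 hh0 hh1 hJ0 hJ1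
  have c2 := UX4_3_2_nonneg hL0 hL1 hh0 hh1 hJ0 hJ1
  have c3 := UX4_3_3_nonneg hL0 hL1 hh0 hh1 hJ0 hJ1
  have c4 := UX4_3_4_nonneg hL0 hL1 hh0 hh1 hJ0 hJ1
  have key : UX4_3 L h d J =
      (d - 0) ^ 0 * ((1 / 2) - d) ^ 4 * UX4_3_0 L h J
      + (d - 0) ^ 1 * ((1 / 2) - d) ^ 3 * UX4_3_1 L h J
      + (d - 0) ^ 2 * ((1 / 2) - d) ^ 2 * UX4_3_2 L h J
      + (d - 0) ^ 3 * ((1 / 2) - d) ^ 1 * UX4_3_3 L h J
      + (d - 0) ^ 4 * ((1 / 2) - d) ^ 0 * UX4_3_4 L h J := by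
    unfold UX4_3 UX4_3_0 UX4_3_1 UX4_3_2 UX4_3_3 UX4_3_4
    ring
  have hA : 0 ≤ d - 0 := by linarith
  have hB : 0 ≤ (1 / 2) - d := by linarith
  rw [key]
  positivity

noncomputable def UX4_4 (L h d J : ℝ) : ℝ :=
  ((482064 / 3125) + (1057344 / 125) * L + (-150423396 / 15625) * h) * d ^ 0 * J ^ 0
    + (0 + (-305331448 / 15625) * L + (305331448 / 15625) * h) * d ^ 0 * J ^ 1
    + ((839661482 / 390625) + (1174208 / 125) * L + (-1011968 / 125) * h) * d ^ 0 * J ^ 2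
    + ((-6458144 / 3125) + (64896 / 25) * L + (-64896 / 25) * h) * d ^ 0 * J ^ 3
    + ((-178464 / 625) + 0 * L + 0 * h) * d ^ 0 * J ^ 4
    + (0 + (-1115776 / 125) * L + (1115776 / 125) * h) * d ^ 1 * J ^ 2
    + ((6136768 / 3125) + 0 * L + 0 * h) * d ^ 1 * J ^ 3
    + ((-68735352 / 15625) + 0 * L + (162266832 / 15625) * h) * d ^ 2 * J ^ 0
    + (0 + 19968 * L + (-19968) * h) * d ^ 2 * J ^ 1
    + ((-54912 / 25) + 0 * L + (-32448 / 25) * h) * d ^ 2 * J ^ 2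
    + (0 + (-64896 / 25) * L + (64896 / 25) * h) * d ^ 2 * J ^ 3
    + ((178464 / 625) + 0 * L + 0 * h) * d ^ 2 * J ^ 4
    + ((94048 / 25) + (-188096 / 25) * L + 0 * h) * d ^ 4 * J ^ 0

noncomputable def UX4_4_0 (L h J : ℝ) : ℝ :=
  ((7713024 / 3125) + (16917504 / 125) * L + (-2406774336 / 15625) * h) * J ^ 0
    + (0 + (-4885303168 / 15625) * L + (4885303168 / 15625) * h) * J ^ 1
    + ((13434583712 / 390625) + (18787328 / 125) * L + (-16191488 / 125) * h) * J ^ 2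
    + ((-103330304 / 3125) + (1038336 / 25) * L + (-1038336 / 25) * h) * J ^ 3
    + ((-2855424 / 625) + 0 * L + 0 * h) * J ^ 4

lemma UX4_4_0_nonneg {L h J : ℝ} (hL0 : (6931471 / 10000000) ≤ L) (hL1 : L ≤ (433217 / 625000)) (hh0 : (67 / 400) ≤ h) (hh1 : h ≤ (117 / 500)) (hJ0 : 0 ≤ J) (hJ1 : J ≤ (39 / 50)) :
    0 ≤ UX4_4_0 L h J := by
  obtain ⟨xl, hxl⟩ : ∃ x : ℝ, x = L - (6931471 / 10000000) := ⟨_, rfl⟩
  obtain ⟨xu, hxu⟩ : ∃ x : ℝ, x = (433217 / 625000) - L := ⟨_, rfl⟩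
  obtain ⟨yl, hyl⟩ : ∃ x : ℝ, x = h - (67 / 400) := ⟨_, rfl⟩
  obtain ⟨yu, hyu⟩ : ∃ x : ℝ, x = (117 / 500) - h := ⟨_, rfl⟩
  obtain ⟨A, hA⟩ : ∃ x : ℝ, x = J - 0 := ⟨_, rfl⟩
  obtain ⟨B, hB⟩ : ∃ x : ℝ, x = (39 / 50) - J := ⟨_, rfl⟩
  have hxl0 : 0 ≤ xl := by rw [hxl]; linarith
  have hxu0 : 0 ≤ xu := by rw [hxu]; linarith
  have hyl0 : 0 ≤ yl := by rw [hyl]; linarith
  have hyu0 : 0 ≤ yu := by rw [hyu]; linarith
  have hA0 : 0 ≤ A := by rw [hA]; linarith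
  have hB0 : 0 ≤ B := by rw [hB]; linarith
  have key : UX4_4_0 L h J =
      ((3137232599936 / 19278675) + (281958400000 / 771147) * xl + (320903244800 / 771147) * yu) * A ^ 0 * B ^ 4
      + ((2332271238195544 / 6693984375) + (619762070528 / 771147) * xl + (86171272192 / 85683) * yu) * A ^ 1 * B ^ 3
      + ((4956200280360376 / 20081953125) + (119346439168 / 257049) * xl + (62820729856 / 85683) * yu) * A ^ 2 * B ^ 2
      + ((980055788826632 / 12049171875) + (25688058880 / 771147) * xl + (128823802880 / 771147) * yu) * A ^ 3 * B ^ 1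
      + ((314341138531976 / 20081953125) + (5452411904 / 771147) * xl + (6025146368 / 257049) * yu) * A ^ 4 * B ^ 0 := by
    simp only [hxl, hxu, hyl, hyu, hA, hB]
    unfold UX4_4_0
    ring
  rw [key]
  positivity

noncomputable def UX4_4_1 (L h J : ℝ) : ℝ :=
  ((30852096 / 3125) + (67670016 / 125) * L + (-9627097344 / 15625) * h) * J ^ 0
    + (0 + (-19541212672 / 15625) * L + (19541212672 / 15625) * h) * J ^ 1
    + ((53738334848 / 390625) + (66223104 / 125) * L + (-55839744 / 125) * h) * J ^ 2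
    + ((-364227072 / 3125) + (4153344 / 25) * L + (-4153344 / 25) * h) * J ^ 3
    + ((-11421696 / 625) + 0 * L + 0 * h) * J ^ 4

lemma UX4_4_1_nonneg {L h J : ℝ} (hL0 : (6931471 / 10000000) ≤ L) (hL1 : L ≤ (433217 / 625000)) (hh0 : (67 / 400) ≤ h) (hh1 : h ≤ (117 / 500)) (hJ0 : 0 ≤ J) (hJ1 : J ≤ (39 / 50)) :
    0 ≤ UX4_4_1 L h J := by
  obtain ⟨xl, hxl⟩ : ∃ x : ℝ, x = L - (6931471 / 10000000) := ⟨_, rfl⟩
  obtain ⟨xu, hxu⟩ : ∃ x : ℝ, x = (433217 / 625000) - L := ⟨_, rfl⟩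
  obtain ⟨yl, hyl⟩ : ∃ x : ℝ, x = h - (67 / 400) := ⟨_, rfl⟩
  obtain ⟨yu, hyu⟩ : ∃ x : ℝ, x = (117 / 500) - h := ⟨_, rfl⟩
  obtain ⟨A, hA⟩ : ∃ x : ℝ, x = J - 0 := ⟨_, rfl⟩
  obtain ⟨B, hB⟩ : ∃ x : ℝ, x = (39 / 50) - J := ⟨_, rfl⟩
  have hxl0 : 0 ≤ xl := by rw [hxl]; linarith
  have hxu0 : 0 ≤ xu := by rw [hxu]; linarith
  have hyl0 : 0 ≤ yl := by rw [hyl]; linarith
  have hyu0 : 0 ≤ yu := by rw [hyu]; linarith
  have hA0 : 0 ≤ A := by rw [hA]; linarith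
  have hB0 : 0 ≤ B := by rw [hB]; linarith
  have key : UX4_4_1 L h J =
      ((12548930399744 / 19278675) + (1127833600000 / 771147) * xl + (1283612979200 / 771147) * yu) * A ^ 0 * B ^ 4
      + ((9329084952782176 / 6693984375) + (2479048282112 / 771147) * xl + (344685088768 / 85683) * yu) * A ^ 1 * B ^ 3
      + ((18742556144244224 / 20081953125) + (49690574848 / 28561) * xl + (723678175232 / 257049) * yu) * A ^ 2 * B ^ 2
      + ((954737895899648 / 4016390625) + (78271262720 / 771147) * xu + (334271713280 / 771147) * yu) * A ^ 3 * B ^ 1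
      + ((1644174727976704 / 60245859375) + (68702101504 / 771147) * xu + (6069997568 / 257049) * yl) * A ^ 4 * B ^ 0 := by
    simp only [hxl, hxu, hyl, hyu, hA, hB]
    unfold UX4_4_1
    ring
  rw [key]
  positivity

noncomputable def UX4_4_2 (L h J : ℝ) : ℝ :=
  ((-43550688 / 15625) + (101505024 / 125) * L + (-13791578688 / 15625) * h) * J ^ 0
    + (0 + (-28063819008 / 15625) * L + (28063819008 / 15625) * h) * J ^ 1
    + ((77175502272 / 390625) + (85945344 / 125) * L + (-71019264 / 125) * h) * J ^ 2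
    + ((-472699392 / 3125) + (5970432 / 25) * L + (-5970432 / 25) * h) * J ^ 3
    + ((-16418688 / 625) + 0 * L + 0 * h) * J ^ 4

lemma UX4_4_2_nonneg {L h J : ℝ} (hL0 : (6931471 / 10000000) ≤ L) (hL1 : L ≤ (433217 / 625000)) (hh0 : (67 / 400) ≤ h) (hh1 : h ≤ (117 / 500)) (hJ0 : 0 ≤ J) (hJ1 : J ≤ (39 / 50)) :
    0 ≤ UX4_4_2 L h J := by
  obtain ⟨xl, hxl⟩ : ∃ x : ℝ, x = L - (6931471 / 10000000) := ⟨_, rfl⟩
  obtain ⟨xu, hxu⟩ : ∃ x : ℝ, x = (433217 / 625000) - L := ⟨_, rfl⟩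
  obtain ⟨yl, hyl⟩ : ∃ x : ℝ, x = h - (67 / 400) := ⟨_, rfl⟩
  obtain ⟨yu, hyu⟩ : ∃ x : ℝ, x = (117 / 500) - h := ⟨_, rfl⟩
  obtain ⟨A, hA⟩ : ∃ x : ℝ, x = J - 0 := ⟨_, rfl⟩
  obtain ⟨B, hB⟩ : ∃ x : ℝ, x = (39 / 50) - J := ⟨_, rfl⟩
  have hxl0 : 0 ≤ xl := by rw [hxl]; linarith
  have hxu0 : 0 ≤ xu := by rw [hxu]; linarith
  have hyl0 : 0 ≤ yl := by rw [hyl]; linarith
  have hyu0 : 0 ≤ yu := by rw [hyu]; linarith
  have hA0 : 0 ≤ A := by rw [hA]; linarith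
  have hB0 : 0 ≤ B := by rw [hB]; linarith
  have key : UX4_4_2 L h J =
      ((18413196755456 / 19278675) + (563916800000 / 257049) * xl + (612959052800 / 257049) * yu) * A ^ 0 * B ^ 4
      + ((125470912904559376 / 60245859375) + (1282788141056 / 257049) * xl + (1478957152256 / 257049) * yu) * A ^ 1 * B ^ 3
      + ((28252371924570416 / 20081953125) + (251786295296 / 85683) * xl + (111018028032 / 28561) * yu) * A ^ 2 * B ^ 2
      + ((20052448069285504 / 60245859375) + (3277216768 / 257049) * xu + (91991493632 / 257049) * yu) * A ^ 3 * B ^ 1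
      + ((40025489670592 / 2409834375) + (39764761600 / 257049) * xu + (41172659200 / 257049) * yl) * A ^ 4 * B ^ 0 := by
    simp only [hxl, hxu, hyl, hyu, hA, hB]
    unfold UX4_4_2
    ring
  rw [key]
  positivity

noncomputable def UX4_4_3 (L h J : ℝ) : ℝ :=
  ((-395622336 / 15625) + (67670016 / 125) * L + (-8328962688 / 15625) * h) * J ^ 0
    + (0 + (-17045212672 / 15625) * L + (17045212672 / 15625) * h) * J ^ 1
    + ((46874334848 / 390625) + (48370688 / 125) * L + (-39285248 / 125) * h) * J ^ 2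
    + ((-266038784 / 3125) + (3634176 / 25) * L + (-3634176 / 25) * h) * J ^ 3
    + ((-9993984 / 625) + 0 * L + 0 * h) * J ^ 4

lemma UX4_4_3_nonneg {L h J : ℝ} (hL0 : (6931471 / 10000000) ≤ L) (hL1 : L ≤ (433217 / 625000)) (hh0 : (67 / 400) ≤ h) (hh1 : h ≤ (117 / 500)) (hJ0 : 0 ≤ J) (hJ1 : J ≤ (39 / 50)) :
    0 ≤ UX4_4_3 L h J := by
  obtain ⟨xl, hxl⟩ : ∃ x : ℝ, x = L - (6931471 / 10000000) := ⟨_, rfl⟩
  obtain ⟨xu, hxu⟩ : ∃ x : ℝ, x = (433217 / 625000) - L := ⟨_, rfl⟩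
  obtain ⟨yl, hyl⟩ : ∃ x : ℝ, x = h - (67 / 400) := ⟨_, rfl⟩
  obtain ⟨yu, hyu⟩ : ∃ x : ℝ, x = (117 / 500) - h := ⟨_, rfl⟩
  obtain ⟨A, hA⟩ : ∃ x : ℝ, x = J - 0 := ⟨_, rfl⟩
  obtain ⟨B, hB⟩ : ∃ x : ℝ, x = (39 / 50) - J := ⟨_, rfl⟩
  have hxl0 : 0 ≤ xl := by rw [hxl]; linarith
  have hxu0 : 0 ≤ xu := by rw [hxu]; linarith
  have hyl0 : 0 ≤ yl := by rw [hyl]; linarith
  have hyu0 : 0 ≤ yu := by rw [hyu]; linarith
  have hA0 : 0 ≤ A := by rw [hA]; linarith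
  have hB0 : 0 ≤ B := by rw [hB]; linarith
  have key : UX4_4_3 L h J =
      ((3909510903808 / 6426225) + (1127833600000 / 771147) * xl + (1110528358400 / 771147) * yu) * A ^ 0 * B ^ 4
      + ((83018296659039584 / 60245859375) + (2738632282112 / 771147) * xl + (889803771904 / 257049) * yu) * A ^ 1 * B ^ 3
      + ((20101876537849664 / 20081953125) + (646458007552 / 257049) * xl + (193712912384 / 85683) * yu) * A ^ 2 * B ^ 2
      + ((5580934972918768 / 20081953125) + (317902723072 / 771147) * xl + (64429033472 / 771147) * yu) * A ^ 3 * B ^ 1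
      + ((405491450417024 / 20081953125) + (10672617472 / 771147) * xu + (13344913408 / 85683) * yl) * A ^ 4 * B ^ 0 := by
    simp only [hxl, hxu, hyl, hyu, hA, hB]
    unfold UX4_4_3
    ring
  rw [key]
  positivity

noncomputable def UX4_4_4 (L h J : ℝ) : ℝ :=
  ((-177596288 / 15625) + (15977024 / 125) * L + (-1757707008 / 15625) * h) * J ^ 0
    + (0 + (-3637303168 / 15625) * L + (3637303168 / 15625) * h) * J ^ 1
    + ((10002583712 / 390625) + (1972224 / 25) * L + (-1582848 / 25) * h) * J ^ 2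
    + ((-10847232 / 625) + (778752 / 25) * L + (-778752 / 25) * h) * J ^ 3
    + ((-2141568 / 625) + 0 * L + 0 * h) * J ^ 4

lemma UX4_4_4_nonneg {L h J : ℝ} (hL0 : (6931471 / 10000000) ≤ L) (hL1 : L ≤ (433217 / 625000)) (hh0 : (67 / 400) ≤ h) (hh1 : h ≤ (117 / 500)) (hJ0 : 0 ≤ J) (hJ1 : J ≤ (39 / 50)) :
    0 ≤ UX4_4_4 L h J := by
  obtain ⟨xl, hxl⟩ : ∃ x : ℝ, x = L - (6931471 / 10000000) := ⟨_, rfl⟩
  obtain ⟨xu, hxu⟩ : ∃ x : ℝ, x = (433217 / 625000) - L := ⟨_, rfl⟩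
  obtain ⟨yl, hyl⟩ : ∃ x : ℝ, x = h - (67 / 400) := ⟨_, rfl⟩
  obtain ⟨yu, hyu⟩ : ∃ x : ℝ, x = (117 / 500) - h := ⟨_, rfl⟩
  obtain ⟨A, hA⟩ : ∃ x : ℝ, x = J - 0 := ⟨_, rfl⟩
  obtain ⟨B, hB⟩ : ∃ x : ℝ, x = (39 / 50) - J := ⟨_, rfl⟩
  have hxl0 : 0 ≤ xl := by rw [hxl]; linarith
  have hxu0 : 0 ≤ xu := by rw [hxu]; linarith
  have hyl0 : 0 ≤ yl := by rw [hyl]; linarith
  have hyu0 : 0 ≤ yu := by rw [hyu]; linarith
  have hA0 : 0 ≤ A := by rw [hA]; linarith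
  have hB0 : 0 ≤ B := by rw [hB]; linarith
  have key : UX4_4_4 L h J =
      ((7954037536568 / 57836025) + (798851200000 / 2313441) * xl + (234360934400 / 771147) * yu) * A ^ 0 * B ^ 4
      + ((58717824922779688 / 180737578125) + (2060566211584 / 2313441) * xl + (186388069376 / 257049) * yu) * A ^ 1 * B ^ 3
      + ((15488433114239288 / 60245859375) + (562855568384 / 771147) * xl + (117192470528 / 257049) * yu) * A ^ 2 * B ^ 2
      + ((15400108170090496 / 180737578125) + (483229155328 / 2313441) * xl + (6097537024 / 771147) * yl) * A ^ 3 * B ^ 1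
      + ((351933501440264 / 36147515625) + (56377461760 / 2313441) * xl + (1217469440 / 28561) * yl) * A ^ 4 * B ^ 0 := by
    simp only [hxl, hxu, hyl, hyu, hA, hB]
    unfold UX4_4_4
    ring
  rw [key]
  positivity

lemma UX4_4_nonneg {L h d J : ℝ} (hL0 : (6931471 / 10000000) ≤ L) (hL1 : L ≤ (433217 / 625000)) (hh0 : (67 / 400) ≤ h) (hh1 : h ≤ (117 / 500)) (hd0 : 0 ≤ d) (hd1 : d ≤ (1 / 2)) (hJ0 : 0 ≤ J) (hJ1 : J ≤ (39 / 50)) :
    0 ≤ UX4_4 L h d J := by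
  have c0 := UX4_4_0_nonneg hL0 hL1 hh0 hh1 hJ0 hJ1
  have c1 := UX4_4_1_nonneg hL0 hL1 hh0 hh1 hJ0 hJ1
  have c2 := UX4_4_2_nonneg hL0 hL1 hh0 hh1 hJ0 hJ1
  have c3 := UX4_4_3_nonneg hL0 hL1 hh0 hh1 hJ0 hJ1
  have c4 := UX4_4_4_nonneg hL0 hL1 hh0 hh1 hJ0 hJ1
  have key : UX4_4 L h d J =
      (d - 0) ^ 0 * ((1 / 2) - d) ^ 4 * UX4_4_0 L h J
      + (d - 0) ^ 1 * ((1 / 2) - d) ^ 3 * UX4_4_1 L h J
      + (d - 0) ^ 2 * ((1 / 2) - d) ^ 2 * UX4_4_2 L h J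
      + (d - 0) ^ 3 * ((1 / 2) - d) ^ 1 * UX4_4_3 L h J
      + (d - 0) ^ 4 * ((1 / 2) - d) ^ 0 * UX4_4_4 L h J := by
    unfold UX4_4 UX4_4_0 UX4_4_1 UX4_4_2 UX4_4_3 UX4_4_4
    ring
  have hA : 0 ≤ d - 0 := by linarith
  have hB : 0 ≤ (1 / 2) - d := by linarith
  rw [key]
  positivity

noncomputable def UX4_5 (L h d J : ℝ) : ℝ :=
  (0 + (233728 / 125) * L + (-2048) * h) * d ^ 0 * J ^ 0
    + (0 + (-4096) * L + 4096 * h) * d ^ 0 * J ^ 1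
    + ((11264 / 25) + (233728 / 125) * L + (-200448 / 125) * h) * d ^ 0 * J ^ 2
    + ((-1285504 / 3125) + (13312 / 25) * L + (-13312 / 25) * h) * d ^ 0 * J ^ 3
    + ((-36608 / 625) + 0 * L + 0 * h) * d ^ 0 * J ^ 4
    + (0 + (-233728 / 125) * L + (233728 / 125) * h) * d ^ 1 * J ^ 2
    + ((1285504 / 3125) + 0 * L + 0 * h) * d ^ 1 * J ^ 3
    + ((-116864 / 125) + 0 * L + 2048 * h) * d ^ 2 * J ^ 0
    + (0 + 4096 * L + (-4096) * h) * d ^ 2 * J ^ 1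
    + ((-11264 / 25) + 0 * L + (-6656 / 25) * h) * d ^ 2 * J ^ 2
    + (0 + (-13312 / 25) * L + (13312 / 25) * h) * d ^ 2 * J ^ 3
    + ((36608 / 625) + 0 * L + 0 * h) * d ^ 2 * J ^ 4
    + ((116864 / 125) + (-233728 / 125) * L + 0 * h) * d ^ 4 * J ^ 0

noncomputable def UX4_5_0 (L h J : ℝ) : ℝ :=
  (0 + (3739648 / 125) * L + (-32768) * h) * J ^ 0
    + (0 + (-65536) * L + 65536 * h) * J ^ 1
    + ((180224 / 25) + (3739648 / 125) * L + (-3207168 / 125) * h) * J ^ 2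
    + ((-20568064 / 3125) + (212992 / 25) * L + (-212992 / 25) * h) * J ^ 3
    + ((-585728 / 625) + 0 * L + 0 * h) * J ^ 4

lemma UX4_5_0_nonneg {L h J : ℝ} (hL0 : (6931471 / 10000000) ≤ L) (hL1 : L ≤ (433217 / 625000)) (hh0 : (67 / 400) ≤ h) (hh1 : h ≤ (117 / 500)) (hJ0 : 0 ≤ J) (hJ1 : J ≤ (39 / 50)) :
    0 ≤ UX4_5_0 L h J := by
  obtain ⟨xl, hxl⟩ : ∃ x : ℝ, x = L - (6931471 / 10000000) := ⟨_, rfl⟩
  obtain ⟨xu, hxu⟩ : ∃ x : ℝ, x = (433217 / 625000) - L := ⟨_, rfl⟩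
  obtain ⟨yl, hyl⟩ : ∃ x : ℝ, x = h - (67 / 400) := ⟨_, rfl⟩
  obtain ⟨yu, hyu⟩ : ∃ x : ℝ, x = (117 / 500) - h := ⟨_, rfl⟩
  obtain ⟨A, hA⟩ : ∃ x : ℝ, x = J - 0 := ⟨_, rfl⟩
  obtain ⟨B, hB⟩ : ∃ x : ℝ, x = (39 / 50) - J := ⟨_, rfl⟩
  have hxl0 : 0 ≤ xl := by rw [hxl]; linarith
  have hxu0 : 0 ≤ xu := by rw [hxu]; linarith
  have hyl0 : 0 ≤ yl := by rw [hyl]; linarith
  have hyu0 : 0 ≤ yu := by rw [hyu]; linarith
  have hA0 : 0 ≤ A := by rw [hA]; linarith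
  have hB0 : 0 ≤ B := by rw [hB]; linarith
  have key : UX4_5_0 L h J =
      ((2042077707776 / 57836025) + (186982400000 / 2313441) * xl + (204800000000 / 2313441) * yu) * A ^ 0 * B ^ 4
      + ((4501011113984 / 57836025) + (428441600000 / 2313441) * xl + (499712000000 / 2313441) * yu) * A ^ 1 * B ^ 3
      + ((695092251860608 / 12049171875) + (92396830720 / 771147) * xl + (122632683520 / 771147) * yu) * A ^ 2 * B ^ 2
      + ((3563082440230912 / 180737578125) + (42254729216 / 2313441) * xl + (81129046016 / 2313441) * yu) * A ^ 3 * B ^ 1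
      + ((651484660465792 / 180737578125) + (6523437056 / 2313441) * xl + (8142995456 / 2313441) * yu) * A ^ 4 * B ^ 0 := by
    simp only [hxl, hxu, hyl, hyu, hA, hB]
    unfold UX4_5_0
    ring
  rw [key]
  positivity

noncomputable def UX4_5_1 (L h J : ℝ) : ℝ :=
  (0 + (14958592 / 125) * L + (-131072) * h) * J ^ 0
    + (0 + (-262144) * L + 262144 * h) * J ^ 1
    + ((720896 / 25) + (13088768 / 125) * L + (-10958848 / 125) * h) * J ^ 2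
    + ((-71988224 / 3125) + (851968 / 25) * L + (-851968 / 25) * h) * J ^ 3
    + ((-2342912 / 625) + 0 * L + 0 * h) * J ^ 4

lemma UX4_5_1_nonneg {L h J : ℝ} (hL0 : (6931471 / 10000000) ≤ L) (hL1 : L ≤ (433217 / 625000)) (hh0 : (67 / 400) ≤ h) (hh1 : h ≤ (117 / 500)) (hJ0 : 0 ≤ J) (hJ1 : J ≤ (39 / 50)) :
    0 ≤ UX4_5_1 L h J := by
  obtain ⟨xl, hxl⟩ : ∃ x : ℝ, x = L - (6931471 / 10000000) := ⟨_, rfl⟩
  obtain ⟨xu, hxu⟩ : ∃ x : ℝ, x = (433217 / 625000) - L := ⟨_, rfl⟩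
  obtain ⟨yl, hyl⟩ : ∃ x : ℝ, x = h - (67 / 400) := ⟨_, rfl⟩
  obtain ⟨yu, hyu⟩ : ∃ x : ℝ, x = (117 / 500) - h := ⟨_, rfl⟩
  obtain ⟨A, hA⟩ : ∃ x : ℝ, x = J - 0 := ⟨_, rfl⟩
  obtain ⟨B, hB⟩ : ∃ x : ℝ, x = (39 / 50) - J := ⟨_, rfl⟩
  have hxl0 : 0 ≤ xl := by rw [hxl]; linarith
  have hxu0 : 0 ≤ xu := by rw [hxu]; linarith
  have hyl0 : 0 ≤ yl := by rw [hyl]; linarith
  have hyu0 : 0 ≤ yu := by rw [hyu]; linarith
  have hA0 : 0 ≤ A := by rw [hA]; linarith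
  have hB0 : 0 ≤ B := by rw [hB]; linarith
  have key : UX4_5_1 L h J =
      ((8168310831104 / 57836025) + (747929600000 / 2313441) * xl + (819200000000 / 2313441) * yu) * A ^ 0 * B ^ 4
      + ((18004044455936 / 57836025) + (1713766400000 / 2313441) * xl + (1998848000000 / 2313441) * yu) * A ^ 1 * B ^ 3
      + ((2644346568872128 / 12049171875) + (350627307520 / 771147) * xl + (471570718720 / 771147) * yu) * A ^ 2 * B ^ 2
      + ((10934204721574528 / 180737578125) + (55258824704 / 2313441) * xl + (210756091904 / 2313441) * yu) * A ^ 3 * B ^ 1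
      + ((1201861950470656 / 180737578125) + (30786297856 / 2313441) * xu + (24308064256 / 2313441) * yl) * A ^ 4 * B ^ 0 := by
    simp only [hxl, hxu, hyl, hyu, hA, hB]
    unfold UX4_5_1
    ring
  rw [key]
  positivity

noncomputable def UX4_5_2 (L h J : ℝ) : ℝ :=
  ((-467456 / 125) + (22437888 / 125) * L + (-188416) * h) * J ^ 0
    + (0 + (-376832) * L + 376832 * h) * J ^ 1
    + ((1036288 / 25) + (16828416 / 125) * L + (-13766656 / 125) * h) * J ^ 2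
    + ((-92556288 / 3125) + (1224704 / 25) * L + (-1224704 / 25) * h) * J ^ 3
    + ((-3367936 / 625) + 0 * L + 0 * h) * J ^ 4

lemma UX4_5_2_nonneg {L h J : ℝ} (hL0 : (6931471 / 10000000) ≤ L) (hL1 : L ≤ (433217 / 625000)) (hh0 : (67 / 400) ≤ h) (hh1 : h ≤ (117 / 500)) (hJ0 : 0 ≤ J) (hJ1 : J ≤ (39 / 50)) :
    0 ≤ UX4_5_2 L h J := by
  obtain ⟨xl, hxl⟩ : ∃ x : ℝ, x = L - (6931471 / 10000000) := ⟨_, rfl⟩
  obtain ⟨xu, hxu⟩ : ∃ x : ℝ, x = (433217 / 625000) - L := ⟨_, rfl⟩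
  obtain ⟨yl, hyl⟩ : ∃ x : ℝ, x = h - (67 / 400) := ⟨_, rfl⟩
  obtain ⟨yu, hyu⟩ : ∃ x : ℝ, x = (117 / 500) - h := ⟨_, rfl⟩
  obtain ⟨A, hA⟩ : ∃ x : ℝ, x = J - 0 := ⟨_, rfl⟩
  obtain ⟨B, hB⟩ : ∃ x : ℝ, x = (39 / 50) - J := ⟨_, rfl⟩
  have hxl0 : 0 ≤ xl := by rw [hxl]; linarith
  have hxu0 : 0 ≤ xu := by rw [hxu]; linarith
  have hyl0 : 0 ≤ yl := by rw [hyl]; linarith
  have hyu0 : 0 ≤ yu := by rw [hyu]; linarith
  have hA0 : 0 ≤ A := by rw [hA]; linarith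
  have hB0 : 0 ≤ B := by rw [hB]; linarith
  have key : UX4_5_2 L h J =
      ((11967666246656 / 57836025) + (373964800000 / 771147) * xl + (1177600000000 / 2313441) * yu) * A ^ 0 * B ^ 4
      + ((26783691613184 / 57836025) + (294502400000 / 257049) * xl + (2873344000000 / 2313441) * yu) * A ^ 1 * B ^ 3
      + ((3938873635452736 / 12049171875) + (192457646080 / 257049) * xl + (657737891840 / 771147) * yu) * A ^ 2 * B ^ 2
      + ((15013904269754944 / 180737578125) + (48515620864 / 771147) * xl + (182091784192 / 2313441) * yu) * A ^ 3 * B ^ 1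
      + ((761420451158528 / 180737578125) + (6438305792 / 257049) * xu + (95377891328 / 2313441) * yl) * A ^ 4 * B ^ 0 := by
    simp only [hxl, hxu, hyl, hyu, hA, hB]
    unfold UX4_5_2
    ring
  rw [key]
  positivity

noncomputable def UX4_5_3 (L h J : ℝ) : ℝ :=
  ((-934912 / 125) + (14958592 / 125) * L + (-114688) * h) * J ^ 0
    + (0 + (-229376) * L + 229376 * h) * J ^ 1
    + ((630784 / 25) + (1869824 / 25) * L + (-1497088 / 25) * h) * J ^ 2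
    + ((-10284032 / 625) + (745472 / 25) * L + (-745472 / 25) * h) * J ^ 3
    + ((-2050048 / 625) + 0 * L + 0 * h) * J ^ 4

lemma UX4_5_3_nonneg {L h J : ℝ} (hL0 : (6931471 / 10000000) ≤ L) (hL1 : L ≤ (433217 / 625000)) (hh0 : (67 / 400) ≤ h) (hh1 : h ≤ (117 / 500)) (hJ0 : 0 ≤ J) (hJ1 : J ≤ (39 / 50)) :
    0 ≤ UX4_5_3 L h J := by
  obtain ⟨xl, hxl⟩ : ∃ x : ℝ, x = L - (6931471 / 10000000) := ⟨_, rfl⟩
  obtain ⟨xu, hxu⟩ : ∃ x : ℝ, x = (433217 / 625000) - L := ⟨_, rfl⟩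
  obtain ⟨yl, hyl⟩ : ∃ x : ℝ, x = h - (67 / 400) := ⟨_, rfl⟩
  obtain ⟨yu, hyu⟩ : ∃ x : ℝ, x = (117 / 500) - h := ⟨_, rfl⟩
  obtain ⟨A, hA⟩ : ∃ x : ℝ, x = J - 0 := ⟨_, rfl⟩
  obtain ⟨B, hB⟩ : ∃ x : ℝ, x = (39 / 50) - J := ⟨_, rfl⟩
  have hxl0 : 0 ≤ xl := by rw [hxl]; linarith
  have hxu0 : 0 ≤ xu := by rw [hxu]; linarith
  have hyl0 : 0 ≤ yl := by rw [hyl]; linarith
  have hyu0 : 0 ≤ yu := by rw [hyu]; linarith
  have hA0 : 0 ≤ A := by rw [hA]; linarith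
  have hB0 : 0 ≤ B := by rw [hB]; linarith
  have key : UX4_5_3 L h J =
      ((844301203456 / 6426225) + (747929600000 / 2313441) * xl + (716800000000 / 2313441) * yu) * A ^ 0 * B ^ 4
      + ((5853098104832 / 19278675) + (1873510400000 / 2313441) * xl + (1748992000000 / 2313441) * yu) * A ^ 1 * B ^ 3
      + ((181671771448768 / 803278125) + (472451276800 / 771147) * xl + (391294361600 / 771147) * yu) * A ^ 2 * B ^ 2
      + ((425093486507776 / 6693984375) + (294336167936 / 2313441) * xl + (56431476736 / 2313441) * yu) * A ^ 3 * B ^ 1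
      + ((692415500921152 / 180737578125) + (2563137536 / 2313441) * xl + (85259608064 / 2313441) * yl) * A ^ 4 * B ^ 0 := by
    simp only [hxl, hxu, hyl, hyu, hA, hB]
    unfold UX4_5_3
    ring
  rw [key]
  positivity

noncomputable def UX4_5_4 (L h J : ℝ) : ℝ :=
  ((-350592 / 125) + (701184 / 25) * L + (-24576) * h) * J ^ 0
    + (0 + (-49152) * L + 49152 * h) * J ^ 1
    + ((135168 / 25) + (1869824 / 125) * L + (-1470464 / 125) * h) * J ^ 2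
    + ((-10284032 / 3125) + (159744 / 25) * L + (-159744 / 25) * h) * J ^ 3
    + ((-439296 / 625) + 0 * L + 0 * h) * J ^ 4

lemma UX4_5_4_nonneg {L h J : ℝ} (hL0 : (6931471 / 10000000) ≤ L) (hL1 : L ≤ (433217 / 625000)) (hh0 : (67 / 400) ≤ h) (hh1 : h ≤ (117 / 500)) (hJ0 : 0 ≤ J) (hJ1 : J ≤ (39 / 50)) :
    0 ≤ UX4_5_4 L h J := by
  obtain ⟨xl, hxl⟩ : ∃ x : ℝ, x = L - (6931471 / 10000000) := ⟨_, rfl⟩
  obtain ⟨xu, hxu⟩ : ∃ x : ℝ, x = (433217 / 625000) - L := ⟨_, rfl⟩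
  obtain ⟨yl, hyl⟩ : ∃ x : ℝ, x = h - (67 / 400) := ⟨_, rfl⟩
  obtain ⟨yu, hyu⟩ : ∃ x : ℝ, x = (117 / 500) - h := ⟨_, rfl⟩
  obtain ⟨A, hA⟩ : ∃ x : ℝ, x = J - 0 := ⟨_, rfl⟩
  obtain ⟨B, hB⟩ : ∃ x : ℝ, x = (39 / 50) - J := ⟨_, rfl⟩
  have hxl0 : 0 ≤ xl := by rw [hxl]; linarith
  have hxu0 : 0 ≤ xu := by rw [hxu]; linarith
  have hyl0 : 0 ≤ yl := by rw [hyl]; linarith
  have hyu0 : 0 ≤ yu := by rw [hyu]; linarith
  have hA0 : 0 ≤ A := by rw [hA]; linarith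
  have hB0 : 0 ≤ B := by rw [hB]; linarith
  have key : UX4_5_4 L h J =
      ((2907432224 / 98865) + (58432000000 / 771147) * xl + (51200000000 / 771147) * yu) * A ^ 0 * B ^ 4
      + ((6928062592 / 98865) + (153856000000 / 771147) * xl + (124928000000 / 771147) * yu) * A ^ 1 * B ^ 3
      + ((17049229035136 / 308953125) + (14437335040 / 85683) * xl + (27498168320 / 257049) * yu) * A ^ 2 * B ^ 2
      + ((8915581020224 / 514921875) + (38349266944 / 771147) * xl + (1322246144 / 771147) * yu) * A ^ 3 * B ^ 1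
      + ((87574473070688 / 60245859375) + (3837251584 / 771147) * xl + (7444258816 / 771147) * yl) * A ^ 4 * B ^ 0 := by
    simp only [hxl, hxu, hyl, hyu, hA, hB]
    unfold UX4_5_4
    ring
  rw [key]
  positivity

lemma UX4_5_nonneg {L h d J : ℝ} (hL0 : (6931471 / 10000000) ≤ L) (hL1 : L ≤ (433217 / 625000)) (hh0 : (67 / 400) ≤ h) (hh1 : h ≤ (117 / 500)) (hd0 : 0 ≤ d) (hd1 : d ≤ (1 / 2)) (hJ0 : 0 ≤ J) (hJ1 : J ≤ (39 / 50)) :
    0 ≤ UX4_5 L h d J := by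
  have c0 := UX4_5_0_nonneg hL0 hL1 hh0 hh1 hJ0 hJ1
  have c1 := UX4_5_1_nonneg hL0 hL1 hh0 hh1 hJ0 hJ1
  have c2 := UX4_5_2_nonneg hL0 hL1 hh0 hh1 hJ0 hJ1
  have c3 := UX4_5_3_nonneg hL0 hL1 hh0 hh1 hJ0 hJ1
  have c4 := UX4_5_4_nonneg hL0 hL1 hh0 hh1 hJ0 hJ1
  have key : UX4_5 L h d J =
      (d - 0) ^ 0 * ((1 / 2) - d) ^ 4 * UX4_5_0 L h J
      + (d - 0) ^ 1 * ((1 / 2) - d) ^ 3 * UX4_5_1 L h J
      + (d - 0) ^ 2 * ((1 / 2) - d) ^ 2 * UX4_5_2 L h J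
      + (d - 0) ^ 3 * ((1 / 2) - d) ^ 1 * UX4_5_3 L h J
      + (d - 0) ^ 4 * ((1 / 2) - d) ^ 0 * UX4_5_4 L h J := by
    unfold UX4_5 UX4_5_0 UX4_5_1 UX4_5_2 UX4_5_3 UX4_5_4
    ring
  have hA : 0 ≤ d - 0 := by linarith
  have hB : 0 ≤ (1 / 2) - d := by linarith
  rw [key]
  positivity

lemma UX4_nonneg {L h a d J : ℝ} (hL0 : (6931471 / 10000000) ≤ L) (hL1 : L ≤ (433217 / 625000)) (hh0 : (67 / 400) ≤ h) (hh1 : h ≤ (117 / 500)) (ha0 : (3 / 4) ≤ a) (ha1 : a ≤ 1) (hd0 : 0 ≤ d) (hd1 : d ≤ (1 / 2)) (hJ0 : 0 ≤ J) (hJ1 : J ≤ (39 / 50)) :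
    0 ≤ UX4 L h a d J := by
  have c0 := UX4_0_nonneg hL0 hL1 hh0 hh1 hd0 hd1 hJ0 hJ1
  have c1 := UX4_1_nonneg hL0 hL1 hh0 hh1 hd0 hd1 hJ0 hJ1
  have c2 := UX4_2_nonneg hL0 hL1 hh0 hh1 hd0 hd1 hJ0 hJ1
  have c3 := UX4_3_nonneg hL0 hL1 hh0 hh1 hd0 hd1 hJ0 hJ1
  have c4 := UX4_4_nonneg hL0 hL1 hh0 hh1 hd0 hd1 hJ0 hJ1
  have c5 := UX4_5_nonneg hL0 hL1 hh0 hh1 hd0 hd1 hJ0 hJ1
  have key : UX4 L h a d J =
      (a - (3 / 4)) ^ 0 * (1 - a) ^ 5 * UX4_0 L h d J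
      + (a - (3 / 4)) ^ 1 * (1 - a) ^ 4 * UX4_1 L h d J
      + (a - (3 / 4)) ^ 2 * (1 - a) ^ 3 * UX4_2 L h d J
      + (a - (3 / 4)) ^ 3 * (1 - a) ^ 2 * UX4_3 L h d J
      + (a - (3 / 4)) ^ 4 * (1 - a) ^ 1 * UX4_4 L h d J
      + (a - (3 / 4)) ^ 5 * (1 - a) ^ 0 * UX4_5 L h d J := by
    unfold UX4 UX4_0 UX4_1 UX4_2 UX4_3 UX4_4 UX4_5
    ring
  have hA : 0 ≤ a - (3 / 4) := by linarith
  have hB : 0 ≤ 1 - a := by linarith
  rw [key]
  positivity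

end Vale.Agent.Lib.P322.Pot
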