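import Mathlib
import Vale.Agent.Lib.P322.Pot.Ult.CertX2

/-!
P322, potential method, range `7/8 ≤ ρ ≤ 23/25`.  Generated certificate: the polynomial `UX5` is nonnegative on a box (iterated expansion in the products
`(x - lo)^i (hi - x)^(n-i)`; all coefficients are affine in `(L, h)` and nonnegative).
-/

set_option linter.unusedSimpArgs false

namespace Vale.Agent.Lib.P322.Pot

noncomputable def UX5 (L h a d J : ℝ) : ℝ :=
  (0 + 2 * L + (-187 / 100) * h) * a ^ 0 * d ^ 0 * J ^ 2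
    + ((-11 / 25) + (13 / 50) * L + (-13 / 50) * h) * a ^ 0 * d ^ 0 * J ^ 3
    + ((-143 / 5000) + 0 * L + 0 * h) * a ^ 0 * d ^ 0 * J ^ 4
    + ((-363 / 1000) + 2 * L + (-71 / 500) * h) * a ^ 0 * d ^ 2 * J ^ 0
    + (0 + 2 * L + (-2) * h) * a ^ 0 * d ^ 2 * J ^ 1
    + ((-11 / 50) + 0 * L + (-13 / 100) * h) * a ^ 0 * d ^ 2 * J ^ 2
    + (0 + (-13 / 50) * L + (13 / 50) * h) * a ^ 0 * d ^ 2 * J ^ 3
    + ((143 / 5000) + 0 * L + 0 * h) * a ^ 0 * d ^ 2 * J ^ 4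
    + (0 + (-1087 / 250) * L + (1087 / 250) * h) * a ^ 1 * d ^ 0 * J ^ 1
    + ((11957 / 25000) + (-87 / 500) * L + (38 / 125) * h) * a ^ 1 * d ^ 0 * J ^ 2
    + ((957 / 25000) + (13 / 50) * L + (-13 / 50) * h) * a ^ 1 * d ^ 0 * J ^ 3
    + ((-143 / 5000) + 0 * L + 0 * h) * a ^ 1 * d ^ 0 * J ^ 4
    + (0 + (-2) * L + 2 * h) * a ^ 1 * d ^ 1 * J ^ 2
    + ((11 / 25) + 0 * L + 0 * h) * a ^ 1 * d ^ 1 * J ^ 3
    + ((31581 / 1000000) + (-87 / 500) * L + (549677 / 500000) * h) * a ^ 1 * d ^ 2 * J ^ 0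
    + (0 + 2 * L + (-2) * h) * a ^ 1 * d ^ 2 * J ^ 1
    + ((-11 / 50) + 0 * L + (-13 / 100) * h) * a ^ 1 * d ^ 2 * J ^ 2
    + (0 + (-13 / 50) * L + (13 / 50) * h) * a ^ 1 * d ^ 2 * J ^ 3
    + ((143 / 5000) + 0 * L + 0 * h) * a ^ 1 * d ^ 2 * J ^ 4
    + ((33 / 100) + 2 * L + (-2961569 / 1000000) * h) * a ^ 2 * d ^ 0 * J ^ 0
    + (0 + (181569 / 500000) * L + (-181569 / 500000) * h) * a ^ 2 * d ^ 0 * J ^ 1
    + ((-1997259 / 50000000) + 0 * L + 0 * h) * a ^ 2 * d ^ 0 * J ^ 2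
    + (0 + (87 / 500) * L + (-87 / 500) * h) * a ^ 2 * d ^ 1 * J ^ 2
    + ((-957 / 25000) + 0 * L + 0 * h) * a ^ 2 * d ^ 1 * J ^ 3
    + ((-637 / 1000) + (-4) * L + (1571 / 500) * h) * a ^ 2 * d ^ 2 * J ^ 0
    + ((-2871 / 100000) + (-87 / 500) * L + (249429 / 1000000) * h) * a ^ 3 * d ^ 0 * J ^ 0
    + (0 + (-7569 / 500000) * L + (7569 / 500000) * h) * a ^ 3 * d ^ 0 * J ^ 1
    + ((83259 / 50000000) + 0 * L + 0 * h) * a ^ 3 * d ^ 0 * J ^ 2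
    + ((55419 / 1000000) + (87 / 250) * L + (-136677 / 500000) * h) * a ^ 3 * d ^ 2 * J ^ 0
    + ((-33 / 100) + 0 * L + (39 / 50) * h) * a ^ 4 * d ^ 0 * J ^ 0
    + (0 + 2 * L + (-2) * h) * a ^ 4 * d ^ 2 * J ^ 0
    + (1 + (-2) * L + 0 * h) * a ^ 4 * d ^ 4 * J ^ 0
    + ((2871 / 100000) + 0 * L + (-3393 / 50000) * h) * a ^ 5 * d ^ 0 * J ^ 0
    + (0 + (-87 / 500) * L + (87 / 500) * h) * a ^ 5 * d ^ 2 * J ^ 0
    + ((-87 / 1000) + (87 / 500) * L + 0 * h) * a ^ 5 * d ^ 4 * J ^ 0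

noncomputable def UX5_0 (L h d J : ℝ) : ℝ :=
  ((189387 / 100000) + (1913 / 125) * L + (-2650337 / 125000) * h) * d ^ 0 * J ^ 0
    + (0 + (-8340431 / 125000) * L + (8340431 / 125000) * h) * d ^ 0 * J ^ 1
    + ((91744741 / 12500000) + (7652 / 125) * L + (-6872 / 125) * h) * d ^ 0 * J ^ 2
    + ((-42086 / 3125) + (312 / 25) * L + (-312 / 25) * h) * d ^ 0 * J ^ 3
    + ((-858 / 625) + 0 * L + 0 * h) * d ^ 0 * J ^ 4
    + (0 + (-3826 / 125) * L + (3826 / 125) * h) * d ^ 1 * J ^ 2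
    + ((21043 / 3125) + 0 * L + 0 * h) * d ^ 1 * J ^ 3
    + ((-3996257 / 250000) + (17217 / 500) * L + (4157781 / 125000) * h) * d ^ 2 * J ^ 0
    + (0 + 96 * L + (-96) * h) * d ^ 2 * J ^ 1
    + ((-264 / 25) + 0 * L + (-156 / 25) * h) * d ^ 2 * J ^ 2
    + (0 + (-312 / 25) * L + (312 / 25) * h) * d ^ 2 * J ^ 3
    + ((858 / 625) + 0 * L + 0 * h) * d ^ 2 * J ^ 4
    + ((1913 / 1000) + (-1913 / 500) * L + 0 * h) * d ^ 4 * J ^ 0

noncomputable def UX5_0_0 (L h J : ℝ) : ℝ :=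
  ((-3965649 / 125000) + (189387 / 500) * L + (-6443567 / 31250) * h) * J ^ 0
    + (0 + (-10680862 / 15625) * L + (10680862 / 15625) * h) * J ^ 1
    + ((58744741 / 781250) + (91824 / 125) * L + (-82464 / 125) * h) * J ^ 2
    + ((-505032 / 3125) + (3744 / 25) * L + (-3744 / 25) * h) * J ^ 3
    + ((-10296 / 625) + 0 * L + 0 * h) * J ^ 4

lemma UX5_0_0_nonneg {L h J : ℝ} (hL0 : (6931471 / 10000000) ≤ L) (hL1 : L ≤ (433217 / 625000)) (hh0 : (67 / 400) ≤ h) (hh1 : h ≤ (117 / 500)) (hJ0 : 0 ≤ J) (hJ1 : J ≤ (39 / 50)) :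
    0 ≤ UX5_0_0 L h J := by
  obtain ⟨xl, hxl⟩ : ∃ x : ℝ, x = L - (6931471 / 10000000) := ⟨_, rfl⟩
  obtain ⟨xu, hxu⟩ : ∃ x : ℝ, x = (433217 / 625000) - L := ⟨_, rfl⟩
  obtain ⟨yl, hyl⟩ : ∃ x : ℝ, x = h - (67 / 400) := ⟨_, rfl⟩
  obtain ⟨yu, hyu⟩ : ∃ x : ℝ, x = (117 / 500) - h := ⟨_, rfl⟩
  obtain ⟨A, hA⟩ : ∃ x : ℝ, x = J - 0 := ⟨_, rfl⟩
  obtain ⟨B, hB⟩ : ∃ x : ℝ, x = (39 / 50) - J := ⟨_, rfl⟩
  have hxl0 : 0 ≤ xl := by rw [hxl]; linarith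
  have hxu0 : 0 ≤ xu := by rw [hxu]; linarith
  have hyl0 : 0 ≤ yl := by rw [hyl]; linarith
  have hyu0 : 0 ≤ yu := by rw [hyu]; linarith
  have hA0 : 0 ≤ A := by rw [hA]; linarith
  have hB0 : 0 ≤ B := by rw [hB]; linarith
  have key : UX5_0_0 L h J =
      ((304285796599 / 616917600) + (263037500 / 257049) * xl + (99131800 / 177957) * yu) * A ^ 0 * B ^ 4
      + ((105354578589977 / 80327812500) + (2045640352 / 771147) * xl + (140186512 / 177957) * yu) * A ^ 1 * B ^ 3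
      + ((540456093610289 / 321311250000) + (777780472 / 257049) * xl + (6244832 / 59319) * yu) * A ^ 2 * B ^ 2
      + ((123701478454 / 96393375) + (67936000 / 28561) * xl + (47604400 / 177957) * yu) * A ^ 3 * B ^ 1
      + ((259050287052613 / 642622500000) + (757458436 / 771147) * xl + (69924616 / 177957) * yu) * A ^ 4 * B ^ 0 := by
    simp only [hxl, hxu, hyl, hyu, hA, hB]
    unfold UX5_0_0
    ring
  rw [key]
  positivity

noncomputable def UX5_0_1 (L h J : ℝ) : ℝ :=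
  ((-7722781 / 31250) + (221908 / 125) * L + (-8729353 / 15625) * h) * J ^ 0
    + (0 + (-30723448 / 15625) * L + (30723448 / 15625) * h) * J ^ 1
    + ((84489482 / 390625) + (336688 / 125) * L + (-305488 / 125) * h) * J ^ 2
    + ((-1851784 / 3125) + (2496 / 5) * L + (-2496 / 5) * h) * J ^ 3
    + ((-6864 / 125) + 0 * L + 0 * h) * J ^ 4

lemma UX5_0_1_nonneg {L h J : ℝ} (hL0 : (6931471 / 10000000) ≤ L) (hL1 : L ≤ (433217 / 625000)) (hh0 : (67 / 400) ≤ h) (hh1 : h ≤ (117 / 500)) (hJ0 : 0 ≤ J) (hJ1 : J ≤ (39 / 50)) :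
    0 ≤ UX5_0_1 L h J := by
  obtain ⟨xl, hxl⟩ : ∃ x : ℝ, x = L - (6931471 / 10000000) := ⟨_, rfl⟩
  obtain ⟨xu, hxu⟩ : ∃ x : ℝ, x = (433217 / 625000) - L := ⟨_, rfl⟩
  obtain ⟨yl, hyl⟩ : ∃ x : ℝ, x = h - (67 / 400) := ⟨_, rfl⟩
  obtain ⟨yu, hyu⟩ : ∃ x : ℝ, x = (117 / 500) - h := ⟨_, rfl⟩
  obtain ⟨A, hA⟩ : ∃ x : ℝ, x = J - 0 := ⟨_, rfl⟩
  obtain ⟨B, hB⟩ : ∃ x : ℝ, x = (39 / 50) - J := ⟨_, rfl⟩
  have hxl0 : 0 ≤ xl := by rw [hxl]; linarith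
  have hxu0 : 0 ≤ xu := by rw [hxu]; linarith
  have hyl0 : 0 ≤ yl := by rw [hyl]; linarith
  have hyu0 : 0 ≤ yu := by rw [hyu]; linarith
  have hA0 : 0 ≤ A := by rw [hA]; linarith
  have hB0 : 0 ≤ B := by rw [hB]; linarith
  have key : UX5_0_1 L h J =
      ((88818678209 / 38557350) + (11095400000 / 2313441) * xl + (3491741200 / 2313441) * yu) * A ^ 0 * B ^ 4
      + ((881001519280487 / 120491718750) + (34795884224 / 2313441) * xl + (4381249024 / 2313441) * yu) * A ^ 1 * B ^ 3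
      + ((212830860963011 / 20081953125) + (16019100544 / 771147) * xl + (495414944 / 771147) * yu) * A ^ 2 * B ^ 2
      + ((965067929619541 / 120491718750) + (37589152832 / 2313441) * xl + (5276309632 / 2313441) * yu) * A ^ 3 * B ^ 1
      + ((284909472458837 / 120491718750) + (13232335424 / 2313441) * xl + (4679572624 / 2313441) * yu) * A ^ 4 * B ^ 0 := by
    simp only [hxl, hxu, hyl, hyu, hA, hB]
    unfold UX5_0_1
    ring
  rw [key]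
  positivity

noncomputable def UX5_0_2 (L h J : ℝ) : ℝ :=
  ((-37718621 / 62500) + (395991 / 125) * L + (-1911387 / 6250) * h) * J ^ 0
    + (0 + (-22085172 / 15625) * L + (22085172 / 15625) * h) * J ^ 1
    + ((60734223 / 390625) + (91824 / 25) * L + (-16992 / 5) * h) * J ^ 2
    + ((-505032 / 625) + (13728 / 25) * L + (-13728 / 25) * h) * J ^ 3
    + ((-37752 / 625) + 0 * L + 0 * h) * J ^ 4

lemma UX5_0_2_nonneg {L h J : ℝ} (hL0 : (6931471 / 10000000) ≤ L) (hL1 : L ≤ (433217 / 625000)) (hh0 : (67 / 400) ≤ h) (hh1 : h ≤ (117 / 500)) (hJ0 : 0 ≤ J) (hJ1 : J ≤ (39 / 50)) :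
    0 ≤ UX5_0_2 L h J := by
  obtain ⟨xl, hxl⟩ : ∃ x : ℝ, x = L - (6931471 / 10000000) := ⟨_, rfl⟩
  obtain ⟨xu, hxu⟩ : ∃ x : ℝ, x = (433217 / 625000) - L := ⟨_, rfl⟩
  obtain ⟨yl, hyl⟩ : ∃ x : ℝ, x = h - (67 / 400) := ⟨_, rfl⟩
  obtain ⟨yu, hyu⟩ : ∃ x : ℝ, x = (117 / 500) - h := ⟨_, rfl⟩
  obtain ⟨A, hA⟩ : ∃ x : ℝ, x = J - 0 := ⟨_, rfl⟩
  obtain ⟨B, hB⟩ : ∃ x : ℝ, x = (39 / 50) - J := ⟨_, rfl⟩
  have hxl0 : 0 ≤ xl := by rw [hxl]; linarith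
  have hxu0 : 0 ≤ xu := by rw [hxu]; linarith
  have hyl0 : 0 ≤ yl := by rw [hyl]; linarith
  have hyu0 : 0 ≤ yu := by rw [hyu]; linarith
  have hA0 : 0 ≤ A := by rw [hA]; linarith
  have hB0 : 0 ≤ B := by rw [hB]; linarith
  have key : UX5_0_2 L h J =
      ((1900974801161 / 462688200) + (2199950000 / 257049) * xl + (637129000 / 771147) * yu) * A ^ 0 * B ^ 4
      + ((10892409096268133 / 722950312500) + (8034180704 / 257049) * xl + (251658112 / 771147) * yu) * A ^ 1 * B ^ 3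
      + ((2853439577855579 / 120491718750) + (1383851968 / 28561) * xl + (413224112 / 257049) * yu) * A ^ 2 * B ^ 2
      + ((12929876462276441 / 722950312500) + (9787555808 / 257049) * xl + (4815773824 / 771147) * yu) * A ^ 3 * B ^ 1
      + ((295016516182483 / 57836025000) + (3167118800 / 257049) * xl + (3190630600 / 771147) * yu) * A ^ 4 * B ^ 0 := by
    simp only [hxl, hxu, hyl, hyu, hA, hB]
    unfold UX5_0_2
    ring
  rw [key]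
  positivity

noncomputable def UX5_0_3 (L h J : ℝ) : ℝ :=
  ((-9138401 / 15625) + (313732 / 125) * L + (748798 / 3125) * h) * J ^ 0
    + (0 + (5276552 / 15625) * L + (-5276552 / 15625) * h) * J ^ 1
    + ((-14510518 / 390625) + (275472 / 125) * L + (-262992 / 125) * h) * J ^ 2
    + ((-1515096 / 3125) + (4992 / 25) * L + (-4992 / 25) * h) * J ^ 3
    + ((-13728 / 625) + 0 * L + 0 * h) * J ^ 4

lemma UX5_0_3_nonneg {L h J : ℝ} (hL0 : (6931471 / 10000000) ≤ L) (hL1 : L ≤ (433217 / 625000)) (hh0 : (67 / 400) ≤ h) (hh1 : h ≤ (117 / 500)) (hJ0 : 0 ≤ J) (hJ1 : J ≤ (39 / 50)) :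
    0 ≤ UX5_0_3 L h J := by
  obtain ⟨xl, hxl⟩ : ∃ x : ℝ, x = L - (6931471 / 10000000) := ⟨_, rfl⟩
  obtain ⟨xu, hxu⟩ : ∃ x : ℝ, x = (433217 / 625000) - L := ⟨_, rfl⟩
  obtain ⟨yl, hyl⟩ : ∃ x : ℝ, x = h - (67 / 400) := ⟨_, rfl⟩
  obtain ⟨yu, hyu⟩ : ∃ x : ℝ, x = (117 / 500) - h := ⟨_, rfl⟩
  obtain ⟨A, hA⟩ : ∃ x : ℝ, x = J - 0 := ⟨_, rfl⟩
  obtain ⟨B, hB⟩ : ∃ x : ℝ, x = (39 / 50) - J := ⟨_, rfl⟩
  have hxl0 : 0 ≤ xl := by rw [hxl]; linarith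
  have hxu0 : 0 ≤ xu := by rw [hxu]; linarith
  have hyl0 : 0 ≤ yl := by rw [hyl]; linarith
  have hyu0 : 0 ≤ yu := by rw [hyu]; linarith
  have hA0 : 0 ≤ A := by rw [hA]; linarith
  have hB0 : 0 ≤ B := by rw [hB]; linarith
  have key : UX5_0_3 L h J =
      ((373430411443 / 115672050) + (15686600000 / 2313441) * xl + (1497596000 / 2313441) * yl) * A ^ 0 * B ^ 4
      + ((4803093350556461 / 361475156250) + (64392684224 / 2313441) * xl + (4344099776 / 2313441) * yl) * A ^ 1 * B ^ 3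
      + ((446805751876076 / 20081953125) + (35812770304 / 771147) * xl + (1317831104 / 771147) * yu) * A ^ 2 * B ^ 2
      + ((2029413565812899 / 120491718750) + (85037210048 / 2313441) * xl + (15541142848 / 2313441) * yu) * A ^ 3 * B ^ 1
      + ((37855504494487 / 8032781250) + (26304983360 / 2313441) * xl + (8741145760 / 2313441) * yu) * A ^ 4 * B ^ 0 := by
    simp only [hxl, hxu, hyl, hyu, hA, hB]
    unfold UX5_0_3
    ring
  rw [key]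
  positivity

noncomputable def UX5_0_4 (L h J : ℝ) : ℝ :=
  ((-6089079 / 31250) + (91824 / 125) * L + (3014888 / 15625) * h) * J ^ 0
    + (0 + (7319138 / 15625) * L + (-7319138 / 15625) * h) * J ^ 1
    + ((-40255259 / 781250) + (61216 / 125) * L + (-61216 / 125) * h) * J ^ 2
    + ((-336688 / 3125) + 0 * L + 0 * h) * J ^ 3

lemma UX5_0_4_nonneg {L h J : ℝ} (hL0 : (6931471 / 10000000) ≤ L) (hL1 : L ≤ (433217 / 625000)) (hh0 : (67 / 400) ≤ h) (hh1 : h ≤ (117 / 500)) (hJ0 : 0 ≤ J) (hJ1 : J ≤ (39 / 50)) :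
    0 ≤ UX5_0_4 L h J := by
  obtain ⟨xl, hxl⟩ : ∃ x : ℝ, x = L - (6931471 / 10000000) := ⟨_, rfl⟩
  obtain ⟨xu, hxu⟩ : ∃ x : ℝ, x = (433217 / 625000) - L := ⟨_, rfl⟩
  obtain ⟨yl, hyl⟩ : ∃ x : ℝ, x = h - (67 / 400) := ⟨_, rfl⟩
  obtain ⟨yu, hyu⟩ : ∃ x : ℝ, x = (117 / 500) - h := ⟨_, rfl⟩
  obtain ⟨A, hA⟩ : ∃ x : ℝ, x = J - 0 := ⟨_, rfl⟩
  obtain ⟨B, hB⟩ : ∃ x : ℝ, x = (39 / 50) - J := ⟨_, rfl⟩
  have hxl0 : 0 ≤ xl := by rw [hxl]; linarith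
  have hxu0 : 0 ≤ xu := by rw [hxu]; linarith
  have hyl0 : 0 ≤ yl := by rw [hyl]; linarith
  have hyu0 : 0 ≤ yu := by rw [hyu]; linarith
  have hA0 : 0 ≤ A := by rw [hA]; linarith
  have hB0 : 0 ≤ B := by rw [hB]; linarith
  have key : UX5_0_4 L h J =
      ((27081983269 / 37074375) + (30608000 / 19773) * xl + (24119104 / 59319) * yl) * A ^ 0 * B ^ 3
      + ((1604172601622987 / 617906250000) + (2676195176 / 494325) * xl + (222382424 / 494325) * yl) * A ^ 1 * B ^ 2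
      + ((989202414073207 / 308953125000) + (3367155472 / 494325) * xl + (52064208 / 54925) * yu) * A ^ 2 * B ^ 1
      + ((252415753812809 / 205968750000) + (1456160296 / 494325) * xl + (1469903288 / 1482975) * yu) * A ^ 3 * B ^ 0 := by
    simp only [hxl, hxu, hyl, hyu, hA, hB]
    unfold UX5_0_4
    ring
  rw [key]
  positivity

lemma UX5_0_nonneg {L h d J : ℝ} (hL0 : (6931471 / 10000000) ≤ L) (hL1 : L ≤ (433217 / 625000)) (hh0 : (67 / 400) ≤ h) (hh1 : h ≤ (117 / 500)) (hd0 : (1 / 2) ≤ d) (hd1 : d ≤ 1) (hJ0 : 0 ≤ J) (hJ1 : J ≤ (39 / 50)) :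
    0 ≤ UX5_0 L h d J := by
  have c0 := UX5_0_0_nonneg hL0 hL1 hh0 hh1 hJ0 hJ1
  have c1 := UX5_0_1_nonneg hL0 hL1 hh0 hh1 hJ0 hJ1
  have c2 := UX5_0_2_nonneg hL0 hL1 hh0 hh1 hJ0 hJ1
  have c3 := UX5_0_3_nonneg hL0 hL1 hh0 hh1 hJ0 hJ1
  have c4 := UX5_0_4_nonneg hL0 hL1 hh0 hh1 hJ0 hJ1
  have key : UX5_0 L h d J =
      (d - (1 / 2)) ^ 0 * (1 - d) ^ 4 * UX5_0_0 L h J
      + (d - (1 / 2)) ^ 1 * (1 - d) ^ 3 * UX5_0_1 L h J
      + (d - (1 / 2)) ^ 2 * (1 - d) ^ 2 * UX5_0_2 L h J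
      + (d - (1 / 2)) ^ 3 * (1 - d) ^ 1 * UX5_0_3 L h J
      + (d - (1 / 2)) ^ 4 * (1 - d) ^ 0 * UX5_0_4 L h J := by
    unfold UX5_0 UX5_0_0 UX5_0_1 UX5_0_2 UX5_0_3 UX5_0_4
    ring
  have hA : 0 ≤ d - (1 / 2) := by linarith
  have hB : 0 ≤ 1 - d := by linarith
  rw [key]
  positivity

noncomputable def UX5_1 (L h d J : ℝ) : ℝ :=
  ((595419 / 50000) + (13304 / 125) * L + (-4515773 / 31250) * h) * d ^ 0 * J ^ 0
    + (0 + (-24847293 / 62500) * L + (24847293 / 62500) * h) * d ^ 0 * J ^ 1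
    + ((273320223 / 6250000) + (37912 / 125) * L + (-33752 / 125) * h) * d ^ 0 * J ^ 2
    + ((-208516 / 3125) + (1664 / 25) * L + (-1664 / 25) * h) * d ^ 0 * J ^ 3
    + ((-4576 / 625) + 0 * L + 0 * h) * d ^ 0 * J ^ 4
    + (0 + (-22782 / 125) * L + (22782 / 125) * h) * d ^ 1 * J ^ 2
    + ((125301 / 3125) + 0 * L + 0 * h) * d ^ 1 * J ^ 3
    + ((-1389794 / 15625) + (31173 / 250) * L + (6742583 / 31250) * h) * d ^ 2 * J ^ 0
    + (0 + 512 * L + (-512) * h) * d ^ 2 * J ^ 1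
    + ((-1408 / 25) + 0 * L + (-832 / 25) * h) * d ^ 2 * J ^ 2
    + (0 + (-1664 / 25) * L + (1664 / 25) * h) * d ^ 2 * J ^ 3
    + ((4576 / 625) + 0 * L + 0 * h) * d ^ 2 * J ^ 4
    + ((1713 / 100) + (-1713 / 50) * L + 0 * h) * d ^ 4 * J ^ 0

noncomputable def UX5_1_0 (L h J : ℝ) : ℝ :=
  ((-9257699 / 62500) + (108371 / 50) * L + (-22641018 / 15625) * h) * J ^ 0
    + (0 + (-67389172 / 15625) * L + (67389172 / 15625) * h) * J ^ 1
    + ((185320223 / 390625) + (424336 / 125) * L + (-374416 / 125) * h) * J ^ 2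
    + ((-2333848 / 3125) + (19968 / 25) * L + (-19968 / 25) * h) * J ^ 3
    + ((-54912 / 625) + 0 * L + 0 * h) * J ^ 4

lemma UX5_1_0_nonneg {L h J : ℝ} (hL0 : (6931471 / 10000000) ≤ L) (hL1 : L ≤ (433217 / 625000)) (hh0 : (67 / 400) ≤ h) (hh1 : h ≤ (117 / 500)) (hJ0 : 0 ≤ J) (hJ1 : J ≤ (39 / 50)) :
    0 ≤ UX5_1_0 L h J := by
  obtain ⟨xl, hxl⟩ : ∃ x : ℝ, x = L - (6931471 / 10000000) := ⟨_, rfl⟩
  obtain ⟨xu, hxu⟩ : ∃ x : ℝ, x = (433217 / 625000) - L := ⟨_, rfl⟩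
  obtain ⟨yl, hyl⟩ : ∃ x : ℝ, x = h - (67 / 400) := ⟨_, rfl⟩
  obtain ⟨yu, hyu⟩ : ∃ x : ℝ, x = (117 / 500) - h := ⟨_, rfl⟩
  obtain ⟨A, hA⟩ : ∃ x : ℝ, x = J - 0 := ⟨_, rfl⟩
  obtain ⟨B, hB⟩ : ∃ x : ℝ, x = (39 / 50) - J := ⟨_, rfl⟩
  have hxl0 : 0 ≤ xl := by rw [hxl]; linarith
  have hxu0 : 0 ≤ xu := by rw [hxu]; linarith
  have hyl0 : 0 ≤ yl := by rw [hyl]; linarith
  have hyu0 : 0 ≤ yu := by rw [hyu]; linarith
  have hA0 : 0 ≤ A := by rw [hA]; linarith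
  have hB0 : 0 ≤ B := by rw [hB]; linarith
  have key : UX5_1_0 L h J =
      ((507572908957 / 185075280) + (13546375000 / 2313441) * xl + (3018802400 / 771147) * yu) * A ^ 0 * B ^ 4
      + ((1228506567542752 / 180737578125) + (33160078336 / 2313441) * xl + (1688911904 / 257049) * yu) * A ^ 1 * B ^ 3
      + ((3581837242377631 / 481966875000) + (10370095376 / 771147) * xl + (294656992 / 257049) * yu) * A ^ 2 * B ^ 2
      + ((1773292587151373 / 361475156250) + (19294800832 / 2313441) * xl + (567401056 / 771147) * yl) * A ^ 3 * B ^ 1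
      + ((861603983026421 / 578360250000) + (7798218040 / 2313441) * xl + (198853760 / 257049) * yu) * A ^ 4 * B ^ 0 := by
    simp only [hxl, hxu, hyl, hyu, hA, hB]
    unfold UX5_1_0
    ring
  rw [key]
  positivity

noncomputable def UX5_1_1 (L h J : ℝ) : ℝ :=
  ((-19305426 / 15625) + (1191272 / 125) * L + (-12718748 / 3125) * h) * J ^ 0
    + (0 + (-205556688 / 15625) * L + (205556688 / 15625) * h) * J ^ 1
    + ((565280892 / 390625) + (1515088 / 125) * L + (-1348688 / 125) * h) * J ^ 2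
    + ((-8332984 / 3125) + (13312 / 5) * L + (-13312 / 5) * h) * J ^ 3
    + ((-36608 / 125) + 0 * L + 0 * h) * J ^ 4

lemma UX5_1_1_nonneg {L h J : ℝ} (hL0 : (6931471 / 10000000) ≤ L) (hL1 : L ≤ (433217 / 625000)) (hh0 : (67 / 400) ≤ h) (hh1 : h ≤ (117 / 500)) (hJ0 : 0 ≤ J) (hJ1 : J ≤ (39 / 50)) :
    0 ≤ UX5_1_1 L h J := by
  obtain ⟨xl, hxl⟩ : ∃ x : ℝ, x = L - (6931471 / 10000000) := ⟨_, rfl⟩
  obtain ⟨xu, hxu⟩ : ∃ x : ℝ, x = (433217 / 625000) - L := ⟨_, rfl⟩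
  obtain ⟨yl, hyl⟩ : ∃ x : ℝ, x = h - (67 / 400) := ⟨_, rfl⟩
  obtain ⟨yu, hyu⟩ : ∃ x : ℝ, x = (117 / 500) - h := ⟨_, rfl⟩
  obtain ⟨A, hA⟩ : ∃ x : ℝ, x = J - 0 := ⟨_, rfl⟩
  obtain ⟨B, hB⟩ : ∃ x : ℝ, x = (39 / 50) - J := ⟨_, rfl⟩
  have hxl0 : 0 ≤ xl := by rw [hxl]; linarith
  have hxu0 : 0 ≤ xu := by rw [hxu]; linarith
  have hyl0 : 0 ≤ yl := by rw [hyl]; linarith
  have hyu0 : 0 ≤ yu := by rw [hyu]; linarith
  have hA0 : 0 ≤ A := by rw [hA]; linarith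
  have hB0 : 0 ≤ B := by rw [hB]; linarith
  have key : UX5_1_1 L h J =
      ((690294803539 / 57836025) + (59563600000 / 2313441) * xl + (25437496000 / 2313441) * yu) * A ^ 0 * B ^ 4
      + ((6328154087955383 / 180737578125) + (174120713344 / 2313441) * xl + (37616297344 / 2313441) * yu) * A ^ 1 * B ^ 3
      + ((5478080018143871 / 120491718750) + (70356505664 / 771147) * xl + (417001664 / 771147) * yu) * A ^ 2 * B ^ 2
      + ((1913399954307308 / 60245859375) + (145927839232 / 2313441) * xl + (700352768 / 2313441) * yl) * A ^ 3 * B ^ 1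
      + ((3289539368024251 / 361475156250) + (49415435584 / 2313441) * xl + (10227443584 / 2313441) * yu) * A ^ 4 * B ^ 0 := by
    simp only [hxl, hxu, hyl, hyu, hA, hB]
    unfold UX5_1_1
    ring
  rw [key]
  positivity

noncomputable def UX5_1_2 (L h J : ℝ) : ℝ :=
  ((-47982968 / 15625) + (1984902 / 125) * L + (-41449946 / 15625) * h) * J ^ 0
    + (0 + (-180335032 / 15625) * L + (180335032 / 15625) * h) * J ^ 1
    + ((495921338 / 390625) + (1999248 / 125) * L + (-1816208 / 125) * h) * J ^ 2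
    + ((-10995864 / 3125) + (73216 / 25) * L + (-73216 / 25) * h) * J ^ 3
    + ((-201344 / 625) + 0 * L + 0 * h) * J ^ 4

lemma UX5_1_2_nonneg {L h J : ℝ} (hL0 : (6931471 / 10000000) ≤ L) (hL1 : L ≤ (433217 / 625000)) (hh0 : (67 / 400) ≤ h) (hh1 : h ≤ (117 / 500)) (hJ0 : 0 ≤ J) (hJ1 : J ≤ (39 / 50)) :
    0 ≤ UX5_1_2 L h J := by
  obtain ⟨xl, hxl⟩ : ∃ x : ℝ, x = L - (6931471 / 10000000) := ⟨_, rfl⟩
  obtain ⟨xu, hxu⟩ : ∃ x : ℝ, x = (433217 / 625000) - L := ⟨_, rfl⟩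
  obtain ⟨yl, hyl⟩ : ∃ x : ℝ, x = h - (67 / 400) := ⟨_, rfl⟩
  obtain ⟨yu, hyu⟩ : ∃ x : ℝ, x = (117 / 500) - h := ⟨_, rfl⟩
  obtain ⟨A, hA⟩ : ∃ x : ℝ, x = J - 0 := ⟨_, rfl⟩
  obtain ⟨B, hB⟩ : ∃ x : ℝ, x = (39 / 50) - J := ⟨_, rfl⟩
  have hxl0 : 0 ≤ xl := by rw [hxl]; linarith
  have hxu0 : 0 ≤ xu := by rw [hxu]; linarith
  have hyl0 : 0 ≤ yl := by rw [hyl]; linarith
  have hyu0 : 0 ≤ yu := by rw [hyu]; linarith
  have hA0 : 0 ≤ A := by rw [hA]; linarith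
  have hB0 : 0 ≤ B := by rw [hB]; linarith
  have key : UX5_1_2 L h J =
      ((4571855110861 / 231344100) + (33081700000 / 771147) * xl + (16579978400 / 2313441) * yu) * A ^ 0 * B ^ 4
      + ((24537579478034899 / 361475156250) + (113571956672 / 771147) * xl + (10055383616 / 2313441) * yu) * A ^ 1 * B ^ 3
      + ((921191311931383 / 9268593750) + (18055338304 / 85683) * xl + (4688224064 / 771147) * yl) * A ^ 2 * B ^ 2
      + ((26099063706228139 / 361475156250) + (119502419392 / 771147) * xl + (16710618176 / 2313441) * yu) * A ^ 3 * B ^ 1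
      + ((14608136615095577 / 722950312500) + (37494631328 / 771147) * xl + (24250695584 / 2313441) * yu) * A ^ 4 * B ^ 0 := by
    simp only [hxl, hxu, hyl, hyu, hA, hB]
    unfold UX5_1_2
    ring
  rw [key]
  positivity

noncomputable def UX5_1_3 (L h J : ℝ) : ℝ :=
  ((-46236732 / 15625) + (1462568 / 125) * L + (17317256 / 15625) * h) * J ^ 0
    + (0 + (-13556688 / 15625) * L + (13556688 / 15625) * h) * J ^ 1
    + ((37280892 / 390625) + (1150576 / 125) * L + (-1084016 / 125) * h) * J ^ 2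
    + ((-6328168 / 3125) + (26624 / 25) * L + (-26624 / 25) * h) * J ^ 3
    + ((-73216 / 625) + 0 * L + 0 * h) * J ^ 4

lemma UX5_1_3_nonneg {L h J : ℝ} (hL0 : (6931471 / 10000000) ≤ L) (hL1 : L ≤ (433217 / 625000)) (hh0 : (67 / 400) ≤ h) (hh1 : h ≤ (117 / 500)) (hJ0 : 0 ≤ J) (hJ1 : J ≤ (39 / 50)) :
    0 ≤ UX5_1_3 L h J := by
  obtain ⟨xl, hxl⟩ : ∃ x : ℝ, x = L - (6931471 / 10000000) := ⟨_, rfl⟩
  obtain ⟨xu, hxu⟩ : ∃ x : ℝ, x = (433217 / 625000) - L := ⟨_, rfl⟩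
  obtain ⟨yl, hyl⟩ : ∃ x : ℝ, x = h - (67 / 400) := ⟨_, rfl⟩
  obtain ⟨yu, hyu⟩ : ∃ x : ℝ, x = (117 / 500) - h := ⟨_, rfl⟩
  obtain ⟨A, hA⟩ : ∃ x : ℝ, x = J - 0 := ⟨_, rfl⟩
  obtain ⟨B, hB⟩ : ∃ x : ℝ, x = (39 / 50) - J := ⟨_, rfl⟩
  have hxl0 : 0 ≤ xl := by rw [hxl]; linarith
  have hxu0 : 0 ≤ xu := by rw [hxu]; linarith
  have hyl0 : 0 ≤ yl := by rw [hyl]; linarith
  have hyu0 : 0 ≤ yu := by rw [hyu]; linarith
  have hA0 : 0 ≤ A := by rw [hA]; linarith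
  have hB0 : 0 ≤ B := by rw [hB]; linarith
  have key : UX5_1_3 L h J =
      ((277952514497 / 19278675) + (73128400000 / 2313441) * xl + (6926902400 / 2313441) * yl) * A ^ 0 * B ^ 4
      + ((3416507407133461 / 60245859375) + (288283913344 / 2313441) * xl + (31937296256 / 2313441) * yl) * A ^ 1 * B ^ 3
      + ((3690205196540867 / 40163906250) + (153693953984 / 771147) * xl + (7091569216 / 771147) * yl) * A ^ 2 * B ^ 2
      + ((12397810518395738 / 180737578125) + (352984201984 / 2313441) * xl + (28713481984 / 2313441) * yu) * A ^ 3 * B ^ 1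
      + ((6867679954346689 / 361475156250) + (107057853376 / 2313441) * xl + (24977795776 / 2313441) * yu) * A ^ 4 * B ^ 0 := by
    simp only [hxl, hxu, hyl, hyu, hA, hB]
    unfold UX5_1_3
    ring
  rw [key]
  positivity

noncomputable def UX5_1_4 (L h J : ℝ) : ℝ :=
  ((-14977109 / 15625) + (393728 / 125) * L + (3562896 / 3125) * h) * J ^ 0
    + (0 + (28610828 / 15625) * L + (-28610828 / 15625) * h) * J ^ 1
    + ((-78679777 / 390625) + (48416 / 25) * L + (-48416 / 25) * h) * J ^ 2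
    + ((-266288 / 625) + 0 * L + 0 * h) * J ^ 3

lemma UX5_1_4_nonneg {L h J : ℝ} (hL0 : (6931471 / 10000000) ≤ L) (hL1 : L ≤ (433217 / 625000)) (hh0 : (67 / 400) ≤ h) (hh1 : h ≤ (117 / 500)) (hJ0 : 0 ≤ J) (hJ1 : J ≤ (39 / 50)) :
    0 ≤ UX5_1_4 L h J := by
  obtain ⟨xl, hxl⟩ : ∃ x : ℝ, x = L - (6931471 / 10000000) := ⟨_, rfl⟩
  obtain ⟨xu, hxu⟩ : ∃ x : ℝ, x = (433217 / 625000) - L := ⟨_, rfl⟩
  obtain ⟨yl, hyl⟩ : ∃ x : ℝ, x = h - (67 / 400) := ⟨_, rfl⟩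
  obtain ⟨yu, hyu⟩ : ∃ x : ℝ, x = (117 / 500) - h := ⟨_, rfl⟩
  obtain ⟨A, hA⟩ : ∃ x : ℝ, x = J - 0 := ⟨_, rfl⟩
  obtain ⟨B, hB⟩ : ∃ x : ℝ, x = (39 / 50) - J := ⟨_, rfl⟩
  have hxl0 : 0 ≤ xl := by rw [hxl]; linarith
  have hxu0 : 0 ≤ xu := by rw [hxu]; linarith
  have hyl0 : 0 ≤ yl := by rw [hyl]; linarith
  have hyu0 : 0 ≤ yu := by rw [hyu]; linarith
  have hA0 : 0 ≤ A := by rw [hA]; linarith
  have hB0 : 0 ≤ B := by rw [hB]; linarith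
  have key : UX5_1_4 L h J =
      ((110603720368 / 37074375) + (393728000 / 59319) * xl + (47505280 / 19773) * yl) * A ^ 0 * B ^ 3
      + ((3253866969120961 / 308953125000) + (11330963056 / 494325) * xl + (2075132944 / 494325) * yl) * A ^ 1 * B ^ 2
      + ((2019739902110011 / 154476562500) + (4682023904 / 164775) * xl + (639975712 / 494325) * yu) * A ^ 2 * B ^ 1
      + ((4616372793742183 / 926859375000) + (17988525968 / 1482975) * xl + (1527476656 / 494325) * yu) * A ^ 3 * B ^ 0 := by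
    simp only [hxl, hxu, hyl, hyu, hA, hB]
    unfold UX5_1_4
    ring
  rw [key]
  positivity

lemma UX5_1_nonneg {L h d J : ℝ} (hL0 : (6931471 / 10000000) ≤ L) (hL1 : L ≤ (433217 / 625000)) (hh0 : (67 / 400) ≤ h) (hh1 : h ≤ (117 / 500)) (hd0 : (1 / 2) ≤ d) (hd1 : d ≤ 1) (hJ0 : 0 ≤ J) (hJ1 : J ≤ (39 / 50)) :
    0 ≤ UX5_1 L h d J := by
  have c0 := UX5_1_0_nonneg hL0 hL1 hh0 hh1 hJ0 hJ1
  have c1 := UX5_1_1_nonneg hL0 hL1 hh0 hh1 hJ0 hJ1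
  have c2 := UX5_1_2_nonneg hL0 hL1 hh0 hh1 hJ0 hJ1
  have c3 := UX5_1_3_nonneg hL0 hL1 hh0 hh1 hJ0 hJ1
  have c4 := UX5_1_4_nonneg hL0 hL1 hh0 hh1 hJ0 hJ1
  have key : UX5_1 L h d J =
      (d - (1 / 2)) ^ 0 * (1 - d) ^ 4 * UX5_1_0 L h J
      + (d - (1 / 2)) ^ 1 * (1 - d) ^ 3 * UX5_1_1 L h J
      + (d - (1 / 2)) ^ 2 * (1 - d) ^ 2 * UX5_1_2 L h J
      + (d - (1 / 2)) ^ 3 * (1 - d) ^ 1 * UX5_1_3 L h J
      + (d - (1 / 2)) ^ 4 * (1 - d) ^ 0 * UX5_1_4 L h J := by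
    unfold UX5_1 UX5_1_0 UX5_1_1 UX5_1_2 UX5_1_3 UX5_1_4
    ring
  have hA : 0 ≤ d - (1 / 2) := by linarith
  have hB : 0 ≤ 1 - d := by linarith
  rw [key]
  positivity

noncomputable def UX5_2 (L h d J : ℝ) : ℝ :=
  ((136587 / 5000) + (1433 / 5) * L + (-94502497 / 250000) * h) * d ^ 0 * J ^ 0
    + (0 + (-115033603 / 125000) * L + (115033603 / 125000) * h) * d ^ 0 * J ^ 1
    + ((1265369633 / 12500000) + (75128 / 125) * L + (-66288 / 125) * h) * d ^ 0 * J ^ 2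
    + ((-413204 / 3125) + (3536 / 25) * L + (-3536 / 25) * h) * d ^ 0 * J ^ 3
    + ((-9724 / 625) + 0 * L + 0 * h) * d ^ 0 * J ^ 4
    + (0 + (-52694 / 125) * L + (52694 / 125) * h) * d ^ 1 * J ^ 2
    + ((289817 / 3125) + 0 * L + 0 * h) * d ^ 1 * J ^ 3
    + ((-50091989 / 250000) + (18608 / 125) * L + (66252987 / 125000) * h) * d ^ 2 * J ^ 0
    + (0 + 1088 * L + (-1088) * h) * d ^ 2 * J ^ 1
    + ((-2992 / 25) + 0 * L + (-1768 / 25) * h) * d ^ 2 * J ^ 2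
    + (0 + (-3536 / 25) * L + (3536 / 25) * h) * d ^ 2 * J ^ 3
    + ((9724 / 625) + 0 * L + 0 * h) * d ^ 2 * J ^ 4
    + ((1513 / 25) + (-3026 / 25) * L + 0 * h) * d ^ 4 * J ^ 0

noncomputable def UX5_2_0 (L h J : ℝ) : ℝ :=
  ((-18992089 / 62500) + (632502 / 125) * L + (-122752007 / 31250) * h) * J ^ 0
    + (0 + (-162067206 / 15625) * L + (162067206 / 15625) * h) * J ^ 1
    + ((891369633 / 781250) + (780496 / 125) * L + (-674416 / 125) * h) * J ^ 2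
    + ((-4292728 / 3125) + (42432 / 25) * L + (-42432 / 25) * h) * J ^ 3
    + ((-116688 / 625) + 0 * L + 0 * h) * J ^ 4

lemma UX5_2_0_nonneg {L h J : ℝ} (hL0 : (6931471 / 10000000) ≤ L) (hL1 : L ≤ (433217 / 625000)) (hh0 : (67 / 400) ≤ h) (hh1 : h ≤ (117 / 500)) (hJ0 : 0 ≤ J) (hJ1 : J ≤ (39 / 50)) :
    0 ≤ UX5_2_0 L h J := by
  obtain ⟨xl, hxl⟩ : ∃ x : ℝ, x = L - (6931471 / 10000000) := ⟨_, rfl⟩
  obtain ⟨xu, hxu⟩ : ∃ x : ℝ, x = (433217 / 625000) - L := ⟨_, rfl⟩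
  obtain ⟨yl, hyl⟩ : ∃ x : ℝ, x = h - (67 / 400) := ⟨_, rfl⟩
  obtain ⟨yu, hyu⟩ : ∃ x : ℝ, x = (117 / 500) - h := ⟨_, rfl⟩
  obtain ⟨A, hA⟩ : ∃ x : ℝ, x = J - 0 := ⟨_, rfl⟩
  obtain ⟨B, hB⟩ : ∃ x : ℝ, x = (39 / 50) - J := ⟨_, rfl⟩
  have hxl0 : 0 ≤ xl := by rw [hxl]; linarith
  have hxu0 : 0 ≤ xu := by rw [hxu]; linarith
  have hyl0 : 0 ≤ yl := by rw [hyl]; linarith
  have hyu0 : 0 ≤ yu := by rw [hyu]; linarith
  have hA0 : 0 ≤ A := by rw [hA]; linarith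
  have hB0 : 0 ≤ B := by rw [hB]; linarith
  have key : UX5_2_0 L h J =
      ((1427684352461 / 231344100) + (90100000 / 6591) * xl + (24550401400 / 2313441) * yu) * A ^ 0 * B ^ 4
      + ((21181634721724493 / 1445900625000) + (649020784 / 19773) * xl + (47636637328 / 2313441) * yu) * A ^ 1 * B ^ 3
      + ((6667865296893133 / 481966875000) + (528191312 / 19773) * xl + (5374412768 / 771147) * yu) * A ^ 2 * B ^ 2
      + ((2148776227391603 / 289180125000) + (233546320 / 19773) * xl + (7427782160 / 2313441) * yl) * A ^ 3 * B ^ 1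
      + ((3018341550461359 / 1445900625000) + (28025264 / 6591) * xl + (464784536 / 2313441) * yl) * A ^ 4 * B ^ 0 := by
    simp only [hxl, hxu, hyl, hyu, hA, hB]
    unfold UX5_2_0
    ring
  rw [key]
  positivity

noncomputable def UX5_2_1 (L h J : ℝ) : ℝ :=
  ((-80511167 / 31250) + (2618352 / 125) * L + (-179251027 / 15625) * h) * J ^ 0
    + (0 + (-512268824 / 15625) * L + (512268824 / 15625) * h) * J ^ 1
    + ((1408739266 / 390625) + (2700432 / 125) * L + (-2346832 / 125) * h) * J ^ 2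
    + ((-14852376 / 3125) + (28288 / 5) * L + (-28288 / 5) * h) * J ^ 3
    + ((-77792 / 125) + 0 * L + 0 * h) * J ^ 4

lemma UX5_2_1_nonneg {L h J : ℝ} (hL0 : (6931471 / 10000000) ≤ L) (hL1 : L ≤ (433217 / 625000)) (hh0 : (67 / 400) ≤ h) (hh1 : h ≤ (117 / 500)) (hJ0 : 0 ≤ J) (hJ1 : J ≤ (39 / 50)) :
    0 ≤ UX5_2_1 L h J := by
  obtain ⟨xl, hxl⟩ : ∃ x : ℝ, x = L - (6931471 / 10000000) := ⟨_, rfl⟩
  obtain ⟨xu, hxu⟩ : ∃ x : ℝ, x = (433217 / 625000) - L := ⟨_, rfl⟩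
  obtain ⟨yl, hyl⟩ : ∃ x : ℝ, x = h - (67 / 400) := ⟨_, rfl⟩
  obtain ⟨yu, hyu⟩ : ∃ x : ℝ, x = (117 / 500) - h := ⟨_, rfl⟩
  obtain ⟨A, hA⟩ : ∃ x : ℝ, x = J - 0 := ⟨_, rfl⟩
  obtain ⟨B, hB⟩ : ∃ x : ℝ, x = (39 / 50) - J := ⟨_, rfl⟩
  have hxl0 : 0 ≤ xl := by rw [hxl]; linarith
  have hxu0 : 0 ≤ xu := by rw [hxu]; linarith
  have hyl0 : 0 ≤ yl := by rw [hyl]; linarith
  have hyu0 : 0 ≤ yu := by rw [hyu]; linarith
  have hA0 : 0 ≤ A := by rw [hA]; linarith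
  have hB0 : 0 ≤ B := by rw [hB]; linarith
  have key : UX5_2_1 L h J =
      ((1446625631294 / 57836025) + (4848800000 / 85683) * xl + (71700410800 / 2313441) * yu) * A ^ 0 * B ^ 4
      + ((24699311965549493 / 361475156250) + (121280842304 / 771147) * xl + (126973770112 / 2313441) * yu) * A ^ 1 * B ^ 3
      + ((4713138419593919 / 60245859375) + (43129902464 / 257049) * xl + (7369824992 / 771147) * yu) * A ^ 2 * B ^ 2
      + ((1329422313679933 / 27805781250) + (25029024704 / 257049) * xl + (33120558464 / 2313441) * yl) * A ^ 3 * B ^ 1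
      + ((2390372815093804 / 180737578125) + (23339009024 / 771147) * xl + (43325872 / 2313441) * yu) * A ^ 4 * B ^ 0 := by
    simp only [hxl, hxu, hyl, hyu, hA, hB]
    unfold UX5_2_1
    ring
  rw [key]
  positivity

noncomputable def UX5_2_2 (L h J : ℝ) : ℝ :=
  ((-396511457 / 62500) + (4043696 / 125) * L + (-272741133 / 31250) * h) * J ^ 0
    + (0 + (-496403236 / 15625) * L + (496403236 / 15625) * h) * J ^ 1
    + ((1365108899 / 390625) + (683664 / 25) * L + (-605872 / 25) * h) * J ^ 2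
    + ((-3760152 / 625) + (155584 / 25) * L + (-155584 / 25) * h) * J ^ 3
    + ((-427856 / 625) + 0 * L + 0 * h) * J ^ 4

lemma UX5_2_2_nonneg {L h J : ℝ} (hL0 : (6931471 / 10000000) ≤ L) (hL1 : L ≤ (433217 / 625000)) (hh0 : (67 / 400) ≤ h) (hh1 : h ≤ (117 / 500)) (hJ0 : 0 ≤ J) (hJ1 : J ≤ (39 / 50)) :
    0 ≤ UX5_2_2 L h J := by
  obtain ⟨xl, hxl⟩ : ∃ x : ℝ, x = L - (6931471 / 10000000) := ⟨_, rfl⟩
  obtain ⟨xu, hxu⟩ : ∃ x : ℝ, x = (433217 / 625000) - L := ⟨_, rfl⟩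
  obtain ⟨yl, hyl⟩ : ∃ x : ℝ, x = h - (67 / 400) := ⟨_, rfl⟩
  obtain ⟨yu, hyu⟩ : ∃ x : ℝ, x = (117 / 500) - h := ⟨_, rfl⟩
  obtain ⟨A, hA⟩ : ∃ x : ℝ, x = J - 0 := ⟨_, rfl⟩
  obtain ⟨B, hB⟩ : ∃ x : ℝ, x = (39 / 50) - J := ⟨_, rfl⟩
  have hxl0 : 0 ≤ xl := by rw [hxl]; linarith
  have hxu0 : 0 ≤ xu := by rw [hxu]; linarith
  have hyl0 : 0 ≤ yl := by rw [hyl]; linarith
  have hyu0 : 0 ≤ yu := by rw [hyu]; linarith
  have hA0 : 0 ≤ A := by rw [hA]; linarith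
  have hB0 : 0 ≤ B := by rw [hB]; linarith
  have key : UX5_2_2 L h J =
      ((2193209426492 / 57836025) + (202184800000 / 2313441) * xl + (18182742200 / 771147) * yu) * A ^ 0 * B ^ 4
      + ((87438065966198479 / 722950312500) + (653861390368 / 2313441) * xl + (2345003584 / 85683) * yu) * A ^ 1 * B ^ 3
      + ((38940808557882629 / 240983437500) + (284153555168 / 771147) * xl + (557912816 / 28561) * yl) * A ^ 2 * B ^ 2
      + ((79033960991088613 / 722950312500) + (570534534496 / 2313441) * xl + (14558695168 / 771147) * yl) * A ^ 3 * B ^ 1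
      + ((4341618623162741 / 144590062500) + (169750459360 / 2313441) * xl + (1142413640 / 257049) * yu) * A ^ 4 * B ^ 0 := by
    simp only [hxl, hxu, hyl, hyu, hA, hB]
    unfold UX5_2_2
    ring
  rw [key]
  positivity

noncomputable def UX5_2_3 (L h J : ℝ) : ℝ :=
  ((-92698567 / 15625) + (2701824 / 125) * L + (19507934 / 15625) * h) * J ^ 0
    + (0 + (-104268824 / 15625) * L + (104268824 / 15625) * h) * J ^ 1
    + ((286739266 / 390625) + (1857328 / 125) * L + (-1715888 / 125) * h) * J ^ 2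
    + ((-10215304 / 3125) + (56576 / 25) * L + (-56576 / 25) * h) * J ^ 3
    + ((-155584 / 625) + 0 * L + 0 * h) * J ^ 4

lemma UX5_2_3_nonneg {L h J : ℝ} (hL0 : (6931471 / 10000000) ≤ L) (hL1 : L ≤ (433217 / 625000)) (hh0 : (67 / 400) ≤ h) (hh1 : h ≤ (117 / 500)) (hJ0 : 0 ≤ J) (hJ1 : J ≤ (39 / 50)) :
    0 ≤ UX5_2_3 L h J := by
  obtain ⟨xl, hxl⟩ : ∃ x : ℝ, x = L - (6931471 / 10000000) := ⟨_, rfl⟩
  obtain ⟨xu, hxu⟩ : ∃ x : ℝ, x = (433217 / 625000) - L := ⟨_, rfl⟩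
  obtain ⟨yl, hyl⟩ : ∃ x : ℝ, x = h - (67 / 400) := ⟨_, rfl⟩
  obtain ⟨yu, hyu⟩ : ∃ x : ℝ, x = (117 / 500) - h := ⟨_, rfl⟩
  obtain ⟨A, hA⟩ : ∃ x : ℝ, x = J - 0 := ⟨_, rfl⟩
  obtain ⟨B, hB⟩ : ∃ x : ℝ, x = (39 / 50) - J := ⟨_, rfl⟩
  have hxl0 : 0 ≤ xl := by rw [hxl]; linarith
  have hxu0 : 0 ≤ xu := by rw [hxu]; linarith
  have hyl0 : 0 ≤ yl := by rw [hyl]; linarith
  have hyu0 : 0 ≤ yu := by rw [hyu]; linarith
  have hA0 : 0 ≤ A := by rw [hA]; linarith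
  have hB0 : 0 ≤ B := by rw [hB]; linarith
  have key : UX5_2_3 L h J =
      ((1446641957338 / 57836025) + (45030400000 / 771147) * xl + (7803173600 / 2313441) * yl) * A ^ 0 * B ^ 4
      + ((33494129441844493 / 361475156250) + (56425880768 / 257049) * xl + (63744567488 / 2313441) * yl) * A ^ 1 * B ^ 3
      + ((8570420689011124 / 60245859375) + (9499401216 / 28561) * xl + (30739115968 / 771147) * yl) * A ^ 2 * B ^ 2
      + ((37565082441654241 / 361475156250) + (187493693248 / 771147) * xl + (17701624256 / 2313441) * yl) * A ^ 3 * B ^ 1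
      + ((1031219301977099 / 36147515625) + (2046559360 / 28561) * xl + (18574329760 / 2313441) * yu) * A ^ 4 * B ^ 0 := by
    simp only [hxl, hxu, hyl, hyu, hA, hB]
    unfold UX5_2_3
    ring
  rw [key]
  positivity

noncomputable def UX5_2_4 (L h J : ℝ) : ℝ :=
  ((-28132639 / 15625) + (628848 / 125) * L + (38003477 / 15625) * h) * J ^ 0
    + (0 + (41932794 / 15625) * L + (-41932794 / 15625) * h) * J ^ 1
    + ((-230630367 / 781250) + (358944 / 125) * L + (-358944 / 125) * h) * J ^ 2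
    + ((-1974192 / 3125) + 0 * L + 0 * h) * J ^ 3

lemma UX5_2_4_nonneg {L h J : ℝ} (hL0 : (6931471 / 10000000) ≤ L) (hL1 : L ≤ (433217 / 625000)) (hh0 : (67 / 400) ≤ h) (hh1 : h ≤ (117 / 500)) (hJ0 : 0 ≤ J) (hJ1 : J ≤ (39 / 50)) :
    0 ≤ UX5_2_4 L h J := by
  obtain ⟨xl, hxl⟩ : ∃ x : ℝ, x = L - (6931471 / 10000000) := ⟨_, rfl⟩
  obtain ⟨xu, hxu⟩ : ∃ x : ℝ, x = (433217 / 625000) - L := ⟨_, rfl⟩
  obtain ⟨yl, hyl⟩ : ∃ x : ℝ, x = h - (67 / 400) := ⟨_, rfl⟩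
  obtain ⟨yu, hyu⟩ : ∃ x : ℝ, x = (117 / 500) - h := ⟨_, rfl⟩
  obtain ⟨A, hA⟩ : ∃ x : ℝ, x = J - 0 := ⟨_, rfl⟩
  obtain ⟨B, hB⟩ : ∃ x : ℝ, x = (39 / 50) - J := ⟨_, rfl⟩
  have hxl0 : 0 ≤ xl := by rw [hxl]; linarith
  have hxu0 : 0 ≤ xu := by rw [hxu]; linarith
  have hyl0 : 0 ≤ yl := by rw [hyl]; linarith
  have hyu0 : 0 ≤ yu := by rw [hyu]; linarith
  have hA0 : 0 ≤ A := by rw [hA]; linarith
  have hB0 : 0 ≤ B := by rw [hB]; linarith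
  have key : UX5_2_4 L h J =
      ((327184643401 / 74148750) + (69872000 / 6591) * xl + (304027816 / 59319) * yl) * A ^ 0 * B ^ 3
      + ((9612336436489831 / 617906250000) + (5967235096 / 164775) * xl + (5420190112 / 494325) * yl) * A ^ 1 * B ^ 2
      + ((6003471806907311 / 308953125000) + (7300685552 / 164775) * xl + (1419838744 / 494325) * yl) * A ^ 2 * B ^ 1
      + ((13826586847249373 / 1853718750000) + (1026750152 / 54925) * xl + (4400358704 / 1482975) * yu) * A ^ 3 * B ^ 0 := by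
    simp only [hxl, hxu, hyl, hyu, hA, hB]
    unfold UX5_2_4
    ring
  rw [key]
  positivity

lemma UX5_2_nonneg {L h d J : ℝ} (hL0 : (6931471 / 10000000) ≤ L) (hL1 : L ≤ (433217 / 625000)) (hh0 : (67 / 400) ≤ h) (hh1 : h ≤ (117 / 500)) (hd0 : (1 / 2) ≤ d) (hd1 : d ≤ 1) (hJ0 : 0 ≤ J) (hJ1 : J ≤ (39 / 50)) :
    0 ≤ UX5_2 L h d J := by
  have c0 := UX5_2_0_nonneg hL0 hL1 hh0 hh1 hJ0 hJ1
  have c1 := UX5_2_1_nonneg hL0 hL1 hh0 hh1 hJ0 hJ1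
  have c2 := UX5_2_2_nonneg hL0 hL1 hh0 hh1 hJ0 hJ1
  have c3 := UX5_2_3_nonneg hL0 hL1 hh0 hh1 hJ0 hJ1
  have c4 := UX5_2_4_nonneg hL0 hL1 hh0 hh1 hJ0 hJ1
  have key : UX5_2 L h d J =
      (d - (1 / 2)) ^ 0 * (1 - d) ^ 4 * UX5_2_0 L h J
      + (d - (1 / 2)) ^ 1 * (1 - d) ^ 3 * UX5_2_1 L h J
      + (d - (1 / 2)) ^ 2 * (1 - d) ^ 2 * UX5_2_2 L h J
      + (d - (1 / 2)) ^ 3 * (1 - d) ^ 1 * UX5_2_3 L h J
      + (d - (1 / 2)) ^ 4 * (1 - d) ^ 0 * UX5_2_4 L h J := by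
    unfold UX5_2 UX5_2_0 UX5_2_1 UX5_2_2 UX5_2_3 UX5_2_4
    ring
  have hA : 0 ≤ d - (1 / 2) := by linarith
  have hB : 0 ≤ 1 - d := by linarith
  rw [key]
  positivity

noncomputable def UX5_3 (L h d J : ℝ) : ℝ :=
  ((337161 / 12500) + (46694 / 125) * L + (-29529337 / 62500) * h) * d ^ 0 * J ^ 0
    + (0 + (-32586293 / 31250) * L + (32586293 / 31250) * h) * d ^ 0 * J ^ 1
    + ((358449223 / 3125000) + (74432 / 125) * L + (-65072 / 125) * h) * d ^ 0 * J ^ 2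
    + ((-409376 / 3125) + (3744 / 25) * L + (-3744 / 25) * h) * d ^ 0 * J ^ 3
    + ((-10296 / 625) + 0 * L + 0 * h) * d ^ 0 * J ^ 4
    + (0 + (-2386 / 5) * L + (2386 / 5) * h) * d ^ 1 * J ^ 2
    + ((13123 / 125) + 0 * L + 0 * h) * d ^ 1 * J ^ 3
    + ((-28381447 / 125000) + (7304 / 125) * L + (38297801 / 62500) * h) * d ^ 2 * J ^ 0
    + (0 + 1152 * L + (-1152) * h) * d ^ 2 * J ^ 1
    + ((-3168 / 25) + 0 * L + (-1872 / 25) * h) * d ^ 2 * J ^ 2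
    + (0 + (-3744 / 25) * L + (3744 / 25) * h) * d ^ 2 * J ^ 3
    + ((10296 / 625) + 0 * L + 0 * h) * d ^ 2 * J ^ 4
    + ((2626 / 25) + (-5252 / 25) * L + 0 * h) * d ^ 4 * J ^ 0

noncomputable def UX5_3_0 (L h J : ℝ) : ℝ :=
  ((-11612507 / 31250) + (150012 / 25) * L + (-79819547 / 15625) * h) * J ^ 0
    + (0 + (-188690344 / 15625) * L + (188690344 / 15625) * h) * J ^ 1
    + ((518898446 / 390625) + (713712 / 125) * L + (-601392 / 125) * h) * J ^ 2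
    + ((-3925416 / 3125) + (44928 / 25) * L + (-44928 / 25) * h) * J ^ 3
    + ((-123552 / 625) + 0 * L + 0 * h) * J ^ 4

lemma UX5_3_0_nonneg {L h J : ℝ} (hL0 : (6931471 / 10000000) ≤ L) (hL1 : L ≤ (433217 / 625000)) (hh0 : (67 / 400) ≤ h) (hh1 : h ≤ (117 / 500)) (hJ0 : 0 ≤ J) (hJ1 : J ≤ (39 / 50)) :
    0 ≤ UX5_3_0 L h J := by
  obtain ⟨xl, hxl⟩ : ∃ x : ℝ, x = L - (6931471 / 10000000) := ⟨_, rfl⟩
  obtain ⟨xu, hxu⟩ : ∃ x : ℝ, x = (433217 / 625000) - L := ⟨_, rfl⟩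
  obtain ⟨yl, hyl⟩ : ∃ x : ℝ, x = h - (67 / 400) := ⟨_, rfl⟩
  obtain ⟨yu, hyu⟩ : ∃ x : ℝ, x = (117 / 500) - h := ⟨_, rfl⟩
  obtain ⟨A, hA⟩ : ∃ x : ℝ, x = J - 0 := ⟨_, rfl⟩
  obtain ⟨B, hB⟩ : ∃ x : ℝ, x = (39 / 50) - J := ⟨_, rfl⟩
  have hxl0 : 0 ≤ xl := by rw [hxl]; linarith
  have hxu0 : 0 ≤ xu := by rw [hxu]; linarith
  have hyl0 : 0 ≤ yl := by rw [hyl]; linarith
  have hyu0 : 0 ≤ yu := by rw [hyu]; linarith
  have hA0 : 0 ≤ A := by rw [hA]; linarith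
  have hB0 : 0 ≤ B := by rw [hB]; linarith
  have key : UX5_3_0 L h J =
      ((162014846921 / 23134410) + (463000000 / 28561) * xl + (31927818800 / 2313441) * yu) * A ^ 0 * B ^ 4
      + ((5902392500589383 / 361475156250) + (30380204224 / 771147) * xl + (68839887872 / 2313441) * yu) * A ^ 1 * B ^ 3
      + ((831674881407014 / 60245859375) + (7790550784 / 257049) * xl + (11082365152 / 771147) * yu) * A ^ 2 * B ^ 2
      + ((141769779929341 / 24098343750) + (2461138240 / 257049) * xl + (6984029440 / 2313441) * yl) * A ^ 3 * B ^ 1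
      + ((158010576272513 / 120491718750) + (1890966592 / 771147) * xl + (3319055824 / 2313441) * yl) * A ^ 4 * B ^ 0 := by
    simp only [hxl, hxu, hyl, hyu, hA, hB]
    unfold UX5_3_0
    ring
  rw [key]
  positivity

noncomputable def UX5_3_1 (L h J : ℝ) : ℝ :=
  ((-45041461 / 15625) + (2953632 / 125) * L + (-242682586 / 15625) * h) * J ^ 0
    + (0 + (-610761376 / 15625) * L + (610761376 / 15625) * h) * J ^ 1
    + ((1679593784 / 390625) + (2377648 / 125) * L + (-2003248 / 125) * h) * J ^ 2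
    + ((-13077064 / 3125) + (29952 / 5) * L + (-29952 / 5) * h) * J ^ 3
    + ((-82368 / 125) + 0 * L + 0 * h) * J ^ 4

lemma UX5_3_1_nonneg {L h J : ℝ} (hL0 : (6931471 / 10000000) ≤ L) (hL1 : L ≤ (433217 / 625000)) (hh0 : (67 / 400) ≤ h) (hh1 : h ≤ (117 / 500)) (hJ0 : 0 ≤ J) (hJ1 : J ≤ (39 / 50)) :
    0 ≤ UX5_3_1 L h J := by
  obtain ⟨xl, hxl⟩ : ∃ x : ℝ, x = L - (6931471 / 10000000) := ⟨_, rfl⟩
  obtain ⟨xu, hxu⟩ : ∃ x : ℝ, x = (433217 / 625000) - L := ⟨_, rfl⟩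
  obtain ⟨yl, hyl⟩ : ∃ x : ℝ, x = h - (67 / 400) := ⟨_, rfl⟩
  obtain ⟨yu, hyu⟩ : ∃ x : ℝ, x = (117 / 500) - h := ⟨_, rfl⟩
  obtain ⟨A, hA⟩ : ∃ x : ℝ, x = J - 0 := ⟨_, rfl⟩
  obtain ⟨B, hB⟩ : ∃ x : ℝ, x = (39 / 50) - J := ⟨_, rfl⟩
  have hxl0 : 0 ≤ xl := by rw [hxl]; linarith
  have hxu0 : 0 ≤ xu := by rw [hxu]; linarith
  have hyl0 : 0 ≤ yl := by rw [hyl]; linarith
  have hyu0 : 0 ≤ yu := by rw [hyu]; linarith
  have hA0 : 0 ≤ A := by rw [hA]; linarith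
  have hB0 : 0 ≤ B := by rw [hB]; linarith
  have key : UX5_3_1 L h J =
      ((118525765988 / 4448925) + (49227200000 / 771147) * xl + (97073034400 / 2313441) * yu) * A ^ 0 * B ^ 4
      + ((955767110007982 / 13902890625) + (14821068544 / 85683) * xl + (197734588288 / 2313441) * yu) * A ^ 1 * B ^ 3
      + ((639193463919499 / 9268593750) + (42971667136 / 257049) * xl + (23901454208 / 771147) * yu) * A ^ 2 * B ^ 2
      + ((6354522162301823 / 180737578125) + (60492361088 / 771147) * xl + (43735675136 / 2313441) * yl) * A ^ 3 * B ^ 1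
      + ((3062917035543217 / 361475156250) + (582954688 / 28561) * xl + (14778483872 / 2313441) * yl) * A ^ 4 * B ^ 0 := by
    simp only [hxl, hxu, hyl, hyu, hA, hB]
    unfold UX5_3_1
    ring
  rw [key]
  positivity

noncomputable def UX5_3_2 (L h J : ℝ) : ℝ :=
  ((-209260171 / 31250) + (4232192 / 125) * L + (-8433307 / 625) * h) * J ^ 0
    + (0 + (-628142064 / 15625) * L + (628142064 / 15625) * h) * J ^ 1
    + ((1727390676 / 390625) + (2850672 / 125) * L + (-2438832 / 125) * h) * J ^ 2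
    + ((-15678696 / 3125) + (164736 / 25) * L + (-164736 / 25) * h) * J ^ 3
    + ((-453024 / 625) + 0 * L + 0 * h) * J ^ 4

lemma UX5_3_2_nonneg {L h J : ℝ} (hL0 : (6931471 / 10000000) ≤ L) (hL1 : L ≤ (433217 / 625000)) (hh0 : (67 / 400) ≤ h) (hh1 : h ≤ (117 / 500)) (hJ0 : 0 ≤ J) (hJ1 : J ≤ (39 / 50)) :
    0 ≤ UX5_3_2 L h J := by
  obtain ⟨xl, hxl⟩ : ∃ x : ℝ, x = L - (6931471 / 10000000) := ⟨_, rfl⟩
  obtain ⟨xu, hxu⟩ : ∃ x : ℝ, x = (433217 / 625000) - L := ⟨_, rfl⟩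
  obtain ⟨yl, hyl⟩ : ∃ x : ℝ, x = h - (67 / 400) := ⟨_, rfl⟩
  obtain ⟨yu, hyu⟩ : ∃ x : ℝ, x = (117 / 500) - h := ⟨_, rfl⟩
  obtain ⟨A, hA⟩ : ∃ x : ℝ, x = J - 0 := ⟨_, rfl⟩
  obtain ⟨B, hB⟩ : ∃ x : ℝ, x = (39 / 50) - J := ⟨_, rfl⟩
  have hxl0 : 0 ≤ xl := by rw [hxl]; linarith
  have hxu0 : 0 ≤ xu := by rw [hxu]; linarith
  have hyl0 : 0 ≤ yl := by rw [hyl]; linarith
  have hyu0 : 0 ≤ yu := by rw [hyu]; linarith
  have hA0 : 0 ≤ A := by rw [hA]; linarith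
  have hB0 : 0 ≤ B := by rw [hB]; linarith
  have key : UX5_3_2 L h J =
      ((2127265199804 / 57836025) + (211609600000 / 2313441) * xl + (84333070000 / 2313441) * yu) * A ^ 0 * B ^ 4
      + ((19560830825130649 / 180737578125) + (650458076032 / 2313441) * xl + (141351956032 / 2313441) * yu) * A ^ 1 * B ^ 3
      + ((15606220250196293 / 120491718750) + (256144690112 / 771147) * xl + (2584427488 / 771147) * yl) * A ^ 2 * B ^ 2
      + ((13916466766199858 / 180737578125) + (451476262144 / 2313441) * xl + (82686203456 / 2313441) * yl) * A ^ 3 * B ^ 1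
      + ((1434195544415477 / 72295031250) + (121890667840 / 2313441) * xl + (17914034960 / 2313441) * yl) * A ^ 4 * B ^ 0 := by
    simp only [hxl, hxu, hyl, hyu, hA, hB]
    unfold UX5_3_2
    ring
  rw [key]
  positivity

noncomputable def UX5_3_3 (L h J : ℝ) : ℝ :=
  ((-90795802 / 15625) + (2498688 / 125) * L + (-2579156 / 3125) * h) * J ^ 0
    + (0 + (-178761376 / 15625) * L + (178761376 / 15625) * h) * J ^ 1
    + ((491593784 / 390625) + (1423248 / 125) * L + (-1273488 / 125) * h) * J ^ 2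
    + ((-7827864 / 3125) + (59904 / 25) * L + (-59904 / 25) * h) * J ^ 3
    + ((-164736 / 625) + 0 * L + 0 * h) * J ^ 4

lemma UX5_3_3_nonneg {L h J : ℝ} (hL0 : (6931471 / 10000000) ≤ L) (hL1 : L ≤ (433217 / 625000)) (hh0 : (67 / 400) ≤ h) (hh1 : h ≤ (117 / 500)) (hJ0 : 0 ≤ J) (hJ1 : J ≤ (39 / 50)) :
    0 ≤ UX5_3_3 L h J := by
  obtain ⟨xl, hxl⟩ : ∃ x : ℝ, x = L - (6931471 / 10000000) := ⟨_, rfl⟩
  obtain ⟨xu, hxu⟩ : ∃ x : ℝ, x = (433217 / 625000) - L := ⟨_, rfl⟩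
  obtain ⟨yl, hyl⟩ : ∃ x : ℝ, x = h - (67 / 400) := ⟨_, rfl⟩
  obtain ⟨yu, hyu⟩ : ∃ x : ℝ, x = (117 / 500) - h := ⟨_, rfl⟩
  obtain ⟨A, hA⟩ : ∃ x : ℝ, x = J - 0 := ⟨_, rfl⟩
  obtain ⟨B, hB⟩ : ∃ x : ℝ, x = (39 / 50) - J := ⟨_, rfl⟩
  have hxl0 : 0 ≤ xl := by rw [hxl]; linarith
  have hxu0 : 0 ≤ xu := by rw [hxu]; linarith
  have hyl0 : 0 ≤ yl := by rw [hyl]; linarith
  have hyu0 : 0 ≤ yu := by rw [hyu]; linarith
  have hA0 : 0 ≤ A := by rw [hA]; linarith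
  have hB0 : 0 ≤ B := by rw [hB]; linarith
  have key : UX5_3_3 L h J =
      ((1226813781056 / 57836025) + (1542400000 / 28561) * xl + (5158312000 / 2313441) * yu) * A ^ 0 * B ^ 4
      + ((13151961836593766 / 180737578125) + (147988016896 / 771147) * xl + (35140301312 / 2313441) * yl) * A ^ 1 * B ^ 3
      + ((12335849439653237 / 120491718750) + (69508995136 / 257049) * xl + (32543756992 / 771147) * yl) * A ^ 2 * B ^ 2
      + ((12705457765499477 / 180737578125) + (47346027904 / 257049) * xl + (62101499264 / 2313441) * yl) * A ^ 3 * B ^ 1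
      + ((275633196554311 / 14459006250) + (39854315200 / 771147) * xl + (4768841600 / 2313441) * yl) * A ^ 4 * B ^ 0 := by
    simp only [hxl, hxu, hyl, hyu, hA, hB]
    unfold UX5_3_3
    ring
  rw [key]
  positivity

noncomputable def UX5_3_4 (L h J : ℝ) : ℝ :=
  ((-23759674 / 15625) + (443808 / 125) * L + (35073856 / 15625) * h) * J ^ 0
    + (0 + (27309656 / 15625) * L + (-27309656 / 15625) * h) * J ^ 1
    + ((-75101554 / 390625) + (236512 / 125) * L + (-236512 / 125) * h) * J ^ 2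
    + ((-1300816 / 3125) + 0 * L + 0 * h) * J ^ 3

lemma UX5_3_4_nonneg {L h J : ℝ} (hL0 : (6931471 / 10000000) ≤ L) (hL1 : L ≤ (433217 / 625000)) (hh0 : (67 / 400) ≤ h) (hh1 : h ≤ (117 / 500)) (hJ0 : 0 ≤ J) (hJ1 : J ≤ (39 / 50)) :
    0 ≤ UX5_3_4 L h J := by
  obtain ⟨xl, hxl⟩ : ∃ x : ℝ, x = L - (6931471 / 10000000) := ⟨_, rfl⟩
  obtain ⟨xu, hxu⟩ : ∃ x : ℝ, x = (433217 / 625000) - L := ⟨_, rfl⟩
  obtain ⟨yl, hyl⟩ : ∃ x : ℝ, x = h - (67 / 400) := ⟨_, rfl⟩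
  obtain ⟨yu, hyu⟩ : ∃ x : ℝ, x = (117 / 500) - h := ⟨_, rfl⟩
  obtain ⟨A, hA⟩ : ∃ x : ℝ, x = J - 0 := ⟨_, rfl⟩
  obtain ⟨B, hB⟩ : ∃ x : ℝ, x = (39 / 50) - J := ⟨_, rfl⟩
  have hxl0 : 0 ≤ xl := by rw [hxl]; linarith
  have hxu0 : 0 ≤ xu := by rw [hxu]; linarith
  have hyl0 : 0 ≤ yl := by rw [hyl]; linarith
  have hyu0 : 0 ≤ yu := by rw [hyu]; linarith
  have hA0 : 0 ≤ A := by rw [hA]; linarith
  have hB0 : 0 ≤ B := by rw [hB]; linarith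
  have key : UX5_3_4 L h J =
      ((34280375666 / 12358125) + (49312000 / 6591) * xl + (280590848 / 59319) * yl) * A ^ 0 * B ^ 3
      + ((506262253832987 / 51492187500) + (12515302112 / 494325) * xl + (1864889696 / 164775) * yl) * A ^ 1 * B ^ 2
      + ((159246281154266 / 12873046875) + (15134520064 / 494325) * xl + (2975451136 / 494325) * yl) * A ^ 2 * B ^ 1
      + ((2251596008576693 / 463429687500) + (6317617952 / 494325) * xl + (842882656 / 1482975) * yu) * A ^ 3 * B ^ 0 := by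
    simp only [hxl, hxu, hyl, hyu, hA, hB]
    unfold UX5_3_4
    ring
  rw [key]
  positivity

lemma UX5_3_nonneg {L h d J : ℝ} (hL0 : (6931471 / 10000000) ≤ L) (hL1 : L ≤ (433217 / 625000)) (hh0 : (67 / 400) ≤ h) (hh1 : h ≤ (117 / 500)) (hd0 : (1 / 2) ≤ d) (hd1 : d ≤ 1) (hJ0 : 0 ≤ J) (hJ1 : J ≤ (39 / 50)) :
    0 ≤ UX5_3 L h d J := by
  have c0 := UX5_3_0_nonneg hL0 hL1 hh0 hh1 hJ0 hJ1
  have c1 := UX5_3_1_nonneg hL0 hL1 hh0 hh1 hJ0 hJ1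
  have c2 := UX5_3_2_nonneg hL0 hL1 hh0 hh1 hJ0 hJ1
  have c3 := UX5_3_3_nonneg hL0 hL1 hh0 hh1 hJ0 hJ1
  have c4 := UX5_3_4_nonneg hL0 hL1 hh0 hh1 hJ0 hJ1
  have key : UX5_3 L h d J =
      (d - (1 / 2)) ^ 0 * (1 - d) ^ 4 * UX5_3_0 L h J
      + (d - (1 / 2)) ^ 1 * (1 - d) ^ 3 * UX5_3_1 L h J
      + (d - (1 / 2)) ^ 2 * (1 - d) ^ 2 * UX5_3_2 L h J
      + (d - (1 / 2)) ^ 3 * (1 - d) ^ 1 * UX5_3_3 L h J
      + (d - (1 / 2)) ^ 4 * (1 - d) ^ 0 * UX5_3_4 L h J := by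
    unfold UX5_3 UX5_3_0 UX5_3_1 UX5_3_2 UX5_3_3 UX5_3_4
    ring
  have hA : 0 ≤ d - (1 / 2) := by linarith
  have hB : 0 ≤ 1 - d := by linarith
  rw [key]
  positivity

noncomputable def UX5_4 (L h d J : ℝ) : ℝ :=
  ((30129 / 3125) + (29564 / 125) * L + (-17605849 / 62500) * h) * d ^ 0 * J ^ 0
    + (0 + (-18166431 / 31250) * L + (18166431 / 31250) * h) * d ^ 0 * J ^ 1
    + ((199830741 / 3125000) + (36868 / 125) * L + (-31928 / 125) * h) * d ^ 0 * J ^ 2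
    + ((-202774 / 3125) + (1976 / 25) * L + (-1976 / 25) * h) * d ^ 0 * J ^ 3
    + ((-5434 / 625) + 0 * L + 0 * h) * d ^ 0 * J ^ 4
    + (0 + (-33216 / 125) * L + (33216 / 125) * h) * d ^ 1 * J ^ 2
    + ((182688 / 3125) + 0 * L + 0 * h) * d ^ 1 * J ^ 3
    + ((-4026919 / 31250) + 0 * L + (5141677 / 15625) * h) * d ^ 2 * J ^ 0
    + (0 + 608 * L + (-608) * h) * d ^ 2 * J ^ 1
    + ((-1672 / 25) + 0 * L + (-988 / 25) * h) * d ^ 2 * J ^ 2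
    + (0 + (-1976 / 25) * L + (1976 / 25) * h) * d ^ 2 * J ^ 3
    + ((5434 / 625) + 0 * L + 0 * h) * d ^ 2 * J ^ 4
    + ((2226 / 25) + (-4452 / 25) * L + 0 * h) * d ^ 4 * J ^ 0

noncomputable def UX5_4_0 (L h J : ℝ) : ℝ :=
  ((-4252268 / 15625) + (450764 / 125) * L + (-49856688 / 15625) * h) * J ^ 0
    + (0 + (-107331448 / 15625) * L + (107331448 / 15625) * h) * J ^ 1
    + ((295161482 / 390625) + (64832 / 25) * L + (-52976 / 25) * h) * J ^ 2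
    + ((-356576 / 625) + (23712 / 25) * L + (-23712 / 25) * h) * J ^ 3
    + ((-65208 / 625) + 0 * L + 0 * h) * J ^ 4

lemma UX5_4_0_nonneg {L h J : ℝ} (hL0 : (6931471 / 10000000) ≤ L) (hL1 : L ≤ (433217 / 625000)) (hh0 : (67 / 400) ≤ h) (hh1 : h ≤ (117 / 500)) (hJ0 : 0 ≤ J) (hJ1 : J ≤ (39 / 50)) :
    0 ≤ UX5_4_0 L h J := by
  obtain ⟨xl, hxl⟩ : ∃ x : ℝ, x = L - (6931471 / 10000000) := ⟨_, rfl⟩
  obtain ⟨xu, hxu⟩ : ∃ x : ℝ, x = (433217 / 625000) - L := ⟨_, rfl⟩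
  obtain ⟨yl, hyl⟩ : ∃ x : ℝ, x = h - (67 / 400) := ⟨_, rfl⟩
  obtain ⟨yu, hyu⟩ : ∃ x : ℝ, x = (117 / 500) - h := ⟨_, rfl⟩
  obtain ⟨A, hA⟩ : ∃ x : ℝ, x = J - 0 := ⟨_, rfl⟩
  obtain ⟨B, hB⟩ : ∃ x : ℝ, x = (39 / 50) - J := ⟨_, rfl⟩
  have hxl0 : 0 ≤ xl := by rw [hxl]; linarith
  have hxu0 : 0 ≤ xu := by rw [hxu]; linarith
  have hyl0 : 0 ≤ yl := by rw [hyl]; linarith
  have hyu0 : 0 ≤ yu := by rw [hyu]; linarith
  have hA0 : 0 ≤ A := by rw [hA]; linarith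
  have hB0 : 0 ≤ B := by rw [hB]; linarith
  have key : UX5_4_0 L h J =
      ((462739738621 / 115672050) + (22538200000 / 2313441) * xl + (738617600 / 85683) * yu) * A ^ 0 * B ^ 4
      + ((3381801732222461 / 361475156250) + (56665388224 / 2313441) * xl + (15427763008 / 771147) * yu) * A ^ 1 * B ^ 3
      + ((897116744951311 / 120491718750) + (14875970624 / 771147) * xl + (1009313536 / 85683) * yu) * A ^ 2 * B ^ 2
      + ((470322794402746 / 180737578125) + (12225603328 / 2313441) * xl + (195899008 / 257049) * yl) * A ^ 3 * B ^ 1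
      + ((27571473979279 / 72295031250) + (1724879680 / 2313441) * xl + (891314240 / 771147) * yl) * A ^ 4 * B ^ 0 := by
    simp only [hxl, hxu, hyl, hyu, hA, hB]
    unfold UX5_4_0
    ring
  rw [key]
  positivity

noncomputable def UX5_4_1 (L h J : ℝ) : ℝ :=
  ((-27551748 / 15625) + (1714016 / 125) * L + (-158293336 / 15625) * h) * J ^ 0
    + (0 + (-353325792 / 15625) * L + (353325792 / 15625) * h) * J ^ 1
    + ((971645928 / 390625) + (1030912 / 125) * L + (-833312 / 125) * h) * J ^ 2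
    + ((-5670016 / 3125) + (15808 / 5) * L + (-15808 / 5) * h) * J ^ 3
    + ((-43472 / 125) + 0 * L + 0 * h) * J ^ 4

lemma UX5_4_1_nonneg {L h J : ℝ} (hL0 : (6931471 / 10000000) ≤ L) (hL1 : L ≤ (433217 / 625000)) (hh0 : (67 / 400) ≤ h) (hh1 : h ≤ (117 / 500)) (hJ0 : 0 ≤ J) (hJ1 : J ≤ (39 / 50)) :
    0 ≤ UX5_4_1 L h J := by
  obtain ⟨xl, hxl⟩ : ∃ x : ℝ, x = L - (6931471 / 10000000) := ⟨_, rfl⟩
  obtain ⟨xu, hxu⟩ : ∃ x : ℝ, x = (433217 / 625000) - L := ⟨_, rfl⟩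
  obtain ⟨yl, hyl⟩ : ∃ x : ℝ, x = h - (67 / 400) := ⟨_, rfl⟩
  obtain ⟨yu, hyu⟩ : ∃ x : ℝ, x = (117 / 500) - h := ⟨_, rfl⟩
  obtain ⟨A, hA⟩ : ∃ x : ℝ, x = J - 0 := ⟨_, rfl⟩
  obtain ⟨B, hB⟩ : ∃ x : ℝ, x = (39 / 50) - J := ⟨_, rfl⟩
  have hxl0 : 0 ≤ xl := by rw [hxl]; linarith
  have hxu0 : 0 ≤ xu := by rw [hxu]; linarith
  have hyl0 : 0 ≤ yl := by rw [hyl]; linarith
  have hyu0 : 0 ≤ yu := by rw [hyu]; linarith
  have hA0 : 0 ≤ A := by rw [hA]; linarith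
  have hB0 : 0 ≤ B := by rw [hB]; linarith
  have key : UX5_4_1 L h J =
      ((839157638452 / 57836025) + (85700800000 / 2313441) * xl + (63317334400 / 2313441) * yu) * A ^ 0 * B ^ 4
      + ((6535150482319922 / 180737578125) + (232565552896 / 2313441) * xl + (143031690496 / 2313441) * yu) * A ^ 1 * B ^ 3
      + ((1948331200623682 / 60245859375) + (71617400576 / 771147) * xl + (24846805376 / 771147) * yu) * A ^ 2 * B ^ 2
      + ((799905713934947 / 60245859375) + (84188092288 / 2313441) * xl + (17367754112 / 2313441) * yl) * A ^ 3 * B ^ 1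
      + ((143843481703739 / 60245859375) + (16200643456 / 2313441) * xl + (12193814144 / 2313441) * yl) * A ^ 4 * B ^ 0 := by
    simp only [hxl, hxu, hyl, hyu, hA, hB]
    unfold UX5_4_1
    ring
  rw [key]
  positivity

noncomputable def UX5_4_2 (L h J : ℝ) : ℝ :=
  ((-56847974 / 15625) + (2303904 / 125) * L + (-155173172 / 15625) * h) * J ^ 0
    + (0 + (-377988688 / 15625) * L + (377988688 / 15625) * h) * J ^ 1
    + ((1039468892 / 390625) + (1147776 / 125) * L + (-930416 / 125) * h) * J ^ 2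
    + ((-6312768 / 3125) + (86944 / 25) * L + (-86944 / 25) * h) * J ^ 3
    + ((-239096 / 625) + 0 * L + 0 * h) * J ^ 4

lemma UX5_4_2_nonneg {L h J : ℝ} (hL0 : (6931471 / 10000000) ≤ L) (hL1 : L ≤ (433217 / 625000)) (hh0 : (67 / 400) ≤ h) (hh1 : h ≤ (117 / 500)) (hJ0 : 0 ≤ J) (hJ1 : J ≤ (39 / 50)) :
    0 ≤ UX5_4_2 L h J := by
  obtain ⟨xl, hxl⟩ : ∃ x : ℝ, x = L - (6931471 / 10000000) := ⟨_, rfl⟩
  obtain ⟨xu, hxu⟩ : ∃ x : ℝ, x = (433217 / 625000) - L := ⟨_, rfl⟩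
  obtain ⟨yl, hyl⟩ : ∃ x : ℝ, x = h - (67 / 400) := ⟨_, rfl⟩
  obtain ⟨yu, hyu⟩ : ∃ x : ℝ, x = (117 / 500) - h := ⟨_, rfl⟩
  obtain ⟨A, hA⟩ : ∃ x : ℝ, x = J - 0 := ⟨_, rfl⟩
  obtain ⟨B, hB⟩ : ∃ x : ℝ, x = (39 / 50) - J := ⟨_, rfl⟩
  have hxl0 : 0 ≤ xl := by rw [hxl]; linarith
  have hxu0 : 0 ≤ xu := by rw [hxu]; linarith
  have hyl0 : 0 ≤ yl := by rw [hyl]; linarith
  have hyu0 : 0 ≤ yu := by rw [hyu]; linarith
  have hA0 : 0 ≤ A := by rw [hA]; linarith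
  have hB0 : 0 ≤ B := by rw [hB]; linarith
  have key : UX5_4_2 L h J =
      ((1064595507868 / 57836025) + (38398400000 / 771147) * xl + (62069268800 / 2313441) * yu) * A ^ 0 * B ^ 4
      + ((9077103856354883 / 180737578125) + (4232695424 / 28561) * xl + (130344604544 / 2313441) * yu) * A ^ 1 * B ^ 3
      + ((3144660972485863 / 60245859375) + (41365459328 / 257049) * xl + (15640485184 / 771147) * yu) * A ^ 2 * B ^ 2
      + ((9290967253868591 / 361475156250) + (62376314048 / 771147) * xl + (38598965056 / 2313441) * yl) * A ^ 3 * B ^ 1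
      + ((2007083746524179 / 361475156250) + (4721437504 / 257049) * xl + (17245084864 / 2313441) * yl) * A ^ 4 * B ^ 0 := by
    simp only [hxl, hxu, hyl, hyu, hA, hB]
    unfold UX5_4_2
    ring
  rw [key]
  positivity

noncomputable def UX5_4_3 (L h J : ℝ) : ℝ :=
  ((-42484776 / 15625) + (1179776 / 125) * L + (-34893088 / 15625) * h) * J ^ 0
    + (0 + (-125325792 / 15625) * L + (125325792 / 15625) * h) * J ^ 1
    + ((344645928 / 390625) + (499456 / 125) * L + (-420416 / 125) * h) * J ^ 2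
    + ((-2747008 / 3125) + (31616 / 25) * L + (-31616 / 25) * h) * J ^ 3
    + ((-86944 / 625) + 0 * L + 0 * h) * J ^ 4

lemma UX5_4_3_nonneg {L h J : ℝ} (hL0 : (6931471 / 10000000) ≤ L) (hL1 : L ≤ (433217 / 625000)) (hh0 : (67 / 400) ≤ h) (hh1 : h ≤ (117 / 500)) (hJ0 : 0 ≤ J) (hJ1 : J ≤ (39 / 50)) :
    0 ≤ UX5_4_3 L h J := by
  obtain ⟨xl, hxl⟩ : ∃ x : ℝ, x = L - (6931471 / 10000000) := ⟨_, rfl⟩
  obtain ⟨xu, hxu⟩ : ∃ x : ℝ, x = (433217 / 625000) - L := ⟨_, rfl⟩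
  obtain ⟨yl, hyl⟩ : ∃ x : ℝ, x = h - (67 / 400) := ⟨_, rfl⟩
  obtain ⟨yu, hyu⟩ : ∃ x : ℝ, x = (117 / 500) - h := ⟨_, rfl⟩
  obtain ⟨A, hA⟩ : ∃ x : ℝ, x = J - 0 := ⟨_, rfl⟩
  obtain ⟨B, hB⟩ : ∃ x : ℝ, x = (39 / 50) - J := ⟨_, rfl⟩
  have hxl0 : 0 ≤ xl := by rw [hxl]; linarith
  have hxu0 : 0 ≤ xu := by rw [hxu]; linarith
  have hyl0 : 0 ≤ yl := by rw [hyl]; linarith
  have hyu0 : 0 ≤ yu := by rw [hyu]; linarith
  have hA0 : 0 ≤ A := by rw [hA]; linarith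
  have hB0 : 0 ≤ B := by rw [hB]; linarith
  have key : UX5_4_3 L h J =
      ((515700305392 / 57836025) + (4537600000 / 177957) * xl + (13957235200 / 2313441) * yu) * A ^ 0 * B ^ 4
      + ((5043643827319922 / 180737578125) + (15142580992 / 177957) * xl + (16727293696 / 2313441) * yu) * A ^ 1 * B ^ 3
      + ((689410238181934 / 20081953125) + (6456956672 / 59319) * xl + (6924158464 / 771147) * yl) * A ^ 2 * B ^ 2
      + ((1234797034396684 / 60245859375) + (11752924672 / 177957) * xl + (32147032064 / 2313441) * yl) * A ^ 3 * B ^ 1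
      + ((307009391754856 / 60245859375) + (2987035648 / 177957) * xl + (8604498176 / 2313441) * yl) * A ^ 4 * B ^ 0 := by
    simp only [hxl, hxu, hyl, hyu, hA, hB]
    unfold UX5_4_3
    ring
  rw [key]
  positivity

noncomputable def UX5_4_4 (L h J : ℝ) : ℝ :=
  ((-7545032 / 15625) + (116864 / 125) * L + (11843436 / 15625) * h) * J ^ 0
    + (0 + (6668552 / 15625) * L + (-6668552 / 15625) * h) * J ^ 1
    + ((-18338518 / 390625) + (58432 / 125) * L + (-58432 / 125) * h) * J ^ 2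
    + ((-321376 / 3125) + 0 * L + 0 * h) * J ^ 3

lemma UX5_4_4_nonneg {L h J : ℝ} (hL0 : (6931471 / 10000000) ≤ L) (hL1 : L ≤ (433217 / 625000)) (hh0 : (67 / 400) ≤ h) (hh1 : h ≤ (117 / 500)) (hJ0 : 0 ≤ J) (hJ1 : J ≤ (39 / 50)) :
    0 ≤ UX5_4_4 L h J := by
  obtain ⟨xl, hxl⟩ : ∃ x : ℝ, x = L - (6931471 / 10000000) := ⟨_, rfl⟩
  obtain ⟨xu, hxu⟩ : ∃ x : ℝ, x = (433217 / 625000) - L := ⟨_, rfl⟩
  obtain ⟨yl, hyl⟩ : ∃ x : ℝ, x = h - (67 / 400) := ⟨_, rfl⟩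
  obtain ⟨yu, hyu⟩ : ∃ x : ℝ, x = (117 / 500) - h := ⟨_, rfl⟩
  obtain ⟨A, hA⟩ : ∃ x : ℝ, x = J - 0 := ⟨_, rfl⟩
  obtain ⟨B, hB⟩ : ∃ x : ℝ, x = (39 / 50) - J := ⟨_, rfl⟩
  have hxl0 : 0 ≤ xl := by rw [hxl]; linarith
  have hxu0 : 0 ≤ xu := by rw [hxu]; linarith
  have hyl0 : 0 ≤ yl := by rw [hyl]; linarith
  have hyu0 : 0 ≤ yu := by rw [hyu]; linarith
  have hA0 : 0 ≤ A := by rw [hA]; linarith
  have hB0 : 0 ≤ B := by rw [hB]; linarith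
  have key : UX5_4_4 L h J =
      ((22821181834 / 37074375) + (116864000 / 59319) * xl + (31582496 / 19773) * yl) * A ^ 0 * B ^ 3
      + ((342225979499987 / 154476562500) + (3268364704 / 494325) * xl + (2021922496 / 494325) * yl) * A ^ 1 * B ^ 2
      + ((219276509901097 / 77238281250) + (1303793216 / 164775) * xl + (1378907552 / 494325) * yl) * A ^ 2 * B ^ 1
      + ((526586636471621 / 463429687500) + (4850644832 / 1482975) * xl + (48849152 / 164775) * yl) * A ^ 3 * B ^ 0 := by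
    simp only [hxl, hxu, hyl, hyu, hA, hB]
    unfold UX5_4_4
    ring
  rw [key]
  positivity

lemma UX5_4_nonneg {L h d J : ℝ} (hL0 : (6931471 / 10000000) ≤ L) (hL1 : L ≤ (433217 / 625000)) (hh0 : (67 / 400) ≤ h) (hh1 : h ≤ (117 / 500)) (hd0 : (1 / 2) ≤ d) (hd1 : d ≤ 1) (hJ0 : 0 ≤ J) (hJ1 : J ≤ (39 / 50)) :
    0 ≤ UX5_4 L h d J := by
  have c0 := UX5_4_0_nonneg hL0 hL1 hh0 hh1 hJ0 hJ1
  have c1 := UX5_4_1_nonneg hL0 hL1 hh0 hh1 hJ0 hJ1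
  have c2 := UX5_4_2_nonneg hL0 hL1 hh0 hh1 hJ0 hJ1
  have c3 := UX5_4_3_nonneg hL0 hL1 hh0 hh1 hJ0 hJ1
  have c4 := UX5_4_4_nonneg hL0 hL1 hh0 hh1 hJ0 hJ1
  have key : UX5_4 L h d J =
      (d - (1 / 2)) ^ 0 * (1 - d) ^ 4 * UX5_4_0 L h J
      + (d - (1 / 2)) ^ 1 * (1 - d) ^ 3 * UX5_4_1 L h J
      + (d - (1 / 2)) ^ 2 * (1 - d) ^ 2 * UX5_4_2 L h J
      + (d - (1 / 2)) ^ 3 * (1 - d) ^ 1 * UX5_4_3 L h J
      + (d - (1 / 2)) ^ 4 * (1 - d) ^ 0 * UX5_4_4 L h J := by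
    unfold UX5_4 UX5_4_0 UX5_4_1 UX5_4_2 UX5_4_3 UX5_4_4
    ring
  have hA : 0 ≤ d - (1 / 2) := by linarith
  have hB : 0 ≤ 1 - d := by linarith
  rw [key]
  positivity

noncomputable def UX5_5 (L h d J : ℝ) : ℝ :=
  (0 + (7304 / 125) * L + (-64) * h) * d ^ 0 * J ^ 0
    + (0 + (-128) * L + 128 * h) * d ^ 0 * J ^ 1
    + ((352 / 25) + (7304 / 125) * L + (-6264 / 125) * h) * d ^ 0 * J ^ 2
    + ((-40172 / 3125) + (416 / 25) * L + (-416 / 25) * h) * d ^ 0 * J ^ 3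
    + ((-1144 / 625) + 0 * L + 0 * h) * d ^ 0 * J ^ 4
    + (0 + (-7304 / 125) * L + (7304 / 125) * h) * d ^ 1 * J ^ 2
    + ((40172 / 3125) + 0 * L + 0 * h) * d ^ 1 * J ^ 3
    + ((-3652 / 125) + 0 * L + 64 * h) * d ^ 2 * J ^ 0
    + (0 + 128 * L + (-128) * h) * d ^ 2 * J ^ 1
    + ((-352 / 25) + 0 * L + (-208 / 25) * h) * d ^ 2 * J ^ 2
    + (0 + (-416 / 25) * L + (416 / 25) * h) * d ^ 2 * J ^ 3
    + ((1144 / 625) + 0 * L + 0 * h) * d ^ 2 * J ^ 4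
    + ((3652 / 125) + (-7304 / 125) * L + 0 * h) * d ^ 4 * J ^ 0

noncomputable def UX5_5_0 (L h J : ℝ) : ℝ :=
  ((-10956 / 125) + (21912 / 25) * L + (-768) * h) * J ^ 0
    + (0 + (-1536) * L + 1536 * h) * J ^ 1
    + ((4224 / 25) + (58432 / 125) * L + (-45952 / 125) * h) * J ^ 2
    + ((-321376 / 3125) + (4992 / 25) * L + (-4992 / 25) * h) * J ^ 3
    + ((-13728 / 625) + 0 * L + 0 * h) * J ^ 4

lemma UX5_5_0_nonneg {L h J : ℝ} (hL0 : (6931471 / 10000000) ≤ L) (hL1 : L ≤ (433217 / 625000)) (hh0 : (67 / 400) ≤ h) (hh1 : h ≤ (117 / 500)) (hJ0 : 0 ≤ J) (hJ1 : J ≤ (39 / 50)) :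
    0 ≤ UX5_5_0 L h J := by
  obtain ⟨xl, hxl⟩ : ∃ x : ℝ, x = L - (6931471 / 10000000) := ⟨_, rfl⟩
  obtain ⟨xu, hxu⟩ : ∃ x : ℝ, x = (433217 / 625000) - L := ⟨_, rfl⟩
  obtain ⟨yl, hyl⟩ : ∃ x : ℝ, x = h - (67 / 400) := ⟨_, rfl⟩
  obtain ⟨yu, hyu⟩ : ∃ x : ℝ, x = (117 / 500) - h := ⟨_, rfl⟩
  obtain ⟨A, hA⟩ : ∃ x : ℝ, x = J - 0 := ⟨_, rfl⟩
  obtain ⟨B, hB⟩ : ∃ x : ℝ, x = (39 / 50) - J := ⟨_, rfl⟩
  have hxl0 : 0 ≤ xl := by rw [hxl]; linarith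
  have hxu0 : 0 ≤ xu := by rw [hxu]; linarith
  have hyl0 : 0 ≤ yl := by rw [hyl]; linarith
  have hyu0 : 0 ≤ yu := by rw [hyu]; linarith
  have hA0 : 0 ≤ A := by rw [hA]; linarith
  have hB0 : 0 ≤ B := by rw [hB]; linarith
  have key : UX5_5_0 L h J =
      ((90857257 / 98865) + (1826000000 / 771147) * xl + (1600000000 / 771147) * yu) * A ^ 0 * B ^ 4
      + ((216501956 / 98865) + (4808000000 / 771147) * xl + (3904000000 / 771147) * yu) * A ^ 1 * B ^ 3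
      + ((532788407348 / 308953125) + (451166720 / 85683) * xl + (859317760 / 257049) * yu) * A ^ 2 * B ^ 2
      + ((278611906882 / 514921875) + (1198414592 / 771147) * xl + (41320192 / 771147) * yu) * A ^ 3 * B ^ 1
      + ((2736702283459 / 60245859375) + (119914112 / 771147) * xl + (232633088 / 771147) * yl) * A ^ 4 * B ^ 0 := by
    simp only [hxl, hxu, hyl, hyu, hA, hB]
    unfold UX5_5_0
    ring
  rw [key]
  positivity

noncomputable def UX5_5_1 (L h J : ℝ) : ℝ :=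
  ((-58432 / 125) + (409024 / 125) * L + (-2560) * h) * J ^ 0
    + (0 + (-5120) * L + 5120 * h) * J ^ 1
    + ((2816 / 5) + (175296 / 125) * L + (-133696 / 125) * h) * J ^ 2
    + ((-964128 / 3125) + (3328 / 5) * L + (-3328 / 5) * h) * J ^ 3
    + ((-9152 / 125) + 0 * L + 0 * h) * J ^ 4

lemma UX5_5_1_nonneg {L h J : ℝ} (hL0 : (6931471 / 10000000) ≤ L) (hL1 : L ≤ (433217 / 625000)) (hh0 : (67 / 400) ≤ h) (hh1 : h ≤ (117 / 500)) (hJ0 : 0 ≤ J) (hJ1 : J ≤ (39 / 50)) :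
    0 ≤ UX5_5_1 L h J := by
  obtain ⟨xl, hxl⟩ : ∃ x : ℝ, x = L - (6931471 / 10000000) := ⟨_, rfl⟩
  obtain ⟨xu, hxu⟩ : ∃ x : ℝ, x = (433217 / 625000) - L := ⟨_, rfl⟩
  obtain ⟨yl, hyl⟩ : ∃ x : ℝ, x = h - (67 / 400) := ⟨_, rfl⟩
  obtain ⟨yu, hyu⟩ : ∃ x : ℝ, x = (117 / 500) - h := ⟨_, rfl⟩
  obtain ⟨A, hA⟩ : ∃ x : ℝ, x = J - 0 := ⟨_, rfl⟩
  obtain ⟨B, hB⟩ : ∃ x : ℝ, x = (39 / 50) - J := ⟨_, rfl⟩
  have hxl0 : 0 ≤ xl := by rw [hxl]; linarith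
  have hxu0 : 0 ≤ xu := by rw [hxu]; linarith
  have hyl0 : 0 ≤ yl := by rw [hyl]; linarith
  have hyu0 : 0 ≤ yu := by rw [hyu]; linarith
  have hA0 : 0 ≤ A := by rw [hA]; linarith
  have hB0 : 0 ≤ B := by rw [hB]; linarith
  have key : UX5_5_1 L h J =
      ((20861361032 / 6426225) + (20451200000 / 2313441) * xl + (16000000000 / 2313441) * yu) * A ^ 0 * B ^ 4
      + ((154833735584 / 19278675) + (56844800000 / 2313441) * xl + (39040000000 / 2313441) * yu) * A ^ 1 * B ^ 3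
      + ((9007926691774 / 1338796875) + (17719901440 / 771147) * xl + (8395677440 / 771147) * yu) * A ^ 2 * B ^ 2
      + ((83931973616744 / 36147515625) + (19563944960 / 2313441) * xl + (771799040 / 2313441) * yl) * A ^ 3 * B ^ 1
      + ((8808574079846 / 36147515625) + (2797840640 / 2313441) * xl + (2918831360 / 2313441) * yl) * A ^ 4 * B ^ 0 := by
    simp only [hxl, hxu, hyl, hyu, hA, hB]
    unfold UX5_5_1
    ring
  rw [key]
  positivity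

noncomputable def UX5_5_2 (L h J : ℝ) : ℝ :=
  ((-102256 / 125) + (525888 / 125) * L + (-2816) * h) * J ^ 0
    + (0 + (-5632) * L + 5632 * h) * J ^ 1
    + ((15488 / 25) + (175296 / 125) * L + (-129536 / 125) * h) * J ^ 2
    + ((-964128 / 3125) + (18304 / 25) * L + (-18304 / 25) * h) * J ^ 3
    + ((-50336 / 625) + 0 * L + 0 * h) * J ^ 4

lemma UX5_5_2_nonneg {L h J : ℝ} (hL0 : (6931471 / 10000000) ≤ L) (hL1 : L ≤ (433217 / 625000)) (hh0 : (67 / 400) ≤ h) (hh1 : h ≤ (117 / 500)) (hJ0 : 0 ≤ J) (hJ1 : J ≤ (39 / 50)) :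
    0 ≤ UX5_5_2 L h J := by
  obtain ⟨xl, hxl⟩ : ∃ x : ℝ, x = L - (6931471 / 10000000) := ⟨_, rfl⟩
  obtain ⟨xu, hxu⟩ : ∃ x : ℝ, x = (433217 / 625000) - L := ⟨_, rfl⟩
  obtain ⟨yl, hyl⟩ : ∃ x : ℝ, x = h - (67 / 400) := ⟨_, rfl⟩
  obtain ⟨yu, hyu⟩ : ∃ x : ℝ, x = (117 / 500) - h := ⟨_, rfl⟩
  obtain ⟨A, hA⟩ : ∃ x : ℝ, x = J - 0 := ⟨_, rfl⟩
  obtain ⟨B, hB⟩ : ∃ x : ℝ, x = (39 / 50) - J := ⟨_, rfl⟩
  have hxl0 : 0 ≤ xl := by rw [hxl]; linarith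
  have hxu0 : 0 ≤ xu := by rw [hxu]; linarith
  have hyl0 : 0 ≤ yl := by rw [hyl]; linarith
  have hyu0 : 0 ≤ yu := by rw [hyu]; linarith
  have hA0 : 0 ≤ A := by rw [hA]; linarith
  have hB0 : 0 ≤ B := by rw [hB]; linarith
  have key : UX5_5_2 L h J =
      ((224867177656 / 57836025) + (2921600000 / 257049) * xl + (17600000000 / 2313441) * yu) * A ^ 0 * B ^ 4
      + ((584310141184 / 57836025) + (25907200000 / 771147) * xl + (42944000000 / 2313441) * yu) * A ^ 1 * B ^ 3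
      + ((110827893185966 / 12049171875) + (8970100480 / 257049) * xl + (9057495040 / 771147) * yu) * A ^ 2 * B ^ 2
      + ((654223920368194 / 180737578125) + (440076032 / 28561) * xl + (1915479808 / 2313441) * yl) * A ^ 3 * B ^ 1
      + ((91009061231704 / 180737578125) + (2114151424 / 771147) * xl + (3743964928 / 2313441) * yl) * A ^ 4 * B ^ 0 := by
    simp only [hxl, hxu, hyl, hyu, hA, hB]
    unfold UX5_5_2
    ring
  rw [key]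
  positivity

noncomputable def UX5_5_3 (L h J : ℝ) : ℝ :=
  ((-58432 / 125) + (233728 / 125) * L + (-1024) * h) * J ^ 0
    + (0 + (-2048) * L + 2048 * h) * J ^ 1
    + ((5632 / 25) + (58432 / 125) * L + (-41792 / 125) * h) * J ^ 2
    + ((-321376 / 3125) + (6656 / 25) * L + (-6656 / 25) * h) * J ^ 3
    + ((-18304 / 625) + 0 * L + 0 * h) * J ^ 4

lemma UX5_5_3_nonneg {L h J : ℝ} (hL0 : (6931471 / 10000000) ≤ L) (hL1 : L ≤ (433217 / 625000)) (hh0 : (67 / 400) ≤ h) (hh1 : h ≤ (117 / 500)) (hJ0 : 0 ≤ J) (hJ1 : J ≤ (39 / 50)) :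
    0 ≤ UX5_5_3 L h J := by
  obtain ⟨xl, hxl⟩ : ∃ x : ℝ, x = L - (6931471 / 10000000) := ⟨_, rfl⟩
  obtain ⟨xu, hxu⟩ : ∃ x : ℝ, x = (433217 / 625000) - L := ⟨_, rfl⟩
  obtain ⟨yl, hyl⟩ : ∃ x : ℝ, x = h - (67 / 400) := ⟨_, rfl⟩
  obtain ⟨yu, hyu⟩ : ∃ x : ℝ, x = (117 / 500) - h := ⟨_, rfl⟩
  obtain ⟨A, hA⟩ : ∃ x : ℝ, x = J - 0 := ⟨_, rfl⟩
  obtain ⟨B, hB⟩ : ∃ x : ℝ, x = (39 / 50) - J := ⟨_, rfl⟩
  have hxl0 : 0 ≤ xl := by rw [hxl]; linarith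
  have hxu0 : 0 ≤ xu := by rw [hxu]; linarith
  have hyl0 : 0 ≤ yl := by rw [hyl]; linarith
  have hyu0 : 0 ≤ yu := by rw [hyu]; linarith
  have hA0 : 0 ≤ A := by rw [hA]; linarith
  have hB0 : 0 ≤ B := by rw [hB]; linarith
  have key : UX5_5_3 L h J =
      ((30676618912 / 19278675) + (11686400000 / 2313441) * xl + (6400000000 / 2313441) * yu) * A ^ 0 * B ^ 4
      + ((9389492992 / 2142075) + (36761600000 / 2313441) * xl + (15616000000 / 2313441) * yu) * A ^ 1 * B ^ 3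
      + ((17579864041774 / 4016390625) + (13981300480 / 771147) * xl + (3239770880 / 771147) * yu) * A ^ 2 * B ^ 2
      + ((355043758317556 / 180737578125) + (21138257408 / 2313441) * xl + (1019720192 / 2313441) * yl) * A ^ 3 * B ^ 1
      + ((60687025879726 / 180737578125) + (4269555968 / 2313441) * xl + (1523032832 / 2313441) * yl) * A ^ 4 * B ^ 0 := by
    simp only [hxl, hxu, hyl, hyu, hA, hB]
    unfold UX5_5_3
    ring
  rw [key]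
  positivity

lemma UX5_5_nonneg {L h d J : ℝ} (hL0 : (6931471 / 10000000) ≤ L) (hL1 : L ≤ (433217 / 625000)) (hh0 : (67 / 400) ≤ h) (hh1 : h ≤ (117 / 500)) (hd0 : (1 / 2) ≤ d) (hd1 : d ≤ 1) (hJ0 : 0 ≤ J) (hJ1 : J ≤ (39 / 50)) :
    0 ≤ UX5_5 L h d J := by
  have c0 := UX5_5_0_nonneg hL0 hL1 hh0 hh1 hJ0 hJ1
  have c1 := UX5_5_1_nonneg hL0 hL1 hh0 hh1 hJ0 hJ1
  have c2 := UX5_5_2_nonneg hL0 hL1 hh0 hh1 hJ0 hJ1
  have c3 := UX5_5_3_nonneg hL0 hL1 hh0 hh1 hJ0 hJ1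
  have key : UX5_5 L h d J =
      (d - (1 / 2)) ^ 0 * (1 - d) ^ 4 * UX5_5_0 L h J
      + (d - (1 / 2)) ^ 1 * (1 - d) ^ 3 * UX5_5_1 L h J
      + (d - (1 / 2)) ^ 2 * (1 - d) ^ 2 * UX5_5_2 L h J
      + (d - (1 / 2)) ^ 3 * (1 - d) ^ 1 * UX5_5_3 L h J := by
    unfold UX5_5 UX5_5_0 UX5_5_1 UX5_5_2 UX5_5_3
    ring
  have hA : 0 ≤ d - (1 / 2) := by linarith
  have hB : 0 ≤ 1 - d := by linarith
  rw [key]
  positivity

lemma UX5_nonneg {L h a d J : ℝ} (hL0 : (6931471 / 10000000) ≤ L) (hL1 : L ≤ (433217 / 625000)) (hh0 : (67 / 400) ≤ h) (hh1 : h ≤ (117 / 500)) (ha0 : (1 / 2) ≤ a) (ha1 : a ≤ 1) (hd0 : (1 / 2) ≤ d) (hd1 : d ≤ 1) (hJ0 : 0 ≤ J) (hJ1 : J ≤ (39 / 50)) :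
    0 ≤ UX5 L h a d J := by
  have c0 := UX5_0_nonneg hL0 hL1 hh0 hh1 hd0 hd1 hJ0 hJ1
  have c1 := UX5_1_nonneg hL0 hL1 hh0 hh1 hd0 hd1 hJ0 hJ1
  have c2 := UX5_2_nonneg hL0 hL1 hh0 hh1 hd0 hd1 hJ0 hJ1
  have c3 := UX5_3_nonneg hL0 hL1 hh0 hh1 hd0 hd1 hJ0 hJ1
  have c4 := UX5_4_nonneg hL0 hL1 hh0 hh1 hd0 hd1 hJ0 hJ1
  have c5 := UX5_5_nonneg hL0 hL1 hh0 hh1 hd0 hd1 hJ0 hJ1
  have key : UX5 L h a d J =
      (a - (1 / 2)) ^ 0 * (1 - a) ^ 5 * UX5_0 L h d J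
      + (a - (1 / 2)) ^ 1 * (1 - a) ^ 4 * UX5_1 L h d J
      + (a - (1 / 2)) ^ 2 * (1 - a) ^ 3 * UX5_2 L h d J
      + (a - (1 / 2)) ^ 3 * (1 - a) ^ 2 * UX5_3 L h d J
      + (a - (1 / 2)) ^ 4 * (1 - a) ^ 1 * UX5_4 L h d J
      + (a - (1 / 2)) ^ 5 * (1 - a) ^ 0 * UX5_5 L h d J := by
    unfold UX5 UX5_0 UX5_1 UX5_2 UX5_3 UX5_4 UX5_5
    ring
  have hA : 0 ≤ a - (1 / 2) := by linarith
  have hB : 0 ≤ 1 - a := by linarith
  rw [key]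
  positivity

end Vale.Agent.Lib.P322.Pot
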