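import Vale.Agent.Lib.P322.Pot.Ult.CertG1
import Vale.Agent.Lib.P322.Pot.Ult.CertG2
import Vale.Agent.Lib.P322.Pot.Ult.CertG3
import Vale.Agent.Lib.P322.Pot.Ult.CertX0
import Vale.Agent.Lib.P322.Pot.Ult.CertX1
import Vale.Agent.Lib.P322.Pot.Ult.CertX2
import Vale.Agent.Lib.P322.Pot.Ult.CertX3
import Vale.Agent.Lib.P322.Pot.Ult.CertX4
import Vale.Agent.Lib.P322.Pot.Ult.CertX5

/-!
P322, potential method, range `7/8 ≤ ρ ≤ 23/25`.  The polynomial inequalities behind the pointwise inequality `PA_ult`.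
`L` stands for `log 2`, `h` for `log 2 - Lam ρ`, `L - h` for `Lam ρ`; `a`, `d` are the parameters of an atom (`|u| = a d`).
-/

namespace Vale.Agent.Lib.P322.Pot

/-- lower bound for `cf + Gf` -/
noncomputable def KU (L h a d : ℝ) : ℝ :=
  h + (L - h) * (a ^ 2 + d ^ 2 * (1 - a ^ 2) ^ 2)
    + (33 / 200 - 39 / 100 * h) * (1 - a ^ 2) * (a ^ 2 - 11 / 10 * d ^ 2)
    - (a ^ 2 * d ^ 2 / 2 + (L - 1 / 2) * a ^ 4 * d ^ 4)

noncomputable def RU (L h J : ℝ) : ℝ := h + 2 * (L - h) * J - 11 / 50 * J ^ 2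

noncomputable def TU (L h J : ℝ) : ℝ := (L - h) * J ^ 2 - 11 / 50 * J ^ 3

/-- the inequality with `x1 = 1 - (26/25) a` -/
noncomputable def PUT (L h a d J : ℝ) : ℝ :=
  (1 - 26 / 25 * a) * ((RU L h J - 2 * h) * (1 - 26 / 25 * a) + 2 * TU L h J * (1 - a * d)
      + 2 * KU L h a d)
    - (1 - 13 / 100 * J ^ 2) * RU L h J * (1 - a ^ 2) * (1 - d ^ 2)

/-- the inequality with `x1 = (1 - a)(1 - (87/1000) a)`, divided by `1 - a` -/
noncomputable def PUX (L h a d J : ℝ) : ℝ :=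
  (1 - 87 / 1000 * a) * ((RU L h J - 2 * h) * (1 - a) * (1 - 87 / 1000 * a)
      + 2 * TU L h J * (1 - a * d) + 2 * KU L h a d)
    - (1 - 13 / 100 * J ^ 2) * RU L h J * (1 + a) * (1 - d ^ 2)

lemma PUT_eq1 (L h a b g : ℝ) : PUT L h a (b * a) (g * a) = a ^ 2 * UG1 L h a b g := by
  unfold PUT KU RU TU UG1
  ring

lemma PUT_eq2 (L h al b J : ℝ) : PUT L h (al * J) (b * (al * J)) J = J ^ 2 * UG2 L h al b J := by
  unfold PUT KU RU TU UG2
  ring

lemma PUT_eq3 (L h a b J : ℝ) : PUT L h a (b * a) J = UG3 L h a b J := by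
  unfold PUT KU RU TU UG3
  ring

lemma PUT_nonneg {L h a d J : ℝ} (hL0 : 6931471 / 10000000 ≤ L) (hL1 : L ≤ 433217 / 625000)
    (hh0 : 67 / 400 ≤ h) (hh1 : h ≤ 117 / 500) (ha0 : 0 ≤ a) (ha1 : a ≤ 1 / 2)
    (hd0 : 0 ≤ d) (hda : d ≤ a) (hJ0 : 0 ≤ J) (hJ1 : J ≤ 39 / 50) : 0 ≤ PUT L h a d J := by
  rcases eq_or_lt_of_le ha0 with ha | ha
  · -- a = 0, so d = 0
    have hd : d = 0 := le_antisymm (by rw [← ha] at hda; exact hda) hd0
    rcases le_total J (1 / 2) with hJ | hJ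
    · have e := PUT_eq2 L h 0 0 J
      have c := UG2_nonneg (al := 0) (b := 0) hL0 hL1 hh0 hh1 le_rfl (by norm_num) le_rfl
        (by norm_num) hJ0 hJ
      rw [← ha, hd]
      simp only [zero_mul, mul_zero] at e
      rw [e]
      positivity
    · have e := PUT_eq3 L h 0 0 J
      have c := UG3_nonneg (a := 0) (b := 0) hL0 hL1 hh0 hh1 le_rfl (by norm_num) le_rfl
        (by norm_num) hJ hJ1
      rw [← ha, hd]
      simp only [zero_mul, mul_zero] at e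
      rw [e]
      exact c
  · obtain ⟨b, hb⟩ : ∃ b : ℝ, b = d / a := ⟨_, rfl⟩
    have hb0 : 0 ≤ b := by rw [hb]; positivity
    have hb1 : b ≤ 1 := by rw [hb, div_le_one ha]; exact hda
    have hdb : d = b * a := by rw [hb]; field_simp
    rcases le_total J a with hJa | hJa
    · obtain ⟨g, hg⟩ : ∃ g : ℝ, g = J / a := ⟨_, rfl⟩
      have hg0 : 0 ≤ g := by rw [hg]; positivity
      have hg1 : g ≤ 1 := by rw [hg, div_le_one ha]; exact hJa
      have hJg : J = g * a := by rw [hg]; field_simp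
      have c := UG1_nonneg hL0 hL1 hh0 hh1 ha0 ha1 hb0 hb1 hg0 hg1
      rw [hdb, hJg, PUT_eq1]
      positivity
    · rcases le_total J (1 / 2) with hJ | hJ
      · have hJpos : 0 < J := lt_of_lt_of_le ha hJa
        obtain ⟨al, hal⟩ : ∃ al : ℝ, al = a / J := ⟨_, rfl⟩
        have hal0 : 0 ≤ al := by rw [hal]; positivity
        have hal1 : al ≤ 1 := by rw [hal, div_le_one hJpos]; exact hJa
        have haJ : a = al * J := by rw [hal]; field_simp
        have c := UG2_nonneg hL0 hL1 hh0 hh1 hal0 hal1 hb0 hb1 hJ0 hJ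
        rw [hdb, haJ, PUT_eq2]
        positivity
      · have c := UG3_nonneg hL0 hL1 hh0 hh1 ha0 ha1 hb0 hb1 hJ hJ1
        rw [hdb, PUT_eq3]
        exact c

lemma PUX_nonneg {L h a d J : ℝ} (hL0 : 6931471 / 10000000 ≤ L) (hL1 : L ≤ 433217 / 625000)
    (hh0 : 67 / 400 ≤ h) (hh1 : h ≤ 117 / 500) (ha0 : 1 / 2 ≤ a) (ha1 : a ≤ 1)
    (hd0 : 0 ≤ d) (hd1 : d ≤ 1) (hJ0 : 0 ≤ J) (hJ1 : J ≤ 39 / 50) : 0 ≤ PUX L h a d J := by
  have e0 : PUX L h a d J = UX0 L h a d J := by unfold PUX KU RU TU UX0; ring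
  have e1 : PUX L h a d J = UX1 L h a d J := by unfold PUX KU RU TU UX1; ring
  have e2 : PUX L h a d J = UX2 L h a d J := by unfold PUX KU RU TU UX2; ring
  have e3 : PUX L h a d J = UX3 L h a d J := by unfold PUX KU RU TU UX3; ring
  have e4 : PUX L h a d J = UX4 L h a d J := by unfold PUX KU RU TU UX4; ring
  have e5 : PUX L h a d J = UX5 L h a d J := by unfold PUX KU RU TU UX5; ring
  rcases le_total d (1 / 2) with hd | hd
  · rcases le_total a (3 / 4) with ha | ha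
    · rcases le_total d (1 / 4) with hd' | hd'
      · rcases le_total J (39 / 100) with hJ | hJ
        · rw [e0]; exact UX0_nonneg hL0 hL1 hh0 hh1 ha0 ha hd0 hd' hJ0 hJ
        · rcases le_total a (5 / 8) with ha' | ha'
          · rw [e1]; exact UX1_nonneg hL0 hL1 hh0 hh1 ha0 ha' hd0 hd' hJ hJ1
          · rw [e2]; exact UX2_nonneg hL0 hL1 hh0 hh1 ha' ha hd0 hd' hJ hJ1
      · rw [e3]; exact UX3_nonneg hL0 hL1 hh0 hh1 ha0 ha hd' hd hJ0 hJ1
    · rw [e4]; exact UX4_nonneg hL0 hL1 hh0 hh1 ha ha1 hd0 hd hJ0 hJ1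
  · rw [e5]; exact UX5_nonneg hL0 hL1 hh0 hh1 ha0 ha1 hd hd1 hJ0 hJ1

end Vale.Agent.Lib.P322.Pot
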