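import Vale.Agent.Lib.P322.Pot.Ult.Consts
import Vale.Agent.Lib.P322.Pot.Ult.Poly

/-!
P322, potential method, range `7/8 ≤ ρ ≤ 23/25`.  The pointwise inequality.
-/

namespace Vale.Agent.Lib.P322.Pot

open Real Vale.Agent.Lib.P322

/-- Facts about one atom with `|u| < 1`.  Copy the proof of `atom_top` (Pot/Top/Atom.lean): `a, d0` from `param`, `d = |d0|`, `w = v^2/(1-u^2)`, `h = log 2 - Lam ρ`.
The last claim is proved exactly as there, with `z = 33/200 - (39/100) h` in place of `146/1000 - (312/1000) h` (`0 ≤ z` by `consts_ult`, `z ≤ Lam ρ - ρ^2/2` by `zeta_ult`)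
(unfold `KU`).  The two lower bounds of `Gf`: `avg_minorant` with `(c0, c1, c2) = (h, (26/25) h, 0)` and `minor_line`, respectively
`(c0, c1, c2) = (h, (1087/1000) h, (87/1000) h)` and `minor_x0`; the half sum of the two square roots is `a` (`haeq` of `param`), and
`1 - w ≥ a^2` (from `atom_hi_alg2`: `1 - w - a^2 ≥ d^2 (1-a^2)^2 ≥ 0`), so `h (1 - (1087/1000) a + (87/1000)(1-w)) ≥ h (1-a)(1 - (87/1000) a)`. -/
lemma atom_ult {ρ u v : ℝ} (h0 : 7 / 8 ≤ ρ) (h1 : ρ ≤ 23 / 25) (huv : |u| + |v| ≤ 1) (hu : |u| < 1) :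
    ∃ a d : ℝ, 0 ≤ a ∧ a ≤ 1 ∧ 0 ≤ d ∧ d ≤ a ∧ |u| = a * d ∧ v ^ 2 = (1 - a ^ 2) * (1 - d ^ 2) ∧
      (Real.log 2 - Lam ρ) * (1 - 26 / 25 * a) ≤ Gf ρ u v ∧
      (Real.log 2 - Lam ρ) * ((1 - a) * (1 - 87 / 1000 * a)) ≤ Gf ρ u v ∧
      KU (Real.log 2) (Real.log 2 - Lam ρ) a d ≤ cf u v + Gf ρ u v := by
  have hρ0 : 0 ≤ ρ := by linarith
  have hρ1 : ρ < 1 := by linarith
  obtain ⟨hh0, hh1⟩ := consts_ult h0 h1
  have hzeta := zeta_ult h0 h1
  have hlam0 : 0 ≤ Lam ρ := Lam_nonneg hρ0 hρ1.le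
  obtain ⟨a, d0, ha0, ha1, hd, hua, hva, haeq⟩ := param huv
  have hu1 : u ^ 2 < 1 := by
    have := abs_nonneg u
    rw [← sq_abs]; nlinarith
  have hupos : 0 < 1 - u ^ 2 := by linarith
  have hub := abs_lt.mp hu
  have hLu := Lam_le_quartic (u := u) hub.1.le hub.2.le
  have ha2 : a ^ 2 ≤ 1 := by nlinarith
  have hdd : |d0| ^ 2 = d0 ^ 2 := sq_abs d0
  have hq0 : 0 ≤ d0 ^ 2 := sq_nonneg d0
  have hu2 : u ^ 2 = a ^ 2 * d0 ^ 2 := by rw [hua]; ring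
  have hwD : v ^ 2 / (1 - u ^ 2) * (1 - u ^ 2) = v ^ 2 := div_mul_cancel₀ _ hupos.ne'
  have hda : |d0| ≤ a := abs_le_of_sq_le_sq hd ha0
  have huabs : |u| = a * |d0| := by rw [hua, abs_mul, abs_of_nonneg ha0]
  have hd4 : |d0| ^ 4 = (d0 ^ 2) ^ 2 := by
    have : |d0| ^ 4 = (|d0| ^ 2) ^ 2 := by ring
    rw [this, hdd]
  have hge := atom_hi_alg2 hupos (sq_nonneg u) hwD hva hu2 hq0
  have hhpos : 0 ≤ Real.log 2 - Lam ρ := by linarith
  have hm1 := avg_minorant (ρ := ρ) (u := u) (v := v) (c0 := Real.log 2 - Lam ρ)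
    (c1 := 26 / 25 * (Real.log 2 - Lam ρ)) (c2 := 0)
    (fun t ht0 ht1 => le_trans (le_of_eq (by ring)) (minor_line h0 h1 ht0 ht1)) huv hu
  have hm2 := avg_minorant (ρ := ρ) (u := u) (v := v) (c0 := Real.log 2 - Lam ρ)
    (c1 := 1087 / 1000 * (Real.log 2 - Lam ρ)) (c2 := 87 / 1000 * (Real.log 2 - Lam ρ))
    (fun t ht0 ht1 => le_trans (le_of_eq (by ring)) (minor_x0 h0 h1 ht0 ht1)) huv hu
  rw [← haeq] at hm1 hm2
  refine ⟨a, |d0|, ha0, ha1, abs_nonneg d0, hda, huabs, by rw [hdd]; exact hva, ?_, ?_, ?_⟩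
  · refine le_trans (le_of_eq ?_) hm1
    ring
  · have hw : a ^ 2 ≤ 1 - v ^ 2 / (1 - u ^ 2) := by
      have : 0 ≤ d0 ^ 2 * (1 - a ^ 2) ^ 2 := by positivity
      linarith
    have k1 : 87 / 1000 * (Real.log 2 - Lam ρ) * a ^ 2
        ≤ 87 / 1000 * (Real.log 2 - Lam ρ) * (1 - v ^ 2 / (1 - u ^ 2)) :=
      mul_le_mul_of_nonneg_left hw (by positivity)
    have k2 : (Real.log 2 - Lam ρ) * ((1 - a) * (1 - 87 / 1000 * a))
        = Real.log 2 - Lam ρ - 1087 / 1000 * (Real.log 2 - Lam ρ) * a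
          + 87 / 1000 * (Real.log 2 - Lam ρ) * a ^ 2 := by ring
    rw [k2]
    linarith
  · have e1 : cf u v + Gf ρ u v
        = Real.log 2 - Lam u - ((Lam (u + ρ * v) + Lam (u - ρ * v)) / 2 - Lam u) := by
      unfold cf Gf; ring
    have hLh : Real.log 2 - (Real.log 2 - Lam ρ) = Lam ρ := by ring
    unfold KU
    rw [e1, hdd, hd4, hLh]
    have hz0 : 0 ≤ 33 / 200 - 39 / 100 * (Real.log 2 - Lam ρ) := by linarith
    -- the key bound on the second difference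
    have hS : (Lam (u + ρ * v) + Lam (u - ρ * v)) / 2 - Lam u
        ≤ Lam ρ * (v ^ 2 / (1 - u ^ 2))
          - (33 / 200 - 39 / 100 * (Real.log 2 - Lam ρ))
            * ((1 - a ^ 2) * (a ^ 2 - 11 / 10 * d0 ^ 2)) := by
      rcases le_or_gt (11 / 10 * d0 ^ 2) (a ^ 2) with hcase | hcase
      · have her := eS_upper2 hρ0 hρ1.le huv hu
        have hxi := xi_alg (a := a) (d := d0) ha0 ha1 hcase
        have hD3 : 0 < (1 - u ^ 2) ^ 3 := by positivity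
        have hX : (v ^ 2 / (1 - u ^ 2) - v ^ 4 * (1 + 3 * u ^ 2) / (1 - u ^ 2) ^ 3) * (1 - u ^ 2) ^ 3
            = v ^ 2 * (1 - u ^ 2) ^ 2 - (v ^ 2) ^ 2 * (1 + 3 * u ^ 2) := by
          field_simp
        have hxi2 : (1 - a ^ 2) * (a ^ 2 - 11 / 10 * d0 ^ 2) * (1 - u ^ 2) ^ 3
            ≤ (v ^ 2 / (1 - u ^ 2) - v ^ 4 * (1 + 3 * u ^ 2) / (1 - u ^ 2) ^ 3) * (1 - u ^ 2) ^ 3 := by
          rw [hX, hva, hu2]
          have e3 : 1 + 3 * (a ^ 2 * d0 ^ 2) = 1 + 3 * a ^ 2 * d0 ^ 2 := by ring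
          rw [e3]
          exact hxi
        have hxi3 : (1 - a ^ 2) * (a ^ 2 - 11 / 10 * d0 ^ 2)
            ≤ v ^ 2 / (1 - u ^ 2) - v ^ 4 * (1 + 3 * u ^ 2) / (1 - u ^ 2) ^ 3 :=
          le_of_mul_le_mul_right hxi2 hD3
        have hXi0 : 0 ≤ (1 - a ^ 2) * (a ^ 2 - 11 / 10 * d0 ^ 2) :=
          mul_nonneg (by linarith) (by linarith)
        have m1 : (33 / 200 - 39 / 100 * (Real.log 2 - Lam ρ))
              * ((1 - a ^ 2) * (a ^ 2 - 11 / 10 * d0 ^ 2))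
            ≤ (Lam ρ - ρ ^ 2 / 2)
              * (v ^ 2 / (1 - u ^ 2) - v ^ 4 * (1 + 3 * u ^ 2) / (1 - u ^ 2) ^ 3) :=
          mul_le_mul hzeta hxi3 hXi0 (le_trans hz0 hzeta)
        have m2 : ρ ^ 2 / 2 * (v ^ 2 / (1 - u ^ 2))
              + (Lam ρ - ρ ^ 2 / 2) * (v ^ 4 * (1 + 3 * u ^ 2) / (1 - u ^ 2) ^ 3)
            = Lam ρ * (v ^ 2 / (1 - u ^ 2)) - (Lam ρ - ρ ^ 2 / 2)
              * (v ^ 2 / (1 - u ^ 2) - v ^ 4 * (1 + 3 * u ^ 2) / (1 - u ^ 2) ^ 3) := by ring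
        rw [m2] at her
        linarith
      · have her := eS_upper hρ0 hρ1.le huv hu
        have hXi0 : (1 - a ^ 2) * (a ^ 2 - 11 / 10 * d0 ^ 2) ≤ 0 :=
          mul_nonpos_of_nonneg_of_nonpos (by linarith) (by linarith)
        have m1 : (33 / 200 - 39 / 100 * (Real.log 2 - Lam ρ))
              * ((1 - a ^ 2) * (a ^ 2 - 11 / 10 * d0 ^ 2)) ≤ 0 :=
          mul_nonpos_of_nonneg_of_nonpos hz0 hXi0
        linarith
    have k1 : Lam ρ * (d0 ^ 2 * (1 - a ^ 2) ^ 2) ≤ Lam ρ * (1 - v ^ 2 / (1 - u ^ 2) - a ^ 2) :=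
      mul_le_mul_of_nonneg_left hge hlam0
    have k2 : u ^ 2 / 2 + (Real.log 2 - 1 / 2) * u ^ 4
        = a ^ 2 * d0 ^ 2 / 2 + (Real.log 2 - 1 / 2) * a ^ 4 * (d0 ^ 2) ^ 2 := by
      have : u ^ 4 = (u ^ 2) ^ 2 := by ring
      rw [this, hu2]; ring
    have k3 : Lam ρ * (a ^ 2 + d0 ^ 2 * (1 - a ^ 2) ^ 2)
        = Lam ρ * a ^ 2 + Lam ρ * (d0 ^ 2 * (1 - a ^ 2) ^ 2) := by ring
    have k4 : Lam ρ * (1 - v ^ 2 / (1 - u ^ 2) - a ^ 2)
        = Lam ρ - Lam ρ * (v ^ 2 / (1 - u ^ 2)) - Lam ρ * a ^ 2 := by ring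
    have k5 : (33 / 200 - 39 / 100 * (Real.log 2 - Lam ρ)) * (1 - a ^ 2)
          * (a ^ 2 - 11 / 10 * d0 ^ 2)
        = (33 / 200 - 39 / 100 * (Real.log 2 - Lam ρ))
          * ((1 - a ^ 2) * (a ^ 2 - 11 / 10 * d0 ^ 2)) := by ring
    rw [k3, k5]
    rw [k2] at hLu
    linarith

/-- Compare `PA_top` (Pot/Top/Atom.lean).  If `|u| = 1` then `v = 0`.  Otherwise take `a, d` from `atom_ult`, put `L = log 2`, `h = L - Lam ρ`, `R = RU L h J ≥ h > 0`,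
`T = TU L h J (1 - a d) ≥ 0` (`RU_TU_facts`-type bounds: `R - h = J (2 lam - (11/50) J) ≥ 0`, `TU = J^2 (lam - (11/50) J) ≥ 0`), `x = Gf/h`, `c = cf u v ≥ 0`, `K0 = KU L h a d`.
`psi_mono2` gives `x1 ((R - 2h) x1 + 2 T + 2 K0) ≤ x (R x + 2 T + 2 c)` for every `0 ≤ x1 ≤ x`.
If `a ≤ 1/2` take `x1 = 1 - (26/25) a > 0`: `PUT_nonneg` says `(1 - (13/100) J^2) R (1-a^2)(1-d^2) ≤ x1 ((R-2h) x1 + 2 T + 2 K0)`.
If `a ≥ 1/2` take `x1 = (1-a)(1 - (87/1000) a) ≥ 0`: `PUX_nonneg` times `1 - a ≥ 0` says the same.  Divide by `R`. -/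
theorem PA_ult {ρ u v J : ℝ} (h0 : 7 / 8 ≤ ρ) (h1 : ρ ≤ 23 / 25) (huv : |u| + |v| ≤ 1)
    (hJ0 : 0 ≤ J) (hJ1 : J ≤ 39 / 50) :
    (1 - 13 / 100 * J ^ 2) * v ^ 2 ≤ (Gf ρ u v / (Real.log 2 - Lam ρ)) *
      (Gf ρ u v / (Real.log 2 - Lam ρ)
        + 2 * (TU (Real.log 2) (Real.log 2 - Lam ρ) J * (1 - |u|) + cf u v)
          / RU (Real.log 2) (Real.log 2 - Lam ρ) J) := by
  rcases lt_or_ge |u| 1 with hu | hu
  · obtain ⟨a, d, ha0, ha1, hd0, hda, hua, hva, hG1, hG2, hK⟩ := atom_ult h0 h1 huv hu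
    obtain ⟨hh0, hh1⟩ := consts_ult h0 h1
    have hL0 : (6931471 / 10000000 : ℝ) ≤ Real.log 2 := by
      have := Real.log_two_gt_d9; linarith
    have hL1 : Real.log 2 ≤ 433217 / 625000 := by
      have := Real.log_two_lt_d9; linarith
    have hc0 := cf_nonneg huv
    set h := Real.log 2 - Lam ρ with hh
    set L := Real.log 2 with hL
    have hhpos : 0 < h := by linarith
    have hRh : h ≤ RU L h J := by
      have e : RU L h J - h = J * (2 * (L - h) - 11 / 50 * J) := by unfold RU; ring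
      have : 0 ≤ J * (2 * (L - h) - 11 / 50 * J) := mul_nonneg hJ0 (by linarith)
      linarith
    have hR : 0 < RU L h J := by linarith
    have hT0 : 0 ≤ TU L h J := by
      have e : TU L h J = J ^ 2 * ((L - h) - 11 / 50 * J) := by unfold TU; ring
      rw [e]
      exact mul_nonneg (sq_nonneg J) (by linarith)
    set x := Gf ρ u v / h with hx
    have hhx : h * x = Gf ρ u v := by rw [hx]; field_simp
    have had : 0 ≤ 1 - a * d := by
      have : a * d = |u| := hua.symm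
      rw [this]; linarith
    have hT : 0 ≤ TU L h J * (1 - a * d) := mul_nonneg hT0 had
    have hfin : (1 - 13 / 100 * J ^ 2) * v ^ 2 * RU L h J
        ≤ x * (RU L h J * x + 2 * (TU L h J * (1 - a * d)) + 2 * cf u v) := by
      rcases le_total a (1 / 2) with ha | ha
      · have hx1 : 0 ≤ 1 - 26 / 25 * a := by linarith
        have hx1x : 1 - 26 / 25 * a ≤ x := by
          rw [hx, le_div_iff₀ hhpos]; linarith
        have hmono := psi_mono2 (h := h) (R := RU L h J) (T := TU L h J * (1 - a * d))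
          (x := x) (x1 := 1 - 26 / 25 * a) (c := cf u v) (K0 := KU L h a d)
          hhpos.le hRh hT hx1 hx1x hc0 (by rw [hhx]; exact hK)
        have hpoly := PUT_nonneg (L := L) (h := h) (a := a) (d := d) (J := J)
          hL0 hL1 hh0 hh1 ha0 ha hd0 hda hJ0 hJ1
        unfold PUT at hpoly
        rw [hva]
        nlinarith [hmono, hpoly]
      · have h1a : 0 ≤ 1 - a := by linarith
        have hx1 : 0 ≤ (1 - a) * (1 - 87 / 1000 * a) := mul_nonneg h1a (by linarith)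
        have hx1x : (1 - a) * (1 - 87 / 1000 * a) ≤ x := by
          rw [hx, le_div_iff₀ hhpos]; linarith
        have hmono := psi_mono2 (h := h) (R := RU L h J) (T := TU L h J * (1 - a * d))
          (x := x) (x1 := (1 - a) * (1 - 87 / 1000 * a)) (c := cf u v) (K0 := KU L h a d)
          hhpos.le hRh hT hx1 hx1x hc0 (by rw [hhx]; exact hK)
        have hpoly := PUX_nonneg (L := L) (h := h) (a := a) (d := d) (J := J)
          hL0 hL1 hh0 hh1 ha ha1 hd0 (by linarith) hJ0 hJ1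
        have hpoly2 := mul_nonneg h1a hpoly
        unfold PUX at hpoly2
        rw [hva]
        nlinarith [hmono, hpoly2]
    have hrw : x * (x + 2 * (TU L h J * (1 - |u|) + cf u v) / RU L h J)
        = x * (RU L h J * x + 2 * (TU L h J * (1 - a * d)) + 2 * cf u v) / RU L h J := by
      rw [hua]
      field_simp
      ring
    rw [hrw, le_div_iff₀ hR]
    exact hfin
  · have hv := v_zero_of huv hu
    rw [hv, Gf_zero]; simp

end Vale.Agent.Lib.P322.Pot
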