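import Mathlib
import Vale.Agent.Lib.P322.Pot.Top.Box3

/-!
P322, potential method, range `7/8 ≤ ρ ≤ 23/25`.  Generated certificate: the polynomial `UG1` is nonnegative on a box (iterated expansion in the products
`(x - lo)^i (hi - x)^(n-i)`; all coefficients are affine in `(L, h)` and nonnegative).
-/

set_option linter.unusedSimpArgs false

namespace Vale.Agent.Lib.P322.Pot

noncomputable def UG1 (L h a b g : ℝ) : ℝ :=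
  ((33 / 100) + 2 * L + (-3577 / 1250) * h) * a ^ 0 * b ^ 0 * g ^ 0
    + (0 + (-104 / 25) * L + (104 / 25) * h) * a ^ 0 * b ^ 0 * g ^ 1
    + (0 + 2 * L + (-187 / 100) * h) * a ^ 0 * b ^ 0 * g ^ 2
    + ((-363 / 1000) + 2 * L + (-71 / 500) * h) * a ^ 0 * b ^ 2 * g ^ 0
    + ((-429 / 1250) + (-52 / 25) * L + (1807 / 625) * h) * a ^ 1 * b ^ 0 * g ^ 0
    + (0 + (2602 / 625) * L + (-2602 / 625) * h) * a ^ 1 * b ^ 0 * g ^ 1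
    + ((286 / 625) + (-52 / 25) * L + (52 / 25) * h) * a ^ 1 * b ^ 0 * g ^ 2
    + ((-11 / 25) + (13 / 50) * L + (-13 / 50) * h) * a ^ 1 * b ^ 0 * g ^ 3
    + ((4719 / 12500) + (-52 / 25) * L + (7423 / 6250) * h) * a ^ 1 * b ^ 2 * g ^ 0
    + (0 + 2 * L + (-2) * h) * a ^ 1 * b ^ 2 * g ^ 1
    + ((-33 / 100) + 0 * L + (39 / 50) * h) * a ^ 2 * b ^ 0 * g ^ 0
    + ((-14311 / 31250) + 0 * L + (-13 / 100) * h) * a ^ 2 * b ^ 0 * g ^ 2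
    + ((286 / 625) + 0 * L + 0 * h) * a ^ 2 * b ^ 0 * g ^ 3
    + ((-143 / 5000) + 0 * L + 0 * h) * a ^ 2 * b ^ 0 * g ^ 4
    + (0 + (-2) * L + 2 * h) * a ^ 2 * b ^ 1 * g ^ 2
    + ((-637 / 1000) + (-4) * L + (1071 / 500) * h) * a ^ 2 * b ^ 2 * g ^ 0
    + ((-11 / 50) + 0 * L + (-13 / 100) * h) * a ^ 2 * b ^ 2 * g ^ 2
    + ((429 / 1250) + 0 * L + (-507 / 625) * h) * a ^ 3 * b ^ 0 * g ^ 0
    + (0 + (-13 / 50) * L + (13 / 50) * h) * a ^ 3 * b ^ 0 * g ^ 3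
    + (0 + (52 / 25) * L + (-52 / 25) * h) * a ^ 3 * b ^ 1 * g ^ 2
    + ((11 / 25) + 0 * L + 0 * h) * a ^ 3 * b ^ 1 * g ^ 3
    + ((8281 / 12500) + (104 / 25) * L + (-20423 / 6250) * h) * a ^ 3 * b ^ 2 * g ^ 0
    + (0 + (-2) * L + 2 * h) * a ^ 3 * b ^ 2 * g ^ 1
    + (0 + (-13 / 50) * L + (13 / 50) * h) * a ^ 3 * b ^ 2 * g ^ 3
    + ((143 / 5000) + 0 * L + 0 * h) * a ^ 4 * b ^ 0 * g ^ 4
    + ((-286 / 625) + 0 * L + 0 * h) * a ^ 4 * b ^ 1 * g ^ 3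
    + (0 + 2 * L + (-2) * h) * a ^ 4 * b ^ 2 * g ^ 0
    + ((11 / 50) + 0 * L + (13 / 100) * h) * a ^ 4 * b ^ 2 * g ^ 2
    + ((143 / 5000) + 0 * L + 0 * h) * a ^ 4 * b ^ 2 * g ^ 4
    + (0 + (-52 / 25) * L + (52 / 25) * h) * a ^ 5 * b ^ 2 * g ^ 0
    + (0 + (13 / 50) * L + (-13 / 50) * h) * a ^ 5 * b ^ 2 * g ^ 3
    + ((-143 / 5000) + 0 * L + 0 * h) * a ^ 6 * b ^ 2 * g ^ 4
    + (1 + (-2) * L + 0 * h) * a ^ 6 * b ^ 4 * g ^ 0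
    + ((-26 / 25) + (52 / 25) * L + 0 * h) * a ^ 7 * b ^ 4 * g ^ 0

noncomputable def UG1_0 (L h b g : ℝ) : ℝ :=
  ((1056 / 25) + 256 * L + (-228928 / 625) * h) * b ^ 0 * g ^ 0
    + (0 + (-13312 / 25) * L + (13312 / 25) * h) * b ^ 0 * g ^ 1
    + (0 + 256 * L + (-5984 / 25) * h) * b ^ 0 * g ^ 2
    + ((-5808 / 125) + 256 * L + (-2272 / 125) * h) * b ^ 2 * g ^ 0

noncomputable def UG1_0_0 (L h g : ℝ) : ℝ :=
  ((1056 / 25) + 256 * L + (-228928 / 625) * h) * g ^ 0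
    + (0 + (-13312 / 25) * L + (13312 / 25) * h) * g ^ 1
    + (0 + 256 * L + (-5984 / 25) * h) * g ^ 2

lemma UG1_0_0_nonneg {L h g : ℝ} (hL0 : (6931471 / 10000000) ≤ L) (hL1 : L ≤ (433217 / 625000)) (hh0 : (67 / 400) ≤ h) (hh1 : h ≤ (117 / 500)) (hg0 : 0 ≤ g) (hg1 : g ≤ 1) :
    0 ≤ UG1_0_0 L h g := by
  obtain ⟨xl, hxl⟩ : ∃ x : ℝ, x = L - (6931471 / 10000000) := ⟨_, rfl⟩
  obtain ⟨xu, hxu⟩ : ∃ x : ℝ, x = (433217 / 625000) - L := ⟨_, rfl⟩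
  obtain ⟨yl, hyl⟩ : ∃ x : ℝ, x = h - (67 / 400) := ⟨_, rfl⟩
  obtain ⟨yu, hyu⟩ : ∃ x : ℝ, x = (117 / 500) - h := ⟨_, rfl⟩
  obtain ⟨A, hA⟩ : ∃ x : ℝ, x = g - 0 := ⟨_, rfl⟩
  obtain ⟨B, hB⟩ : ∃ x : ℝ, x = 1 - g := ⟨_, rfl⟩
  have hxl0 : 0 ≤ xl := by rw [hxl]; linarith
  have hxu0 : 0 ≤ xu := by rw [hxu]; linarith
  have hyl0 : 0 ≤ yl := by rw [hyl]; linarith
  have hyu0 : 0 ≤ yu := by rw [hyu]; linarith
  have hA0 : 0 ≤ A := by rw [hA]; linarith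
  have hB0 : 0 ≤ B := by rw [hB]; linarith
  have key : UG1_0_0 L h g =
      ((10466798 / 78125) + 256 * xl + (228928 / 625) * yu) * A ^ 0 * B ^ 2
      + ((45826912 / 1953125) + (512 / 25) * xu + (125056 / 625) * yu) * A ^ 1 * B ^ 1
      + ((21335512 / 1953125) + (512 / 25) * xu + (45728 / 625) * yu) * A ^ 2 * B ^ 0 := by
    simp only [hxl, hxu, hyl, hyu, hA, hB]
    unfold UG1_0_0
    ring
  rw [key]
  positivity

noncomputable def UG1_0_1 (L h g : ℝ) : ℝ :=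
  ((2112 / 25) + 512 * L + (-457856 / 625) * h) * g ^ 0
    + (0 + (-26624 / 25) * L + (26624 / 25) * h) * g ^ 1
    + (0 + 512 * L + (-11968 / 25) * h) * g ^ 2

lemma UG1_0_1_nonneg {L h g : ℝ} (hL0 : (6931471 / 10000000) ≤ L) (hL1 : L ≤ (433217 / 625000)) (hh0 : (67 / 400) ≤ h) (hh1 : h ≤ (117 / 500)) (hg0 : 0 ≤ g) (hg1 : g ≤ 1) :
    0 ≤ UG1_0_1 L h g := by
  obtain ⟨xl, hxl⟩ : ∃ x : ℝ, x = L - (6931471 / 10000000) := ⟨_, rfl⟩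
  obtain ⟨xu, hxu⟩ : ∃ x : ℝ, x = (433217 / 625000) - L := ⟨_, rfl⟩
  obtain ⟨yl, hyl⟩ : ∃ x : ℝ, x = h - (67 / 400) := ⟨_, rfl⟩
  obtain ⟨yu, hyu⟩ : ∃ x : ℝ, x = (117 / 500) - h := ⟨_, rfl⟩
  obtain ⟨A, hA⟩ : ∃ x : ℝ, x = g - 0 := ⟨_, rfl⟩
  obtain ⟨B, hB⟩ : ∃ x : ℝ, x = 1 - g := ⟨_, rfl⟩
  have hxl0 : 0 ≤ xl := by rw [hxl]; linarith
  have hxu0 : 0 ≤ xu := by rw [hxu]; linarith
  have hyl0 : 0 ≤ yl := by rw [hyl]; linarith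
  have hyu0 : 0 ≤ yu := by rw [hyu]; linarith
  have hA0 : 0 ≤ A := by rw [hA]; linarith
  have hB0 : 0 ≤ B := by rw [hB]; linarith
  have key : UG1_0_1 L h g =
      ((20933596 / 78125) + 512 * xl + (457856 / 625) * yu) * A ^ 0 * B ^ 2
      + ((91653824 / 1953125) + (1024 / 25) * xu + (250112 / 625) * yu) * A ^ 1 * B ^ 1
      + ((42671024 / 1953125) + (1024 / 25) * xu + (91456 / 625) * yu) * A ^ 2 * B ^ 0 := by
    simp only [hxl, hxu, hyl, hyu, hA, hB]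
    unfold UG1_0_1
    ring
  rw [key]
  positivity

noncomputable def UG1_0_2 (L h g : ℝ) : ℝ :=
  ((-528 / 125) + 512 * L + (-240288 / 625) * h) * g ^ 0
    + (0 + (-13312 / 25) * L + (13312 / 25) * h) * g ^ 1
    + (0 + 256 * L + (-5984 / 25) * h) * g ^ 2

lemma UG1_0_2_nonneg {L h g : ℝ} (hL0 : (6931471 / 10000000) ≤ L) (hL1 : L ≤ (433217 / 625000)) (hh0 : (67 / 400) ≤ h) (hh1 : h ≤ (117 / 500)) (hg0 : 0 ≤ g) (hg1 : g ≤ 1) :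
    0 ≤ UG1_0_2 L h g := by
  obtain ⟨xl, hxl⟩ : ∃ x : ℝ, x = L - (6931471 / 10000000) := ⟨_, rfl⟩
  obtain ⟨xu, hxu⟩ : ∃ x : ℝ, x = (433217 / 625000) - L := ⟨_, rfl⟩
  obtain ⟨yl, hyl⟩ : ∃ x : ℝ, x = h - (67 / 400) := ⟨_, rfl⟩
  obtain ⟨yu, hyu⟩ : ∃ x : ℝ, x = (117 / 500) - h := ⟨_, rfl⟩
  obtain ⟨A, hA⟩ : ∃ x : ℝ, x = g - 0 := ⟨_, rfl⟩
  obtain ⟨B, hB⟩ : ∃ x : ℝ, x = 1 - g := ⟨_, rfl⟩
  have hxl0 : 0 ≤ xl := by rw [hxl]; linarith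
  have hxu0 : 0 ≤ xu := by rw [hxu]; linarith
  have hyl0 : 0 ≤ yl := by rw [hyl]; linarith
  have hyu0 : 0 ≤ yu := by rw [hyu]; linarith
  have hA0 : 0 ≤ A := by rw [hA]; linarith
  have hB0 : 0 ≤ B := by rw [hB]; linarith
  have key : UG1_0_2 L h g =
      ((4073492 / 15625) + 512 * xl + (240288 / 625) * yu) * A ^ 0 * B ^ 2
      + ((540860016 / 1953125) + (12288 / 25) * xl + (147776 / 625) * yu) * A ^ 1 * B ^ 1
      + ((268852066 / 1953125) + (5888 / 25) * xl + (57088 / 625) * yu) * A ^ 2 * B ^ 0 := by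
    simp only [hxl, hxu, hyl, hyu, hA, hB]
    unfold UG1_0_2
    ring
  rw [key]
  positivity

lemma UG1_0_nonneg {L h b g : ℝ} (hL0 : (6931471 / 10000000) ≤ L) (hL1 : L ≤ (433217 / 625000)) (hh0 : (67 / 400) ≤ h) (hh1 : h ≤ (117 / 500)) (hb0 : 0 ≤ b) (hb1 : b ≤ 1) (hg0 : 0 ≤ g) (hg1 : g ≤ 1) :
    0 ≤ UG1_0 L h b g := by
  have c0 := UG1_0_0_nonneg hL0 hL1 hh0 hh1 hg0 hg1
  have c1 := UG1_0_1_nonneg hL0 hL1 hh0 hh1 hg0 hg1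
  have c2 := UG1_0_2_nonneg hL0 hL1 hh0 hh1 hg0 hg1
  have key : UG1_0 L h b g =
      (b - 0) ^ 0 * (1 - b) ^ 2 * UG1_0_0 L h g
      + (b - 0) ^ 1 * (1 - b) ^ 1 * UG1_0_1 L h g
      + (b - 0) ^ 2 * (1 - b) ^ 0 * UG1_0_2 L h g := by
    unfold UG1_0 UG1_0_0 UG1_0_1 UG1_0_2
    ring
  have hA : 0 ≤ b - 0 := by linarith
  have hB : 0 ≤ 1 - b := by linarith
  rw [key]
  positivity

noncomputable def UG1_1 (L h b g : ℝ) : ℝ :=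
  ((171072 / 625) + (41472 / 25) * L + (-1486848 / 625) * h) * b ^ 0 * g ^ 0
    + (0 + (-2163072 / 625) * L + (2163072 / 625) * h) * b ^ 0 * g ^ 1
    + ((18304 / 625) + (41472 / 25) * L + (-7712 / 5) * h) * b ^ 0 * g ^ 2
    + ((-704 / 25) + (416 / 25) * L + (-416 / 25) * h) * b ^ 0 * g ^ 3
    + ((-940896 / 3125) + (41472 / 25) * L + (-160064 / 3125) * h) * b ^ 2 * g ^ 0
    + (0 + 128 * L + (-128) * h) * b ^ 2 * g ^ 1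

noncomputable def UG1_1_0 (L h g : ℝ) : ℝ :=
  ((171072 / 625) + (41472 / 25) * L + (-1486848 / 625) * h) * g ^ 0
    + (0 + (-2163072 / 625) * L + (2163072 / 625) * h) * g ^ 1
    + ((18304 / 625) + (41472 / 25) * L + (-7712 / 5) * h) * g ^ 2
    + ((-704 / 25) + (416 / 25) * L + (-416 / 25) * h) * g ^ 3

lemma UG1_1_0_nonneg {L h g : ℝ} (hL0 : (6931471 / 10000000) ≤ L) (hL1 : L ≤ (433217 / 625000)) (hh0 : (67 / 400) ≤ h) (hh1 : h ≤ (117 / 500)) (hg0 : 0 ≤ g) (hg1 : g ≤ 1) :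
    0 ≤ UG1_1_0 L h g := by
  obtain ⟨xl, hxl⟩ : ∃ x : ℝ, x = L - (6931471 / 10000000) := ⟨_, rfl⟩
  obtain ⟨xu, hxu⟩ : ∃ x : ℝ, x = (433217 / 625000) - L := ⟨_, rfl⟩
  obtain ⟨yl, hyl⟩ : ∃ x : ℝ, x = h - (67 / 400) := ⟨_, rfl⟩
  obtain ⟨yu, hyu⟩ : ∃ x : ℝ, x = (117 / 500) - h := ⟨_, rfl⟩
  obtain ⟨A, hA⟩ : ∃ x : ℝ, x = g - 0 := ⟨_, rfl⟩
  obtain ⟨B, hB⟩ : ∃ x : ℝ, x = 1 - g := ⟨_, rfl⟩
  have hxl0 : 0 ≤ xl := by rw [hxl]; linarith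
  have hxu0 : 0 ≤ xu := by rw [hxu]; linarith
  have hyl0 : 0 ≤ yl := by rw [hyl]; linarith
  have hyu0 : 0 ≤ yu := by rw [hyu]; linarith
  have hA0 : 0 ≤ A := by rw [hA]; linarith
  have hB0 : 0 ≤ B := by rw [hB]; linarith
  have key : UG1_1_0 L h g =
      ((1693139004 / 1953125) + (41472 / 25) * xl + (1486848 / 625) * yu) * A ^ 0 * B ^ 3
      + ((49394156871 / 48828125) + (947328 / 625) * xl + (2297472 / 625) * yu) * A ^ 1 * B ^ 2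
      + ((11754677144 / 48828125) + (178944 / 625) * xu + (43936 / 25) * yu) * A ^ 2 * B ^ 1
      + ((3687053172 / 48828125) + (79072 / 625) * xu + (298176 / 625) * yu) * A ^ 3 * B ^ 0 := by
    simp only [hxl, hxu, hyl, hyu, hA, hB]
    unfold UG1_1_0
    ring
  rw [key]
  positivity

noncomputable def UG1_1_1 (L h g : ℝ) : ℝ :=
  ((342144 / 625) + (82944 / 25) * L + (-2973696 / 625) * h) * g ^ 0
    + (0 + (-4326144 / 625) * L + (4326144 / 625) * h) * g ^ 1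
    + ((36608 / 625) + (82944 / 25) * L + (-15424 / 5) * h) * g ^ 2
    + ((-1408 / 25) + (832 / 25) * L + (-832 / 25) * h) * g ^ 3

lemma UG1_1_1_nonneg {L h g : ℝ} (hL0 : (6931471 / 10000000) ≤ L) (hL1 : L ≤ (433217 / 625000)) (hh0 : (67 / 400) ≤ h) (hh1 : h ≤ (117 / 500)) (hg0 : 0 ≤ g) (hg1 : g ≤ 1) :
    0 ≤ UG1_1_1 L h g := by
  obtain ⟨xl, hxl⟩ : ∃ x : ℝ, x = L - (6931471 / 10000000) := ⟨_, rfl⟩
  obtain ⟨xu, hxu⟩ : ∃ x : ℝ, x = (433217 / 625000) - L := ⟨_, rfl⟩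
  obtain ⟨yl, hyl⟩ : ∃ x : ℝ, x = h - (67 / 400) := ⟨_, rfl⟩
  obtain ⟨yu, hyu⟩ : ∃ x : ℝ, x = (117 / 500) - h := ⟨_, rfl⟩
  obtain ⟨A, hA⟩ : ∃ x : ℝ, x = g - 0 := ⟨_, rfl⟩
  obtain ⟨B, hB⟩ : ∃ x : ℝ, x = 1 - g := ⟨_, rfl⟩
  have hxl0 : 0 ≤ xl := by rw [hxl]; linarith
  have hxu0 : 0 ≤ xu := by rw [hxu]; linarith
  have hyl0 : 0 ≤ yl := by rw [hyl]; linarith
  have hyu0 : 0 ≤ yu := by rw [hyu]; linarith
  have hA0 : 0 ≤ A := by rw [hA]; linarith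
  have hB0 : 0 ≤ B := by rw [hB]; linarith
  have key : UG1_1_1 L h g =
      ((3386278008 / 1953125) + (82944 / 25) * xl + (2973696 / 625) * yu) * A ^ 0 * B ^ 3
      + ((98788313742 / 48828125) + (1894656 / 625) * xl + (4594944 / 625) * yu) * A ^ 1 * B ^ 2
      + ((23509354288 / 48828125) + (357888 / 625) * xu + (87872 / 25) * yu) * A ^ 2 * B ^ 1
      + ((7374106344 / 48828125) + (158144 / 625) * xu + (596352 / 625) * yu) * A ^ 3 * B ^ 0 := by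
    simp only [hxl, hxu, hyl, hyu, hA, hB]
    unfold UG1_1_1
    ring
  rw [key]
  positivity

noncomputable def UG1_1_2 (L h g : ℝ) : ℝ :=
  ((-85536 / 3125) + (82944 / 25) * L + (-7594304 / 3125) * h) * g ^ 0
    + (0 + (-2083072 / 625) * L + (2083072 / 625) * h) * g ^ 1
    + ((18304 / 625) + (41472 / 25) * L + (-7712 / 5) * h) * g ^ 2
    + ((-704 / 25) + (416 / 25) * L + (-416 / 25) * h) * g ^ 3

lemma UG1_1_2_nonneg {L h g : ℝ} (hL0 : (6931471 / 10000000) ≤ L) (hL1 : L ≤ (433217 / 625000)) (hh0 : (67 / 400) ≤ h) (hh1 : h ≤ (117 / 500)) (hg0 : 0 ≤ g) (hg1 : g ≤ 1) :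
    0 ≤ UG1_1_2 L h g := by
  obtain ⟨xl, hxl⟩ : ∃ x : ℝ, x = L - (6931471 / 10000000) := ⟨_, rfl⟩
  obtain ⟨xu, hxu⟩ : ∃ x : ℝ, x = (433217 / 625000) - L := ⟨_, rfl⟩
  obtain ⟨yl, hyl⟩ : ∃ x : ℝ, x = h - (67 / 400) := ⟨_, rfl⟩
  obtain ⟨yu, hyu⟩ : ∃ x : ℝ, x = (117 / 500) - h := ⟨_, rfl⟩
  obtain ⟨A, hA⟩ : ∃ x : ℝ, x = g - 0 := ⟨_, rfl⟩
  obtain ⟨B, hB⟩ : ∃ x : ℝ, x = 1 - g := ⟨_, rfl⟩
  have hxl0 : 0 ≤ xl := by rw [hxl]; linarith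
  have hxu0 : 0 ≤ xu := by rw [hxu]; linarith
  have hyl0 : 0 ≤ yl := by rw [hyl]; linarith
  have hyu0 : 0 ≤ yu := by rw [hyu]; linarith
  have hA0 : 0 ≤ A := by rw [hA]; linarith
  have hB0 : 0 ≤ B := by rw [hB]; linarith
  have key : UG1_1_2 L h g =
      ((3327466248 / 1953125) + (82944 / 25) * xl + (7594304 / 3125) * yu) * A ^ 0 * B ^ 3
      + ((174838369546 / 48828125) + (4137728 / 625) * xl + (12367552 / 3125) * yu) * A ^ 1 * B ^ 2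
      + ((140068560592 / 48828125) + (3091456 / 625) * xl + (6772192 / 3125) * yu) * A ^ 2 * B ^ 1
      + ((189659617059 / 195312500) + (1037728 / 625) * xl + (2050944 / 3125) * yu) * A ^ 3 * B ^ 0 := by
    simp only [hxl, hxu, hyl, hyu, hA, hB]
    unfold UG1_1_2
    ring
  rw [key]
  positivity

lemma UG1_1_nonneg {L h b g : ℝ} (hL0 : (6931471 / 10000000) ≤ L) (hL1 : L ≤ (433217 / 625000)) (hh0 : (67 / 400) ≤ h) (hh1 : h ≤ (117 / 500)) (hb0 : 0 ≤ b) (hb1 : b ≤ 1) (hg0 : 0 ≤ g) (hg1 : g ≤ 1) :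
    0 ≤ UG1_1 L h b g := by
  have c0 := UG1_1_0_nonneg hL0 hL1 hh0 hh1 hg0 hg1
  have c1 := UG1_1_1_nonneg hL0 hL1 hh0 hh1 hg0 hg1
  have c2 := UG1_1_2_nonneg hL0 hL1 hh0 hh1 hg0 hg1
  have key : UG1_1 L h b g =
      (b - 0) ^ 0 * (1 - b) ^ 2 * UG1_1_0 L h g
      + (b - 0) ^ 1 * (1 - b) ^ 1 * UG1_1_1 L h g
      + (b - 0) ^ 2 * (1 - b) ^ 0 * UG1_1_2 L h g := by
    unfold UG1_1 UG1_1_0 UG1_1_1 UG1_1_2
    ring
  have hA : 0 ≤ b - 0 := by linarith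
  have hB : 0 ≤ 1 - b := by linarith
  rw [key]
  positivity

noncomputable def UG1_2 (L h b g : ℝ) : ℝ :=
  ((465432 / 625) + (114432 / 25) * L + (-32784 / 5) * h) * b ^ 0 * g ^ 0
    + (0 + (-5989632 / 625) * L + (5989632 / 625) * h) * b ^ 0 * g ^ 1
    + ((2516624 / 15625) + (114432 / 25) * L + (-4232) * h) * b ^ 0 * g ^ 2
    + ((-96448 / 625) + (2496 / 25) * L + (-2496 / 25) * h) * b ^ 0 * g ^ 3
    + ((-572 / 625) + 0 * L + 0 * h) * b ^ 0 * g ^ 4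
    + (0 + (-64) * L + 64 * h) * b ^ 1 * g ^ 2
    + ((-2659876 / 3125) + (111232 / 25) * L + (446616 / 3125) * h) * b ^ 2 * g ^ 0
    + (0 + 768 * L + (-768) * h) * b ^ 2 * g ^ 1
    + ((-176 / 25) + 0 * L + (-104 / 25) * h) * b ^ 2 * g ^ 2

noncomputable def UG1_2_0 (L h g : ℝ) : ℝ :=
  ((465432 / 625) + (114432 / 25) * L + (-32784 / 5) * h) * g ^ 0
    + (0 + (-5989632 / 625) * L + (5989632 / 625) * h) * g ^ 1
    + ((2516624 / 15625) + (114432 / 25) * L + (-4232) * h) * g ^ 2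
    + ((-96448 / 625) + (2496 / 25) * L + (-2496 / 25) * h) * g ^ 3
    + ((-572 / 625) + 0 * L + 0 * h) * g ^ 4

lemma UG1_2_0_nonneg {L h g : ℝ} (hL0 : (6931471 / 10000000) ≤ L) (hL1 : L ≤ (433217 / 625000)) (hh0 : (67 / 400) ≤ h) (hh1 : h ≤ (117 / 500)) (hg0 : 0 ≤ g) (hg1 : g ≤ 1) :
    0 ≤ UG1_2_0 L h g := by
  obtain ⟨xl, hxl⟩ : ∃ x : ℝ, x = L - (6931471 / 10000000) := ⟨_, rfl⟩
  obtain ⟨xu, hxu⟩ : ∃ x : ℝ, x = (433217 / 625000) - L := ⟨_, rfl⟩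
  obtain ⟨yl, hyl⟩ : ∃ x : ℝ, x = h - (67 / 400) := ⟨_, rfl⟩
  obtain ⟨yu, hyu⟩ : ∃ x : ℝ, x = (117 / 500) - h := ⟨_, rfl⟩
  obtain ⟨A, hA⟩ : ∃ x : ℝ, x = g - 0 := ⟨_, rfl⟩
  obtain ⟨B, hB⟩ : ∃ x : ℝ, x = 1 - g := ⟨_, rfl⟩
  have hxl0 : 0 ≤ xl := by rw [hxl]; linarith
  have hxu0 : 0 ≤ xu := by rw [hxu]; linarith
  have hyl0 : 0 ≤ yl := by rw [hyl]; linarith
  have hyu0 : 0 ≤ yu := by rw [hyu]; linarith
  have hA0 : 0 ≤ A := by rw [hA]; linarith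
  have hB0 : 0 ≤ B := by rw [hB]; linarith
  have key : UG1_2_0 L h g =
      ((4654547574 / 1953125) + (114432 / 25) * xl + (32784 / 5) * yu) * A ^ 0 * B ^ 4
      + ((250601463426 / 48828125) + (5453568 / 625) * xl + (10402368 / 625) * yu) * A ^ 1 * B ^ 3
      + ((168051174778 / 48828125) + (2056704 / 625) * xl + (9264104 / 625) * yu) * A ^ 2 * B ^ 2
      + ((44456052996 / 48828125) + (741696 / 625) * xu + (3775504 / 625) * yu) * A ^ 3 * B ^ 1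
      + ((10597968982 / 48828125) + (205632 / 625) * xu + (815768 / 625) * yu) * A ^ 4 * B ^ 0 := by
    simp only [hxl, hxu, hyl, hyu, hA, hB]
    unfold UG1_2_0
    ring
  rw [key]
  positivity

noncomputable def UG1_2_1 (L h g : ℝ) : ℝ :=
  ((930864 / 625) + (228864 / 25) * L + (-65568 / 5) * h) * g ^ 0
    + (0 + (-11979264 / 625) * L + (11979264 / 625) * h) * g ^ 1
    + ((5033248 / 15625) + (227264 / 25) * L + (-8400) * h) * g ^ 2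
    + ((-192896 / 625) + (4992 / 25) * L + (-4992 / 25) * h) * g ^ 3
    + ((-1144 / 625) + 0 * L + 0 * h) * g ^ 4

lemma UG1_2_1_nonneg {L h g : ℝ} (hL0 : (6931471 / 10000000) ≤ L) (hL1 : L ≤ (433217 / 625000)) (hh0 : (67 / 400) ≤ h) (hh1 : h ≤ (117 / 500)) (hg0 : 0 ≤ g) (hg1 : g ≤ 1) :
    0 ≤ UG1_2_1 L h g := by
  obtain ⟨xl, hxl⟩ : ∃ x : ℝ, x = L - (6931471 / 10000000) := ⟨_, rfl⟩
  obtain ⟨xu, hxu⟩ : ∃ x : ℝ, x = (433217 / 625000) - L := ⟨_, rfl⟩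
  obtain ⟨yl, hyl⟩ : ∃ x : ℝ, x = h - (67 / 400) := ⟨_, rfl⟩
  obtain ⟨yu, hyu⟩ : ∃ x : ℝ, x = (117 / 500) - h := ⟨_, rfl⟩
  obtain ⟨A, hA⟩ : ∃ x : ℝ, x = g - 0 := ⟨_, rfl⟩
  obtain ⟨B, hB⟩ : ∃ x : ℝ, x = 1 - g := ⟨_, rfl⟩
  have hxl0 : 0 ≤ xl := by rw [hxl]; linarith
  have hxu0 : 0 ≤ xu := by rw [hxu]; linarith
  have hyl0 : 0 ≤ yl := by rw [hyl]; linarith
  have hyu0 : 0 ≤ yu := by rw [hyu]; linarith
  have hA0 : 0 ≤ A := by rw [hA]; linarith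
  have hB0 : 0 ≤ B := by rw [hB]; linarith
  have key : UG1_2_1 L h g =
      ((9309095148 / 1953125) + (228864 / 25) * xl + (65568 / 5) * yu) * A ^ 0 * B ^ 4
      + ((501202926852 / 48828125) + (10907136 / 625) * xl + (20804736 / 625) * yu) * A ^ 1 * B ^ 3
      + ((669335029737 / 97656250) + (4073408 / 625) * xl + (18488208 / 625) * yu) * A ^ 2 * B ^ 2
      + ((86042435992 / 48828125) + (1563392 / 625) * xu + (7471008 / 625) * yu) * A ^ 3 * B ^ 1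
      + ((19761102964 / 48828125) + (451264 / 625) * xu + (1591536 / 625) * yu) * A ^ 4 * B ^ 0 := by
    simp only [hxl, hxu, hyl, hyu, hA, hB]
    unfold UG1_2_1
    ring
  rw [key]
  positivity

noncomputable def UG1_2_2 (L h g : ℝ) : ℝ :=
  ((-332716 / 3125) + (225664 / 25) * L + (-20043384 / 3125) * h) * g ^ 0
    + (0 + (-5509632 / 625) * L + (5509632 / 625) * h) * g ^ 1
    + ((2406624 / 15625) + (112832 / 25) * L + (-104304 / 25) * h) * g ^ 2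
    + ((-96448 / 625) + (2496 / 25) * L + (-2496 / 25) * h) * g ^ 3
    + ((-572 / 625) + 0 * L + 0 * h) * g ^ 4

lemma UG1_2_2_nonneg {L h g : ℝ} (hL0 : (6931471 / 10000000) ≤ L) (hL1 : L ≤ (433217 / 625000)) (hh0 : (67 / 400) ≤ h) (hh1 : h ≤ (117 / 500)) (hg0 : 0 ≤ g) (hg1 : g ≤ 1) :
    0 ≤ UG1_2_2 L h g := by
  obtain ⟨xl, hxl⟩ : ∃ x : ℝ, x = L - (6931471 / 10000000) := ⟨_, rfl⟩
  obtain ⟨xu, hxu⟩ : ∃ x : ℝ, x = (433217 / 625000) - L := ⟨_, rfl⟩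
  obtain ⟨yl, hyl⟩ : ∃ x : ℝ, x = h - (67 / 400) := ⟨_, rfl⟩
  obtain ⟨yu, hyu⟩ : ∃ x : ℝ, x = (117 / 500) - h := ⟨_, rfl⟩
  obtain ⟨A, hA⟩ : ∃ x : ℝ, x = g - 0 := ⟨_, rfl⟩
  obtain ⟨B, hB⟩ : ∃ x : ℝ, x = 1 - g := ⟨_, rfl⟩
  have hxl0 : 0 ≤ xl := by rw [hxl]; linarith
  have hxu0 : 0 ≤ xu := by rw [hxu]; linarith
  have hyl0 : 0 ≤ yl := by rw [hyl]; linarith
  have hyu0 : 0 ≤ yu := by rw [hyu]; linarith
  have hA0 : 0 ≤ A := by rw [hA]; linarith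
  have hB0 : 0 ≤ B := by rw [hB]; linarith
  have key : UG1_2_2 L h g =
      ((9080890963 / 1953125) + (225664 / 25) * xl + (20043384 / 3125) * yu) * A ^ 0 * B ^ 4
      + ((710453818576 / 48828125) + (17056768 / 625) * xl + (52625376 / 3125) * yu) * A ^ 1 * B ^ 3
      + ((1763661231881 / 97656250) + (20141504 / 625) * xl + (50653824 / 3125) * yu) * A ^ 2 * B ^ 2
      + ((1070184429131 / 97656250) + (11741504 / 625) * xl + (23917056 / 3125) * yu) * A ^ 3 * B ^ 1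
      + ((136648455626 / 48828125) + (3015168 / 625) * xl + (5845224 / 3125) * yu) * A ^ 4 * B ^ 0 := by
    simp only [hxl, hxu, hyl, hyu, hA, hB]
    unfold UG1_2_2
    ring
  rw [key]
  positivity

lemma UG1_2_nonneg {L h b g : ℝ} (hL0 : (6931471 / 10000000) ≤ L) (hL1 : L ≤ (433217 / 625000)) (hh0 : (67 / 400) ≤ h) (hh1 : h ≤ (117 / 500)) (hb0 : 0 ≤ b) (hb1 : b ≤ 1) (hg0 : 0 ≤ g) (hg1 : g ≤ 1) :
    0 ≤ UG1_2 L h b g := by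
  have c0 := UG1_2_0_nonneg hL0 hL1 hh0 hh1 hg0 hg1
  have c1 := UG1_2_1_nonneg hL0 hL1 hh0 hh1 hg0 hg1
  have c2 := UG1_2_2_nonneg hL0 hL1 hh0 hh1 hg0 hg1
  have key : UG1_2 L h b g =
      (b - 0) ^ 0 * (1 - b) ^ 2 * UG1_2_0 L h g
      + (b - 0) ^ 1 * (1 - b) ^ 1 * UG1_2_1 L h g
      + (b - 0) ^ 2 * (1 - b) ^ 0 * UG1_2_2 L h g := by
    unfold UG1_2 UG1_2_0 UG1_2_1 UG1_2_2
    ring
  have hA : 0 ≤ b - 0 := by linarith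
  have hB : 0 ≤ 1 - b := by linarith
  rw [key]
  positivity

noncomputable def UG1_3 (L h b g : ℝ) : ℝ :=
  ((688512 / 625) + (34816 / 5) * L + (-6207872 / 625) * h) * b ^ 0 * g ^ 0
    + (0 + (-1830016 / 125) * L + (1830016 / 125) * h) * b ^ 0 * g ^ 1
    + ((1143824 / 3125) + (34816 / 5) * L + (-32008 / 5) * h) * b ^ 0 * g ^ 2
    + ((-43648 / 125) + (6136 / 25) * L + (-6136 / 25) * h) * b ^ 0 * g ^ 3
    + ((-572 / 125) + 0 * L + 0 * h) * b ^ 0 * g ^ 4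
    + (0 + (-7168 / 25) * L + (7168 / 25) * h) * b ^ 1 * g ^ 2
    + ((176 / 25) + 0 * L + 0 * h) * b ^ 1 * g ^ 3
    + ((-4234816 / 3125) + (159744 / 25) * L + (2482656 / 3125) * h) * b ^ 2 * g ^ 0
    + (0 + 1888 * L + (-1888) * h) * b ^ 2 * g ^ 1
    + ((-176 / 5) + 0 * L + (-104 / 5) * h) * b ^ 2 * g ^ 2
    + (0 + (-104 / 25) * L + (104 / 25) * h) * b ^ 2 * g ^ 3

noncomputable def UG1_3_0 (L h g : ℝ) : ℝ :=
  ((688512 / 625) + (34816 / 5) * L + (-6207872 / 625) * h) * g ^ 0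
    + (0 + (-1830016 / 125) * L + (1830016 / 125) * h) * g ^ 1
    + ((1143824 / 3125) + (34816 / 5) * L + (-32008 / 5) * h) * g ^ 2
    + ((-43648 / 125) + (6136 / 25) * L + (-6136 / 25) * h) * g ^ 3
    + ((-572 / 125) + 0 * L + 0 * h) * g ^ 4

lemma UG1_3_0_nonneg {L h g : ℝ} (hL0 : (6931471 / 10000000) ≤ L) (hL1 : L ≤ (433217 / 625000)) (hh0 : (67 / 400) ≤ h) (hh1 : h ≤ (117 / 500)) (hg0 : 0 ≤ g) (hg1 : g ≤ 1) :
    0 ≤ UG1_3_0 L h g := by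
  obtain ⟨xl, hxl⟩ : ∃ x : ℝ, x = L - (6931471 / 10000000) := ⟨_, rfl⟩
  obtain ⟨xu, hxu⟩ : ∃ x : ℝ, x = (433217 / 625000) - L := ⟨_, rfl⟩
  obtain ⟨yl, hyl⟩ : ∃ x : ℝ, x = h - (67 / 400) := ⟨_, rfl⟩
  obtain ⟨yu, hyu⟩ : ∃ x : ℝ, x = (117 / 500) - h := ⟨_, rfl⟩
  obtain ⟨A, hA⟩ : ∃ x : ℝ, x = g - 0 := ⟨_, rfl⟩
  obtain ⟨B, hB⟩ : ∃ x : ℝ, x = 1 - g := ⟨_, rfl⟩
  have hxl0 : 0 ≤ xl := by rw [hxl]; linarith
  have hxu0 : 0 ≤ xu := by rw [hxu]; linarith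
  have hyl0 : 0 ≤ yl := by rw [hyl]; linarith
  have hyu0 : 0 ≤ yu := by rw [hyu]; linarith
  have hA0 : 0 ≤ A := by rw [hA]; linarith
  have hB0 : 0 ≤ B := by rw [hB]; linarith
  have key : UG1_3_0 L h g =
      ((1407778832 / 390625) + (34816 / 5) * xl + (6207872 / 625) * yu) * A ^ 0 * B ^ 4
      + ((75133622313 / 9765625) + (1651584 / 125) * xl + (15681408 / 625) * yu) * A ^ 1 * B ^ 3
      + ((50313838689 / 9765625) + (602752 / 125) * xl + (13797992 / 625) * yu) * A ^ 2 * B ^ 2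
      + ((13695209993 / 9765625) + (236968 / 125) * xu + (5536648 / 625) * yu) * A ^ 3 * B ^ 1
      + ((3275836711 / 9765625) + (58536 / 125) * xu + (1212192 / 625) * yu) * A ^ 4 * B ^ 0 := by
    simp only [hxl, hxu, hyl, hyu, hA, hB]
    unfold UG1_3_0
    ring
  rw [key]
  positivity

noncomputable def UG1_3_1 (L h g : ℝ) : ℝ :=
  ((1377024 / 625) + (69632 / 5) * L + (-12415744 / 625) * h) * g ^ 0
    + (0 + (-3660032 / 125) * L + (3660032 / 125) * h) * g ^ 1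
    + ((2287648 / 3125) + (340992 / 25) * L + (-312912 / 25) * h) * g ^ 2
    + ((-86416 / 125) + (12272 / 25) * L + (-12272 / 25) * h) * g ^ 3
    + ((-1144 / 125) + 0 * L + 0 * h) * g ^ 4

lemma UG1_3_1_nonneg {L h g : ℝ} (hL0 : (6931471 / 10000000) ≤ L) (hL1 : L ≤ (433217 / 625000)) (hh0 : (67 / 400) ≤ h) (hh1 : h ≤ (117 / 500)) (hg0 : 0 ≤ g) (hg1 : g ≤ 1) :
    0 ≤ UG1_3_1 L h g := by
  obtain ⟨xl, hxl⟩ : ∃ x : ℝ, x = L - (6931471 / 10000000) := ⟨_, rfl⟩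
  obtain ⟨xu, hxu⟩ : ∃ x : ℝ, x = (433217 / 625000) - L := ⟨_, rfl⟩
  obtain ⟨yl, hyl⟩ : ∃ x : ℝ, x = h - (67 / 400) := ⟨_, rfl⟩
  obtain ⟨yu, hyu⟩ : ∃ x : ℝ, x = (117 / 500) - h := ⟨_, rfl⟩
  obtain ⟨A, hA⟩ : ∃ x : ℝ, x = g - 0 := ⟨_, rfl⟩
  obtain ⟨B, hB⟩ : ∃ x : ℝ, x = 1 - g := ⟨_, rfl⟩
  have hxl0 : 0 ≤ xl := by rw [hxl]; linarith
  have hxu0 : 0 ≤ xu := by rw [hxu]; linarith
  have hyl0 : 0 ≤ yl := by rw [hyl]; linarith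
  have hyu0 : 0 ≤ yu := by rw [hyu]; linarith
  have hA0 : 0 ≤ A := by rw [hA]; linarith
  have hB0 : 0 ≤ B := by rw [hB]; linarith
  have key : UG1_3_1 L h g =
      ((2815557664 / 390625) + (69632 / 5) * xl + (12415744 / 625) * yu) * A ^ 0 * B ^ 4
      + ((150267244626 / 9765625) + (3303168 / 125) * xl + (31362816 / 625) * yu) * A ^ 1 * B ^ 3
      + ((99342065498 / 9765625) + (1169664 / 125) * xl + (27416784 / 625) * yu) * A ^ 2 * B ^ 2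
      + ((24887945666 / 9765625) + (545616 / 125) * xu + (10714896 / 625) * yu) * A ^ 3 * B ^ 1
      + ((5334811262 / 9765625) + (152912 / 125) * xu + (2245184 / 625) * yu) * A ^ 4 * B ^ 0 := by
    simp only [hxl, hxu, hyl, hyu, hA, hB]
    unfold UG1_3_1
    ring
  rw [key]
  positivity

noncomputable def UG1_3_2 (L h g : ℝ) : ℝ :=
  ((-792256 / 3125) + (333824 / 25) * L + (-28556704 / 3125) * h) * g ^ 0
    + (0 + (-1594016 / 125) * L + (1594016 / 125) * h) * g ^ 1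
    + ((1033824 / 3125) + (166912 / 25) * L + (-153392 / 25) * h) * g ^ 2
    + ((-42768 / 125) + (6032 / 25) * L + (-6032 / 25) * h) * g ^ 3
    + ((-572 / 125) + 0 * L + 0 * h) * g ^ 4

lemma UG1_3_2_nonneg {L h g : ℝ} (hL0 : (6931471 / 10000000) ≤ L) (hL1 : L ≤ (433217 / 625000)) (hh0 : (67 / 400) ≤ h) (hh1 : h ≤ (117 / 500)) (hg0 : 0 ≤ g) (hg1 : g ≤ 1) :
    0 ≤ UG1_3_2 L h g := by
  obtain ⟨xl, hxl⟩ : ∃ x : ℝ, x = L - (6931471 / 10000000) := ⟨_, rfl⟩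
  obtain ⟨xu, hxu⟩ : ∃ x : ℝ, x = (433217 / 625000) - L := ⟨_, rfl⟩
  obtain ⟨yl, hyl⟩ : ∃ x : ℝ, x = h - (67 / 400) := ⟨_, rfl⟩
  obtain ⟨yu, hyu⟩ : ∃ x : ℝ, x = (117 / 500) - h := ⟨_, rfl⟩
  obtain ⟨A, hA⟩ : ∃ x : ℝ, x = g - 0 := ⟨_, rfl⟩
  obtain ⟨B, hB⟩ : ∃ x : ℝ, x = 1 - g := ⟨_, rfl⟩
  have hxl0 : 0 ≤ xl := by rw [hxl]; linarith
  have hxu0 : 0 ≤ xu := by rw [hxu]; linarith
  have hyl0 : 0 ≤ yl := by rw [hyl]; linarith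
  have hyu0 : 0 ≤ yu := by rw [hyu]; linarith
  have hA0 : 0 ≤ A := by rw [hA]; linarith
  have hB0 : 0 ≤ B := by rw [hB]; linarith
  have key : UG1_3_2 L h g =
      ((13405698408 / 1953125) + (333824 / 25) * xl + (28556704 / 3125) * yu) * A ^ 0 * B ^ 4
      + ((843740927717 / 39062500) + (5082464 / 125) * xl + (74376416 / 3125) * yu) * A ^ 1 * B ^ 3
      + ((1060150587871 / 39062500) + (6067232 / 125) * xl + (70963024 / 3125) * yu) * A ^ 2 * B ^ 2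
      + ((1304993453297 / 78125000) + (3593712 / 125) * xl + (33777616 / 3125) * yu) * A ^ 3 * B ^ 1
      + ((335588696669 / 78125000) + (939824 / 125) * xl + (8634304 / 3125) * yu) * A ^ 4 * B ^ 0 := by
    simp only [hxl, hxu, hyl, hyu, hA, hB]
    unfold UG1_3_2
    ring
  rw [key]
  positivity

lemma UG1_3_nonneg {L h b g : ℝ} (hL0 : (6931471 / 10000000) ≤ L) (hL1 : L ≤ (433217 / 625000)) (hh0 : (67 / 400) ≤ h) (hh1 : h ≤ (117 / 500)) (hb0 : 0 ≤ b) (hb1 : b ≤ 1) (hg0 : 0 ≤ g) (hg1 : g ≤ 1) :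
    0 ≤ UG1_3 L h b g := by
  have c0 := UG1_3_0_nonneg hL0 hL1 hh0 hh1 hg0 hg1
  have c1 := UG1_3_1_nonneg hL0 hL1 hh0 hh1 hg0 hg1
  have c2 := UG1_3_2_nonneg hL0 hL1 hh0 hh1 hg0 hg1
  have key : UG1_3 L h b g =
      (b - 0) ^ 0 * (1 - b) ^ 2 * UG1_3_0 L h g
      + (b - 0) ^ 1 * (1 - b) ^ 1 * UG1_3_1 L h g
      + (b - 0) ^ 2 * (1 - b) ^ 0 * UG1_3_2 L h g := by
    unfold UG1_3 UG1_3_0 UG1_3_1 UG1_3_2
    ring
  have hA : 0 ≤ b - 0 := by linarith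
  have hB : 0 ≤ 1 - b := by linarith
  rw [key]
  positivity

noncomputable def UG1_4 (L h b g : ℝ) : ℝ :=
  ((597168 / 625) + (31488 / 5) * L + (-5575968 / 625) * h) * b ^ 0 * g ^ 0
    + (0 + (-1663488 / 125) * L + (1663488 / 125) * h) * b ^ 0 * g ^ 1
    + ((1372448 / 3125) + (31488 / 5) * L + (-28784 / 5) * h) * b ^ 0 * g ^ 2
    + ((-52096 / 125) + (7904 / 25) * L + (-7904 / 25) * h) * b ^ 0 * g ^ 3
    + ((-5577 / 625) + 0 * L + 0 * h) * b ^ 0 * g ^ 4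
    + (0 + (-12672 / 25) * L + (12672 / 25) * h) * b ^ 1 * g ^ 2
    + ((15312 / 625) + 0 * L + 0 * h) * b ^ 1 * g ^ 3
    + ((-4076424 / 3125) + (132496 / 25) * L + (4201184 / 3125) * h) * b ^ 2 * g ^ 0
    + (0 + 2432 * L + (-2432) * h) * b ^ 2 * g ^ 1
    + ((-1716 / 25) + 0 * L + (-1014 / 25) * h) * b ^ 2 * g ^ 2
    + (0 + (-416 / 25) * L + (416 / 25) * h) * b ^ 2 * g ^ 3
    + ((143 / 625) + 0 * L + 0 * h) * b ^ 2 * g ^ 4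

noncomputable def UG1_4_0 (L h g : ℝ) : ℝ :=
  ((597168 / 625) + (31488 / 5) * L + (-5575968 / 625) * h) * g ^ 0
    + (0 + (-1663488 / 125) * L + (1663488 / 125) * h) * g ^ 1
    + ((1372448 / 3125) + (31488 / 5) * L + (-28784 / 5) * h) * g ^ 2
    + ((-52096 / 125) + (7904 / 25) * L + (-7904 / 25) * h) * g ^ 3
    + ((-5577 / 625) + 0 * L + 0 * h) * g ^ 4

lemma UG1_4_0_nonneg {L h g : ℝ} (hL0 : (6931471 / 10000000) ≤ L) (hL1 : L ≤ (433217 / 625000)) (hh0 : (67 / 400) ≤ h) (hh1 : h ≤ (117 / 500)) (hg0 : 0 ≤ g) (hg1 : g ≤ 1) :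
    0 ≤ UG1_4_0 L h g := by
  obtain ⟨xl, hxl⟩ : ∃ x : ℝ, x = L - (6931471 / 10000000) := ⟨_, rfl⟩
  obtain ⟨xu, hxu⟩ : ∃ x : ℝ, x = (433217 / 625000) - L := ⟨_, rfl⟩
  obtain ⟨yl, hyl⟩ : ∃ x : ℝ, x = h - (67 / 400) := ⟨_, rfl⟩
  obtain ⟨yu, hyu⟩ : ∃ x : ℝ, x = (117 / 500) - h := ⟨_, rfl⟩
  obtain ⟨A, hA⟩ : ∃ x : ℝ, x = g - 0 := ⟨_, rfl⟩
  obtain ⟨B, hB⟩ : ∃ x : ℝ, x = 1 - g := ⟨_, rfl⟩
  have hxl0 : 0 ≤ xl := by rw [hxl]; linarith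
  have hxu0 : 0 ≤ xu := by rw [hxu]; linarith
  have hyl0 : 0 ≤ yl := by rw [hyl]; linarith
  have hyu0 : 0 ≤ yu := by rw [hyu]; linarith
  have hA0 : 0 ≤ A := by rw [hA]; linarith
  have hB0 : 0 ≤ B := by rw [hB]; linarith
  have key : UG1_4_0 L h g =
      ((1262886546 / 390625) + (31488 / 5) * xl + (5575968 / 625) * yu) * A ^ 0 * B ^ 4
      + ((66617897484 / 9765625) + (1485312 / 125) * xl + (13986432 / 625) * yu) * A ^ 1 * B ^ 3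
      + ((44182969702 / 9765625) + (519936 / 125) * xl + (12101488 / 625) * yu) * A ^ 2 * B ^ 2
      + ((12148516444 / 9765625) + (227744 / 125) * xu + (4745152 / 625) * yu) * A ^ 3 * B ^ 1
      + ((2924141343 / 9765625) + (49568 / 125) * xu + (1054128 / 625) * yu) * A ^ 4 * B ^ 0 := by
    simp only [hxl, hxu, hyl, hyu, hA, hB]
    unfold UG1_4_0
    ring
  rw [key]
  positivity

noncomputable def UG1_4_1 (L h g : ℝ) : ℝ :=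
  ((1194336 / 625) + (62976 / 5) * L + (-11151936 / 625) * h) * g ^ 0
    + (0 + (-3326976 / 125) * L + (3326976 / 125) * h) * g ^ 1
    + ((2744896 / 3125) + (302208 / 25) * L + (-275168 / 25) * h) * g ^ 2
    + ((-505648 / 625) + (15808 / 25) * L + (-15808 / 25) * h) * g ^ 3
    + ((-11154 / 625) + 0 * L + 0 * h) * g ^ 4

lemma UG1_4_1_nonneg {L h g : ℝ} (hL0 : (6931471 / 10000000) ≤ L) (hL1 : L ≤ (433217 / 625000)) (hh0 : (67 / 400) ≤ h) (hh1 : h ≤ (117 / 500)) (hg0 : 0 ≤ g) (hg1 : g ≤ 1) :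
    0 ≤ UG1_4_1 L h g := by
  obtain ⟨xl, hxl⟩ : ∃ x : ℝ, x = L - (6931471 / 10000000) := ⟨_, rfl⟩
  obtain ⟨xu, hxu⟩ : ∃ x : ℝ, x = (433217 / 625000) - L := ⟨_, rfl⟩
  obtain ⟨yl, hyl⟩ : ∃ x : ℝ, x = h - (67 / 400) := ⟨_, rfl⟩
  obtain ⟨yu, hyu⟩ : ∃ x : ℝ, x = (117 / 500) - h := ⟨_, rfl⟩
  obtain ⟨A, hA⟩ : ∃ x : ℝ, x = g - 0 := ⟨_, rfl⟩
  obtain ⟨B, hB⟩ : ∃ x : ℝ, x = 1 - g := ⟨_, rfl⟩
  have hxl0 : 0 ≤ xl := by rw [hxl]; linarith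
  have hxu0 : 0 ≤ xu := by rw [hxu]; linarith
  have hyl0 : 0 ≤ yl := by rw [hyl]; linarith
  have hyu0 : 0 ≤ yu := by rw [hyu]; linarith
  have hA0 : 0 ≤ A := by rw [hA]; linarith
  have hB0 : 0 ≤ B := by rw [hB]; linarith
  have key : UG1_4_1 L h g =
      ((2525773092 / 390625) + (62976 / 5) * xl + (11151936 / 625) * yu) * A ^ 0 * B ^ 4
      + ((133235794968 / 9765625) + (2970624 / 125) * xl + (27972864 / 625) * yu) * A ^ 1 * B ^ 3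
      + ((86093161259 / 9765625) + (976512 / 125) * xl + (23886176 / 625) * yu) * A ^ 2 * B ^ 2
      + ((19990725608 / 9765625) + (582208 / 125) * xu + (8856704 / 625) * yu) * A ^ 3 * B ^ 1
      + ((3814754046 / 9765625) + (162496 / 125) * xu + (1791456 / 625) * yu) * A ^ 4 * B ^ 0 := by
    simp only [hxl, hxu, hyl, hyu, hA, hB]
    unfold UG1_4_1
    ring
  rw [key]
  positivity

noncomputable def UG1_4_2 (L h g : ℝ) : ℝ :=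
  ((-1090584 / 3125) + (289936 / 25) * L + (-23678656 / 3125) * h) * g ^ 0
    + (0 + (-1359488 / 125) * L + (1359488 / 125) * h) * g ^ 1
    + ((1157948 / 3125) + (144768 / 25) * L + (-132262 / 25) * h) * g ^ 2
    + ((-245168 / 625) + (7488 / 25) * L + (-7488 / 25) * h) * g ^ 3
    + ((-5434 / 625) + 0 * L + 0 * h) * g ^ 4

lemma UG1_4_2_nonneg {L h g : ℝ} (hL0 : (6931471 / 10000000) ≤ L) (hL1 : L ≤ (433217 / 625000)) (hh0 : (67 / 400) ≤ h) (hh1 : h ≤ (117 / 500)) (hg0 : 0 ≤ g) (hg1 : g ≤ 1) :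
    0 ≤ UG1_4_2 L h g := by
  obtain ⟨xl, hxl⟩ : ∃ x : ℝ, x = L - (6931471 / 10000000) := ⟨_, rfl⟩
  obtain ⟨xu, hxu⟩ : ∃ x : ℝ, x = (433217 / 625000) - L := ⟨_, rfl⟩
  obtain ⟨yl, hyl⟩ : ∃ x : ℝ, x = h - (67 / 400) := ⟨_, rfl⟩
  obtain ⟨yu, hyu⟩ : ∃ x : ℝ, x = (117 / 500) - h := ⟨_, rfl⟩
  obtain ⟨A, hA⟩ : ∃ x : ℝ, x = g - 0 := ⟨_, rfl⟩
  obtain ⟨B, hB⟩ : ∃ x : ℝ, x = 1 - g := ⟨_, rfl⟩
  have hxl0 : 0 ≤ xl := by rw [hxl]; linarith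
  have hxu0 : 0 ≤ xu := by rw [hxu]; linarith
  have hyl0 : 0 ≤ yl := by rw [hyl]; linarith
  have hyu0 : 0 ≤ yu := by rw [hyu]; linarith
  have hA0 : 0 ≤ A := by rw [hA]; linarith
  have hB0 : 0 ≤ B := by rw [hB]; linarith
  have key : UG1_4_2 L h g =
      ((92448238471 / 15625000) + (289936 / 25) * xl + (23678656 / 3125) * yu) * A ^ 0 * B ^ 4
      + ((364709165373 / 19531250) + (4439232 / 125) * xl + (60727424 / 3125) * yu) * A ^ 1 * B ^ 3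
      + ((924437345443 / 39062500) + (5343456 / 125) * xl + (56643086 / 3125) * yu) * A ^ 2 * B ^ 2
      + ((143787776107 / 9765625) + (3205376 / 125) * xl + (26754524 / 3125) * yu) * A ^ 3 * B ^ 1
      + ((297343737107 / 78125000) + (851472 / 125) * xl + (7160206 / 3125) * yu) * A ^ 4 * B ^ 0 := by
    simp only [hxl, hxu, hyl, hyu, hA, hB]
    unfold UG1_4_2
    ring
  rw [key]
  positivity

lemma UG1_4_nonneg {L h b g : ℝ} (hL0 : (6931471 / 10000000) ≤ L) (hL1 : L ≤ (433217 / 625000)) (hh0 : (67 / 400) ≤ h) (hh1 : h ≤ (117 / 500)) (hb0 : 0 ≤ b) (hb1 : b ≤ 1) (hg0 : 0 ≤ g) (hg1 : g ≤ 1) :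
    0 ≤ UG1_4 L h b g := by
  have c0 := UG1_4_0_nonneg hL0 hL1 hh0 hh1 hg0 hg1
  have c1 := UG1_4_1_nonneg hL0 hL1 hh0 hh1 hg0 hg1
  have c2 := UG1_4_2_nonneg hL0 hL1 hh0 hh1 hg0 hg1
  have key : UG1_4 L h b g =
      (b - 0) ^ 0 * (1 - b) ^ 2 * UG1_4_0 L h g
      + (b - 0) ^ 1 * (1 - b) ^ 1 * UG1_4_1 L h g
      + (b - 0) ^ 2 * (1 - b) ^ 0 * UG1_4_2 L h g := by
    unfold UG1_4 UG1_4_0 UG1_4_1 UG1_4_2
    ring
  have hA : 0 ≤ b - 0 := by linarith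
  have hB : 0 ≤ 1 - b := by linarith
  rw [key]
  positivity

noncomputable def UG1_5 (L h b g : ℝ) : ℝ :=
  ((303072 / 625) + (16896 / 5) * L + (-593088 / 125) * h) * b ^ 0 * g ^ 0
    + (0 + (-898176 / 125) * L + (898176 / 125) * h) * b ^ 0 * g ^ 1
    + ((914848 / 3125) + (16896 / 5) * L + (-76784 / 25) * h) * b ^ 0 * g ^ 2
    + ((-34496 / 125) + (5616 / 25) * L + (-5616 / 25) * h) * b ^ 0 * g ^ 3
    + ((-5291 / 625) + 0 * L + 0 * h) * b ^ 0 * g ^ 4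
    + (0 + (-11008 / 25) * L + (11008 / 25) * h) * b ^ 1 * g ^ 2
    + ((19536 / 625) + 0 * L + 0 * h) * b ^ 1 * g ^ 3
    + ((-2354896 / 3125) + (63456 / 25) * L + (3407936 / 3125) * h) * b ^ 2 * g ^ 0
    + (0 + 1728 * L + (-1728) * h) * b ^ 2 * g ^ 1
    + ((-1628 / 25) + 0 * L + (-962 / 25) * h) * b ^ 2 * g ^ 2
    + (0 + (-598 / 25) * L + (598 / 25) * h) * b ^ 2 * g ^ 3
    + ((429 / 625) + 0 * L + 0 * h) * b ^ 2 * g ^ 4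

noncomputable def UG1_5_0 (L h g : ℝ) : ℝ :=
  ((303072 / 625) + (16896 / 5) * L + (-593088 / 125) * h) * g ^ 0
    + (0 + (-898176 / 125) * L + (898176 / 125) * h) * g ^ 1
    + ((914848 / 3125) + (16896 / 5) * L + (-76784 / 25) * h) * g ^ 2
    + ((-34496 / 125) + (5616 / 25) * L + (-5616 / 25) * h) * g ^ 3
    + ((-5291 / 625) + 0 * L + 0 * h) * g ^ 4

lemma UG1_5_0_nonneg {L h g : ℝ} (hL0 : (6931471 / 10000000) ≤ L) (hL1 : L ≤ (433217 / 625000)) (hh0 : (67 / 400) ≤ h) (hh1 : h ≤ (117 / 500)) (hg0 : 0 ≤ g) (hg1 : g ≤ 1) :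
    0 ≤ UG1_5_0 L h g := by
  obtain ⟨xl, hxl⟩ : ∃ x : ℝ, x = L - (6931471 / 10000000) := ⟨_, rfl⟩
  obtain ⟨xu, hxu⟩ : ∃ x : ℝ, x = (433217 / 625000) - L := ⟨_, rfl⟩
  obtain ⟨yl, hyl⟩ : ∃ x : ℝ, x = h - (67 / 400) := ⟨_, rfl⟩
  obtain ⟨yu, hyu⟩ : ∃ x : ℝ, x = (117 / 500) - h := ⟨_, rfl⟩
  obtain ⟨A, hA⟩ : ∃ x : ℝ, x = g - 0 := ⟨_, rfl⟩
  obtain ⟨B, hB⟩ : ∃ x : ℝ, x = 1 - g := ⟨_, rfl⟩
  have hxl0 : 0 ≤ xl := by rw [hxl]; linarith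
  have hxu0 : 0 ≤ xu := by rw [hxu]; linarith
  have hyl0 : 0 ≤ yl := by rw [hyl]; linarith
  have hyu0 : 0 ≤ yu := by rw [hyu]; linarith
  have hA0 : 0 ≤ A := by rw [hA]; linarith
  have hB0 : 0 ≤ B := by rw [hB]; linarith
  have key : UG1_5_0 L h g =
      ((670678572 / 390625) + (16896 / 5) * xl + (593088 / 125) * yu) * A ^ 0 * B ^ 4
      + ((34849505193 / 9765625) + (791424 / 125) * xl + (1474176 / 125) * yu) * A ^ 1 * B ^ 3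
      + ((22660946579 / 9765625) + (262272 / 125) * xl + (249584 / 25) * yu) * A ^ 2 * B ^ 2
      + ((6153487698 / 9765625) + (132048 / 125) * xu + (473744 / 125) * yu) * A ^ 3 * B ^ 1
      + ((1492410971 / 9765625) + (25296 / 125) * xu + (106912 / 125) * yu) * A ^ 4 * B ^ 0 := by
    simp only [hxl, hxu, hyl, hyu, hA, hB]
    unfold UG1_5_0
    ring
  rw [key]
  positivity

noncomputable def UG1_5_1 (L h g : ℝ) : ℝ :=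
  ((606144 / 625) + (33792 / 5) * L + (-1186176 / 125) * h) * g ^ 0
    + (0 + (-1796352 / 125) * L + (1796352 / 125) * h) * g ^ 1
    + ((1829696 / 3125) + (157952 / 25) * L + (-28512 / 5) * h) * g ^ 2
    + ((-325424 / 625) + (11232 / 25) * L + (-11232 / 25) * h) * g ^ 3
    + ((-10582 / 625) + 0 * L + 0 * h) * g ^ 4

lemma UG1_5_1_nonneg {L h g : ℝ} (hL0 : (6931471 / 10000000) ≤ L) (hL1 : L ≤ (433217 / 625000)) (hh0 : (67 / 400) ≤ h) (hh1 : h ≤ (117 / 500)) (hg0 : 0 ≤ g) (hg1 : g ≤ 1) :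
    0 ≤ UG1_5_1 L h g := by
  obtain ⟨xl, hxl⟩ : ∃ x : ℝ, x = L - (6931471 / 10000000) := ⟨_, rfl⟩
  obtain ⟨xu, hxu⟩ : ∃ x : ℝ, x = (433217 / 625000) - L := ⟨_, rfl⟩
  obtain ⟨yl, hyl⟩ : ∃ x : ℝ, x = h - (67 / 400) := ⟨_, rfl⟩
  obtain ⟨yu, hyu⟩ : ∃ x : ℝ, x = (117 / 500) - h := ⟨_, rfl⟩
  obtain ⟨A, hA⟩ : ∃ x : ℝ, x = g - 0 := ⟨_, rfl⟩
  obtain ⟨B, hB⟩ : ∃ x : ℝ, x = 1 - g := ⟨_, rfl⟩
  have hxl0 : 0 ≤ xl := by rw [hxl]; linarith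
  have hxu0 : 0 ≤ xu := by rw [hxu]; linarith
  have hyl0 : 0 ≤ yl := by rw [hyl]; linarith
  have hyu0 : 0 ≤ yu := by rw [hyu]; linarith
  have hA0 : 0 ≤ A := by rw [hA]; linarith
  have hB0 : 0 ≤ B := by rw [hB]; linarith
  have key : UG1_5_1 L h g =
      ((1341357144 / 390625) + (33792 / 5) * xl + (1186176 / 125) * yu) * A ^ 0 * B ^ 4
      + ((69699010386 / 9765625) + (1582848 / 125) * xl + (2948352 / 125) * yu) * A ^ 1 * B ^ 3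
      + ((43347560628 / 9765625) + (469504 / 125) * xl + (97632 / 5) * yu) * A ^ 2 * B ^ 2
      + ((8663559476 / 9765625) + (374176 / 125) * xu + (837408 / 125) * yu) * A ^ 3 * B ^ 1
      + ((1315738982 / 9765625) + (105632 / 125) * xu + (158784 / 125) * yu) * A ^ 4 * B ^ 0 := by
    simp only [hxl, hxu, hyl, hyu, hA, hB]
    unfold UG1_5_1
    ring
  rw [key]
  positivity

noncomputable def UG1_5_2 (L h g : ℝ) : ℝ :=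
  ((-839536 / 3125) + (147936 / 25) * L + (-11419264 / 3125) * h) * g ^ 0
    + (0 + (-682176 / 125) * L + (682176 / 125) * h) * g ^ 1
    + ((711348 / 3125) + (73472 / 25) * L + (-66738 / 25) * h) * g ^ 2
    + ((-152944 / 625) + (5018 / 25) * L + (-5018 / 25) * h) * g ^ 3
    + ((-4862 / 625) + 0 * L + 0 * h) * g ^ 4

lemma UG1_5_2_nonneg {L h g : ℝ} (hL0 : (6931471 / 10000000) ≤ L) (hL1 : L ≤ (433217 / 625000)) (hh0 : (67 / 400) ≤ h) (hh1 : h ≤ (117 / 500)) (hg0 : 0 ≤ g) (hg1 : g ≤ 1) :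
    0 ≤ UG1_5_2 L h g := by
  obtain ⟨xl, hxl⟩ : ∃ x : ℝ, x = L - (6931471 / 10000000) := ⟨_, rfl⟩
  obtain ⟨xu, hxu⟩ : ∃ x : ℝ, x = (433217 / 625000) - L := ⟨_, rfl⟩
  obtain ⟨yl, hyl⟩ : ∃ x : ℝ, x = h - (67 / 400) := ⟨_, rfl⟩
  obtain ⟨yu, hyu⟩ : ∃ x : ℝ, x = (117 / 500) - h := ⟨_, rfl⟩
  obtain ⟨A, hA⟩ : ∃ x : ℝ, x = g - 0 := ⟨_, rfl⟩
  obtain ⟨B, hB⟩ : ∃ x : ℝ, x = 1 - g := ⟨_, rfl⟩
  have hxl0 : 0 ≤ xl := by rw [hxl]; linarith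
  have hxu0 : 0 ≤ xu := by rw [hxu]; linarith
  have hyl0 : 0 ≤ yl := by rw [hyl]; linarith
  have hyu0 : 0 ≤ yu := by rw [hyu]; linarith
  have hA0 : 0 ≤ A := by rw [hA]; linarith
  have hB0 : 0 ≤ B := by rw [hB]; linarith
  have key : UG1_5_2 L h g =
      ((23265080993 / 7812500) + (147936 / 25) * xl + (11419264 / 3125) * yu) * A ^ 0 * B ^ 4
      + ((183710320541 / 19531250) + (2276544 / 125) * xl + (28622656 / 3125) * yu) * A ^ 1 * B ^ 3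
      + ((234186774643 / 19531250) + (2758912 / 125) * xl + (25694634 / 3125) * yu) * A ^ 2 * B ^ 2
      + ((4701244726671 / 625000000) + (1672002 / 125) * xl + (11825606 / 3125) * yu) * A ^ 3 * B ^ 1
      + ((1219929715967 / 625000000) + (449954 / 125) * xl + (3334364 / 3125) * yu) * A ^ 4 * B ^ 0 := by
    simp only [hxl, hxu, hyl, hyu, hA, hB]
    unfold UG1_5_2
    ring
  rw [key]
  positivity

lemma UG1_5_nonneg {L h b g : ℝ} (hL0 : (6931471 / 10000000) ≤ L) (hL1 : L ≤ (433217 / 625000)) (hh0 : (67 / 400) ≤ h) (hh1 : h ≤ (117 / 500)) (hb0 : 0 ≤ b) (hb1 : b ≤ 1) (hg0 : 0 ≤ g) (hg1 : g ≤ 1) :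
    0 ≤ UG1_5 L h b g := by
  have c0 := UG1_5_0_nonneg hL0 hL1 hh0 hh1 hg0 hg1
  have c1 := UG1_5_1_nonneg hL0 hL1 hh0 hh1 hg0 hg1
  have c2 := UG1_5_2_nonneg hL0 hL1 hh0 hh1 hg0 hg1
  have key : UG1_5 L h b g =
      (b - 0) ^ 0 * (1 - b) ^ 2 * UG1_5_0 L h g
      + (b - 0) ^ 1 * (1 - b) ^ 1 * UG1_5_1 L h g
      + (b - 0) ^ 2 * (1 - b) ^ 0 * UG1_5_2 L h g := by
    unfold UG1_5 UG1_5_0 UG1_5_1 UG1_5_2
    ring
  have hA : 0 ≤ b - 0 := by linarith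
  have hB : 0 ≤ 1 - b := by linarith
  rw [key]
  positivity

noncomputable def UG1_6 (L h b g : ℝ) : ℝ :=
  ((16632 / 125) + (24832 / 25) * L + (-863056 / 625) * h) * b ^ 0 * g ^ 0
    + (0 + (-1330432 / 625) * L + (1330432 / 625) * h) * b ^ 0 * g ^ 1
    + ((320144 / 3125) + (24832 / 25) * L + (-4488 / 5) * h) * b ^ 0 * g ^ 2
    + ((-11968 / 125) + (416 / 5) * L + (-416 / 5) * h) * b ^ 0 * g ^ 3
    + ((-2431 / 625) + 0 * L + 0 * h) * b ^ 0 * g ^ 4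
    + (0 + (-4672 / 25) * L + (4672 / 25) * h) * b ^ 1 * g ^ 2
    + ((10736 / 625) + 0 * L + 0 * h) * b ^ 1 * g ^ 3
    + ((-149876 / 625) + (16272 / 25) * L + (269416 / 625) * h) * b ^ 2 * g ^ 0
    + (0 + 640 * L + (-640) * h) * b ^ 2 * g ^ 1
    + ((-748 / 25) + 0 * L + (-442 / 25) * h) * b ^ 2 * g ^ 2
    + (0 + (-364 / 25) * L + (364 / 25) * h) * b ^ 2 * g ^ 3
    + ((1573 / 2500) + 0 * L + 0 * h) * b ^ 2 * g ^ 4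
    + (2 + (-4) * L + 0 * h) * b ^ 4 * g ^ 0

noncomputable def UG1_6_0 (L h g : ℝ) : ℝ :=
  ((16632 / 125) + (24832 / 25) * L + (-863056 / 625) * h) * g ^ 0
    + (0 + (-1330432 / 625) * L + (1330432 / 625) * h) * g ^ 1
    + ((320144 / 3125) + (24832 / 25) * L + (-4488 / 5) * h) * g ^ 2
    + ((-11968 / 125) + (416 / 5) * L + (-416 / 5) * h) * g ^ 3
    + ((-2431 / 625) + 0 * L + 0 * h) * g ^ 4

lemma UG1_6_0_nonneg {L h g : ℝ} (hL0 : (6931471 / 10000000) ≤ L) (hL1 : L ≤ (433217 / 625000)) (hh0 : (67 / 400) ≤ h) (hh1 : h ≤ (117 / 500)) (hg0 : 0 ≤ g) (hg1 : g ≤ 1) :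
    0 ≤ UG1_6_0 L h g := by
  obtain ⟨xl, hxl⟩ : ∃ x : ℝ, x = L - (6931471 / 10000000) := ⟨_, rfl⟩
  obtain ⟨xu, hxu⟩ : ∃ x : ℝ, x = (433217 / 625000) - L := ⟨_, rfl⟩
  obtain ⟨yl, hyl⟩ : ∃ x : ℝ, x = h - (67 / 400) := ⟨_, rfl⟩
  obtain ⟨yu, hyu⟩ : ∃ x : ℝ, x = (117 / 500) - h := ⟨_, rfl⟩
  obtain ⟨A, hA⟩ : ∃ x : ℝ, x = g - 0 := ⟨_, rfl⟩
  obtain ⟨B, hB⟩ : ∃ x : ℝ, x = 1 - g := ⟨_, rfl⟩
  have hxl0 : 0 ≤ xl := by rw [hxl]; linarith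
  have hxu0 : 0 ≤ xu := by rw [hxu]; linarith
  have hyl0 : 0 ≤ yl := by rw [hyl]; linarith
  have hyu0 : 0 ≤ yu := by rw [hyu]; linarith
  have hA0 : 0 ≤ A := by rw [hA]; linarith
  have hB0 : 0 ≤ B := by rw [hB]; linarith
  have key : UG1_6_0 L h g =
      ((973470674 / 1953125) + (24832 / 25) * xl + (863056 / 625) * yu) * A ^ 0 * B ^ 4
      + ((49623317826 / 48828125) + (1152768 / 625) * xl + (2121792 / 625) * yu) * A ^ 1 * B ^ 3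
      + ((31213455478 / 48828125) + (354304 / 625) * xl + (349608 / 125) * yu) * A ^ 2 * B ^ 2
      + ((8094308296 / 48828125) + (214496 / 625) * xu + (634928 / 625) * yu) * A ^ 3 * B ^ 1
      + ((1977483307 / 48828125) + (36832 / 625) * xu + (145624 / 625) * yu) * A ^ 4 * B ^ 0 := by
    simp only [hxl, hxu, hyl, hyu, hA, hB]
    unfold UG1_6_0
    ring
  rw [key]
  positivity

noncomputable def UG1_6_1 (L h g : ℝ) : ℝ :=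
  ((66528 / 125) + (99328 / 25) * L + (-3452224 / 625) * h) * g ^ 0
    + (0 + (-5321728 / 625) * L + (5321728 / 625) * h) * g ^ 1
    + ((1280576 / 3125) + (94656 / 25) * L + (-85088 / 25) * h) * g ^ 2
    + ((-228624 / 625) + (1664 / 5) * L + (-1664 / 5) * h) * g ^ 3
    + ((-9724 / 625) + 0 * L + 0 * h) * g ^ 4

lemma UG1_6_1_nonneg {L h g : ℝ} (hL0 : (6931471 / 10000000) ≤ L) (hL1 : L ≤ (433217 / 625000)) (hh0 : (67 / 400) ≤ h) (hh1 : h ≤ (117 / 500)) (hg0 : 0 ≤ g) (hg1 : g ≤ 1) :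
    0 ≤ UG1_6_1 L h g := by
  obtain ⟨xl, hxl⟩ : ∃ x : ℝ, x = L - (6931471 / 10000000) := ⟨_, rfl⟩
  obtain ⟨xu, hxu⟩ : ∃ x : ℝ, x = (433217 / 625000) - L := ⟨_, rfl⟩
  obtain ⟨yl, hyl⟩ : ∃ x : ℝ, x = h - (67 / 400) := ⟨_, rfl⟩
  obtain ⟨yu, hyu⟩ : ∃ x : ℝ, x = (117 / 500) - h := ⟨_, rfl⟩
  obtain ⟨A, hA⟩ : ∃ x : ℝ, x = g - 0 := ⟨_, rfl⟩
  obtain ⟨B, hB⟩ : ∃ x : ℝ, x = 1 - g := ⟨_, rfl⟩
  have hxl0 : 0 ≤ xl := by rw [hxl]; linarith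
  have hxu0 : 0 ≤ xu := by rw [hxu]; linarith
  have hyl0 : 0 ≤ yl := by rw [hyl]; linarith
  have hyu0 : 0 ≤ yu := by rw [hyu]; linarith
  have hA0 : 0 ≤ A := by rw [hA]; linarith
  have hB0 : 0 ≤ B := by rw [hB]; linarith
  have key : UG1_6_1 L h g =
      ((3893882696 / 1953125) + (99328 / 25) * xl + (3452224 / 625) * yu) * A ^ 0 * B ^ 4
      + ((198493271304 / 48828125) + (4611072 / 625) * xl + (8487168 / 625) * yu) * A ^ 1 * B ^ 3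
      + ((241328209249 / 97656250) + (1300416 / 625) * xl + (1375072 / 125) * yu) * A ^ 2 * B ^ 2
      + ((24836546784 / 48828125) + (1091584 / 625) * xu + (2306112 / 625) * yu) * A ^ 3 * B ^ 1
      + ((4558965028 / 48828125) + (264128 / 625) * xu + (465696 / 625) * yu) * A ^ 4 * B ^ 0 := by
    simp only [hxl, hxu, hyl, hyu, hA, hB]
    unfold UG1_6_1
    ring
  rw [key]
  positivity

noncomputable def UG1_6_2 (L h g : ℝ) : ℝ :=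
  ((349084 / 625) + (165264 / 25) * L + (-981784 / 125) * h) * g ^ 0
    + (0 + (-7582592 / 625) * L + (7582592 / 625) * h) * g ^ 1
    + ((1827364 / 3125) + (134976 / 25) * L + (-121066 / 25) * h) * g ^ 2
    + ((-326832 / 625) + (12116 / 25) * L + (-12116 / 25) * h) * g ^ 3
    + ((-56771 / 2500) + 0 * L + 0 * h) * g ^ 4

lemma UG1_6_2_nonneg {L h g : ℝ} (hL0 : (6931471 / 10000000) ≤ L) (hL1 : L ≤ (433217 / 625000)) (hh0 : (67 / 400) ≤ h) (hh1 : h ≤ (117 / 500)) (hg0 : 0 ≤ g) (hg1 : g ≤ 1) :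
    0 ≤ UG1_6_2 L h g := by
  obtain ⟨xl, hxl⟩ : ∃ x : ℝ, x = L - (6931471 / 10000000) := ⟨_, rfl⟩
  obtain ⟨xu, hxu⟩ : ∃ x : ℝ, x = (433217 / 625000) - L := ⟨_, rfl⟩
  obtain ⟨yl, hyl⟩ : ∃ x : ℝ, x = h - (67 / 400) := ⟨_, rfl⟩
  obtain ⟨yu, hyu⟩ : ∃ x : ℝ, x = (117 / 500) - h := ⟨_, rfl⟩
  obtain ⟨A, hA⟩ : ∃ x : ℝ, x = g - 0 := ⟨_, rfl⟩
  obtain ⟨B, hB⟩ : ∃ x : ℝ, x = 1 - g := ⟨_, rfl⟩
  have hxl0 : 0 ≤ xl := by rw [hxl]; linarith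
  have hxu0 : 0 ≤ xu := by rw [hxu]; linarith
  have hyl0 : 0 ≤ yl := by rw [hyl]; linarith
  have hyu0 : 0 ≤ yu := by rw [hyu]; linarith
  have hA0 : 0 ≤ A := by rw [hA]; linarith
  have hB0 : 0 ≤ B := by rw [hB]; linarith
  have key : UG1_6_2 L h g =
      ((51605081959 / 15625000) + (165264 / 25) * xl + (981784 / 125) * yu) * A ^ 0 * B ^ 4
      + ((746138747837 / 97656250) + (8943808 / 625) * xl + (12053088 / 625) * yu) * A ^ 1 * B ^ 3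
      + ((1230261425797 / 195312500) + (5416224 / 625) * xl + (9732394 / 625) * yu) * A ^ 2 * B ^ 2
      + ((4042164841651 / 1562500000) + (830324 / 625) * xl + (3244104 / 625) * yu) * A ^ 3 * B ^ 1
      + ((942303329767 / 1562500000) + (226308 / 625) * xl + (655878 / 625) * yu) * A ^ 4 * B ^ 0 := by
    simp only [hxl, hxu, hyl, hyu, hA, hB]
    unfold UG1_6_2
    ring
  rw [key]
  positivity

noncomputable def UG1_6_3 (L h g : ℝ) : ℝ :=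
  ((32888 / 625) + (131872 / 25) * L + (-2913392 / 625) * h) * g ^ 0
    + (0 + (-4521728 / 625) * L + (4521728 / 625) * h) * g ^ 1
    + ((1093576 / 3125) + (85312 / 25) * L + (-76628 / 25) * h) * g ^ 2
    + ((-207152 / 625) + (7592 / 25) * L + (-7592 / 25) * h) * g ^ 3
    + ((-143 / 10) + 0 * L + 0 * h) * g ^ 4

lemma UG1_6_3_nonneg {L h g : ℝ} (hL0 : (6931471 / 10000000) ≤ L) (hL1 : L ≤ (433217 / 625000)) (hh0 : (67 / 400) ≤ h) (hh1 : h ≤ (117 / 500)) (hg0 : 0 ≤ g) (hg1 : g ≤ 1) :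
    0 ≤ UG1_6_3 L h g := by
  obtain ⟨xl, hxl⟩ : ∃ x : ℝ, x = L - (6931471 / 10000000) := ⟨_, rfl⟩
  obtain ⟨xu, hxu⟩ : ∃ x : ℝ, x = (433217 / 625000) - L := ⟨_, rfl⟩
  obtain ⟨yl, hyl⟩ : ∃ x : ℝ, x = h - (67 / 400) := ⟨_, rfl⟩
  obtain ⟨yu, hyu⟩ : ∃ x : ℝ, x = (117 / 500) - h := ⟨_, rfl⟩
  obtain ⟨A, hA⟩ : ∃ x : ℝ, x = g - 0 := ⟨_, rfl⟩
  obtain ⟨B, hB⟩ : ∃ x : ℝ, x = 1 - g := ⟨_, rfl⟩
  have hxl0 : 0 ≤ xl := by rw [hxl]; linarith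
  have hxu0 : 0 ≤ xu := by rw [hxu]; linarith
  have hyl0 : 0 ≤ yl := by rw [hyl]; linarith
  have hyu0 : 0 ≤ yu := by rw [hyu]; linarith
  have hA0 : 0 ≤ A := by rw [hA]; linarith
  have hB0 : 0 ≤ B := by rw [hB]; linarith
  have key : UG1_6_3 L h g =
      ((20454020391 / 7812500) + (131872 / 25) * xl + (2913392 / 625) * yu) * A ^ 0 * B ^ 4
      + ((349152205229 / 48828125) + (8665472 / 625) * xl + (1426368 / 125) * yu) * A ^ 1 * B ^ 3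
      + ((377992220937 / 48828125) + (8348416 / 625) * xl + (5830868 / 625) * yu) * A ^ 2 * B ^ 2
      + ((3368046024867 / 781250000) + (4077416 / 625) * xl + (2109584 / 625) * yu) * A ^ 3 * B ^ 1
      + ((850031859439 / 781250000) + (1097672 / 625) * xl + (497164 / 625) * yu) * A ^ 4 * B ^ 0 := by
    simp only [hxl, hxu, hyl, hyu, hA, hB]
    unfold UG1_6_3
    ring
  rw [key]
  positivity

noncomputable def UG1_6_4 (L h g : ℝ) : ℝ :=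
  ((-65466 / 625) + (41004 / 25) * L + (-118728 / 125) * h) * g ^ 0
    + (0 + (-930432 / 625) * L + (930432 / 625) * h) * g ^ 1
    + ((226644 / 3125) + (4032 / 5) * L + (-3642 / 5) * h) * g ^ 2
    + ((-49104 / 625) + (1716 / 25) * L + (-1716 / 25) * h) * g ^ 3
    + ((-8151 / 2500) + 0 * L + 0 * h) * g ^ 4

lemma UG1_6_4_nonneg {L h g : ℝ} (hL0 : (6931471 / 10000000) ≤ L) (hL1 : L ≤ (433217 / 625000)) (hh0 : (67 / 400) ≤ h) (hh1 : h ≤ (117 / 500)) (hg0 : 0 ≤ g) (hg1 : g ≤ 1) :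
    0 ≤ UG1_6_4 L h g := by
  obtain ⟨xl, hxl⟩ : ∃ x : ℝ, x = L - (6931471 / 10000000) := ⟨_, rfl⟩
  obtain ⟨xu, hxu⟩ : ∃ x : ℝ, x = (433217 / 625000) - L := ⟨_, rfl⟩
  obtain ⟨yl, hyl⟩ : ∃ x : ℝ, x = h - (67 / 400) := ⟨_, rfl⟩
  obtain ⟨yu, hyu⟩ : ∃ x : ℝ, x = (117 / 500) - h := ⟨_, rfl⟩
  obtain ⟨A, hA⟩ : ∃ x : ℝ, x = g - 0 := ⟨_, rfl⟩
  obtain ⟨B, hB⟩ : ∃ x : ℝ, x = 1 - g := ⟨_, rfl⟩
  have hxl0 : 0 ≤ xl := by rw [hxl]; linarith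
  have hxu0 : 0 ≤ xu := by rw [hxu]; linarith
  have hyl0 : 0 ≤ yl := by rw [hyl]; linarith
  have hyu0 : 0 ≤ yu := by rw [hyu]; linarith
  have hA0 : 0 ≤ A := by rw [hA]; linarith
  have hB0 : 0 ≤ B := by rw [hB]; linarith
  have key : UG1_6_4 L h g =
      ((50616733221 / 62500000) + (41004 / 25) * xl + (118728 / 125) * yu) * A ^ 0 * B ^ 4
      + ((998415108933 / 390625000) + (3169968 / 625) * xl + (1444128 / 625) * yu) * A ^ 1 * B ^ 3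
      + ((2554418710023 / 781250000) + (3863304 / 625) * xl + (1225794 / 625) * yu) * A ^ 2 * B ^ 2
      + ((3224850381471 / 1562500000) + (2360004 / 625) * xl + (536664 / 625) * yu) * A ^ 3 * B ^ 1
      + ((52447543227 / 97656250) + (641568 / 625) * xl + (161358 / 625) * yu) * A ^ 4 * B ^ 0 := by
    simp only [hxl, hxu, hyl, hyu, hA, hB]
    unfold UG1_6_4
    ring
  rw [key]
  positivity

lemma UG1_6_nonneg {L h b g : ℝ} (hL0 : (6931471 / 10000000) ≤ L) (hL1 : L ≤ (433217 / 625000)) (hh0 : (67 / 400) ≤ h) (hh1 : h ≤ (117 / 500)) (hb0 : 0 ≤ b) (hb1 : b ≤ 1) (hg0 : 0 ≤ g) (hg1 : g ≤ 1) :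
    0 ≤ UG1_6 L h b g := by
  have c0 := UG1_6_0_nonneg hL0 hL1 hh0 hh1 hg0 hg1
  have c1 := UG1_6_1_nonneg hL0 hL1 hh0 hh1 hg0 hg1
  have c2 := UG1_6_2_nonneg hL0 hL1 hh0 hh1 hg0 hg1
  have c3 := UG1_6_3_nonneg hL0 hL1 hh0 hh1 hg0 hg1
  have c4 := UG1_6_4_nonneg hL0 hL1 hh0 hh1 hg0 hg1
  have key : UG1_6 L h b g =
      (b - 0) ^ 0 * (1 - b) ^ 4 * UG1_6_0 L h g
      + (b - 0) ^ 1 * (1 - b) ^ 3 * UG1_6_1 L h g
      + (b - 0) ^ 2 * (1 - b) ^ 2 * UG1_6_2 L h g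
      + (b - 0) ^ 3 * (1 - b) ^ 1 * UG1_6_3 L h g
      + (b - 0) ^ 4 * (1 - b) ^ 0 * UG1_6_4 L h g := by
    unfold UG1_6 UG1_6_0 UG1_6_1 UG1_6_2 UG1_6_3 UG1_6_4
    ring
  have hA : 0 ≤ b - 0 := by linarith
  have hB : 0 ≤ 1 - b := by linarith
  rw [key]
  positivity

noncomputable def UG1_7 (L h b g : ℝ) : ℝ :=
  ((9504 / 625) + (3072 / 25) * L + (-105792 / 625) * h) * b ^ 0 * g ^ 0
    + (0 + (-166272 / 625) * L + (166272 / 625) * h) * b ^ 0 * g ^ 1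
    + ((228624 / 15625) + (3072 / 25) * L + (-552 / 5) * h) * b ^ 0 * g ^ 2
    + ((-8448 / 625) + (312 / 25) * L + (-312 / 25) * h) * b ^ 0 * g ^ 3
    + ((-429 / 625) + 0 * L + 0 * h) * b ^ 0 * g ^ 4
    + (0 + (-768 / 25) * L + (768 / 25) * h) * b ^ 1 * g ^ 2
    + ((2112 / 625) + 0 * L + 0 * h) * b ^ 1 * g ^ 3
    + ((-100272 / 3125) + (1728 / 25) * L + (207552 / 3125) * h) * b ^ 2 * g ^ 0
    + (0 + 96 * L + (-96) * h) * b ^ 2 * g ^ 1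
    + ((-132 / 25) + 0 * L + (-78 / 25) * h) * b ^ 2 * g ^ 2
    + (0 + (-78 / 25) * L + (78 / 25) * h) * b ^ 2 * g ^ 3
    + ((429 / 2500) + 0 * L + 0 * h) * b ^ 2 * g ^ 4
    + ((24 / 25) + (-48 / 25) * L + 0 * h) * b ^ 4 * g ^ 0

noncomputable def UG1_7_0 (L h g : ℝ) : ℝ :=
  ((9504 / 625) + (3072 / 25) * L + (-105792 / 625) * h) * g ^ 0
    + (0 + (-166272 / 625) * L + (166272 / 625) * h) * g ^ 1
    + ((228624 / 15625) + (3072 / 25) * L + (-552 / 5) * h) * g ^ 2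
    + ((-8448 / 625) + (312 / 25) * L + (-312 / 25) * h) * g ^ 3
    + ((-429 / 625) + 0 * L + 0 * h) * g ^ 4

lemma UG1_7_0_nonneg {L h g : ℝ} (hL0 : (6931471 / 10000000) ≤ L) (hL1 : L ≤ (433217 / 625000)) (hh0 : (67 / 400) ≤ h) (hh1 : h ≤ (117 / 500)) (hg0 : 0 ≤ g) (hg1 : g ≤ 1) :
    0 ≤ UG1_7_0 L h g := by
  obtain ⟨xl, hxl⟩ : ∃ x : ℝ, x = L - (6931471 / 10000000) := ⟨_, rfl⟩
  obtain ⟨xu, hxu⟩ : ∃ x : ℝ, x = (433217 / 625000) - L := ⟨_, rfl⟩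
  obtain ⟨yl, hyl⟩ : ∃ x : ℝ, x = h - (67 / 400) := ⟨_, rfl⟩
  obtain ⟨yu, hyu⟩ : ∃ x : ℝ, x = (117 / 500) - h := ⟨_, rfl⟩
  obtain ⟨A, hA⟩ : ∃ x : ℝ, x = g - 0 := ⟨_, rfl⟩
  obtain ⟨B, hB⟩ : ∃ x : ℝ, x = 1 - g := ⟨_, rfl⟩
  have hxl0 : 0 ≤ xl := by rw [hxl]; linarith
  have hxu0 : 0 ≤ xu := by rw [hxu]; linarith
  have hyl0 : 0 ≤ yl := by rw [hyl]; linarith
  have hyu0 : 0 ≤ yu := by rw [hyu]; linarith
  have hA0 : 0 ≤ A := by rw [hA]; linarith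
  have hB0 : 0 ≤ B := by rw [hB]; linarith
  have key : UG1_7_0 L h g =
      ((118694904 / 1953125) + (3072 / 25) * xl + (105792 / 625) * yu) * A ^ 0 * B ^ 4
      + ((5905169571 / 48828125) + (140928 / 625) * xl + (256896 / 625) * yu) * A ^ 1 * B ^ 3
      + ((3523199463 / 48828125) + (38784 / 625) * xl + (204936 / 625) * yu) * A ^ 2 * B ^ 2
      + ((820173141 / 48828125) + (30216 / 625) * xu + (70152 / 625) * yu) * A ^ 3 * B ^ 1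
      + ((201255222 / 48828125) + (4872 / 625) * xu + (3264 / 125) * yu) * A ^ 4 * B ^ 0 := by
    simp only [hxl, hxu, hyl, hyu, hA, hB]
    unfold UG1_7_0
    ring
  rw [key]
  positivity

noncomputable def UG1_7_1 (L h g : ℝ) : ℝ :=
  ((38016 / 625) + (12288 / 25) * L + (-423168 / 625) * h) * g ^ 0
    + (0 + (-665088 / 625) * L + (665088 / 625) * h) * g ^ 1
    + ((914496 / 15625) + (2304 / 5) * L + (-10272 / 25) * h) * g ^ 2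
    + ((-6336 / 125) + (1248 / 25) * L + (-1248 / 25) * h) * g ^ 3
    + ((-1716 / 625) + 0 * L + 0 * h) * g ^ 4

lemma UG1_7_1_nonneg {L h g : ℝ} (hL0 : (6931471 / 10000000) ≤ L) (hL1 : L ≤ (433217 / 625000)) (hh0 : (67 / 400) ≤ h) (hh1 : h ≤ (117 / 500)) (hg0 : 0 ≤ g) (hg1 : g ≤ 1) :
    0 ≤ UG1_7_1 L h g := by
  obtain ⟨xl, hxl⟩ : ∃ x : ℝ, x = L - (6931471 / 10000000) := ⟨_, rfl⟩
  obtain ⟨xu, hxu⟩ : ∃ x : ℝ, x = (433217 / 625000) - L := ⟨_, rfl⟩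
  obtain ⟨yl, hyl⟩ : ∃ x : ℝ, x = h - (67 / 400) := ⟨_, rfl⟩
  obtain ⟨yu, hyu⟩ : ∃ x : ℝ, x = (117 / 500) - h := ⟨_, rfl⟩
  obtain ⟨A, hA⟩ : ∃ x : ℝ, x = g - 0 := ⟨_, rfl⟩
  obtain ⟨B, hB⟩ : ∃ x : ℝ, x = 1 - g := ⟨_, rfl⟩
  have hxl0 : 0 ≤ xl := by rw [hxl]; linarith
  have hxu0 : 0 ≤ xu := by rw [hxu]; linarith
  have hyl0 : 0 ≤ yl := by rw [hyl]; linarith
  have hyu0 : 0 ≤ yu := by rw [hyu]; linarith
  have hA0 : 0 ≤ A := by rw [hA]; linarith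
  have hB0 : 0 ≤ B := by rw [hB]; linarith
  have key : UG1_7_1 L h g =
      ((474779616 / 1953125) + (12288 / 25) * xl + (423168 / 625) * yu) * A ^ 0 * B ^ 4
      + ((23620678284 / 48828125) + (563712 / 625) * xl + (1027584 / 625) * yu) * A ^ 1 * B ^ 3
      + ((13404077202 / 48828125) + (135936 / 625) * xl + (800544 / 625) * yu) * A ^ 2 * B ^ 2
      + ((2068250964 / 48828125) + (159264 / 625) * xu + (242208 / 625) * yu) * A ^ 3 * B ^ 1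
      + ((281300088 / 48828125) + (38688 / 625) * xu + (9216 / 125) * yu) * A ^ 4 * B ^ 0 := by
    simp only [hxl, hxu, hyl, hyu, hA, hB]
    unfold UG1_7_1
    ring
  rw [key]
  positivity

noncomputable def UG1_7_2 (L h g : ℝ) : ℝ :=
  ((184848 / 3125) + (4032 / 5) * L + (-2966208 / 3125) * h) * g ^ 0
    + (0 + (-937632 / 625) * L + (937632 / 625) * h) * g ^ 1
    + ((1289244 / 15625) + (16128 / 25) * L + (-14334 / 25) * h) * g ^ 2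
    + ((-44352 / 625) + (1794 / 25) * L + (-1794 / 25) * h) * g ^ 3
    + ((-9867 / 2500) + 0 * L + 0 * h) * g ^ 4

lemma UG1_7_2_nonneg {L h g : ℝ} (hL0 : (6931471 / 10000000) ≤ L) (hL1 : L ≤ (433217 / 625000)) (hh0 : (67 / 400) ≤ h) (hh1 : h ≤ (117 / 500)) (hg0 : 0 ≤ g) (hg1 : g ≤ 1) :
    0 ≤ UG1_7_2 L h g := by
  obtain ⟨xl, hxl⟩ : ∃ x : ℝ, x = L - (6931471 / 10000000) := ⟨_, rfl⟩
  obtain ⟨xu, hxu⟩ : ∃ x : ℝ, x = (433217 / 625000) - L := ⟨_, rfl⟩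
  obtain ⟨yl, hyl⟩ : ∃ x : ℝ, x = h - (67 / 400) := ⟨_, rfl⟩
  obtain ⟨yu, hyu⟩ : ∃ x : ℝ, x = (117 / 500) - h := ⟨_, rfl⟩
  obtain ⟨A, hA⟩ : ∃ x : ℝ, x = g - 0 := ⟨_, rfl⟩
  obtain ⟨B, hB⟩ : ∃ x : ℝ, x = 1 - g := ⟨_, rfl⟩
  have hxl0 : 0 ≤ xl := by rw [hxl]; linarith
  have hxu0 : 0 ≤ xu := by rw [hxu]; linarith
  have hyl0 : 0 ≤ yl := by rw [hyl]; linarith
  have hyu0 : 0 ≤ yu := by rw [hyu]; linarith
  have hA0 : 0 ≤ A := by rw [hA]; linarith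
  have hB0 : 0 ≤ B := by rw [hB]; linarith
  have key : UG1_7_2 L h g =
      ((61874301 / 156250) + (4032 / 5) * xl + (2966208 / 3125) * yu) * A ^ 0 * B ^ 4
      + ((174836813229 / 195312500) + (1078368 / 625) * xl + (7176672 / 3125) * yu) * A ^ 1 * B ^ 3
      + ((137700923037 / 195312500) + (614304 / 625) * xl + (5524518 / 3125) * yu) * A ^ 2 * B ^ 2
      + ((845410319367 / 3125000000) + (54354 / 625) * xl + (1608102 / 3125) * yu) * A ^ 3 * B ^ 1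
      + ((189764792439 / 3125000000) + (14418 / 625) * xl + (294048 / 3125) * yu) * A ^ 4 * B ^ 0 := by
    simp only [hxl, hxu, hyl, hyu, hA, hB]
    unfold UG1_7_2
    ring
  rw [key]
  positivity

noncomputable def UG1_7_3 (L h g : ℝ) : ℝ :=
  ((-10464 / 3125) + (15744 / 25) * L + (-1700736 / 3125) * h) * g ^ 0
    + (0 + (-545088 / 625) * L + (545088 / 625) * h) * g ^ 1
    + ((749496 / 15625) + (9984 / 25) * L + (-8892 / 25) * h) * g ^ 2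
    + ((-27456 / 625) + (1092 / 25) * L + (-1092 / 25) * h) * g ^ 3
    + ((-3003 / 1250) + 0 * L + 0 * h) * g ^ 4

lemma UG1_7_3_nonneg {L h g : ℝ} (hL0 : (6931471 / 10000000) ≤ L) (hL1 : L ≤ (433217 / 625000)) (hh0 : (67 / 400) ≤ h) (hh1 : h ≤ (117 / 500)) (hg0 : 0 ≤ g) (hg1 : g ≤ 1) :
    0 ≤ UG1_7_3 L h g := by
  obtain ⟨xl, hxl⟩ : ∃ x : ℝ, x = L - (6931471 / 10000000) := ⟨_, rfl⟩
  obtain ⟨xu, hxu⟩ : ∃ x : ℝ, x = (433217 / 625000) - L := ⟨_, rfl⟩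
  obtain ⟨yl, hyl⟩ : ∃ x : ℝ, x = h - (67 / 400) := ⟨_, rfl⟩
  obtain ⟨yu, hyu⟩ : ∃ x : ℝ, x = (117 / 500) - h := ⟨_, rfl⟩
  obtain ⟨A, hA⟩ : ∃ x : ℝ, x = g - 0 := ⟨_, rfl⟩
  obtain ⟨B, hB⟩ : ∃ x : ℝ, x = 1 - g := ⟨_, rfl⟩
  have hxl0 : 0 ≤ xl := by rw [hxl]; linarith
  have hxu0 : 0 ≤ xu := by rw [hxu]; linarith
  have hyl0 : 0 ≤ yl := by rw [hyl]; linarith
  have hyu0 : 0 ≤ yu := by rw [hyu]; linarith
  have hA0 : 0 ≤ A := by rw [hA]; linarith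
  have hB0 : 0 ≤ B := by rw [hB]; linarith
  have key : UG1_7_3 L h g =
      ((597298293 / 1953125) + (15744 / 25) * xl + (1700736 / 3125) * yu) * A ^ 0 * B ^ 4
      + ((80354100093 / 97656250) + (1029312 / 625) * xl + (4077504 / 3125) * yu) * A ^ 1 * B ^ 3
      + ((85462055529 / 97656250) + (975936 / 625) * xl + (3139596 / 3125) * yu) * A ^ 2 * B ^ 2
      + ((751840299639 / 1562500000) + (465636 / 625) * xl + (986124 / 3125) * yu) * A ^ 3 * B ^ 1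
      + ((188520628263 / 1562500000) + (125412 / 625) * xl + (223296 / 3125) * yu) * A ^ 4 * B ^ 0 := by
    simp only [hxl, hxu, hyl, hyu, hA, hB]
    unfold UG1_7_3
    ring
  rw [key]
  positivity

noncomputable def UG1_7_4 (L h g : ℝ) : ℝ :=
  ((-49752 / 3125) + (4752 / 25) * L + (-321408 / 3125) * h) * g ^ 0
    + (0 + (-106272 / 625) * L + (106272 / 625) * h) * g ^ 1
    + ((146124 / 15625) + (2304 / 25) * L + (-414 / 5) * h) * g ^ 2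
    + ((-6336 / 625) + (234 / 25) * L + (-234 / 25) * h) * g ^ 3
    + ((-1287 / 2500) + 0 * L + 0 * h) * g ^ 4

lemma UG1_7_4_nonneg {L h g : ℝ} (hL0 : (6931471 / 10000000) ≤ L) (hL1 : L ≤ (433217 / 625000)) (hh0 : (67 / 400) ≤ h) (hh1 : h ≤ (117 / 500)) (hg0 : 0 ≤ g) (hg1 : g ≤ 1) :
    0 ≤ UG1_7_4 L h g := by
  obtain ⟨xl, hxl⟩ : ∃ x : ℝ, x = L - (6931471 / 10000000) := ⟨_, rfl⟩
  obtain ⟨xu, hxu⟩ : ∃ x : ℝ, x = (433217 / 625000) - L := ⟨_, rfl⟩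
  obtain ⟨yl, hyl⟩ : ∃ x : ℝ, x = h - (67 / 400) := ⟨_, rfl⟩
  obtain ⟨yu, hyu⟩ : ∃ x : ℝ, x = (117 / 500) - h := ⟨_, rfl⟩
  obtain ⟨A, hA⟩ : ∃ x : ℝ, x = g - 0 := ⟨_, rfl⟩
  obtain ⟨B, hB⟩ : ∃ x : ℝ, x = 1 - g := ⟨_, rfl⟩
  have hxl0 : 0 ≤ xl := by rw [hxl]; linarith
  have hxu0 : 0 ≤ xu := by rw [hxu]; linarith
  have hyl0 : 0 ≤ yl := by rw [hyl]; linarith
  have hyu0 : 0 ≤ yu := by rw [hyu]; linarith
  have hA0 : 0 ≤ A := by rw [hA]; linarith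
  have hB0 : 0 ≤ B := by rw [hB]; linarith
  have key : UG1_7_4 L h g =
      ((1433839527 / 15625000) + (4752 / 25) * xl + (321408 / 3125) * yu) * A ^ 0 * B ^ 4
      + ((56443701159 / 195312500) + (368928 / 625) * xl + (754272 / 3125) * yu) * A ^ 1 * B ^ 3
      + ((36156059001 / 97656250) + (451584 / 625) * xl + (593118 / 3125) * yu) * A ^ 2 * B ^ 2
      + ((733511794707 / 3125000000) + (277434 / 625) * xl + (238302 / 3125) * yu) * A ^ 3 * B ^ 1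
      + ((191240469819 / 3125000000) + (75978 / 625) * xl + (78048 / 3125) * yu) * A ^ 4 * B ^ 0 := by
    simp only [hxl, hxu, hyl, hyu, hA, hB]
    unfold UG1_7_4
    ring
  rw [key]
  positivity

lemma UG1_7_nonneg {L h b g : ℝ} (hL0 : (6931471 / 10000000) ≤ L) (hL1 : L ≤ (433217 / 625000)) (hh0 : (67 / 400) ≤ h) (hh1 : h ≤ (117 / 500)) (hb0 : 0 ≤ b) (hb1 : b ≤ 1) (hg0 : 0 ≤ g) (hg1 : g ≤ 1) :
    0 ≤ UG1_7 L h b g := by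
  have c0 := UG1_7_0_nonneg hL0 hL1 hh0 hh1 hg0 hg1
  have c1 := UG1_7_1_nonneg hL0 hL1 hh0 hh1 hg0 hg1
  have c2 := UG1_7_2_nonneg hL0 hL1 hh0 hh1 hg0 hg1
  have c3 := UG1_7_3_nonneg hL0 hL1 hh0 hh1 hg0 hg1
  have c4 := UG1_7_4_nonneg hL0 hL1 hh0 hh1 hg0 hg1
  have key : UG1_7 L h b g =
      (b - 0) ^ 0 * (1 - b) ^ 4 * UG1_7_0 L h g
      + (b - 0) ^ 1 * (1 - b) ^ 3 * UG1_7_1 L h g
      + (b - 0) ^ 2 * (1 - b) ^ 2 * UG1_7_2 L h g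
      + (b - 0) ^ 3 * (1 - b) ^ 1 * UG1_7_3 L h g
      + (b - 0) ^ 4 * (1 - b) ^ 0 * UG1_7_4 L h g := by
    unfold UG1_7 UG1_7_0 UG1_7_1 UG1_7_2 UG1_7_3 UG1_7_4
    ring
  have hA : 0 ≤ b - 0 := by linarith
  have hB : 0 ≤ 1 - b := by linarith
  rw [key]
  positivity

lemma UG1_nonneg {L h a b g : ℝ} (hL0 : (6931471 / 10000000) ≤ L) (hL1 : L ≤ (433217 / 625000)) (hh0 : (67 / 400) ≤ h) (hh1 : h ≤ (117 / 500)) (ha0 : 0 ≤ a) (ha1 : a ≤ (1 / 2)) (hb0 : 0 ≤ b) (hb1 : b ≤ 1) (hg0 : 0 ≤ g) (hg1 : g ≤ 1) :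
    0 ≤ UG1 L h a b g := by
  have c0 := UG1_0_nonneg hL0 hL1 hh0 hh1 hb0 hb1 hg0 hg1
  have c1 := UG1_1_nonneg hL0 hL1 hh0 hh1 hb0 hb1 hg0 hg1
  have c2 := UG1_2_nonneg hL0 hL1 hh0 hh1 hb0 hb1 hg0 hg1
  have c3 := UG1_3_nonneg hL0 hL1 hh0 hh1 hb0 hb1 hg0 hg1
  have c4 := UG1_4_nonneg hL0 hL1 hh0 hh1 hb0 hb1 hg0 hg1
  have c5 := UG1_5_nonneg hL0 hL1 hh0 hh1 hb0 hb1 hg0 hg1
  have c6 := UG1_6_nonneg hL0 hL1 hh0 hh1 hb0 hb1 hg0 hg1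
  have c7 := UG1_7_nonneg hL0 hL1 hh0 hh1 hb0 hb1 hg0 hg1
  have key : UG1 L h a b g =
      (a - 0) ^ 0 * ((1 / 2) - a) ^ 7 * UG1_0 L h b g
      + (a - 0) ^ 1 * ((1 / 2) - a) ^ 6 * UG1_1 L h b g
      + (a - 0) ^ 2 * ((1 / 2) - a) ^ 5 * UG1_2 L h b g
      + (a - 0) ^ 3 * ((1 / 2) - a) ^ 4 * UG1_3 L h b g
      + (a - 0) ^ 4 * ((1 / 2) - a) ^ 3 * UG1_4 L h b g
      + (a - 0) ^ 5 * ((1 / 2) - a) ^ 2 * UG1_5 L h b g
      + (a - 0) ^ 6 * ((1 / 2) - a) ^ 1 * UG1_6 L h b g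
      + (a - 0) ^ 7 * ((1 / 2) - a) ^ 0 * UG1_7 L h b g := by
    unfold UG1 UG1_0 UG1_1 UG1_2 UG1_3 UG1_4 UG1_5 UG1_6 UG1_7
    ring
  have hA : 0 ≤ a - 0 := by linarith
  have hB : 0 ≤ (1 / 2) - a := by linarith
  rw [key]
  positivity

end Vale.Agent.Lib.P322.Pot
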