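import Mathlib
import Vale.Agent.Lib.P322.Pot.Ult.CertG1

/-!
P322, potential method, range `7/8 ≤ ρ ≤ 23/25`.  Generated certificate: the polynomial `UPE` is nonnegative on a box (iterated expansion in the products
`(x - lo)^i (hi - x)^(n-i)`; all coefficients are affine in `(L, h)` and nonnegative).
-/

set_option linter.unusedSimpArgs false

namespace Vale.Agent.Lib.P322.Pot

noncomputable def UPE (L h om m J : ℝ) : ℝ :=
  (0 + 0 * L + (-13 / 100) * h) * om ^ 0 * m ^ 0 * J ^ 2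
    + (0 + (-13 / 50) * L + (13 / 100) * h) * om ^ 0 * m ^ 0 * J ^ 3
    + ((143 / 5000) + (-13 / 50) * L + (13 / 50) * h) * om ^ 0 * m ^ 0 * J ^ 4
    + ((143 / 5000) + 0 * L + 0 * h) * om ^ 0 * m ^ 0 * J ^ 5
    + (0 + 2 * L + (-113 / 50) * h) * om ^ 0 * m ^ 1 * J ^ 2
    + ((-11 / 25) + (-13 / 25) * L + (13 / 50) * h) * om ^ 0 * m ^ 1 * J ^ 3
    + ((143 / 2500) + (-13 / 25) * L + (13 / 25) * h) * om ^ 0 * m ^ 1 * J ^ 4
    + ((143 / 2500) + 0 * L + 0 * h) * om ^ 0 * m ^ 1 * J ^ 5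
    + (1 + 0 * L + (-1) * h) * om ^ 0 * m ^ 2 * J ^ 0
    + (0 + (-2) * L + 1 * h) * om ^ 0 * m ^ 2 * J ^ 1
    + ((11 / 50) + 2 * L + (-2) * h) * om ^ 0 * m ^ 2 * J ^ 2
    + ((-33 / 50) + 0 * L + 0 * h) * om ^ 0 * m ^ 2 * J ^ 3
    + (2 + 0 * L + (-2) * h) * om ^ 0 * m ^ 3 * J ^ 0
    + (0 + (-4) * L + 2 * h) * om ^ 0 * m ^ 3 * J ^ 1
    + ((11 / 25) + (-2) * L + (113 / 50) * h) * om ^ 0 * m ^ 3 * J ^ 2
    + (0 + (13 / 25) * L + (-13 / 50) * h) * om ^ 0 * m ^ 3 * J ^ 3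
    + ((-143 / 2500) + (13 / 25) * L + (-13 / 25) * h) * om ^ 0 * m ^ 3 * J ^ 4
    + ((-143 / 2500) + 0 * L + 0 * h) * om ^ 0 * m ^ 3 * J ^ 5
    + ((7 / 6) + 0 * L + (-1) * h) * om ^ 0 * m ^ 4 * J ^ 0
    + (0 + (-2) * L + 1 * h) * om ^ 0 * m ^ 4 * J ^ 1
    + ((11 / 50) + (-2) * L + (213 / 100) * h) * om ^ 0 * m ^ 4 * J ^ 2
    + ((11 / 50) + (13 / 50) * L + (-13 / 100) * h) * om ^ 0 * m ^ 4 * J ^ 3
    + ((-143 / 5000) + (13 / 50) * L + (-13 / 50) * h) * om ^ 0 * m ^ 4 * J ^ 4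
    + ((-143 / 5000) + 0 * L + 0 * h) * om ^ 0 * m ^ 4 * J ^ 5
    + ((1 / 3) + 0 * L + 0 * h) * om ^ 0 * m ^ 5 * J ^ 0
    + ((1 / 6) + 0 * L + 0 * h) * om ^ 0 * m ^ 6 * J ^ 0
    + (0 + 0 * L + 2 * h) * om ^ 1 * m ^ 1 * J ^ 0
    + (0 + 4 * L + (-2) * h) * om ^ 1 * m ^ 1 * J ^ 1
    + ((-11 / 25) + 4 * L + (-4) * h) * om ^ 1 * m ^ 1 * J ^ 2
    + ((-11 / 25) + 0 * L + 0 * h) * om ^ 1 * m ^ 1 * J ^ 3
    + (0 + 0 * L + (-2) * h) * om ^ 1 * m ^ 2 * J ^ 0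
    + (0 + (-4) * L + 2 * h) * om ^ 1 * m ^ 2 * J ^ 1
    + ((11 / 25) + (-8) * L + 8 * h) * om ^ 1 * m ^ 2 * J ^ 2
    + ((33 / 25) + 0 * L + 0 * h) * om ^ 1 * m ^ 2 * J ^ 3
    + ((-2) + 0 * L + 0 * h) * om ^ 1 * m ^ 3 * J ^ 0
    + (0 + 4 * L + (-4) * h) * om ^ 1 * m ^ 3 * J ^ 2
    + ((-22 / 25) + 0 * L + 0 * h) * om ^ 1 * m ^ 3 * J ^ 3
    + (2 + 0 * L + 0 * h) * om ^ 1 * m ^ 4 * J ^ 0
    + ((-1 / 3) + 0 * L + 0 * h) * om ^ 1 * m ^ 5 * J ^ 0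
    + ((1 / 3) + 0 * L + 0 * h) * om ^ 1 * m ^ 6 * J ^ 0

noncomputable def UPE_0 (L h m J : ℝ) : ℝ :=
  (0 + 0 * L + (-13 / 4) * h) * m ^ 0 * J ^ 2
    + (0 + (-13 / 2) * L + (13 / 4) * h) * m ^ 0 * J ^ 3
    + ((143 / 200) + (-13 / 2) * L + (13 / 2) * h) * m ^ 0 * J ^ 4
    + ((143 / 200) + 0 * L + 0 * h) * m ^ 0 * J ^ 5
    + (0 + 0 * L + 8 * h) * m ^ 1 * J ^ 0
    + (0 + 16 * L + (-8) * h) * m ^ 1 * J ^ 1
    + ((-44 / 25) + 66 * L + (-145 / 2) * h) * m ^ 1 * J ^ 2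
    + ((-319 / 25) + (-13) * L + (13 / 2) * h) * m ^ 1 * J ^ 3
    + ((143 / 100) + (-13) * L + 13 * h) * m ^ 1 * J ^ 4
    + ((143 / 100) + 0 * L + 0 * h) * m ^ 1 * J ^ 5
    + (25 + 0 * L + (-33) * h) * m ^ 2 * J ^ 0
    + (0 + (-66) * L + 33 * h) * m ^ 2 * J ^ 1
    + ((363 / 50) + 18 * L + (-18) * h) * m ^ 2 * J ^ 2
    + ((-561 / 50) + 0 * L + 0 * h) * m ^ 2 * J ^ 3
    + (42 + 0 * L + (-50) * h) * m ^ 3 * J ^ 0
    + (0 + (-100) * L + 50 * h) * m ^ 3 * J ^ 1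
    + (11 + (-34) * L + (81 / 2) * h) * m ^ 3 * J ^ 2
    + ((-88 / 25) + 13 * L + (-13 / 2) * h) * m ^ 3 * J ^ 3
    + ((-143 / 100) + 13 * L + (-13) * h) * m ^ 3 * J ^ 4
    + ((-143 / 100) + 0 * L + 0 * h) * m ^ 3 * J ^ 5
    + ((223 / 6) + 0 * L + (-25) * h) * m ^ 4 * J ^ 0
    + (0 + (-50) * L + 25 * h) * m ^ 4 * J ^ 1
    + ((11 / 2) + (-50) * L + (213 / 4) * h) * m ^ 4 * J ^ 2
    + ((11 / 2) + (13 / 2) * L + (-13 / 4) * h) * m ^ 4 * J ^ 3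
    + ((-143 / 200) + (13 / 2) * L + (-13 / 2) * h) * m ^ 4 * J ^ 4
    + ((-143 / 200) + 0 * L + 0 * h) * m ^ 4 * J ^ 5
    + (7 + 0 * L + 0 * h) * m ^ 5 * J ^ 0
    + ((11 / 2) + 0 * L + 0 * h) * m ^ 6 * J ^ 0

noncomputable def UPE_0_0 (L h J : ℝ) : ℝ :=
  ((1058877 / 33614) + 0 * L + (-2122500 / 117649) * h) * J ^ 0
    + (0 + (-4245000 / 117649) * L + (2122500 / 117649) * h) * J ^ 1
    + ((466950 / 117649) + (2871000 / 16807) * L + (-3585025 / 16807) * h) * J ^ 2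
    + ((-4888290 / 117649) + (-1428050 / 16807) * L + (714025 / 16807) * h) * J ^ 3
    + ((314171 / 33614) + (-1428050 / 16807) * L + (1428050 / 16807) * h) * J ^ 4
    + ((314171 / 33614) + 0 * L + 0 * h) * J ^ 5

lemma UPE_0_0_nonneg {L h J : ℝ} (hL0 : (6931471 / 10000000) ≤ L) (hL1 : L ≤ (433217 / 625000)) (hh0 : (67 / 400) ≤ h) (hh1 : h ≤ (117 / 500)) (hJ0 : 0 ≤ J) (hJ1 : J ≤ (39 / 50)) :
    0 ≤ UPE_0_0 L h J := by
  obtain ⟨xl, hxl⟩ : ∃ x : ℝ, x = L - (6931471 / 10000000) := ⟨_, rfl⟩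
  obtain ⟨xu, hxu⟩ : ∃ x : ℝ, x = (433217 / 625000) - L := ⟨_, rfl⟩
  obtain ⟨yl, hyl⟩ : ∃ x : ℝ, x = h - (67 / 400) := ⟨_, rfl⟩
  obtain ⟨yu, hyu⟩ : ∃ x : ℝ, x = (117 / 500) - h := ⟨_, rfl⟩
  obtain ⟨A, hA⟩ : ∃ x : ℝ, x = J - 0 := ⟨_, rfl⟩
  obtain ⟨B, hB⟩ : ∃ x : ℝ, x = (39 / 50) - J := ⟨_, rfl⟩
  have hxl0 : 0 ≤ xl := by rw [hxl]; linarith
  have hxu0 : 0 ≤ xu := by rw [hxu]; linarith
  have hyl0 : 0 ≤ yl := by rw [hyl]; linarith
  have hyu0 : 0 ≤ yu := by rw [hyu]; linarith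
  have hA0 : 0 ≤ A := by rw [hA]; linarith
  have hB0 : 0 ≤ B := by rw [hB]; linarith
  have key : UPE_0_0 L h J =
      ((111437656250000 / 1179420754239) + 0 * xl + (221093750000000 / 3538262262717) * yu) * A ^ 0 * B ^ 5
      + ((371087950000 / 891474493) + (8843750000000 / 90724673403) * xu + (933015625000000 / 3538262262717) * yu) * A ^ 1 * B ^ 4
      + ((1029508501087450 / 1179420754239) + (2717375000000 / 90724673403) * xu + (3111531715625000 / 3538262262717) * yu) * A ^ 2 * B ^ 3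
      + ((86540725963550353 / 94353660339120) + (1194074125000 / 3360173089) * xl + (814338087312500 / 505466037531) * yu) * A ^ 3 * B ^ 2
      + ((1746977015625208067 / 4717683016956000) + (27374236322500 / 90724673403) * xl + (4307299059827500 / 3538262262717) * yu) * A ^ 4 * B ^ 1
      + ((21340463977758139 / 1572561005652000) + (1260609947500 / 90724673403) * xl + (1006542289265000 / 3538262262717) * yu) * A ^ 5 * B ^ 0 := by
    simp only [hxl, hxu, hyl, hyu, hA, hB]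
    unfold UPE_0_0
    ring
  rw [key]
  positivity

noncomputable def UPE_0_1 (L h J : ℝ) : ℝ :=
  ((6248400 / 16807) + 0 * L + (-32335000 / 117649) * h) * J ^ 0
    + (0 + (-64670000 / 117649) * L + (32335000 / 117649) * h) * J ^ 1
    + ((7113700 / 117649) + (23448000 / 16807) * L + (-28171550 / 16807) * h) * J ^ 2
    + ((-43223620 / 117649) + (-9447100 / 16807) * L + (4723550 / 16807) * h) * J ^ 3
    + ((1039181 / 16807) + (-9447100 / 16807) * L + (9447100 / 16807) * h) * J ^ 4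
    + ((1039181 / 16807) + 0 * L + 0 * h) * J ^ 5

lemma UPE_0_1_nonneg {L h J : ℝ} (hL0 : (6931471 / 10000000) ≤ L) (hL1 : L ≤ (433217 / 625000)) (hh0 : (67 / 400) ≤ h) (hh1 : h ≤ (117 / 500)) (hJ0 : 0 ≤ J) (hJ1 : J ≤ (39 / 50)) :
    0 ≤ UPE_0_1 L h J := by
  obtain ⟨xl, hxl⟩ : ∃ x : ℝ, x = L - (6931471 / 10000000) := ⟨_, rfl⟩
  obtain ⟨xu, hxu⟩ : ∃ x : ℝ, x = (433217 / 625000) - L := ⟨_, rfl⟩
  obtain ⟨yl, hyl⟩ : ∃ x : ℝ, x = h - (67 / 400) := ⟨_, rfl⟩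
  obtain ⟨yu, hyu⟩ : ∃ x : ℝ, x = (117 / 500) - h := ⟨_, rfl⟩
  obtain ⟨A, hA⟩ : ∃ x : ℝ, x = J - 0 := ⟨_, rfl⟩
  obtain ⟨B, hB⟩ : ∃ x : ℝ, x = (39 / 50) - J := ⟨_, rfl⟩
  have hxl0 : 0 ≤ xl := by rw [hxl]; linarith
  have hxu0 : 0 ≤ xu := by rw [hxu]; linarith
  have hyl0 : 0 ≤ yl := by rw [hyl]; linarith
  have hyu0 : 0 ≤ yu := by rw [hyu]; linarith
  have hA0 : 0 ≤ A := by rw [hA]; linarith
  have hB0 : 0 ≤ B := by rw [hB]; linarith
  have key : UPE_0_1 L h J =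
      ((3767959375000000 / 3538262262717) + 0 * xl + (10104687500000000 / 10614786788151) * yu) * A ^ 0 * B ^ 5
      + ((2258923917400000 / 505466037531) + (404187500000000 / 272174020209) * xu + (42641781250000000 / 10614786788151) * yu) * A ^ 1 * B ^ 4
      + ((10102289009443100 / 1179420754239) + (816587000000000 / 272174020209) * xu + (107013061606250000 / 10614786788151) * yu) * A ^ 2 * B ^ 3
      + ((148526693172462596 / 17691311313585) + (92031394750000 / 90724673403) * xu + (23047419675125000 / 1516398112593) * yu) * A ^ 3 * B ^ 2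
      + ((8006598831795922837 / 2358841508478000) + (84685247785000 / 272174020209) * xl + (114019020168115000 / 10614786788151) * yu) * A ^ 4 * B ^ 1
      + ((3637455289894436 / 16380843808875) + (51620067965000 / 272174020209) * xu + (27163050298490000 / 10614786788151) * yu) * A ^ 5 * B ^ 0 := by
    simp only [hxl, hxu, hyl, hyu, hA, hB]
    unfold UPE_0_1
    ring
  rw [key]
  positivity

noncomputable def UPE_0_2 (L h J : ℝ) : ℝ :=
  ((29280400 / 16807) + 0 * L + (-174672500 / 117649) * h) * J ^ 0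
    + (0 + (-349345000 / 117649) * L + (174672500 / 117649) * h) * J ^ 1
    + ((38427950 / 117649) + (71403000 / 16807) * L + (-83778025 / 16807) * h) * J ^ 2
    + ((-148388570 / 117649) + (-24750050 / 16807) * L + (12375025 / 16807) * h) * J ^ 3
    + ((5445011 / 33614) + (-24750050 / 16807) * L + (24750050 / 16807) * h) * J ^ 4
    + ((5445011 / 33614) + 0 * L + 0 * h) * J ^ 5

lemma UPE_0_2_nonneg {L h J : ℝ} (hL0 : (6931471 / 10000000) ≤ L) (hL1 : L ≤ (433217 / 625000)) (hh0 : (67 / 400) ≤ h) (hh1 : h ≤ (117 / 500)) (hJ0 : 0 ≤ J) (hJ1 : J ≤ (39 / 50)) :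
    0 ≤ UPE_0_2 L h J := by
  obtain ⟨xl, hxl⟩ : ∃ x : ℝ, x = L - (6931471 / 10000000) := ⟨_, rfl⟩
  obtain ⟨xu, hxu⟩ : ∃ x : ℝ, x = (433217 / 625000) - L := ⟨_, rfl⟩
  obtain ⟨yl, hyl⟩ : ∃ x : ℝ, x = h - (67 / 400) := ⟨_, rfl⟩
  obtain ⟨yu, hyu⟩ : ∃ x : ℝ, x = (117 / 500) - h := ⟨_, rfl⟩
  obtain ⟨A, hA⟩ : ∃ x : ℝ, x = J - 0 := ⟨_, rfl⟩
  obtain ⟨B, hB⟩ : ∃ x : ℝ, x = (39 / 50) - J := ⟨_, rfl⟩
  have hxl0 : 0 ≤ xl := by rw [hxl]; linarith
  have hxu0 : 0 ≤ xu := by rw [hxu]; linarith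
  have hyl0 : 0 ≤ yl := by rw [hyl]; linarith
  have hyu0 : 0 ≤ yu := by rw [hyu]; linarith
  have hA0 : 0 ≤ A := by rw [hA]; linarith
  have hB0 : 0 ≤ B := by rw [hB]; linarith
  have key : UPE_0_2 L h J =
      ((51277948437500000 / 10614786788151) + 0 * xl + (54585156250000000 / 10614786788151) * yu) * A ^ 0 * B ^ 5
      + ((29618452812700000 / 1516398112593) + (2183406250000000 / 272174020209) * xu + (230349359375000000 / 10614786788151) * yu) * A ^ 1 * B ^ 4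
      + ((363621474137790650 / 10614786788151) + (6296997625000000 / 272174020209) * xu + (487043954021875000 / 10614786788151) * yu) * A ^ 2 * B ^ 3
      + ((1614302593644083314 / 53073933940755) + (2149779943625000 / 90724673403) * xu + (87434424489437500 / 1516398112593) * yu) * A ^ 3 * B ^ 2
      + ((30196640953240156021 / 2653696697037750) + (3255163662332500 / 272174020209) * xu + (391381513888782500 / 10614786788151) * yu) * A ^ 4 * B ^ 1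
      + ((901968639576096598 / 1326848348518875) + (919415206457500 / 272174020209) * xu + (90620293359595000 / 10614786788151) * yu) * A ^ 5 * B ^ 0 := by
    simp only [hxl, hxu, hyl, hyu, hA, hB]
    unfold UPE_0_2
    ring
  rw [key]
  positivity

noncomputable def UPE_0_3 (L h J : ℝ) : ℝ :=
  ((69924000 / 16807) + 0 * L + (-445230000 / 117649) * h) * J ^ 0
    + (0 + (-890460000 / 117649) * L + (445230000 / 117649) * h) * J ^ 1
    + ((97950600 / 117649) + (103946000 / 16807) * L + (-119981500 / 16807) * h) * J ^ 2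
    + ((-258027440 / 117649) + (-32071000 / 16807) * L + (16035500 / 16807) * h) * J ^ 3
    + ((3527810 / 16807) + (-32071000 / 16807) * L + (32071000 / 16807) * h) * J ^ 4
    + ((3527810 / 16807) + 0 * L + 0 * h) * J ^ 5

lemma UPE_0_3_nonneg {L h J : ℝ} (hL0 : (6931471 / 10000000) ≤ L) (hL1 : L ≤ (433217 / 625000)) (hh0 : (67 / 400) ≤ h) (hh1 : h ≤ (117 / 500)) (hJ0 : 0 ≤ J) (hJ1 : J ≤ (39 / 50)) :
    0 ≤ UPE_0_3 L h J := by
  obtain ⟨xl, hxl⟩ : ∃ x : ℝ, x = L - (6931471 / 10000000) := ⟨_, rfl⟩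
  obtain ⟨xu, hxu⟩ : ∃ x : ℝ, x = (433217 / 625000) - L := ⟨_, rfl⟩
  obtain ⟨yl, hyl⟩ : ∃ x : ℝ, x = h - (67 / 400) := ⟨_, rfl⟩
  obtain ⟨yu, hyu⟩ : ∃ x : ℝ, x = (117 / 500) - h := ⟨_, rfl⟩
  obtain ⟨A, hA⟩ : ∃ x : ℝ, x = J - 0 := ⟨_, rfl⟩
  obtain ⟨B, hB⟩ : ∃ x : ℝ, x = (39 / 50) - J := ⟨_, rfl⟩
  have hxl0 : 0 ≤ xl := by rw [hxl]; linarith
  have hxu0 : 0 ≤ xu := by rw [hxu]; linarith
  have hyl0 : 0 ≤ yl := by rw [hyl]; linarith
  have hyu0 : 0 ≤ yu := by rw [hyu]; linarith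
  have hA0 : 0 ≤ A := by rw [hA]; linarith
  have hB0 : 0 ≤ B := by rw [hB]; linarith
  have key : UPE_0_3 L h J =
      ((40133768750000000 / 3538262262717) + 0 * xl + (5153125000000000 / 393140251413) * yu) * A ^ 0 * B ^ 5
      + ((22712095121200000 / 505466037531) + (206125000000000 / 10080519267) * xu + (21746187500000000 / 393140251413) * yu) * A ^ 1 * B ^ 4
      + ((260316653126588600 / 3538262262717) + (6238114250000000 / 90724673403) * xu + (124102764312500000 / 1179420754239) * yu) * A ^ 2 * B ^ 3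
      + ((209230946796587192 / 3538262262717) + (291412692500000 / 3360173089) * xu + (6362909203750000 / 56162893059) * yu) * A ^ 3 * B ^ 2
      + ((1743988310269872994 / 88456556567925) + (1554797201350000 / 30241557801) * xu + (2803923413050000 / 43682250157) * yu) * A ^ 4 * B ^ 1
      + ((68425681229235944 / 88456556567925) + (1179238156550000 / 90724673403) * xu + (16408415686100000 / 1179420754239) * yu) * A ^ 5 * B ^ 0 := by
    simp only [hxl, hxu, hyl, hyu, hA, hB]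
    unfold UPE_0_3
    ring
  rw [key]
  positivity

noncomputable def UPE_0_4 (L h J : ℝ) : ℝ :=
  ((38795000 / 7203) + 0 * L + (-585170000 / 117649) * h) * J ^ 0
    + (0 + (-1170340000 / 117649) * L + (585170000 / 117649) * h) * J ^ 1
    + ((128737400 / 117649) + (73120000 / 16807) * L + (-83390000 / 16807) * h) * J ^ 2
    + ((-241342200 / 117649) + (-20540000 / 16807) * L + (10270000 / 16807) * h) * J ^ 3
    + ((2259400 / 16807) + (-20540000 / 16807) * L + (20540000 / 16807) * h) * J ^ 4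
    + ((2259400 / 16807) + 0 * L + 0 * h) * J ^ 5

lemma UPE_0_4_nonneg {L h J : ℝ} (hL0 : (6931471 / 10000000) ≤ L) (hL1 : L ≤ (433217 / 625000)) (hh0 : (67 / 400) ≤ h) (hh1 : h ≤ (117 / 500)) (hJ0 : 0 ≤ J) (hJ1 : J ≤ (39 / 50)) :
    0 ≤ UPE_0_4 L h J := by
  obtain ⟨xl, hxl⟩ : ∃ x : ℝ, x = L - (6931471 / 10000000) := ⟨_, rfl⟩
  obtain ⟨xu, hxu⟩ : ∃ x : ℝ, x = (433217 / 625000) - L := ⟨_, rfl⟩
  obtain ⟨yl, hyl⟩ : ∃ x : ℝ, x = h - (67 / 400) := ⟨_, rfl⟩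
  obtain ⟨yu, hyu⟩ : ∃ x : ℝ, x = (117 / 500) - h := ⟨_, rfl⟩
  obtain ⟨A, hA⟩ : ∃ x : ℝ, x = J - 0 := ⟨_, rfl⟩
  obtain ⟨B, hB⟩ : ∃ x : ℝ, x = (39 / 50) - J := ⟨_, rfl⟩
  have hxl0 : 0 ≤ xl := by rw [hxl]; linarith
  have hxu0 : 0 ≤ xu := by rw [hxu]; linarith
  have hyl0 : 0 ≤ yl := by rw [hyl]; linarith
  have hyu0 : 0 ≤ yu := by rw [hyu]; linarith
  have hA0 : 0 ≤ A := by rw [hA]; linarith
  have hB0 : 0 ≤ B := by rw [hB]; linarith
  have key : UPE_0_4 L h J =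
      ((465676768750000000 / 31844360364453) + 0 * xl + (182865625000000000 / 10614786788151) * yu) * A ^ 0 * B ^ 5
      + ((262187237193200000 / 4549194337779) + (7314625000000000 / 272174020209) * xu + (771692937500000000 / 10614786788151) * yu) * A ^ 1 * B ^ 4
      + ((2882352325224028000 / 31844360364453) + (26763280000000000 / 272174020209) * xu + (1369097166250000000 / 10614786788151) * yu) * A ^ 2 * B ^ 3
      + ((2147735163711838720 / 31844360364453) + (12316271150000000 / 90724673403) * xu + (185018430925000000 / 1516398112593) * yu) * A ^ 3 * B ^ 2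
      + ((3219259026413165608 / 159221801822265) + (23292731191000000 / 272174020209) * xu + (638778831851000000 / 10614786788151) * yu) * A ^ 4 * B ^ 1
      + ((65579894260275008 / 159221801822265) + (5792572741000000 / 272174020209) * xu + (123919669126000000 / 10614786788151) * yu) * A ^ 5 * B ^ 0 := by
    simp only [hxl, hxu, hyl, hyu, hA, hB]
    unfold UPE_0_4
    ring
  rw [key]
  positivity

noncomputable def UPE_0_5 (L h J : ℝ) : ℝ :=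
  ((182200000 / 50421) + 0 * L + (-384400000 / 117649) * h) * J ^ 0
    + (0 + (-768800000 / 117649) * L + (384400000 / 117649) * h) * J ^ 1
    + ((84568000 / 117649) + (20000000 / 16807) * L + (-22600000 / 16807) * h) * J ^ 2
    + ((-115368000 / 117649) + (-5200000 / 16807) * L + (2600000 / 16807) * h) * J ^ 3
    + ((572000 / 16807) + (-5200000 / 16807) * L + (5200000 / 16807) * h) * J ^ 4
    + ((572000 / 16807) + 0 * L + 0 * h) * J ^ 5

lemma UPE_0_5_nonneg {L h J : ℝ} (hL0 : (6931471 / 10000000) ≤ L) (hL1 : L ≤ (433217 / 625000)) (hh0 : (67 / 400) ≤ h) (hh1 : h ≤ (117 / 500)) (hJ0 : 0 ≤ J) (hJ1 : J ≤ (39 / 50)) :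
    0 ≤ UPE_0_5 L h J := by
  obtain ⟨xl, hxl⟩ : ∃ x : ℝ, x = L - (6931471 / 10000000) := ⟨_, rfl⟩
  obtain ⟨xu, hxu⟩ : ∃ x : ℝ, x = (433217 / 625000) - L := ⟨_, rfl⟩
  obtain ⟨yl, hyl⟩ : ∃ x : ℝ, x = h - (67 / 400) := ⟨_, rfl⟩
  obtain ⟨yu, hyu⟩ : ∃ x : ℝ, x = (117 / 500) - h := ⟨_, rfl⟩
  obtain ⟨A, hA⟩ : ∃ x : ℝ, x = J - 0 := ⟨_, rfl⟩
  obtain ⟨B, hB⟩ : ∃ x : ℝ, x = (39 / 50) - J := ⟨_, rfl⟩
  have hxl0 : 0 ≤ xl := by rw [hxl]; linarith
  have hxu0 : 0 ≤ xu := by rw [hxu]; linarith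
  have hyl0 : 0 ≤ yl := by rw [hyl]; linarith
  have hyu0 : 0 ≤ yu := by rw [hyu]; linarith
  have hA0 : 0 ≤ A := by rw [hA]; linarith
  have hB0 : 0 ≤ B := by rw [hB]; linarith
  have key : UPE_0_5 L h J =
      ((314234750000000000 / 31844360364453) + 0 * xl + (120125000000000000 / 10614786788151) * yu) * A ^ 0 * B ^ 5
      + ((178181776624000000 / 4549194337779) + (4805000000000000 / 272174020209) * xu + (506927500000000000 / 10614786788151) * yu) * A ^ 1 * B ^ 4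
      + ((1929212657210000000 / 31844360364453) + (18537500000000000 / 272174020209) * xu + (856537775000000000 / 10614786788151) * yu) * A ^ 2 * B ^ 3
      + ((1385694317600393600 / 31844360364453) + (8973637000000000 / 90724673403) * xu + (103799901500000000 / 1516398112593) * yu) * A ^ 3 * B ^ 2
      + ((397256445339354208 / 31844360364453) + (17557282580000000 / 272174020209) * xu + (306459833380000000 / 10614786788151) * yu) * A ^ 4 * B ^ 1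
      + ((8820871659348608 / 31844360364453) + (4368871580000000 / 272174020209) * xu + (49595797880000000 / 10614786788151) * yu) * A ^ 5 * B ^ 0 := by
    simp only [hxl, hxu, hyl, hyu, hA, hB]
    unfold UPE_0_5
    ring
  rw [key]
  positivity

noncomputable def UPE_0_6 (L h J : ℝ) : ℝ :=
  ((50000000 / 50421) + 0 * L + (-100000000 / 117649) * h) * J ^ 0
    + (0 + (-200000000 / 117649) * L + (100000000 / 117649) * h) * J ^ 1
    + ((22000000 / 117649) + 0 * L + 0 * h) * J ^ 2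
    + ((-22000000 / 117649) + 0 * L + 0 * h) * J ^ 3

lemma UPE_0_6_nonneg {L h J : ℝ} (hL0 : (6931471 / 10000000) ≤ L) (hL1 : L ≤ (433217 / 625000)) (hh0 : (67 / 400) ≤ h) (hh1 : h ≤ (117 / 500)) (hJ0 : 0 ≤ J) (hJ1 : J ≤ (39 / 50)) :
    0 ≤ UPE_0_6 L h J := by
  obtain ⟨xl, hxl⟩ : ∃ x : ℝ, x = L - (6931471 / 10000000) := ⟨_, rfl⟩
  obtain ⟨xu, hxu⟩ : ∃ x : ℝ, x = (433217 / 625000) - L := ⟨_, rfl⟩
  obtain ⟨yl, hyl⟩ : ∃ x : ℝ, x = h - (67 / 400) := ⟨_, rfl⟩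
  obtain ⟨yu, hyu⟩ : ∃ x : ℝ, x = (117 / 500) - h := ⟨_, rfl⟩
  obtain ⟨A, hA⟩ : ∃ x : ℝ, x = J - 0 := ⟨_, rfl⟩
  obtain ⟨B, hB⟩ : ∃ x : ℝ, x = (39 / 50) - J := ⟨_, rfl⟩
  have hxl0 : 0 ≤ xl := by rw [hxl]; linarith
  have hxu0 : 0 ≤ xu := by rw [hxu]; linarith
  have hyl0 : 0 ≤ yl := by rw [hyl]; linarith
  have hyu0 : 0 ≤ yu := by rw [hyu]; linarith
  have hA0 : 0 ≤ A := by rw [hA]; linarith
  have hB0 : 0 ≤ B := by rw [hB]; linarith
  have key : UPE_0_6 L h J =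
      ((34975000000000 / 20936463093) + 0 * xl + (12500000000000 / 6978821031) * yu) * A ^ 0 * B ^ 3
      + ((23740129600000 / 6978821031) + (500000000000 / 178944129) * xu + (9250000000000 / 2326273677) * yu) * A ^ 1 * B ^ 2
      + ((14178359200000 / 6978821031) + (1000000000000 / 178944129) * xu + (2000000000000 / 775424559) * yu) * A ^ 2 * B ^ 1
      + ((2374634800000 / 20936463093) + (500000000000 / 178944129) * xu + (2750000000000 / 6978821031) * yu) * A ^ 3 * B ^ 0 := by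
    simp only [hxl, hxu, hyl, hyu, hA, hB]
    unfold UPE_0_6
    ring
  rw [key]
  positivity

lemma UPE_0_nonneg {L h m J : ℝ} (hL0 : (6931471 / 10000000) ≤ L) (hL1 : L ≤ (433217 / 625000)) (hh0 : (67 / 400) ≤ h) (hh1 : h ≤ (117 / 500)) (hm0 : (3 / 10) ≤ m) (hm1 : m ≤ 1) (hJ0 : 0 ≤ J) (hJ1 : J ≤ (39 / 50)) :
    0 ≤ UPE_0 L h m J := by
  have c0 := UPE_0_0_nonneg hL0 hL1 hh0 hh1 hJ0 hJ1
  have c1 := UPE_0_1_nonneg hL0 hL1 hh0 hh1 hJ0 hJ1
  have c2 := UPE_0_2_nonneg hL0 hL1 hh0 hh1 hJ0 hJ1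
  have c3 := UPE_0_3_nonneg hL0 hL1 hh0 hh1 hJ0 hJ1
  have c4 := UPE_0_4_nonneg hL0 hL1 hh0 hh1 hJ0 hJ1
  have c5 := UPE_0_5_nonneg hL0 hL1 hh0 hh1 hJ0 hJ1
  have c6 := UPE_0_6_nonneg hL0 hL1 hh0 hh1 hJ0 hJ1
  have key : UPE_0 L h m J =
      (m - (3 / 10)) ^ 0 * (1 - m) ^ 6 * UPE_0_0 L h J
      + (m - (3 / 10)) ^ 1 * (1 - m) ^ 5 * UPE_0_1 L h J
      + (m - (3 / 10)) ^ 2 * (1 - m) ^ 4 * UPE_0_2 L h J
      + (m - (3 / 10)) ^ 3 * (1 - m) ^ 3 * UPE_0_3 L h J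
      + (m - (3 / 10)) ^ 4 * (1 - m) ^ 2 * UPE_0_4 L h J
      + (m - (3 / 10)) ^ 5 * (1 - m) ^ 1 * UPE_0_5 L h J
      + (m - (3 / 10)) ^ 6 * (1 - m) ^ 0 * UPE_0_6 L h J := by
    unfold UPE_0 UPE_0_0 UPE_0_1 UPE_0_2 UPE_0_3 UPE_0_4 UPE_0_5 UPE_0_6
    ring
  have hA : 0 ≤ m - (3 / 10) := by linarith
  have hB : 0 ≤ 1 - m := by linarith
  rw [key]
  positivity

noncomputable def UPE_1 (L h m J : ℝ) : ℝ :=
  (0 + 0 * L + (-13 / 4) * h) * m ^ 0 * J ^ 2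
    + (0 + (-13 / 2) * L + (13 / 4) * h) * m ^ 0 * J ^ 3
    + ((143 / 200) + (-13 / 2) * L + (13 / 2) * h) * m ^ 0 * J ^ 4
    + ((143 / 200) + 0 * L + 0 * h) * m ^ 0 * J ^ 5
    + (0 + 0 * L + 10 * h) * m ^ 1 * J ^ 0
    + (0 + 20 * L + (-10) * h) * m ^ 1 * J ^ 1
    + ((-11 / 5) + 70 * L + (-153 / 2) * h) * m ^ 1 * J ^ 2
    + ((-66 / 5) + (-13) * L + (13 / 2) * h) * m ^ 1 * J ^ 3
    + ((143 / 100) + (-13) * L + 13 * h) * m ^ 1 * J ^ 4
    + ((143 / 100) + 0 * L + 0 * h) * m ^ 1 * J ^ 5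
    + (25 + 0 * L + (-35) * h) * m ^ 2 * J ^ 0
    + (0 + (-70) * L + 35 * h) * m ^ 2 * J ^ 1
    + ((77 / 10) + 10 * L + (-10) * h) * m ^ 2 * J ^ 2
    + ((-99 / 10) + 0 * L + 0 * h) * m ^ 2 * J ^ 3
    + (40 + 0 * L + (-50) * h) * m ^ 3 * J ^ 0
    + (0 + (-100) * L + 50 * h) * m ^ 3 * J ^ 1
    + (11 + (-30) * L + (73 / 2) * h) * m ^ 3 * J ^ 2
    + ((-22 / 5) + 13 * L + (-13 / 2) * h) * m ^ 3 * J ^ 3
    + ((-143 / 100) + 13 * L + (-13) * h) * m ^ 3 * J ^ 4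
    + ((-143 / 100) + 0 * L + 0 * h) * m ^ 3 * J ^ 5
    + ((235 / 6) + 0 * L + (-25) * h) * m ^ 4 * J ^ 0
    + (0 + (-50) * L + 25 * h) * m ^ 4 * J ^ 1
    + ((11 / 2) + (-50) * L + (213 / 4) * h) * m ^ 4 * J ^ 2
    + ((11 / 2) + (13 / 2) * L + (-13 / 4) * h) * m ^ 4 * J ^ 3
    + ((-143 / 200) + (13 / 2) * L + (-13 / 2) * h) * m ^ 4 * J ^ 4
    + ((-143 / 200) + 0 * L + 0 * h) * m ^ 4 * J ^ 5
    + ((20 / 3) + 0 * L + 0 * h) * m ^ 5 * J ^ 0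
    + ((35 / 6) + 0 * L + 0 * h) * m ^ 6 * J ^ 0

noncomputable def UPE_1_0 (L h J : ℝ) : ℝ :=
  ((1047915 / 33614) + 0 * L + (-1702500 / 117649) * h) * J ^ 0
    + (0 + (-3405000 / 117649) * L + (1702500 / 117649) * h) * J ^ 1
    + ((374550 / 117649) + (2955000 / 16807) * L + (-3669025 / 16807) * h) * J ^ 2
    + ((-4925250 / 117649) + (-1428050 / 16807) * L + (714025 / 16807) * h) * J ^ 3
    + ((314171 / 33614) + (-1428050 / 16807) * L + (1428050 / 16807) * h) * J ^ 4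
    + ((314171 / 33614) + 0 * L + 0 * h) * J ^ 5

lemma UPE_1_0_nonneg {L h J : ℝ} (hL0 : (6931471 / 10000000) ≤ L) (hL1 : L ≤ (433217 / 625000)) (hh0 : (67 / 400) ≤ h) (hh1 : h ≤ (117 / 500)) (hJ0 : 0 ≤ J) (hJ1 : J ≤ (39 / 50)) :
    0 ≤ UPE_1_0 L h J := by
  obtain ⟨xl, hxl⟩ : ∃ x : ℝ, x = L - (6931471 / 10000000) := ⟨_, rfl⟩
  obtain ⟨xu, hxu⟩ : ∃ x : ℝ, x = (433217 / 625000) - L := ⟨_, rfl⟩
  obtain ⟨yl, hyl⟩ : ∃ x : ℝ, x = h - (67 / 400) := ⟨_, rfl⟩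
  obtain ⟨yu, hyu⟩ : ∃ x : ℝ, x = (117 / 500) - h := ⟨_, rfl⟩
  obtain ⟨A, hA⟩ : ∃ x : ℝ, x = J - 0 := ⟨_, rfl⟩
  obtain ⟨B, hB⟩ : ∃ x : ℝ, x = (39 / 50) - J := ⟨_, rfl⟩
  have hxl0 : 0 ≤ xl := by rw [hxl]; linarith
  have hxu0 : 0 ≤ xu := by rw [hxu]; linarith
  have hyl0 : 0 ≤ yl := by rw [hyl]; linarith
  have hyu0 : 0 ≤ yu := by rw [hyu]; linarith
  have hA0 : 0 ≤ A := by rw [hA]; linarith
  have hB0 : 0 ≤ B := by rw [hB]; linarith
  have key : UPE_1_0 L h J =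
      ((113517968750000 / 1179420754239) + 0 * xl + (177343750000000 / 3538262262717) * yu) * A ^ 0 * B ^ 5
      + ((10499148350000 / 24069811311) + (7093750000000 / 90724673403) * xu + (748390625000000 / 3538262262717) * yu) * A ^ 1 * B ^ 4
      + ((2212984722845375 / 2358841508478) + (5238125000000 / 90724673403) * xl + (2847796215625000 / 3538262262717) * yu) * A ^ 2 * B ^ 3
      + ((95348104592186353 / 94353660339120) + (15202167125000 / 30241557801) * xl + (797058587312500 / 505466037531) * yu) * A ^ 3 * B ^ 2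
      + ((679481630419002689 / 1572561005652000) + (37240736322500 / 90724673403) * xl + (4336842559827500 / 3538262262717) * yu) * A ^ 4 * B ^ 1
      + ((137341377243874417 / 4717683016956000) + (3966109947500 / 90724673403) * xl + (1034181789265000 / 3538262262717) * yu) * A ^ 5 * B ^ 0 := by
    simp only [hxl, hxu, hyl, hyu, hA, hB]
    unfold UPE_1_0
    ring
  rw [key]
  positivity

noncomputable def UPE_1_1 (L h J : ℝ) : ℝ :=
  ((6182250 / 16807) + 0 * L + (-29255000 / 117649) * h) * J ^ 0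
    + (0 + (-58510000 / 117649) * L + (29255000 / 117649) * h) * J ^ 1
    + ((6436100 / 117649) + (23980000 / 16807) * L + (-28703550 / 16807) * h) * J ^ 2
    + ((-43365300 / 117649) + (-9447100 / 16807) * L + (4723550 / 16807) * h) * J ^ 3
    + ((1039181 / 16807) + (-9447100 / 16807) * L + (9447100 / 16807) * h) * J ^ 4
    + ((1039181 / 16807) + 0 * L + 0 * h) * J ^ 5

lemma UPE_1_1_nonneg {L h J : ℝ} (hL0 : (6931471 / 10000000) ≤ L) (hL1 : L ≤ (433217 / 625000)) (hh0 : (67 / 400) ≤ h) (hh1 : h ≤ (117 / 500)) (hJ0 : 0 ≤ J) (hJ1 : J ≤ (39 / 50)) :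
    0 ≤ UPE_1_1 L h J := by
  obtain ⟨xl, hxl⟩ : ∃ x : ℝ, x = L - (6931471 / 10000000) := ⟨_, rfl⟩
  obtain ⟨xu, hxu⟩ : ∃ x : ℝ, x = (433217 / 625000) - L := ⟨_, rfl⟩
  obtain ⟨yl, hyl⟩ : ∃ x : ℝ, x = h - (67 / 400) := ⟨_, rfl⟩
  obtain ⟨yu, hyu⟩ : ∃ x : ℝ, x = (117 / 500) - h := ⟨_, rfl⟩
  obtain ⟨A, hA⟩ : ∃ x : ℝ, x = J - 0 := ⟨_, rfl⟩
  obtain ⟨B, hB⟩ : ∃ x : ℝ, x = (39 / 50) - J := ⟨_, rfl⟩
  have hxl0 : 0 ≤ xl := by rw [hxl]; linarith
  have hxu0 : 0 ≤ xu := by rw [hxu]; linarith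
  have hyl0 : 0 ≤ yl := by rw [hyl]; linarith
  have hyu0 : 0 ≤ yu := by rw [hyu]; linarith
  have hA0 : 0 ≤ A := by rw [hA]; linarith
  have hB0 : 0 ≤ B := by rw [hB]; linarith
  have key : UPE_1_1 L h J =
      ((3794800000000000 / 3538262262717) + 0 * xl + (9142187500000000 / 10614786788151) * yu) * A ^ 0 * B ^ 5
      + ((773096772400000 / 168488679177) + (365687500000000 / 272174020209) * xu + (38580031250000000 / 10614786788151) * yu) * A ^ 1 * B ^ 4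
      + ((31794139714680500 / 3538262262717) + (644432500000000 / 272174020209) * xu + (101099087106250000 / 10614786788151) * yu) * A ^ 2 * B ^ 3
      + ((1275726821726640349 / 141530490508680) + (3123105250000 / 90724673403) * xl + (22619359175125000 / 1516398112593) * yu) * A ^ 3 * B ^ 2
      + ((26959599657489868511 / 7076524525434000) + (293148747785000 / 272174020209) * xl + (114333596668115000 / 10614786788151) * yu) * A ^ 4 * B ^ 1
      + ((772872520015757687 / 2358841508478000) + (5034432035000 / 272174020209) * xl + (27659325798490000 / 10614786788151) * yu) * A ^ 5 * B ^ 0 := by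
    simp only [hxl, hxu, hyl, hyu, hA, hB]
    unfold UPE_1_1
    ring
  rw [key]
  positivity

noncomputable def UPE_1_2 (L h J : ℝ) : ℝ :=
  ((28978000 / 16807) + 0 * L + (-166552500 / 117649) * h) * J ^ 0
    + (0 + (-333105000 / 117649) * L + (166552500 / 117649) * h) * J ^ 1
    + ((36641550 / 117649) + (72495000 / 16807) * L + (-84870025 / 16807) * h) * J ^ 2
    + ((-148283850 / 117649) + (-24750050 / 16807) * L + (12375025 / 16807) * h) * J ^ 3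
    + ((5445011 / 33614) + (-24750050 / 16807) * L + (24750050 / 16807) * h) * J ^ 4
    + ((5445011 / 33614) + 0 * L + 0 * h) * J ^ 5

lemma UPE_1_2_nonneg {L h J : ℝ} (hL0 : (6931471 / 10000000) ≤ L) (hL1 : L ≤ (433217 / 625000)) (hh0 : (67 / 400) ≤ h) (hh1 : h ≤ (117 / 500)) (hJ0 : 0 ≤ J) (hJ1 : J ≤ (39 / 50)) :
    0 ≤ UPE_1_2 L h J := by
  obtain ⟨xl, hxl⟩ : ∃ x : ℝ, x = L - (6931471 / 10000000) := ⟨_, rfl⟩
  obtain ⟨xu, hxu⟩ : ∃ x : ℝ, x = (433217 / 625000) - L := ⟨_, rfl⟩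
  obtain ⟨yl, hyl⟩ : ∃ x : ℝ, x = h - (67 / 400) := ⟨_, rfl⟩
  obtain ⟨yu, hyu⟩ : ∃ x : ℝ, x = (117 / 500) - h := ⟨_, rfl⟩
  obtain ⟨A, hA⟩ : ∃ x : ℝ, x = J - 0 := ⟨_, rfl⟩
  obtain ⟨B, hB⟩ : ∃ x : ℝ, x = (39 / 50) - J := ⟨_, rfl⟩
  have hxl0 : 0 ≤ xl := by rw [hxl]; linarith
  have hxu0 : 0 ≤ xu := by rw [hxu]; linarith
  have hyl0 : 0 ≤ yl := by rw [hyl]; linarith
  have hyu0 : 0 ≤ yu := by rw [hyu]; linarith
  have hA0 : 0 ≤ A := by rw [hA]; linarith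
  have hB0 : 0 ≤ B := by rw [hB]; linarith
  have key : UPE_1_2 L h J =
      ((51210223437500000 / 10614786788151) + 0 * xl + (17349218750000000 / 3538262262717) * yu) * A ^ 0 * B ^ 5
      + ((29895889054300000 / 1516398112593) + (693968750000000 / 90724673403) * xu + (73213703125000000 / 3538262262717) * yu) * A ^ 1 * B ^ 4
      + ((372394585345132250 / 10614786788151) + (1951244375000000 / 90724673403) * xu + (157013089840625000 / 3538262262717) * yu) * A ^ 2 * B ^ 3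
      + ((1684329049589207314 / 53073933940755) + (212168382625000 / 10080519267) * xu + (28709591329812500 / 505466037531) * yu) * A ^ 3 * B ^ 2
      + ((32646163083446356021 / 2653696697037750) + (912456720777500 / 90724673403) * xu + (130323653462927500 / 3538262262717) * yu) * A ^ 4 * B ^ 1
      + ((1221484870568796598 / 1326848348518875) + (260216902152500 / 90724673403) * xu + (30505119619865000 / 3538262262717) * yu) * A ^ 5 * B ^ 0 := by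
    simp only [hxl, hxu, hyl, hyu, hA, hB]
    unfold UPE_1_2
    ring
  rw [key]
  positivity

noncomputable def UPE_1_3 (L h J : ℝ) : ℝ :=
  ((69280000 / 16807) + 0 * L + (-435150000 / 117649) * h) * J ^ 0
    + (0 + (-870300000 / 117649) * L + (435150000 / 117649) * h) * J ^ 1
    + ((95733000 / 117649) + (104870000 / 16807) * L + (-120905500 / 16807) * h) * J ^ 2
    + ((-257232800 / 117649) + (-32071000 / 16807) * L + (16035500 / 16807) * h) * J ^ 3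
    + ((3527810 / 16807) + (-32071000 / 16807) * L + (32071000 / 16807) * h) * J ^ 4
    + ((3527810 / 16807) + 0 * L + 0 * h) * J ^ 5

lemma UPE_1_3_nonneg {L h J : ℝ} (hL0 : (6931471 / 10000000) ≤ L) (hL1 : L ≤ (433217 / 625000)) (hh0 : (67 / 400) ≤ h) (hh1 : h ≤ (117 / 500)) (hJ0 : 0 ≤ J) (hJ1 : J ≤ (39 / 50)) :
    0 ≤ UPE_1_3 L h J := by
  obtain ⟨xl, hxl⟩ : ∃ x : ℝ, x = L - (6931471 / 10000000) := ⟨_, rfl⟩
  obtain ⟨xu, hxu⟩ : ∃ x : ℝ, x = (433217 / 625000) - L := ⟨_, rfl⟩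
  obtain ⟨yl, hyl⟩ : ∃ x : ℝ, x = h - (67 / 400) := ⟨_, rfl⟩
  obtain ⟨yu, hyu⟩ : ∃ x : ℝ, x = (117 / 500) - h := ⟨_, rfl⟩
  obtain ⟨A, hA⟩ : ∃ x : ℝ, x = J - 0 := ⟨_, rfl⟩
  obtain ⟨B, hB⟩ : ∃ x : ℝ, x = (39 / 50) - J := ⟨_, rfl⟩
  have hxl0 : 0 ≤ xl := by rw [hxl]; linarith
  have hxu0 : 0 ≤ xu := by rw [hxu]; linarith
  have hyl0 : 0 ≤ yl := by rw [hyl]; linarith
  have hyu0 : 0 ≤ yu := by rw [hyu]; linarith
  have hA0 : 0 ≤ A := by rw [hA]; linarith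
  have hB0 : 0 ≤ B := by rw [hB]; linarith
  have key : UPE_1_3 L h J =
      ((119729656250000000 / 10614786788151) + 0 * xl + (15109375000000000 / 1179420754239) * yu) * A ^ 0 * B ^ 5
      + ((68060990698000000 / 1516398112593) + (604375000000000 / 30241557801) * xu + (63761562500000000 / 1179420754239) * yu) * A ^ 1 * B ^ 4
      + ((785701213940501000 / 10614786788151) + (6059603750000000 / 90724673403) * xu + (13536822312500000 / 131046750471) * yu) * A ^ 2 * B ^ 3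
      + ((638510323152567176 / 10614786788151) + (842734577500000 / 10080519267) * xu + (18881286111250000 / 168488679177) * yu) * A ^ 3 * B ^ 2
      + ((5447744960974758982 / 265369669703775) + (1488286701350000 / 30241557801) * xu + (75457841652350000 / 1179420754239) * yu) * A ^ 4 * B ^ 1
      + ((265786685281087832 / 265369669703775) + (1126727656550000 / 90724673403) * xu + (5489350728700000 / 393140251413) * yu) * A ^ 5 * B ^ 0 := by
    simp only [hxl, hxu, hyl, hyu, hA, hB]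
    unfold UPE_1_3
    ring
  rw [key]
  positivity

noncomputable def UPE_1_4 (L h J : ℝ) : ℝ :=
  ((38525000 / 7203) + 0 * L + (-579150000 / 117649) * h) * J ^ 0
    + (0 + (-1158300000 / 117649) * L + (579150000 / 117649) * h) * J ^ 1
    + ((127413000 / 117649) + (73400000 / 16807) * L + (-83670000 / 16807) * h) * J ^ 2
    + ((-240449000 / 117649) + (-20540000 / 16807) * L + (10270000 / 16807) * h) * J ^ 3
    + ((2259400 / 16807) + (-20540000 / 16807) * L + (20540000 / 16807) * h) * J ^ 4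
    + ((2259400 / 16807) + 0 * L + 0 * h) * J ^ 5

lemma UPE_1_4_nonneg {L h J : ℝ} (hL0 : (6931471 / 10000000) ≤ L) (hL1 : L ≤ (433217 / 625000)) (hh0 : (67 / 400) ≤ h) (hh1 : h ≤ (117 / 500)) (hJ0 : 0 ≤ J) (hJ1 : J ≤ (39 / 50)) :
    0 ≤ UPE_1_4 L h J := by
  obtain ⟨xl, hxl⟩ : ∃ x : ℝ, x = L - (6931471 / 10000000) := ⟨_, rfl⟩
  obtain ⟨xu, hxu⟩ : ∃ x : ℝ, x = (433217 / 625000) - L := ⟨_, rfl⟩
  obtain ⟨yl, hyl⟩ : ∃ x : ℝ, x = h - (67 / 400) := ⟨_, rfl⟩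
  obtain ⟨yu, hyu⟩ : ∃ x : ℝ, x = (117 / 500) - h := ⟨_, rfl⟩
  obtain ⟨A, hA⟩ : ∃ x : ℝ, x = J - 0 := ⟨_, rfl⟩
  obtain ⟨B, hB⟩ : ∃ x : ℝ, x = (39 / 50) - J := ⟨_, rfl⟩
  have hxl0 : 0 ≤ xl := by rw [hxl]; linarith
  have hxu0 : 0 ≤ xu := by rw [hxu]; linarith
  have hyl0 : 0 ≤ yl := by rw [hyl]; linarith
  have hyu0 : 0 ≤ yu := by rw [hyu]; linarith
  have hA0 : 0 ≤ A := by rw [hA]; linarith
  have hB0 : 0 ≤ B := by rw [hB]; linarith
  have key : UPE_1_4 L h J =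
      ((462863031250000000 / 31844360364453) + 0 * xl + (171875000000000 / 10080519267) * yu) * A ^ 0 * B ^ 5
      + ((260902073834000000 / 4549194337779) + (6875000000000 / 258474853) * xu + (725312500000000 / 10080519267) * yu) * A ^ 1 * B ^ 4
      + ((2874263018241460000 / 31844360364453) + (52175000000000 / 536832387) * xu + (3864748750000000 / 30241557801) * yu) * A ^ 2 * B ^ 3
      + ((2149704106831534720 / 31844360364453) + (311697850000000 / 2326273677) * xu + (523499675000000 / 4320222543) * yu) * A ^ 3 * B ^ 2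
      + ((3250708629560645608 / 159221801822265) + (65421841000000 / 775424559) * xu + (1812991501000000 / 30241557801) * yu) * A ^ 4 * B ^ 1
      + ((77650276968435008 / 159221801822265) + (146353019000000 / 6978821031) * xu + (117643342000000 / 10080519267) * yu) * A ^ 5 * B ^ 0 := by
    simp only [hxl, hxu, hyl, hyu, hA, hB]
    unfold UPE_1_4
    ring
  rw [key]
  positivity

noncomputable def UPE_1_5 (L h J : ℝ) : ℝ :=
  ((60500000 / 16807) + 0 * L + (-383000000 / 117649) * h) * J ^ 0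
    + (0 + (-766000000 / 117649) * L + (383000000 / 117649) * h) * J ^ 1
    + ((84260000 / 117649) + (20000000 / 16807) * L + (-22600000 / 16807) * h) * J ^ 2
    + ((-115060000 / 117649) + (-5200000 / 16807) * L + (2600000 / 16807) * h) * J ^ 3
    + ((572000 / 16807) + (-5200000 / 16807) * L + (5200000 / 16807) * h) * J ^ 4
    + ((572000 / 16807) + 0 * L + 0 * h) * J ^ 5

lemma UPE_1_5_nonneg {L h J : ℝ} (hL0 : (6931471 / 10000000) ≤ L) (hL1 : L ≤ (433217 / 625000)) (hh0 : (67 / 400) ≤ h) (hh1 : h ≤ (117 / 500)) (hJ0 : 0 ≤ J) (hJ1 : J ≤ (39 / 50)) :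
    0 ≤ UPE_1_5 L h J := by
  obtain ⟨xl, hxl⟩ : ∃ x : ℝ, x = L - (6931471 / 10000000) := ⟨_, rfl⟩
  obtain ⟨xu, hxu⟩ : ∃ x : ℝ, x = (433217 / 625000) - L := ⟨_, rfl⟩
  obtain ⟨yl, hyl⟩ : ∃ x : ℝ, x = h - (67 / 400) := ⟨_, rfl⟩
  obtain ⟨yu, hyu⟩ : ∃ x : ℝ, x = (117 / 500) - h := ⟨_, rfl⟩
  obtain ⟨A, hA⟩ : ∃ x : ℝ, x = J - 0 := ⟨_, rfl⟩
  obtain ⟨B, hB⟩ : ∃ x : ℝ, x = (39 / 50) - J := ⟨_, rfl⟩
  have hxl0 : 0 ≤ xl := by rw [hxl]; linarith
  have hxu0 : 0 ≤ xu := by rw [hxu]; linarith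
  have hyl0 : 0 ≤ yl := by rw [hyl]; linarith
  have hyu0 : 0 ≤ yu := by rw [hyu]; linarith
  have hA0 : 0 ≤ A := by rw [hA]; linarith
  have hB0 : 0 ≤ B := by rw [hB]; linarith
  have key : UPE_1_5 L h J =
      ((104336875000000000 / 10614786788151) + 0 * xl + (119687500000000000 / 10614786788151) * yu) * A ^ 0 * B ^ 5
      + ((59158641560000000 / 1516398112593) + (4787500000000000 / 272174020209) * xu + (505081250000000000 / 10614786788151) * yu) * A ^ 1 * B ^ 4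
      + ((640504792426000000 / 10614786788151) + (18467500000000000 / 272174020209) * xu + (853527775000000000 / 10614786788151) * yu) * A ^ 2 * B ^ 3
      + ((460047012114131200 / 10614786788151) + (8938637000000000 / 90724673403) * xu + (103467401500000000 / 1516398112593) * yu) * A ^ 3 * B ^ 2
      + ((131867164395784736 / 10614786788151) + (17487282580000000 / 272174020209) * xu + (305637333380000000 / 10614786788151) * yu) * A ^ 4 * B ^ 1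
      + ((2912586480449536 / 10614786788151) + (4351371580000000 / 272174020209) * xu + (49499547880000000 / 10614786788151) * yu) * A ^ 5 * B ^ 0 := by
    simp only [hxl, hxu, hyl, hyu, hA, hB]
    unfold UPE_1_5
    ring
  rw [key]
  positivity

noncomputable def UPE_1_6 (L h J : ℝ) : ℝ :=
  ((50000000 / 50421) + 0 * L + (-100000000 / 117649) * h) * J ^ 0
    + (0 + (-200000000 / 117649) * L + (100000000 / 117649) * h) * J ^ 1
    + ((22000000 / 117649) + 0 * L + 0 * h) * J ^ 2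
    + ((-22000000 / 117649) + 0 * L + 0 * h) * J ^ 3

lemma UPE_1_6_nonneg {L h J : ℝ} (hL0 : (6931471 / 10000000) ≤ L) (hL1 : L ≤ (433217 / 625000)) (hh0 : (67 / 400) ≤ h) (hh1 : h ≤ (117 / 500)) (hJ0 : 0 ≤ J) (hJ1 : J ≤ (39 / 50)) :
    0 ≤ UPE_1_6 L h J := by
  obtain ⟨xl, hxl⟩ : ∃ x : ℝ, x = L - (6931471 / 10000000) := ⟨_, rfl⟩
  obtain ⟨xu, hxu⟩ : ∃ x : ℝ, x = (433217 / 625000) - L := ⟨_, rfl⟩
  obtain ⟨yl, hyl⟩ : ∃ x : ℝ, x = h - (67 / 400) := ⟨_, rfl⟩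
  obtain ⟨yu, hyu⟩ : ∃ x : ℝ, x = (117 / 500) - h := ⟨_, rfl⟩
  obtain ⟨A, hA⟩ : ∃ x : ℝ, x = J - 0 := ⟨_, rfl⟩
  obtain ⟨B, hB⟩ : ∃ x : ℝ, x = (39 / 50) - J := ⟨_, rfl⟩
  have hxl0 : 0 ≤ xl := by rw [hxl]; linarith
  have hxu0 : 0 ≤ xu := by rw [hxu]; linarith
  have hyl0 : 0 ≤ yl := by rw [hyl]; linarith
  have hyu0 : 0 ≤ yu := by rw [hyu]; linarith
  have hA0 : 0 ≤ A := by rw [hA]; linarith
  have hB0 : 0 ≤ B := by rw [hB]; linarith
  have key : UPE_1_6 L h J =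
      ((34975000000000 / 20936463093) + 0 * xl + (12500000000000 / 6978821031) * yu) * A ^ 0 * B ^ 3
      + ((23740129600000 / 6978821031) + (500000000000 / 178944129) * xu + (9250000000000 / 2326273677) * yu) * A ^ 1 * B ^ 2
      + ((14178359200000 / 6978821031) + (1000000000000 / 178944129) * xu + (2000000000000 / 775424559) * yu) * A ^ 2 * B ^ 1
      + ((2374634800000 / 20936463093) + (500000000000 / 178944129) * xu + (2750000000000 / 6978821031) * yu) * A ^ 3 * B ^ 0 := by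
    simp only [hxl, hxu, hyl, hyu, hA, hB]
    unfold UPE_1_6
    ring
  rw [key]
  positivity

lemma UPE_1_nonneg {L h m J : ℝ} (hL0 : (6931471 / 10000000) ≤ L) (hL1 : L ≤ (433217 / 625000)) (hh0 : (67 / 400) ≤ h) (hh1 : h ≤ (117 / 500)) (hm0 : (3 / 10) ≤ m) (hm1 : m ≤ 1) (hJ0 : 0 ≤ J) (hJ1 : J ≤ (39 / 50)) :
    0 ≤ UPE_1 L h m J := by
  have c0 := UPE_1_0_nonneg hL0 hL1 hh0 hh1 hJ0 hJ1
  have c1 := UPE_1_1_nonneg hL0 hL1 hh0 hh1 hJ0 hJ1
  have c2 := UPE_1_2_nonneg hL0 hL1 hh0 hh1 hJ0 hJ1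
  have c3 := UPE_1_3_nonneg hL0 hL1 hh0 hh1 hJ0 hJ1
  have c4 := UPE_1_4_nonneg hL0 hL1 hh0 hh1 hJ0 hJ1
  have c5 := UPE_1_5_nonneg hL0 hL1 hh0 hh1 hJ0 hJ1
  have c6 := UPE_1_6_nonneg hL0 hL1 hh0 hh1 hJ0 hJ1
  have key : UPE_1 L h m J =
      (m - (3 / 10)) ^ 0 * (1 - m) ^ 6 * UPE_1_0 L h J
      + (m - (3 / 10)) ^ 1 * (1 - m) ^ 5 * UPE_1_1 L h J
      + (m - (3 / 10)) ^ 2 * (1 - m) ^ 4 * UPE_1_2 L h J
      + (m - (3 / 10)) ^ 3 * (1 - m) ^ 3 * UPE_1_3 L h J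
      + (m - (3 / 10)) ^ 4 * (1 - m) ^ 2 * UPE_1_4 L h J
      + (m - (3 / 10)) ^ 5 * (1 - m) ^ 1 * UPE_1_5 L h J
      + (m - (3 / 10)) ^ 6 * (1 - m) ^ 0 * UPE_1_6 L h J := by
    unfold UPE_1 UPE_1_0 UPE_1_1 UPE_1_2 UPE_1_3 UPE_1_4 UPE_1_5 UPE_1_6
    ring
  have hA : 0 ≤ m - (3 / 10) := by linarith
  have hB : 0 ≤ 1 - m := by linarith
  rw [key]
  positivity

lemma UPE_nonneg {L h om m J : ℝ} (hL0 : (6931471 / 10000000) ≤ L) (hL1 : L ≤ (433217 / 625000)) (hh0 : (67 / 400) ≤ h) (hh1 : h ≤ (117 / 500)) (hom0 : (4 / 25) ≤ om) (hom1 : om ≤ (1 / 5)) (hm0 : (3 / 10) ≤ m) (hm1 : m ≤ 1) (hJ0 : 0 ≤ J) (hJ1 : J ≤ (39 / 50)) :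
    0 ≤ UPE L h om m J := by
  have c0 := UPE_0_nonneg hL0 hL1 hh0 hh1 hm0 hm1 hJ0 hJ1
  have c1 := UPE_1_nonneg hL0 hL1 hh0 hh1 hm0 hm1 hJ0 hJ1
  have key : UPE L h om m J =
      (om - (4 / 25)) ^ 0 * ((1 / 5) - om) ^ 1 * UPE_0 L h m J
      + (om - (4 / 25)) ^ 1 * ((1 / 5) - om) ^ 0 * UPE_1 L h m J := by
    unfold UPE UPE_0 UPE_1
    ring
  have hA : 0 ≤ om - (4 / 25) := by linarith
  have hB : 0 ≤ (1 / 5) - om := by linarith
  rw [key]
  positivity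

end Vale.Agent.Lib.P322.Pot
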