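import Mathlib
import Vale.Agent.Lib.P322.Pot.Ult.CertG2

/-!
P322, potential method, range `7/8 ≤ ρ ≤ 23/25`.  Generated certificate: the polynomial `UPH` is nonnegative on a box (iterated expansion in the products
`(x - lo)^i (hi - x)^(n-i)`; all coefficients are affine in `(L, h)` and nonnegative).
-/

set_option linter.unusedSimpArgs false

namespace Vale.Agent.Lib.P322.Pot

noncomputable def UPH (L h om m J : ℝ) : ℝ :=
  (0 + 0 * L + (-13 / 100) * h) * om ^ 0 * m ^ 0 * J ^ 2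
    + (0 + (-13 / 50) * L + (13 / 100) * h) * om ^ 0 * m ^ 0 * J ^ 3
    + ((143 / 5000) + (-13 / 50) * L + (2769 / 10000) * h) * om ^ 0 * m ^ 0 * J ^ 4
    + ((143 / 5000) + (169 / 5000) * L + (-169 / 10000) * h) * om ^ 0 * m ^ 0 * J ^ 5
    + ((-1859 / 500000) + (169 / 5000) * L + (-169 / 5000) * h) * om ^ 0 * m ^ 0 * J ^ 6
    + ((-1859 / 500000) + 0 * L + 0 * h) * om ^ 0 * m ^ 0 * J ^ 7
    + (0 + 2 * L + (-2) * h) * om ^ 0 * m ^ 1 * J ^ 2
    + ((-11 / 25) + 0 * L + 0 * h) * om ^ 0 * m ^ 1 * J ^ 3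
    + (0 + (-13 / 50) * L + (13 / 50) * h) * om ^ 0 * m ^ 1 * J ^ 4
    + ((143 / 2500) + 0 * L + 0 * h) * om ^ 0 * m ^ 1 * J ^ 5
    + (1 + 0 * L + (-1) * h) * om ^ 0 * m ^ 2 * J ^ 0
    + (0 + (-2) * L + 1 * h) * om ^ 0 * m ^ 2 * J ^ 1
    + ((9 / 100) + (-2) * L + (239 / 100) * h) * om ^ 0 * m ^ 2 * J ^ 2
    + ((11 / 50) + (39 / 50) * L + (-39 / 100) * h) * om ^ 0 * m ^ 2 * J ^ 3
    + ((-429 / 5000) + (39 / 50) * L + (-4069 / 5000) * h) * om ^ 0 * m ^ 2 * J ^ 4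
    + ((-429 / 5000) + (-169 / 2500) * L + (169 / 5000) * h) * om ^ 0 * m ^ 2 * J ^ 5
    + ((1859 / 250000) + (-169 / 2500) * L + (169 / 2500) * h) * om ^ 0 * m ^ 2 * J ^ 6
    + ((1859 / 250000) + 0 * L + 0 * h) * om ^ 0 * m ^ 2 * J ^ 7
    + (0 + (-2) * L + 2 * h) * om ^ 0 * m ^ 3 * J ^ 2
    + ((11 / 25) + 0 * L + 0 * h) * om ^ 0 * m ^ 3 * J ^ 3
    + (0 + (13 / 50) * L + (-13 / 50) * h) * om ^ 0 * m ^ 3 * J ^ 4
    + ((-143 / 2500) + 0 * L + 0 * h) * om ^ 0 * m ^ 3 * J ^ 5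
    + ((-5 / 6) + 0 * L + 1 * h) * om ^ 0 * m ^ 4 * J ^ 0
    + (0 + 2 * L + (-1) * h) * om ^ 0 * m ^ 4 * J ^ 1
    + ((-67 / 600) + 2 * L + (-113 / 50) * h) * om ^ 0 * m ^ 4 * J ^ 2
    + ((-11 / 50) + (-13 / 25) * L + (13 / 50) * h) * om ^ 0 * m ^ 4 * J ^ 3
    + ((143 / 2500) + (-13 / 25) * L + (5369 / 10000) * h) * om ^ 0 * m ^ 4 * J ^ 4
    + ((143 / 2500) + (169 / 5000) * L + (-169 / 10000) * h) * om ^ 0 * m ^ 4 * J ^ 5
    + ((-1859 / 500000) + (169 / 5000) * L + (-169 / 5000) * h) * om ^ 0 * m ^ 4 * J ^ 6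
    + ((-1859 / 500000) + 0 * L + 0 * h) * om ^ 0 * m ^ 4 * J ^ 7
    + ((-1 / 6) + 0 * L + 0 * h) * om ^ 0 * m ^ 6 * J ^ 0
    + ((13 / 600) + 0 * L + 0 * h) * om ^ 0 * m ^ 6 * J ^ 2
    + (0 + 0 * L + (87 / 100) * h) * om ^ 1 * m ^ 0 * J ^ 2
    + (0 + (87 / 50) * L + (-87 / 100) * h) * om ^ 1 * m ^ 0 * J ^ 3
    + ((-957 / 5000) + (87 / 50) * L + (-87 / 50) * h) * om ^ 1 * m ^ 0 * J ^ 4
    + ((-957 / 5000) + 0 * L + 0 * h) * om ^ 1 * m ^ 0 * J ^ 5
    + (0 + (-87 / 50) * L + (87 / 50) * h) * om ^ 1 * m ^ 1 * J ^ 4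
    + ((957 / 2500) + 0 * L + 0 * h) * om ^ 1 * m ^ 1 * J ^ 5
    + (0 + 0 * L + (-4) * h) * om ^ 1 * m ^ 2 * J ^ 0
    + (0 + (-8) * L + 4 * h) * om ^ 1 * m ^ 2 * J ^ 1
    + ((1 / 100) + (-8) * L + (1113 / 100) * h) * om ^ 1 * m ^ 2 * J ^ 2
    + ((22 / 25) + (313 / 50) * L + (-313 / 100) * h) * om ^ 1 * m ^ 2 * J ^ 3
    + ((-3443 / 5000) + (313 / 50) * L + (-313 / 50) * h) * om ^ 1 * m ^ 2 * J ^ 4
    + ((-3443 / 5000) + 0 * L + 0 * h) * om ^ 1 * m ^ 2 * J ^ 5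
    + (0 + 8 * L + (-8) * h) * om ^ 1 * m ^ 3 * J ^ 2
    + ((-44 / 25) + 0 * L + 0 * h) * om ^ 1 * m ^ 3 * J ^ 3
    + (0 + (-313 / 50) * L + (313 / 50) * h) * om ^ 1 * m ^ 3 * J ^ 4
    + ((3443 / 2500) + 0 * L + 0 * h) * om ^ 1 * m ^ 3 * J ^ 5
    + (4 + 0 * L + 0 * h) * om ^ 1 * m ^ 4 * J ^ 0
    + ((-131 / 40) + 0 * L + 0 * h) * om ^ 1 * m ^ 4 * J ^ 2
    + ((2 / 3) + 0 * L + 0 * h) * om ^ 1 * m ^ 6 * J ^ 0
    + ((-313 / 600) + 0 * L + 0 * h) * om ^ 1 * m ^ 6 * J ^ 2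

noncomputable def UPH_0 (L h m J : ℝ) : ℝ :=
  (0 + 0 * L + (23 / 100) * h) * m ^ 0 * J ^ 2
    + (0 + (23 / 50) * L + (-23 / 100) * h) * m ^ 0 * J ^ 3
    + ((-253 / 5000) + (23 / 50) * L + (-3 / 80) * h) * m ^ 0 * J ^ 4
    + ((-253 / 5000) + (169 / 200) * L + (-169 / 400) * h) * m ^ 0 * J ^ 5
    + ((-1859 / 20000) + (169 / 200) * L + (-169 / 200) * h) * m ^ 0 * J ^ 6
    + ((-1859 / 20000) + 0 * L + 0 * h) * m ^ 0 * J ^ 7
    + (0 + 50 * L + (-50) * h) * m ^ 1 * J ^ 2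
    + ((-11) + 0 * L + 0 * h) * m ^ 1 * J ^ 3
    + (0 + (-673 / 50) * L + (673 / 50) * h) * m ^ 1 * J ^ 4
    + ((7403 / 2500) + 0 * L + 0 * h) * m ^ 1 * J ^ 5
    + (25 + 0 * L + (-41) * h) * m ^ 2 * J ^ 0
    + (0 + (-82) * L + 41 * h) * m ^ 2 * J ^ 1
    + ((229 / 100) + (-82) * L + (10427 / 100) * h) * m ^ 2 * J ^ 2
    + ((451 / 50) + (2227 / 50) * L + (-2227 / 100) * h) * m ^ 2 * J ^ 3
    + ((-24497 / 5000) + (2227 / 50) * L + (-9077 / 200) * h) * m ^ 2 * J ^ 4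
    + ((-24497 / 5000) + (-169 / 100) * L + (169 / 200) * h) * m ^ 2 * J ^ 5
    + ((1859 / 10000) + (-169 / 100) * L + (169 / 100) * h) * m ^ 2 * J ^ 6
    + ((1859 / 10000) + 0 * L + 0 * h) * m ^ 2 * J ^ 7
    + (0 + (-18) * L + 18 * h) * m ^ 3 * J ^ 2
    + ((99 / 25) + 0 * L + 0 * h) * m ^ 3 * J ^ 3
    + (0 + (-927 / 50) * L + (927 / 50) * h) * m ^ 3 * J ^ 4
    + ((10197 / 2500) + 0 * L + 0 * h) * m ^ 3 * J ^ 5
    + ((-29 / 6) + 0 * L + 25 * h) * m ^ 4 * J ^ 0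
    + (0 + 50 * L + (-25) * h) * m ^ 4 * J ^ 1
    + ((-1907 / 120) + 50 * L + (-113 / 2) * h) * m ^ 4 * J ^ 2
    + ((-11 / 2) + (-13) * L + (13 / 2) * h) * m ^ 4 * J ^ 3
    + ((143 / 100) + (-13) * L + (5369 / 400) * h) * m ^ 4 * J ^ 4
    + ((143 / 100) + (169 / 200) * L + (-169 / 400) * h) * m ^ 4 * J ^ 5
    + ((-1859 / 20000) + (169 / 200) * L + (-169 / 200) * h) * m ^ 4 * J ^ 6
    + ((-1859 / 20000) + 0 * L + 0 * h) * m ^ 4 * J ^ 7
    + ((-3 / 2) + 0 * L + 0 * h) * m ^ 6 * J ^ 0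
    + ((-309 / 200) + 0 * L + 0 * h) * m ^ 6 * J ^ 2

noncomputable def UPH_0_0 (L h J : ℝ) : ℝ :=
  (0 + 0 * L + (230000 / 729) * h) * J ^ 2
    + (0 + (460000 / 729) * L + (-230000 / 729) * h) * J ^ 3
    + ((-50600 / 729) + (460000 / 729) * L + (-12500 / 243) * h) * J ^ 4
    + ((-50600 / 729) + (845000 / 729) * L + (-422500 / 729) * h) * J ^ 5
    + ((-92950 / 729) + (845000 / 729) * L + (-845000 / 729) * h) * J ^ 6
    + ((-92950 / 729) + 0 * L + 0 * h) * J ^ 7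

lemma UPH_0_0_nonneg {L h J : ℝ} (hL0 : (6931471 / 10000000) ≤ L) (hL1 : L ≤ (433217 / 625000)) (hh0 : (67 / 400) ≤ h) (hh1 : h ≤ (117 / 500)) (hJ0 : 0 ≤ J) (hJ1 : J ≤ (39 / 50)) :
    0 ≤ UPH_0_0 L h J := by
  obtain ⟨xl, hxl⟩ : ∃ x : ℝ, x = L - (6931471 / 10000000) := ⟨_, rfl⟩
  obtain ⟨xu, hxu⟩ : ∃ x : ℝ, x = (433217 / 625000) - L := ⟨_, rfl⟩
  obtain ⟨yl, hyl⟩ : ∃ x : ℝ, x = h - (67 / 400) := ⟨_, rfl⟩
  obtain ⟨yu, hyu⟩ : ∃ x : ℝ, x = (117 / 500) - h := ⟨_, rfl⟩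
  obtain ⟨A, hA⟩ : ∃ x : ℝ, x = J - 0 := ⟨_, rfl⟩
  obtain ⟨B, hB⟩ : ∃ x : ℝ, x = (39 / 50) - J := ⟨_, rfl⟩
  have hxl0 : 0 ≤ xl := by rw [hxl]; linarith
  have hxu0 : 0 ≤ xu := by rw [hxu]; linarith
  have hyl0 : 0 ≤ yl := by rw [hyl]; linarith
  have hyu0 : 0 ≤ yu := by rw [hyu]; linarith
  have hA0 : 0 ≤ A := by rw [hA]; linarith
  have hB0 : 0 ≤ B := by rw [hB]; linarith
  have key : UPH_0_0 L h J =
      ((12039062500000 / 65773441071) + 0 * xl + (71875000000000 / 65773441071) * yl) * A ^ 2 * B ^ 5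
      + ((128523962337500 / 65773441071) + (2875000000000 / 1686498489) * xl + (303312500000000 / 65773441071) * yl) * A ^ 3 * B ^ 4
      + ((443511589192000 / 65773441071) + (13742500000000 / 1686498489) * xl + (487370312500000 / 65773441071) * yl) * A ^ 4 * B ^ 3
      + ((2994568644761905 / 263093764284) + (9063537500000 / 562166163) * xl + (298330243750000 / 65773441071) * yl) * A ^ 5 * B ^ 2
      + ((670776377551981 / 67459939560) + (27159952750000 / 1686498489) * xl + (109318332250000 / 65773441071) * yu) * A ^ 6 * B ^ 1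
      + ((226857156720031 / 67459939560) + (10836840250000 / 1686498489) * xl + (151715763500000 / 65773441071) * yu) * A ^ 7 * B ^ 0 := by
    simp only [hxl, hxu, hyl, hyu, hA, hB]
    unfold UPH_0_0
    ring
  rw [key]
  positivity

noncomputable def UPH_0_1 (L h J : ℝ) : ℝ :=
  (0 + (5000000 / 243) * L + (-4540000 / 243) * h) * J ^ 2
    + ((-1100000 / 243) + (920000 / 243) * L + (-460000 / 243) * h) * J ^ 3
    + ((-101200 / 243) + (-142000 / 81) * L + (1271000 / 243) * h) * J ^ 4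
    + ((194920 / 243) + (1690000 / 243) * L + (-845000 / 243) * h) * J ^ 5
    + ((-185900 / 243) + (1690000 / 243) * L + (-1690000 / 243) * h) * J ^ 6
    + ((-185900 / 243) + 0 * L + 0 * h) * J ^ 7

lemma UPH_0_1_nonneg {L h J : ℝ} (hL0 : (6931471 / 10000000) ≤ L) (hL1 : L ≤ (433217 / 625000)) (hh0 : (67 / 400) ≤ h) (hh1 : h ≤ (117 / 500)) (hJ0 : 0 ≤ J) (hJ1 : J ≤ (39 / 50)) :
    0 ≤ UPH_0_1 L h J := by
  obtain ⟨xl, hxl⟩ : ∃ x : ℝ, x = L - (6931471 / 10000000) := ⟨_, rfl⟩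
  obtain ⟨xu, hxu⟩ : ∃ x : ℝ, x = (433217 / 625000) - L := ⟨_, rfl⟩
  obtain ⟨yl, hyl⟩ : ∃ x : ℝ, x = h - (67 / 400) := ⟨_, rfl⟩
  obtain ⟨yu, hyu⟩ : ∃ x : ℝ, x = (117 / 500) - h := ⟨_, rfl⟩
  obtain ⟨A, hA⟩ : ∃ x : ℝ, x = J - 0 := ⟨_, rfl⟩
  obtain ⟨B, hB⟩ : ∃ x : ℝ, x = (39 / 50) - J := ⟨_, rfl⟩
  have hxl0 : 0 ≤ xl := by rw [hxl]; linarith
  have hxu0 : 0 ≤ xu := by rw [hxu]; linarith
  have hyl0 : 0 ≤ yl := by rw [hyl]; linarith
  have hyu0 : 0 ≤ yu := by rw [hyu]; linarith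
  have hA0 : 0 ≤ A := by rw [hA]; linarith
  have hB0 : 0 ≤ B := by rw [hB]; linarith
  have key : UPH_0_1 L h J =
      ((751054843750000 / 21924480357) + (1562500000000000 / 21924480357) * xl + (1418750000000000 / 21924480357) * yu) * A ^ 2 * B ^ 5
      + ((3616350205925000 / 21924480357) + (8036750000000000 / 21924480357) * xl + (7205875000000000 / 21924480357) * yu) * A ^ 3 * B ^ 4
      + ((6936017336592925 / 21924480357) + (16441006750000000 / 21924480357) * xl + (14394351125000000 / 21924480357) * yu) * A ^ 4 * B ^ 3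
      + ((13587601890877955 / 43848960714) + (16978143025000000 / 21924480357) * xl + (14260614762500000 / 21924480357) * yu) * A ^ 5 * B ^ 2
      + ((71158595476312759 / 438489607140) + (9163251564500000 / 21924480357) * xl + (7263411914500000 / 21924480357) * yu) * A ^ 6 * B ^ 1
      + ((16361562484009709 / 438489607140) + (2151865289500000 / 21924480357) * xl + (1610023277000000 / 21924480357) * yu) * A ^ 7 * B ^ 0 := by
    simp only [hxl, hxu, hyl, hyu, hA, hB]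
    unfold UPH_0_1
    ring
  rw [key]
  positivity

noncomputable def UPH_0_2 (L h J : ℝ) : ℝ :=
  ((250000 / 81) + 0 * L + (-410000 / 81) * h) * J ^ 0
    + (0 + (-820000 / 81) * L + (410000 / 81) * h) * J ^ 1
    + ((22900 / 81) + (22540000 / 243) * L + (-6907300 / 81) * h) * J ^ 2
    + ((-5229400 / 243) + (3636200 / 243) * L + (-1818100 / 243) * h) * J ^ 3
    + ((-399982 / 243) + (-3093800 / 243) * L + (5180950 / 243) * h) * J ^ 4
    + ((360206 / 81) + (4174300 / 243) * L + (-2087150 / 243) * h) * J ^ 5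
    + ((-459173 / 243) + (4174300 / 243) * L + (-4174300 / 243) * h) * J ^ 6
    + ((-459173 / 243) + 0 * L + 0 * h) * J ^ 7

lemma UPH_0_2_nonneg {L h J : ℝ} (hL0 : (6931471 / 10000000) ≤ L) (hL1 : L ≤ (433217 / 625000)) (hh0 : (67 / 400) ≤ h) (hh1 : h ≤ (117 / 500)) (hJ0 : 0 ≤ J) (hJ1 : J ≤ (39 / 50)) :
    0 ≤ UPH_0_2 L h J := by
  obtain ⟨xl, hxl⟩ : ∃ x : ℝ, x = L - (6931471 / 10000000) := ⟨_, rfl⟩
  obtain ⟨xu, hxu⟩ : ∃ x : ℝ, x = (433217 / 625000) - L := ⟨_, rfl⟩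
  obtain ⟨yl, hyl⟩ : ∃ x : ℝ, x = h - (67 / 400) := ⟨_, rfl⟩
  obtain ⟨yu, hyu⟩ : ∃ x : ℝ, x = (117 / 500) - h := ⟨_, rfl⟩
  obtain ⟨A, hA⟩ : ∃ x : ℝ, x = J - 0 := ⟨_, rfl⟩
  obtain ⟨B, hB⟩ : ∃ x : ℝ, x = (39 / 50) - J := ⟨_, rfl⟩
  have hxl0 : 0 ≤ xl := by rw [hxl]; linarith
  have hxu0 : 0 ≤ xu := by rw [hxu]; linarith
  have hyl0 : 0 ≤ yl := by rw [hyl]; linarith
  have hyu0 : 0 ≤ yu := by rw [hyu]; linarith
  have hA0 : 0 ≤ A := by rw [hA]; linarith
  have hB0 : 0 ≤ B := by rw [hB]; linarith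
  have key : UPH_0_2 L h J =
      ((120359375000000000 / 11115711540999) + 0 * xl + (320312500000000000 / 11115711540999) * yu) * A ^ 0 * B ^ 7
      + ((554622071000000000 / 11115711540999) + (12812500000000000 / 285018244641) * xu + (1992343750000000000 / 11115711540999) * yu) * A ^ 1 * B ^ 6
      + ((839390980920625000 / 3705237180333) + (14693750000000000 / 285018244641) * xl + (2836875343750000000 / 3705237180333) * yu) * A ^ 2 * B ^ 5
      + ((8096756234647502875 / 11115711540999) + (277178458750000000 / 285018244641) * xl + (24103594476875000000 / 11115711540999) * yu) * A ^ 3 * B ^ 4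
      + ((27913508728423102235 / 22231423081998) + (77542180175000000 / 31668693849) * xl + (39444645838793750000 / 11115711540999) * yu) * A ^ 4 * B ^ 3
      + ((172556580860693967883 / 148209487213320) + (777740609530250000 / 285018244641) * xl + (11938987805027875000 / 3705237180333) * yu) * A ^ 5 * B ^ 2
      + ((12760148543599271912311 / 22231423081998000) + (426489487233595000 / 285018244641) * xl + (17117916933061705000 / 11115711540999) * yu) * A ^ 6 * B ^ 1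
      + ((2722469551856312236861 / 22231423081998000) + (96956290528345000 / 285018244641) * xl + (3480599661146830000 / 11115711540999) * yu) * A ^ 7 * B ^ 0 := by
    simp only [hxl, hxu, hyl, hyu, hA, hB]
    unfold UPH_0_2
    ring
  rw [key]
  positivity

noncomputable def UPH_0_3 (L h J : ℝ) : ℝ :=
  ((1000000 / 81) + 0 * L + (-1640000 / 81) * h) * J ^ 0
    + (0 + (-3280000 / 81) * L + (1640000 / 81) * h) * J ^ 1
    + ((91600 / 81) + (39998000 / 243) * L + (-107376800 / 729) * h) * J ^ 2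
    + ((-9881960 / 243) + (25234400 / 729) * L + (-12617200 / 729) * h) * J ^ 3
    + ((-2775784 / 729) + (-15646180 / 729) * L + (7930660 / 243) * h) * J ^ 4
    + ((31089718 / 3645) + (16291600 / 729) * L + (-8145800 / 729) * h) * J ^ 5
    + ((-1792076 / 729) + (16291600 / 729) * L + (-16291600 / 729) * h) * J ^ 6
    + ((-1792076 / 729) + 0 * L + 0 * h) * J ^ 7

lemma UPH_0_3_nonneg {L h J : ℝ} (hL0 : (6931471 / 10000000) ≤ L) (hL1 : L ≤ (433217 / 625000)) (hh0 : (67 / 400) ≤ h) (hh1 : h ≤ (117 / 500)) (hJ0 : 0 ≤ J) (hJ1 : J ≤ (39 / 50)) :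
    0 ≤ UPH_0_3 L h J := by
  obtain ⟨xl, hxl⟩ : ∃ x : ℝ, x = L - (6931471 / 10000000) := ⟨_, rfl⟩
  obtain ⟨xu, hxu⟩ : ∃ x : ℝ, x = (433217 / 625000) - L := ⟨_, rfl⟩
  obtain ⟨yl, hyl⟩ : ∃ x : ℝ, x = h - (67 / 400) := ⟨_, rfl⟩
  obtain ⟨yu, hyu⟩ : ∃ x : ℝ, x = (117 / 500) - h := ⟨_, rfl⟩
  obtain ⟨A, hA⟩ : ∃ x : ℝ, x = J - 0 := ⟨_, rfl⟩
  obtain ⟨B, hB⟩ : ∃ x : ℝ, x = (39 / 50) - J := ⟨_, rfl⟩
  have hxl0 : 0 ≤ xl := by rw [hxl]; linarith
  have hxu0 : 0 ≤ xu := by rw [hxu]; linarith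
  have hyl0 : 0 ≤ yl := by rw [hyl]; linarith
  have hyu0 : 0 ≤ yu := by rw [hyu]; linarith
  have hA0 : 0 ≤ A := by rw [hA]; linarith
  have hB0 : 0 ≤ B := by rw [hB]; linarith
  have key : UPH_0_3 L h J =
      ((481437500000000000 / 11115711540999) + 0 * xl + (1281250000000000000 / 11115711540999) * yu) * A ^ 0 * B ^ 7
      + ((2218488284000000000 / 11115711540999) + (51250000000000000 / 285018244641) * xu + (7969375000000000000 / 11115711540999) * yu) * A ^ 1 * B ^ 6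
      + ((2103301883827000000 / 3705237180333) + (145008125000000000 / 285018244641) * xu + (26580837250000000000 / 11115711540999) * yu) * A ^ 2 * B ^ 5
      + ((14500196017514449000 / 11115711540999) + (70363210000000000 / 285018244641) * xl + (58727061032500000000 / 11115711540999) * yu) * A ^ 3 * B ^ 4
      + ((88649635898341320589 / 44462846163996) + (693643593452500000 / 285018244641) * xl + (27626386182207500000 / 3705237180333) * yu) * A ^ 4 * B ^ 3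
      + ((4891124091340479493 / 2744620133580) + (987889619078500000 / 285018244641) * xl + (69653259244927000000 / 11115711540999) * yu) * A ^ 5 * B ^ 2
      + ((2408548782660963646343 / 2778927885249750) + (602008014801880000 / 285018244641) * xl + (3537675368675480000 / 1235079060111) * yu) * A ^ 6 * B ^ 1
      + ((508221343466279332493 / 2778927885249750) + (143640654175880000 / 285018244641) * xl + (6230628837274820000 / 11115711540999) * yu) * A ^ 7 * B ^ 0 := by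
    simp only [hxl, hxu, hyl, hyu, hA, hB]
    unfold UPH_0_3
    ring
  rw [key]
  positivity

noncomputable def UPH_0_4 (L h J : ℝ) : ℝ :=
  ((498550 / 27) + 0 * L + (-812500 / 27) * h) * J ^ 0
    + (0 + (-1625000 / 27) * L + (812500 / 27) * h) * J ^ 1
    + ((27355 / 18) + (34889000 / 243) * L + (-29747950 / 243) * h) * J ^ 2
    + ((-9284330 / 243) + (10282100 / 243) * L + (-5141050 / 243) * h) * J ^ 3
    + ((-1131031 / 243) + (-136240 / 9) * L + (22560083 / 972) * h) * J ^ 4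
    + ((9701483 / 1215) + (7846163 / 486) * L + (-7846163 / 972) * h) * J ^ 5
    + ((-86307793 / 48600) + (7846163 / 486) * L + (-7846163 / 486) * h) * J ^ 6
    + ((-86307793 / 48600) + 0 * L + 0 * h) * J ^ 7

lemma UPH_0_4_nonneg {L h J : ℝ} (hL0 : (6931471 / 10000000) ≤ L) (hL1 : L ≤ (433217 / 625000)) (hh0 : (67 / 400) ≤ h) (hh1 : h ≤ (117 / 500)) (hJ0 : 0 ≤ J) (hJ1 : J ≤ (39 / 50)) :
    0 ≤ UPH_0_4 L h J := by
  obtain ⟨xl, hxl⟩ : ∃ x : ℝ, x = L - (6931471 / 10000000) := ⟨_, rfl⟩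
  obtain ⟨xu, hxu⟩ : ∃ x : ℝ, x = (433217 / 625000) - L := ⟨_, rfl⟩
  obtain ⟨yl, hyl⟩ : ∃ x : ℝ, x = h - (67 / 400) := ⟨_, rfl⟩
  obtain ⟨yu, hyu⟩ : ∃ x : ℝ, x = (117 / 500) - h := ⟨_, rfl⟩
  obtain ⟨A, hA⟩ : ∃ x : ℝ, x = J - 0 := ⟨_, rfl⟩
  obtain ⟨B, hB⟩ : ∃ x : ℝ, x = (39 / 50) - J := ⟨_, rfl⟩
  have hxl0 : 0 ≤ xl := by rw [hxl]; linarith
  have hxu0 : 0 ≤ xu := by rw [hxu]; linarith
  have hyl0 : 0 ≤ yl := by rw [hyl]; linarith
  have hyu0 : 0 ≤ yu := by rw [hyu]; linarith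
  have hA0 : 0 ≤ A := by rw [hA]; linarith
  have hB0 : 0 ≤ B := by rw [hB]; linarith
  have key : UPH_0_4 L h J =
      ((1425781250000000 / 21924480357) + 0 * xl + (48828125000000000 / 285018244641) * yu) * A ^ 0 * B ^ 7
      + ((6604606250000000 / 21924480357) + (1953125000000000 / 7308160119) * xu + (303710937500000000 / 285018244641) * yu) * A ^ 1 * B ^ 6
      + ((15183570269000000 / 21924480357) + (24253437500000000 / 21924480357) * xu + (917726046875000000 / 285018244641) * yu) * A ^ 2 * B ^ 5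
      + ((25932021669248000 / 21924480357) + (30870300625000000 / 21924480357) * xu + (1758241249062500000 / 285018244641) * yu) * A ^ 3 * B ^ 4
      + ((67266562174592233 / 43848960714) + (1166301490000000 / 21924480357) * xl + (735666295404593750 / 95006081547) * yu) * A ^ 4 * B ^ 3
      + ((229109273639175264587 / 175395842856000) + (34658741398746250 / 21924480357) * xl + (1722317786178194375 / 285018244641) * yu) * A ^ 5 * B ^ 2
      + ((5597329094592253523593 / 8769792142800000) + (2223238785147275 / 1686498489) * xl + (83815745224725775 / 31668693849) * yu) * A ^ 6 * B ^ 1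
      + ((402897561807148760081 / 2923264047600000) + (7885902423168325 / 21924480357) * xl + (143624792370618850 / 285018244641) * yu) * A ^ 7 * B ^ 0 := by
    simp only [hxl, hxu, hyl, hyu, hA, hB]
    unfold UPH_0_4
    ring
  rw [key]
  positivity

noncomputable def UPH_0_5 (L h J : ℝ) : ℝ :=
  ((991300 / 81) + 0 * L + (-1595000 / 81) * h) * J ^ 0
    + (0 + (-3190000 / 81) * L + (1595000 / 81) * h) * J ^ 1
    + ((62995 / 81) + (14944000 / 243) * L + (-1316300 / 27) * h) * J ^ 2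
    + ((-4340380 / 243) + (6194600 / 243) * L + (-3097300 / 243) * h) * J ^ 3
    + ((-681406 / 243) + (-1035980 / 243) * L + (3563723 / 486) * h) * J ^ 4
    + ((1515536 / 405) + (1491763 / 243) * L + (-1491763 / 486) * h) * J ^ 5
    + ((-16409393 / 24300) + (1491763 / 243) * L + (-1491763 / 243) * h) * J ^ 6
    + ((-16409393 / 24300) + 0 * L + 0 * h) * J ^ 7

lemma UPH_0_5_nonneg {L h J : ℝ} (hL0 : (6931471 / 10000000) ≤ L) (hL1 : L ≤ (433217 / 625000)) (hh0 : (67 / 400) ≤ h) (hh1 : h ≤ (117 / 500)) (hJ0 : 0 ≤ J) (hJ1 : J ≤ (39 / 50)) :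
    0 ≤ UPH_0_5 L h J := by
  obtain ⟨xl, hxl⟩ : ∃ x : ℝ, x = L - (6931471 / 10000000) := ⟨_, rfl⟩
  obtain ⟨xu, hxu⟩ : ∃ x : ℝ, x = (433217 / 625000) - L := ⟨_, rfl⟩
  obtain ⟨yl, hyl⟩ : ∃ x : ℝ, x = h - (67 / 400) := ⟨_, rfl⟩
  obtain ⟨yu, hyu⟩ : ∃ x : ℝ, x = (117 / 500) - h := ⟨_, rfl⟩
  obtain ⟨A, hA⟩ : ∃ x : ℝ, x = J - 0 := ⟨_, rfl⟩
  obtain ⟨B, hB⟩ : ∃ x : ℝ, x = (39 / 50) - J := ⟨_, rfl⟩
  have hxl0 : 0 ≤ xl := by rw [hxl]; linarith
  have hxu0 : 0 ≤ xu := by rw [hxu]; linarith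
  have hyl0 : 0 ≤ yl := by rw [hyl]; linarith
  have hyu0 : 0 ≤ yu := by rw [hyu]; linarith
  have hA0 : 0 ≤ A := by rw [hA]; linarith
  have hB0 : 0 ≤ B := by rw [hB]; linarith
  have key : UPH_0_5 L h J =
      ((482867187500000000 / 11115711540999) + 0 * xl + (1246093750000000000 / 11115711540999) * yu) * A ^ 0 * B ^ 7
      + ((2260094169500000000 / 11115711540999) + (49843750000000000 / 285018244641) * xu + (7750703125000000000 / 11115711540999) * yu) * A ^ 1 * B ^ 6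
      + ((172305373559000000 / 411693020037) + (238352500000000000 / 285018244641) * xu + (7404403843750000000 / 3705237180333) * yu) * A ^ 2 * B ^ 5
      + ((6164836524429736000 / 11115711540999) + (424477111250000000 / 285018244641) * xu + (38801560236875000000 / 11115711540999) * yu) * A ^ 3 * B ^ 4
      + ((6343717002434190421 / 11115711540999) + (104606333022500000 / 95006081547) * xu + (44303147241232437500 / 11115711540999) * yu) * A ^ 4 * B ^ 3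
      + ((22853571000104412767 / 51461627504625) + (27587158297097500 / 285018244641) * xu + (10731899319117553750 / 3705237180333) * yu) * A ^ 5 * B ^ 2
      + ((490150407820493312642851 / 2223142308199800000) + (83317454304518950 / 285018244641) * xl + (13491185511410354050 / 11115711540999) * yu) * A ^ 6 * B ^ 1
      + ((112154644560733367324401 / 2223142308199800000) + (33053974784116450 / 285018244641) * xl + (2505676714665130300 / 11115711540999) * yu) * A ^ 7 * B ^ 0 := by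
    simp only [hxl, hxu, hyl, hyu, hA, hB]
    unfold UPH_0_5
    ring
  rw [key]
  positivity

noncomputable def UPH_0_6 (L h J : ℝ) : ℝ :=
  ((491057 / 162) + 0 * L + (-387500 / 81) * h) * J ^ 0
    + (0 + (-775000 / 81) * L + (387500 / 81) * h) * J ^ 1
    + ((1694471 / 16200) + (2513000 / 243) * L + (-5357350 / 729) * h) * J ^ 2
    + ((-808610 / 243) + (4363300 / 729) * L + (-2181650 / 729) * h) * J ^ 3
    + ((-479963 / 729) + (-175280 / 729) * L + (233401 / 324) * h) * J ^ 4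
    + ((2592623 / 3645) + (1399489 / 1458) * L + (-1399489 / 2916) * h) * J ^ 5
    + ((-15394379 / 145800) + (1399489 / 1458) * L + (-1399489 / 1458) * h) * J ^ 6
    + ((-15394379 / 145800) + 0 * L + 0 * h) * J ^ 7

lemma UPH_0_6_nonneg {L h J : ℝ} (hL0 : (6931471 / 10000000) ≤ L) (hL1 : L ≤ (433217 / 625000)) (hh0 : (67 / 400) ≤ h) (hh1 : h ≤ (117 / 500)) (hJ0 : 0 ≤ J) (hJ1 : J ≤ (39 / 50)) :
    0 ≤ UPH_0_6 L h J := by
  obtain ⟨xl, hxl⟩ : ∃ x : ℝ, x = L - (6931471 / 10000000) := ⟨_, rfl⟩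
  obtain ⟨xu, hxu⟩ : ∃ x : ℝ, x = (433217 / 625000) - L := ⟨_, rfl⟩
  obtain ⟨yl, hyl⟩ : ∃ x : ℝ, x = h - (67 / 400) := ⟨_, rfl⟩
  obtain ⟨yu, hyu⟩ : ∃ x : ℝ, x = (117 / 500) - h := ⟨_, rfl⟩
  obtain ⟨A, hA⟩ : ∃ x : ℝ, x = J - 0 := ⟨_, rfl⟩
  obtain ⟨B, hB⟩ : ∃ x : ℝ, x = (39 / 50) - J := ⟨_, rfl⟩
  have hxl0 : 0 ≤ xl := by rw [hxl]; linarith
  have hxu0 : 0 ≤ xu := by rw [hxu]; linarith
  have hyl0 : 0 ≤ yl := by rw [hyl]; linarith
  have hyu0 : 0 ≤ yu := by rw [hyu]; linarith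
  have hA0 : 0 ≤ A := by rw [hA]; linarith
  have hB0 : 0 ≤ B := by rw [hB]; linarith
  have key : UPH_0_6 L h J =
      ((120979296875000000 / 11115711540999) + 0 * xl + (302734375000000000 / 11115711540999) * yu) * A ^ 0 * B ^ 7
      + ((574760560625000000 / 11115711540999) + (12109375000000000 / 285018244641) * xu + (1883007812500000000 / 11115711540999) * yu) * A ^ 1 * B ^ 6
      + ((373932428338562500 / 3705237180333) + (62447187500000000 / 285018244641) * xu + (5223560046875000000 / 11115711540999) * yu) * A ^ 2 * B ^ 5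
      + ((1225481466675413500 / 11115711540999) + (41995525625000000 / 95006081547) * xu + (2852752172187500000 / 3705237180333) * yu) * A ^ 3 * B ^ 4
      + ((1859023549534424729 / 22231423081998) + (40602113770000000 / 95006081547) * xu + (9045004989911218750 / 11115711540999) * yu) * A ^ 4 * B ^ 3
      + ((49656300851586986803 / 926309295083250) + (51881141120048750 / 285018244641) * xu + (6142149622027705625 / 11115711540999) * yu) * A ^ 5 * B ^ 2
      + ((7565990275617939966077 / 277892788524975000) + (786378164445175 / 95006081547) * xu + (2457095365050472025 / 11115711540999) * yu) * A ^ 6 * B ^ 1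
      + ((31054663232894161232201 / 4446284616399600000) + (3364429691713225 / 285018244641) * xl + (148326941915495050 / 3705237180333) * yu) * A ^ 7 * B ^ 0 := by
    simp only [hxl, hxu, hyl, hyu, hA, hB]
    unfold UPH_0_6
    ring
  rw [key]
  positivity

lemma UPH_0_nonneg {L h m J : ℝ} (hL0 : (6931471 / 10000000) ≤ L) (hL1 : L ≤ (433217 / 625000)) (hh0 : (67 / 400) ≤ h) (hh1 : h ≤ (117 / 500)) (hm0 : 0 ≤ m) (hm1 : m ≤ (3 / 10)) (hJ0 : 0 ≤ J) (hJ1 : J ≤ (39 / 50)) :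
    0 ≤ UPH_0 L h m J := by
  have c0 := UPH_0_0_nonneg hL0 hL1 hh0 hh1 hJ0 hJ1
  have c1 := UPH_0_1_nonneg hL0 hL1 hh0 hh1 hJ0 hJ1
  have c2 := UPH_0_2_nonneg hL0 hL1 hh0 hh1 hJ0 hJ1
  have c3 := UPH_0_3_nonneg hL0 hL1 hh0 hh1 hJ0 hJ1
  have c4 := UPH_0_4_nonneg hL0 hL1 hh0 hh1 hJ0 hJ1
  have c5 := UPH_0_5_nonneg hL0 hL1 hh0 hh1 hJ0 hJ1
  have c6 := UPH_0_6_nonneg hL0 hL1 hh0 hh1 hJ0 hJ1
  have key : UPH_0 L h m J =
      (m - 0) ^ 0 * ((3 / 10) - m) ^ 6 * UPH_0_0 L h J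
      + (m - 0) ^ 1 * ((3 / 10) - m) ^ 5 * UPH_0_1 L h J
      + (m - 0) ^ 2 * ((3 / 10) - m) ^ 4 * UPH_0_2 L h J
      + (m - 0) ^ 3 * ((3 / 10) - m) ^ 3 * UPH_0_3 L h J
      + (m - 0) ^ 4 * ((3 / 10) - m) ^ 2 * UPH_0_4 L h J
      + (m - 0) ^ 5 * ((3 / 10) - m) ^ 1 * UPH_0_5 L h J
      + (m - 0) ^ 6 * ((3 / 10) - m) ^ 0 * UPH_0_6 L h J := by
    unfold UPH_0 UPH_0_0 UPH_0_1 UPH_0_2 UPH_0_3 UPH_0_4 UPH_0_5 UPH_0_6
    ring
  have hA : 0 ≤ m - 0 := by linarith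
  have hB : 0 ≤ (3 / 10) - m := by linarith
  rw [key]
  positivity

noncomputable def UPH_1 (L h m J : ℝ) : ℝ :=
  (0 + 0 * L + (11 / 10) * h) * m ^ 0 * J ^ 2
    + (0 + (11 / 5) * L + (-11 / 10) * h) * m ^ 0 * J ^ 3
    + ((-121 / 500) + (11 / 5) * L + (-711 / 400) * h) * m ^ 0 * J ^ 4
    + ((-121 / 500) + (169 / 200) * L + (-169 / 400) * h) * m ^ 0 * J ^ 5
    + ((-1859 / 20000) + (169 / 200) * L + (-169 / 200) * h) * m ^ 0 * J ^ 6
    + ((-1859 / 20000) + 0 * L + 0 * h) * m ^ 0 * J ^ 7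
    + (0 + 50 * L + (-50) * h) * m ^ 1 * J ^ 2
    + ((-11) + 0 * L + 0 * h) * m ^ 1 * J ^ 3
    + (0 + (-76 / 5) * L + (76 / 5) * h) * m ^ 1 * J ^ 4
    + ((418 / 125) + 0 * L + 0 * h) * m ^ 1 * J ^ 5
    + (25 + 0 * L + (-45) * h) * m ^ 2 * J ^ 0
    + (0 + (-90) * L + 45 * h) * m ^ 2 * J ^ 1
    + ((23 / 10) + (-90) * L + (577 / 5) * h) * m ^ 2 * J ^ 2
    + ((99 / 10) + (254 / 5) * L + (-127 / 5) * h) * m ^ 2 * J ^ 3
    + ((-1397 / 250) + (254 / 5) * L + (-10329 / 200) * h) * m ^ 2 * J ^ 4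
    + ((-1397 / 250) + (-169 / 100) * L + (169 / 200) * h) * m ^ 2 * J ^ 5
    + ((1859 / 10000) + (-169 / 100) * L + (169 / 100) * h) * m ^ 2 * J ^ 6
    + ((1859 / 10000) + 0 * L + 0 * h) * m ^ 2 * J ^ 7
    + (0 + (-10) * L + 10 * h) * m ^ 3 * J ^ 2
    + ((11 / 5) + 0 * L + 0 * h) * m ^ 3 * J ^ 3
    + (0 + (-124 / 5) * L + (124 / 5) * h) * m ^ 3 * J ^ 4
    + ((682 / 125) + 0 * L + 0 * h) * m ^ 3 * J ^ 5
    + ((-5 / 6) + 0 * L + 25 * h) * m ^ 4 * J ^ 0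
    + (0 + 50 * L + (-25) * h) * m ^ 4 * J ^ 1
    + ((-115 / 6) + 50 * L + (-113 / 2) * h) * m ^ 4 * J ^ 2
    + ((-11 / 2) + (-13) * L + (13 / 2) * h) * m ^ 4 * J ^ 3
    + ((143 / 100) + (-13) * L + (5369 / 400) * h) * m ^ 4 * J ^ 4
    + ((143 / 100) + (169 / 200) * L + (-169 / 400) * h) * m ^ 4 * J ^ 5
    + ((-1859 / 20000) + (169 / 200) * L + (-169 / 200) * h) * m ^ 4 * J ^ 6
    + ((-1859 / 20000) + 0 * L + 0 * h) * m ^ 4 * J ^ 7
    + ((-5 / 6) + 0 * L + 0 * h) * m ^ 6 * J ^ 0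
    + ((-31 / 15) + 0 * L + 0 * h) * m ^ 6 * J ^ 2

noncomputable def UPH_1_0 (L h J : ℝ) : ℝ :=
  (0 + 0 * L + (1100000 / 729) * h) * J ^ 2
    + (0 + (2200000 / 729) * L + (-1100000 / 729) * h) * J ^ 3
    + ((-242000 / 729) + (2200000 / 729) * L + (-197500 / 81) * h) * J ^ 4
    + ((-242000 / 729) + (845000 / 729) * L + (-422500 / 729) * h) * J ^ 5
    + ((-92950 / 729) + (845000 / 729) * L + (-845000 / 729) * h) * J ^ 6
    + ((-92950 / 729) + 0 * L + 0 * h) * J ^ 7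

lemma UPH_1_0_nonneg {L h J : ℝ} (hL0 : (6931471 / 10000000) ≤ L) (hL1 : L ≤ (433217 / 625000)) (hh0 : (67 / 400) ≤ h) (hh1 : h ≤ (117 / 500)) (hJ0 : 0 ≤ J) (hJ1 : J ≤ (39 / 50)) :
    0 ≤ UPH_1_0 L h J := by
  obtain ⟨xl, hxl⟩ : ∃ x : ℝ, x = L - (6931471 / 10000000) := ⟨_, rfl⟩
  obtain ⟨xu, hxu⟩ : ∃ x : ℝ, x = (433217 / 625000) - L := ⟨_, rfl⟩
  obtain ⟨yl, hyl⟩ : ∃ x : ℝ, x = h - (67 / 400) := ⟨_, rfl⟩
  obtain ⟨yu, hyu⟩ : ∃ x : ℝ, x = (117 / 500) - h := ⟨_, rfl⟩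
  obtain ⟨A, hA⟩ : ∃ x : ℝ, x = J - 0 := ⟨_, rfl⟩
  obtain ⟨B, hB⟩ : ∃ x : ℝ, x = (39 / 50) - J := ⟨_, rfl⟩
  have hxl0 : 0 ≤ xl := by rw [hxl]; linarith
  have hxu0 : 0 ≤ xu := by rw [hxu]; linarith
  have hyl0 : 0 ≤ yl := by rw [hyl]; linarith
  have hyu0 : 0 ≤ yu := by rw [hyu]; linarith
  have hA0 : 0 ≤ A := by rw [hA]; linarith
  have hB0 : 0 ≤ B := by rw [hB]; linarith
  have key : UPH_1_0 L h J =
      ((57578125000000 / 65773441071) + 0 * xl + (343750000000000 / 65773441071) * yl) * A ^ 2 * B ^ 5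
      + ((614679819875000 / 65773441071) + (13750000000000 / 1686498489) * xl + (1450625000000000 / 65773441071) * yl) * A ^ 3 * B ^ 4
      + ((2070247728846250 / 65773441071) + (65725000000000 / 1686498489) * xl + (2027052812500000 / 65773441071) * yl) * A ^ 4 * B ^ 3
      + ((12555687673712905 / 263093764284) + (39296037500000 / 562166163) * xl + (752252743750000 / 65773441071) * yl) * A ^ 5 * B ^ 2
      + ((2296695284641981 / 67459939560) + (96107452750000 / 1686498489) * xl + (590645832250000 / 65773441071) * yu) * A ^ 6 * B ^ 1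
      + ((632084816250031 / 67459939560) + (30194340250000 / 1686498489) * xl + (422720763500000 / 65773441071) * yu) * A ^ 7 * B ^ 0 := by
    simp only [hxl, hxu, hyl, hyu, hA, hB]
    unfold UPH_1_0
    ring
  rw [key]
  positivity

noncomputable def UPH_1_1 (L h J : ℝ) : ℝ :=
  (0 + (5000000 / 243) * L + (-2800000 / 243) * h) * J ^ 2
    + ((-1100000 / 243) + (4400000 / 243) * L + (-2200000 / 243) * h) * J ^ 3
    + ((-484000 / 243) + (320000 / 27) * L + (-2035000 / 243) * h) * J ^ 4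
    + ((-149600 / 243) + (1690000 / 243) * L + (-845000 / 243) * h) * J ^ 5
    + ((-185900 / 243) + (1690000 / 243) * L + (-1690000 / 243) * h) * J ^ 6
    + ((-185900 / 243) + 0 * L + 0 * h) * J ^ 7

lemma UPH_1_1_nonneg {L h J : ℝ} (hL0 : (6931471 / 10000000) ≤ L) (hL1 : L ≤ (433217 / 625000)) (hh0 : (67 / 400) ≤ h) (hh1 : h ≤ (117 / 500)) (hJ0 : 0 ≤ J) (hJ1 : J ≤ (39 / 50)) :
    0 ≤ UPH_1_1 L h J := by
  obtain ⟨xl, hxl⟩ : ∃ x : ℝ, x = L - (6931471 / 10000000) := ⟨_, rfl⟩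
  obtain ⟨xu, hxu⟩ : ∃ x : ℝ, x = (433217 / 625000) - L := ⟨_, rfl⟩
  obtain ⟨yl, hyl⟩ : ∃ x : ℝ, x = h - (67 / 400) := ⟨_, rfl⟩
  obtain ⟨yu, hyu⟩ : ∃ x : ℝ, x = (117 / 500) - h := ⟨_, rfl⟩
  obtain ⟨A, hA⟩ : ∃ x : ℝ, x = J - 0 := ⟨_, rfl⟩
  obtain ⟨B, hB⟩ : ∃ x : ℝ, x = (39 / 50) - J := ⟨_, rfl⟩
  have hxl0 : 0 ≤ xl := by rw [hxl]; linarith
  have hxu0 : 0 ≤ xu := by rw [hxu]; linarith
  have hyl0 : 0 ≤ yl := by rw [hyl]; linarith
  have hyu0 : 0 ≤ yu := by rw [hyu]; linarith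
  have hA0 : 0 ≤ A := by rw [hA]; linarith
  have hB0 : 0 ≤ B := by rw [hB]; linarith
  have key : UPH_1_1 L h J =
      ((878292343750000 / 21924480357) + (1562500000000000 / 21924480357) * xl + (875000000000000 / 21924480357) * yu) * A ^ 2 * B ^ 5
      + ((4741254483500000 / 21924480357) + (8885000000000000 / 21924480357) * xl + (4911250000000000 / 21924480357) * yu) * A ^ 3 * B ^ 4
      + ((10379077998826000 / 21924480357) + (20462560000000000 / 21924480357) * xl + (11281904375000000 / 21924480357) * yu) * A ^ 4 * B ^ 3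
      + ((23189681623976405 / 43848960714) + (23953302775000000 / 21924480357) * xl + (13253524512500000 / 21924480357) * yu) * A ^ 5 * B ^ 2
      + ((133885142610297259 / 438489607140) + (14441911314500000 / 21924480357) * xl + (8126821664500000 / 21924480357) * yu) * A ^ 6 * B ^ 1
      + ((31975189980171209 / 438489607140) + (3628668539500000 / 21924480357) * xl + (2118951527000000 / 21924480357) * yu) * A ^ 7 * B ^ 0 := by
    simp only [hxl, hxu, hyl, hyu, hA, hB]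
    unfold UPH_1_1
    ring
  rw [key]
  positivity

noncomputable def UPH_1_2 (L h J : ℝ) : ℝ :=
  ((250000 / 81) + 0 * L + (-50000 / 9) * h) * J ^ 0
    + (0 + (-100000 / 9) * L + (50000 / 9) * h) * J ^ 1
    + ((23000 / 81) + (22300000 / 243) * L + (-66000) * h) * J ^ 2
    + ((-5203000 / 243) + (12524000 / 243) * L + (-6262000 / 243) * h) * J ^ 3
    + ((-1377640 / 243) + (4924000 / 243) * L + (-2836850 / 243) * h) * J ^ 4
    + ((98120 / 81) + (4174300 / 243) * L + (-2087150 / 243) * h) * J ^ 5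
    + ((-459173 / 243) + (4174300 / 243) * L + (-4174300 / 243) * h) * J ^ 6
    + ((-459173 / 243) + 0 * L + 0 * h) * J ^ 7

lemma UPH_1_2_nonneg {L h J : ℝ} (hL0 : (6931471 / 10000000) ≤ L) (hL1 : L ≤ (433217 / 625000)) (hh0 : (67 / 400) ≤ h) (hh1 : h ≤ (117 / 500)) (hJ0 : 0 ≤ J) (hJ1 : J ≤ (39 / 50)) :
    0 ≤ UPH_1_2 L h J := by
  obtain ⟨xl, hxl⟩ : ∃ x : ℝ, x = L - (6931471 / 10000000) := ⟨_, rfl⟩
  obtain ⟨xu, hxu⟩ : ∃ x : ℝ, x = (433217 / 625000) - L := ⟨_, rfl⟩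
  obtain ⟨yl, hyl⟩ : ∃ x : ℝ, x = h - (67 / 400) := ⟨_, rfl⟩
  obtain ⟨yu, hyu⟩ : ∃ x : ℝ, x = (117 / 500) - h := ⟨_, rfl⟩
  obtain ⟨A, hA⟩ : ∃ x : ℝ, x = J - 0 := ⟨_, rfl⟩
  obtain ⟨B, hB⟩ : ∃ x : ℝ, x = (39 / 50) - J := ⟨_, rfl⟩
  have hxl0 : 0 ≤ xl := by rw [hxl]; linarith
  have hxu0 : 0 ≤ xu := by rw [hxu]; linarith
  have hyl0 : 0 ≤ yl := by rw [hyl]; linarith
  have hyu0 : 0 ≤ yu := by rw [hyu]; linarith
  have hA0 : 0 ≤ A := by rw [hA]; linarith
  have hB0 : 0 ≤ B := by rw [hB]; linarith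
  have key : UPH_1_2 L h J =
      ((113046875000000000 / 11115711540999) + 0 * xl + (39062500000000000 / 1235079060111) * yu) * A ^ 0 * B ^ 7
      + ((475347395000000000 / 11115711540999) + (1562500000000000 / 31668693849) * xu + (242968750000000000 / 1235079060111) * yu) * A ^ 1 * B ^ 6
      + ((781143564615625000 / 3705237180333) + (6218750000000000 / 285018244641) * xl + (306611875000000000 / 411693020037) * yu) * A ^ 2 * B ^ 5
      + ((8792310161342807500 / 11115711540999) + (281716675000000000 / 285018244641) * xl + (802606487500000000 / 411693020037) * yu) * A ^ 3 * B ^ 4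
      + ((17417454597697629850 / 11115711540999) + (795599481500000000 / 285018244641) * xl + (1318497609106250000 / 411693020037) * yu) * A ^ 4 * B ^ 3
      + ((245060527120208947183 / 148209487213320) + (977670891805250000 / 285018244641) * xl + (423459494568625000 / 137231006679) * yu) * A ^ 5 * B ^ 2
      + ((20210063869749730307311 / 22231423081998000) + (586218337008595000 / 285018244641) * xl + (1999467686170745000 / 1235079060111) * yu) * A ^ 6 * B ^ 1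
      + ((4621525397081071951861 / 22231423081998000) + (142711501703345000 / 285018244641) * xl + (451934974871870000 / 1235079060111) * yu) * A ^ 7 * B ^ 0 := by
    simp only [hxl, hxu, hyl, hyu, hA, hB]
    unfold UPH_1_2
    ring
  rw [key]
  positivity

noncomputable def UPH_1_3 (L h J : ℝ) : ℝ :=
  ((1000000 / 81) + 0 * L + (-200000 / 9) * h) * J ^ 0
    + (0 + (-400000 / 9) * L + (200000 / 9) * h) * J ^ 1
    + ((92000 / 81) + (39110000 / 243) * L + (-86186000 / 729) * h) * J ^ 2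
    + ((-9792200 / 243) + (62288000 / 729) * L + (-31144000 / 729) * h) * J ^ 3
    + ((-6851680 / 729) + (16018400 / 729) * L + (-2624200 / 243) * h) * J ^ 4
    + ((3327632 / 729) + (16291600 / 729) * L + (-8145800 / 729) * h) * J ^ 5
    + ((-1792076 / 729) + (16291600 / 729) * L + (-16291600 / 729) * h) * J ^ 6
    + ((-1792076 / 729) + 0 * L + 0 * h) * J ^ 7

lemma UPH_1_3_nonneg {L h J : ℝ} (hL0 : (6931471 / 10000000) ≤ L) (hL1 : L ≤ (433217 / 625000)) (hh0 : (67 / 400) ≤ h) (hh1 : h ≤ (117 / 500)) (hJ0 : 0 ≤ J) (hJ1 : J ≤ (39 / 50)) :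
    0 ≤ UPH_1_3 L h J := by
  obtain ⟨xl, hxl⟩ : ∃ x : ℝ, x = L - (6931471 / 10000000) := ⟨_, rfl⟩
  obtain ⟨xu, hxu⟩ : ∃ x : ℝ, x = (433217 / 625000) - L := ⟨_, rfl⟩
  obtain ⟨yl, hyl⟩ : ∃ x : ℝ, x = h - (67 / 400) := ⟨_, rfl⟩
  obtain ⟨yu, hyu⟩ : ∃ x : ℝ, x = (117 / 500) - h := ⟨_, rfl⟩
  obtain ⟨A, hA⟩ : ∃ x : ℝ, x = J - 0 := ⟨_, rfl⟩
  obtain ⟨B, hB⟩ : ∃ x : ℝ, x = (39 / 50) - J := ⟨_, rfl⟩
  have hxl0 : 0 ≤ xl := by rw [hxl]; linarith
  have hxu0 : 0 ≤ xu := by rw [hxu]; linarith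
  have hyl0 : 0 ≤ yl := by rw [hyl]; linarith
  have hyu0 : 0 ≤ yu := by rw [hyu]; linarith
  have hA0 : 0 ≤ A := by rw [hA]; linarith
  have hB0 : 0 ≤ B := by rw [hB]; linarith
  have key : UPH_1_3 L h J =
      ((452187500000000000 / 11115711540999) + 0 * xl + (156250000000000000 / 1235079060111) * yu) * A ^ 0 * B ^ 7
      + ((1901389580000000000 / 11115711540999) + (6250000000000000 / 31668693849) * xu + (971875000000000000 / 1235079060111) * yu) * A ^ 1 * B ^ 6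
      + ((1728703831765000000 / 3705237180333) + (178615625000000000 / 285018244641) * xu + (27501698125000000000 / 11115711540999) * yu) * A ^ 2 * B ^ 5
      + ((13504466341808417500 / 11115711540999) + (16463575000000000 / 285018244641) * xl + (56807053775000000000 / 11115711540999) * yu) * A ^ 3 * B ^ 4
      + ((24435388498664633170 / 11115711540999) + (246735903100000000 / 95006081547) * xl + (78182939344675000000 / 11115711540999) * yu) * A ^ 4 * B ^ 3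
      + ((9420082007909211487 / 4116930200370) + (1189904776621000000 / 285018244641) * xl + (67255753934084500000 / 11115711540999) * yu) * A ^ 5 * B ^ 2
      + ((7001901788508713826811 / 5557855770499500) + (788784942344380000 / 285018244641) * xl + (32638391897236820000 / 11115711540999) * yu) * A ^ 6 * B ^ 1
      + ((1605044413990672926361 / 5557855770499500) + (66752891674460000 / 95006081547) * xl + (6919596657827320000 / 11115711540999) * yu) * A ^ 7 * B ^ 0 := by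
    simp only [hxl, hxu, hyl, hyu, hA, hB]
    unfold UPH_1_3
    ring
  rw [key]
  positivity

noncomputable def UPH_1_4 (L h J : ℝ) : ℝ :=
  ((499750 / 27) + 0 * L + (-297500 / 9) * h) * J ^ 0
    + (0 + (-595000 / 9) * L + (297500 / 9) * h) * J ^ 1
    + ((40250 / 27) + (33665000 / 243) * L + (-23610550 / 243) * h) * J ^ 2
    + ((-9173450 / 243) + (20108900 / 243) * L + (-10054450 / 243) * h) * J ^ 3
    + ((-2211979 / 243) + (1413100 / 81) * L + (-9111037 / 972) * h) * J ^ 4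
    + ((1279333 / 243) + (7846163 / 486) * L + (-7846163 / 972) * h) * J ^ 5
    + ((-86307793 / 48600) + (7846163 / 486) * L + (-7846163 / 486) * h) * J ^ 6
    + ((-86307793 / 48600) + 0 * L + 0 * h) * J ^ 7

lemma UPH_1_4_nonneg {L h J : ℝ} (hL0 : (6931471 / 10000000) ≤ L) (hL1 : L ≤ (433217 / 625000)) (hh0 : (67 / 400) ≤ h) (hh1 : h ≤ (117 / 500)) (hJ0 : 0 ≤ J) (hJ1 : J ≤ (39 / 50)) :
    0 ≤ UPH_1_4 L h J := by
  obtain ⟨xl, hxl⟩ : ∃ x : ℝ, x = L - (6931471 / 10000000) := ⟨_, rfl⟩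
  obtain ⟨xu, hxu⟩ : ∃ x : ℝ, x = (433217 / 625000) - L := ⟨_, rfl⟩
  obtain ⟨yl, hyl⟩ : ∃ x : ℝ, x = h - (67 / 400) := ⟨_, rfl⟩
  obtain ⟨yu, hyu⟩ : ∃ x : ℝ, x = (117 / 500) - h := ⟨_, rfl⟩
  obtain ⟨A, hA⟩ : ∃ x : ℝ, x = J - 0 := ⟨_, rfl⟩
  obtain ⟨B, hB⟩ : ∃ x : ℝ, x = (39 / 50) - J := ⟨_, rfl⟩
  have hxl0 : 0 ≤ xl := by rw [hxl]; linarith
  have hxu0 : 0 ≤ xu := by rw [hxu]; linarith
  have hyl0 : 0 ≤ yl := by rw [hyl]; linarith
  have hyu0 : 0 ≤ yu := by rw [hyu]; linarith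
  have hA0 : 0 ≤ A := by rw [hA]; linarith
  have hB0 : 0 ≤ B := by rw [hB]; linarith
  have key : UPH_1_4 L h J =
      ((227269531250000000 / 3705237180333) + 0 * xl + (232421875000000000 / 1235079060111) * yu) * A ^ 0 * B ^ 7
      + ((964191604250000000 / 3705237180333) + (9296875000000000 / 31668693849) * xu + (1445664062500000000 / 1235079060111) * yu) * A ^ 1 * B ^ 6
      + ((1972207819928750000 / 3705237180333) + (365267187500000000 / 285018244641) * xu + (12626307171875000000 / 3705237180333) * yu) * A ^ 2 * B ^ 5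
      + ((3451967694085358000 / 3705237180333) + (507537735625000000 / 285018244641) * xu + (22895130421562500000 / 3705237180333) * yu) * A ^ 3 * B ^ 4
      + ((3614271956841536545 / 2470158120222) + (40438607637500000 / 285018244641) * xu + (27726183809681656250 / 3705237180333) * yu) * A ^ 4 * B ^ 3
      + ((45383934498678409101203 / 29641897442664000) + (533880022161201250 / 285018244641) * xl + (21707696609524026875 / 3705237180333) * yu) * A ^ 5 * B ^ 2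
      + ((1299852593310003314787217 / 1482094872133200000) + (489128893667389475 / 285018244641) * xl + (9903612025500415675 / 3705237180333) * yu) * A ^ 6 * B ^ 1
      + ((34434904861384349384563 / 164677208014800000) + (140752686993688225 / 285018244641) * xl + (2013549413470545050 / 3705237180333) * yu) * A ^ 7 * B ^ 0 := by
    simp only [hxl, hxu, hyl, hyu, hA, hB]
    unfold UPH_1_4
    ring
  rw [key]
  positivity

noncomputable def UPH_1_5 (L h J : ℝ) : ℝ :=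
  ((998500 / 81) + 0 * L + (-65000 / 3) * h) * J ^ 0
    + (0 + (-130000 / 3) * L + (65000 / 3) * h) * J ^ 1
    + ((57500 / 81) + (14200000 / 243) * L + (-2995700 / 81) * h) * J ^ 2
    + ((-4282300 / 243) + (10425800 / 243) * L + (-5212900 / 243) * h) * J ^ 3
    + ((-1146838 / 243) + (2156200 / 243) * L + (-2820637 / 486) * h) * J ^ 4
    + ((224158 / 81) + (1491763 / 243) * L + (-1491763 / 486) * h) * J ^ 5
    + ((-16409393 / 24300) + (1491763 / 243) * L + (-1491763 / 243) * h) * J ^ 6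
    + ((-16409393 / 24300) + 0 * L + 0 * h) * J ^ 7

lemma UPH_1_5_nonneg {L h J : ℝ} (hL0 : (6931471 / 10000000) ≤ L) (hL1 : L ≤ (433217 / 625000)) (hh0 : (67 / 400) ≤ h) (hh1 : h ≤ (117 / 500)) (hJ0 : 0 ≤ J) (hJ1 : J ≤ (39 / 50)) :
    0 ≤ UPH_1_5 L h J := by
  obtain ⟨xl, hxl⟩ : ∃ x : ℝ, x = L - (6931471 / 10000000) := ⟨_, rfl⟩
  obtain ⟨xu, hxu⟩ : ∃ x : ℝ, x = (433217 / 625000) - L := ⟨_, rfl⟩
  obtain ⟨yl, hyl⟩ : ∃ x : ℝ, x = h - (67 / 400) := ⟨_, rfl⟩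
  obtain ⟨yu, hyu⟩ : ∃ x : ℝ, x = (117 / 500) - h := ⟨_, rfl⟩
  obtain ⟨A, hA⟩ : ∃ x : ℝ, x = J - 0 := ⟨_, rfl⟩
  obtain ⟨B, hB⟩ : ∃ x : ℝ, x = (39 / 50) - J := ⟨_, rfl⟩
  have hxl0 : 0 ≤ xl := by rw [hxl]; linarith
  have hxu0 : 0 ≤ xu := by rw [hxu]; linarith
  have hyl0 : 0 ≤ yl := by rw [hyl]; linarith
  have hyu0 : 0 ≤ yu := by rw [hyu]; linarith
  have hA0 : 0 ≤ A := by rw [hA]; linarith
  have hB0 : 0 ≤ B := by rw [hB]; linarith
  have key : UPH_1_5 L h J =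
      ((459242187500000000 / 11115711540999) + 0 * xl + (3906250000000000 / 31668693849) * yu) * A ^ 0 * B ^ 7
      + ((1982370465500000000 / 11115711540999) + (156250000000000 / 812017791) * xu + (24296875000000000 / 31668693849) * yu) * A ^ 1 * B ^ 6
      + ((389303049287500000 / 1235079060111) + (20875000000000000 / 21924480357) * xu + (203420031250000000 / 95006081547) * yu) * A ^ 2 * B ^ 5
      + ((4069672104698428000 / 11115711540999) + (38552461250000000 / 21924480357) * xu + (37711461875000000 / 10556231283) * yu) * A ^ 3 * B ^ 4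
      + ((4817053998175161385 / 11115711540999) + (29424897475000000 / 21924480357) * xu + (372230491154187500 / 95006081547) * yu) * A ^ 4 * B ^ 3
      + ((70751599385403986801 / 154384882513875) + (2207450201507500 / 21924480357) * xu + (267686539946796250 / 95006081547) * yu) * A ^ 5 * B ^ 2
      + ((641438375080668862592851 / 2223142308199800000) + (8885002306309150 / 21924480357) * xl + (12806035249603850 / 10556231283) * yu) * A ^ 6 * B ^ 1
      + ((166710358020777183974401 / 2223142308199800000) + (3563766282816650 / 21924480357) * xl + (22643267828825900 / 95006081547) * yu) * A ^ 7 * B ^ 0 := by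
    simp only [hxl, hxu, hyl, hyu, hA, hB]
    unfold UPH_1_5
    ring
  rw [key]
  positivity

noncomputable def UPH_1_6 (L h J : ℝ) : ℝ :=
  ((498365 / 162) + 0 * L + (-47500 / 9) * h) * J ^ 0
    + (0 + (-95000 / 9) * L + (47500 / 9) * h) * J ^ 1
    + ((27913 / 405) + (2345000 / 243) * L + (-3701650 / 729) * h) * J ^ 2
    + ((-798050 / 243) + (6666700 / 729) * L + (-3333350 / 729) * h) * J ^ 3
    + ((-733337 / 729) + (1437100 / 729) * L + (-1449637 / 972) * h) * J ^ 4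
    + ((417175 / 729) + (1399489 / 1458) * L + (-1399489 / 2916) * h) * J ^ 5
    + ((-15394379 / 145800) + (1399489 / 1458) * L + (-1399489 / 1458) * h) * J ^ 6
    + ((-15394379 / 145800) + 0 * L + 0 * h) * J ^ 7

lemma UPH_1_6_nonneg {L h J : ℝ} (hL0 : (6931471 / 10000000) ≤ L) (hL1 : L ≤ (433217 / 625000)) (hh0 : (67 / 400) ≤ h) (hh1 : h ≤ (117 / 500)) (hJ0 : 0 ≤ J) (hJ1 : J ≤ (39 / 50)) :
    0 ≤ UPH_1_6 L h J := by
  obtain ⟨xl, hxl⟩ : ∃ x : ℝ, x = L - (6931471 / 10000000) := ⟨_, rfl⟩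
  obtain ⟨xu, hxu⟩ : ∃ x : ℝ, x = (433217 / 625000) - L := ⟨_, rfl⟩
  obtain ⟨yl, hyl⟩ : ∃ x : ℝ, x = h - (67 / 400) := ⟨_, rfl⟩
  obtain ⟨yu, hyu⟩ : ∃ x : ℝ, x = (117 / 500) - h := ⟨_, rfl⟩
  obtain ⟨A, hA⟩ : ∃ x : ℝ, x = J - 0 := ⟨_, rfl⟩
  obtain ⟨B, hB⟩ : ∃ x : ℝ, x = (39 / 50) - J := ⟨_, rfl⟩
  have hxl0 : 0 ≤ xl := by rw [hxl]; linarith
  have hxu0 : 0 ≤ xu := by rw [hxu]; linarith
  have hyl0 : 0 ≤ yl := by rw [hyl]; linarith
  have hyu0 : 0 ≤ yu := by rw [hyu]; linarith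
  have hA0 : 0 ≤ A := by rw [hA]; linarith
  have hB0 : 0 ≤ B := by rw [hB]; linarith
  have key : UPH_1_6 L h J =
      ((116521484375000000 / 11115711540999) + 0 * xl + (37109375000000000 / 1235079060111) * yu) * A ^ 0 * B ^ 7
      + ((515468697125000000 / 11115711540999) + (1484375000000000 / 31668693849) * xu + (230820312500000000 / 1235079060111) * yu) * A ^ 1 * B ^ 6
      + ((286766043936250000 / 3705237180333) + (70629687500000000 / 285018244641) * xu + (5646118390625000000 / 11115711540999) * yu) * A ^ 2 * B ^ 5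
      + ((707313354653374000 / 11115711540999) + (48572036875000000 / 95006081547) * xu + (8896616077187500000 / 11115711540999) * yu) * A ^ 3 * B ^ 4
      + ((915326282812535345 / 22231423081998) + (142571076737500000 / 285018244641) * xu + (9018417378238718750 / 11115711540999) * yu) * A ^ 4 * B ^ 3
      + ((38964224033279813803 / 926309295083250) + (58873144902548750 / 285018244641) * xu + (5998437860760205625 / 11115711540999) * yu) * A ^ 5 * B ^ 2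
      + ((148740996071014019360651 / 4446284616399600000) + (49492136018275 / 31668693849) * xl + (2437581201282972025 / 11115711540999) * yu) * A ^ 6 * B ^ 1
      + ((45923532045397401332201 / 4446284616399600000) + (5193295514213225 / 285018244641) * xl + (463664594698985150 / 11115711540999) * yu) * A ^ 7 * B ^ 0 := by
    simp only [hxl, hxu, hyl, hyu, hA, hB]
    unfold UPH_1_6
    ring
  rw [key]
  positivity

lemma UPH_1_nonneg {L h m J : ℝ} (hL0 : (6931471 / 10000000) ≤ L) (hL1 : L ≤ (433217 / 625000)) (hh0 : (67 / 400) ≤ h) (hh1 : h ≤ (117 / 500)) (hm0 : 0 ≤ m) (hm1 : m ≤ (3 / 10)) (hJ0 : 0 ≤ J) (hJ1 : J ≤ (39 / 50)) :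
    0 ≤ UPH_1 L h m J := by
  have c0 := UPH_1_0_nonneg hL0 hL1 hh0 hh1 hJ0 hJ1
  have c1 := UPH_1_1_nonneg hL0 hL1 hh0 hh1 hJ0 hJ1
  have c2 := UPH_1_2_nonneg hL0 hL1 hh0 hh1 hJ0 hJ1
  have c3 := UPH_1_3_nonneg hL0 hL1 hh0 hh1 hJ0 hJ1
  have c4 := UPH_1_4_nonneg hL0 hL1 hh0 hh1 hJ0 hJ1
  have c5 := UPH_1_5_nonneg hL0 hL1 hh0 hh1 hJ0 hJ1
  have c6 := UPH_1_6_nonneg hL0 hL1 hh0 hh1 hJ0 hJ1
  have key : UPH_1 L h m J =
      (m - 0) ^ 0 * ((3 / 10) - m) ^ 6 * UPH_1_0 L h J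
      + (m - 0) ^ 1 * ((3 / 10) - m) ^ 5 * UPH_1_1 L h J
      + (m - 0) ^ 2 * ((3 / 10) - m) ^ 4 * UPH_1_2 L h J
      + (m - 0) ^ 3 * ((3 / 10) - m) ^ 3 * UPH_1_3 L h J
      + (m - 0) ^ 4 * ((3 / 10) - m) ^ 2 * UPH_1_4 L h J
      + (m - 0) ^ 5 * ((3 / 10) - m) ^ 1 * UPH_1_5 L h J
      + (m - 0) ^ 6 * ((3 / 10) - m) ^ 0 * UPH_1_6 L h J := by
    unfold UPH_1 UPH_1_0 UPH_1_1 UPH_1_2 UPH_1_3 UPH_1_4 UPH_1_5 UPH_1_6
    ring
  have hA : 0 ≤ m - 0 := by linarith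
  have hB : 0 ≤ (3 / 10) - m := by linarith
  rw [key]
  positivity

lemma UPH_nonneg {L h om m J : ℝ} (hL0 : (6931471 / 10000000) ≤ L) (hL1 : L ≤ (433217 / 625000)) (hh0 : (67 / 400) ≤ h) (hh1 : h ≤ (117 / 500)) (hom0 : (4 / 25) ≤ om) (hom1 : om ≤ (1 / 5)) (hm0 : 0 ≤ m) (hm1 : m ≤ (3 / 10)) (hJ0 : 0 ≤ J) (hJ1 : J ≤ (39 / 50)) :
    0 ≤ UPH L h om m J := by
  have c0 := UPH_0_nonneg hL0 hL1 hh0 hh1 hm0 hm1 hJ0 hJ1
  have c1 := UPH_1_nonneg hL0 hL1 hh0 hh1 hm0 hm1 hJ0 hJ1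
  have key : UPH L h om m J =
      (om - (4 / 25)) ^ 0 * ((1 / 5) - om) ^ 1 * UPH_0 L h m J
      + (om - (4 / 25)) ^ 1 * ((1 / 5) - om) ^ 0 * UPH_1 L h m J := by
    unfold UPH UPH_0 UPH_1
    ring
  have hA : 0 ≤ om - (4 / 25) := by linarith
  have hB : 0 ≤ (1 / 5) - om := by linarith
  rw [key]
  positivity

end Vale.Agent.Lib.P322.Pot
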