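import Mathlib
import Vale.Agent.Lib.P322.Pot.Ult.CertG3

/-!
P322, potential method, range `7/8 ≤ ρ ≤ 23/25`.  Generated certificate: the polynomial `US1` is nonnegative on a box (iterated expansion in the products
`(x - lo)^i (hi - x)^(n-i)`; all coefficients are affine in `(L, h)` and nonnegative).
-/

set_option linter.unusedSimpArgs false

namespace Vale.Agent.Lib.P322.Pot

noncomputable def US1 (L h m J : ℝ) : ℝ :=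
  (0 + 2 * L + (-2) * h) * m ^ 1 * J ^ 2
    + ((-11 / 25) + 0 * L + 0 * h) * m ^ 1 * J ^ 3
    + (1 + 0 * L + (-1) * h) * m ^ 2 * J ^ 0
    + (0 + (-2) * L + 1 * h) * m ^ 2 * J ^ 1
    + ((11 / 50) + (-2) * L + 2 * h) * m ^ 2 * J ^ 2
    + ((11 / 50) + 0 * L + 0 * h) * m ^ 2 * J ^ 3
    + ((1 / 6) + 0 * L + 0 * h) * m ^ 4 * J ^ 0

noncomputable def US1_1 (L h J : ℝ) : ℝ :=
  (0 + (2000 / 27) * L + (-2000 / 27) * h) * J ^ 2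
    + ((-440 / 27) + 0 * L + 0 * h) * J ^ 3

lemma US1_1_nonneg {L h J : ℝ} (hL0 : (6931471 / 10000000) ≤ L) (hL1 : L ≤ (433217 / 625000)) (hh0 : (67 / 400) ≤ h) (hh1 : h ≤ (117 / 500)) (hJ0 : 0 ≤ J) (hJ1 : J ≤ (39 / 50)) :
    0 ≤ US1_1 L h J := by
  obtain ⟨xl, hxl⟩ : ∃ x : ℝ, x = L - (6931471 / 10000000) := ⟨_, rfl⟩
  obtain ⟨xu, hxu⟩ : ∃ x : ℝ, x = (433217 / 625000) - L := ⟨_, rfl⟩
  obtain ⟨yl, hyl⟩ : ∃ x : ℝ, x = h - (67 / 400) := ⟨_, rfl⟩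
  obtain ⟨yu, hyu⟩ : ∃ x : ℝ, x = (117 / 500) - h := ⟨_, rfl⟩
  obtain ⟨A, hA⟩ : ∃ x : ℝ, x = J - 0 := ⟨_, rfl⟩
  obtain ⟨B, hB⟩ : ∃ x : ℝ, x = (39 / 50) - J := ⟨_, rfl⟩
  have hxl0 : 0 ≤ xl := by rw [hxl]; linarith
  have hxu0 : 0 ≤ xu := by rw [hxu]; linarith
  have hyl0 : 0 ≤ yl := by rw [hyl]; linarith
  have hyu0 : 0 ≤ yu := by rw [hyu]; linarith
  have hA0 : 0 ≤ A := by rw [hA]; linarith
  have hB0 : 0 ≤ B := by rw [hB]; linarith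
  have key : US1_1 L h J =
      ((4591471 / 105300) + (100000 / 1053) * xl + (100000 / 1053) * yu) * A ^ 2 * B ^ 1
      + ((2875471 / 105300) + (100000 / 1053) * xl + (100000 / 1053) * yu) * A ^ 3 * B ^ 0 := by
    simp only [hxl, hxu, hyl, hyu, hA, hB]
    unfold US1_1
    ring
  rw [key]
  positivity

noncomputable def US1_2 (L h J : ℝ) : ℝ :=
  ((100 / 9) + 0 * L + (-100 / 9) * h) * J ^ 0
    + (0 + (-200 / 9) * L + (100 / 9) * h) * J ^ 1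
    + ((22 / 9) + 200 * L + (-200) * h) * J ^ 2
    + ((-418 / 9) + 0 * L + 0 * h) * J ^ 3

lemma US1_2_nonneg {L h J : ℝ} (hL0 : (6931471 / 10000000) ≤ L) (hL1 : L ≤ (433217 / 625000)) (hh0 : (67 / 400) ≤ h) (hh1 : h ≤ (117 / 500)) (hJ0 : 0 ≤ J) (hJ1 : J ≤ (39 / 50)) :
    0 ≤ US1_2 L h J := by
  obtain ⟨xl, hxl⟩ : ∃ x : ℝ, x = L - (6931471 / 10000000) := ⟨_, rfl⟩
  obtain ⟨xu, hxu⟩ : ∃ x : ℝ, x = (433217 / 625000) - L := ⟨_, rfl⟩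
  obtain ⟨yl, hyl⟩ : ∃ x : ℝ, x = h - (67 / 400) := ⟨_, rfl⟩
  obtain ⟨yu, hyu⟩ : ∃ x : ℝ, x = (117 / 500) - h := ⟨_, rfl⟩
  obtain ⟨A, hA⟩ : ∃ x : ℝ, x = J - 0 := ⟨_, rfl⟩
  obtain ⟨B, hB⟩ : ∃ x : ℝ, x = (39 / 50) - J := ⟨_, rfl⟩
  have hxl0 : 0 ≤ xl := by rw [hxl]; linarith
  have hxu0 : 0 ≤ xu := by rw [hxu]; linarith
  have hyl0 : 0 ≤ yl := by rw [hyl]; linarith
  have hyu0 : 0 ≤ yu := by rw [hyu]; linarith
  have hA0 : 0 ≤ A := by rw [hA]; linarith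
  have hB0 : 0 ≤ B := by rw [hB]; linarith
  have key : US1_2 L h J =
      ((9575000 / 533871) + 0 * xl + (12500000 / 533871) * yu) * A ^ 0 * B ^ 3
      + ((29150216 / 889785) + (500000 / 13689) * xu + (9250000 / 177957) * yu) * A ^ 1 * B ^ 2
      + ((23593669873 / 177957000) + (2510000 / 13689) * xl + (17210000 / 59319) * yu) * A ^ 2 * B ^ 1
      + ((38070536069 / 533871000) + (3010000 / 13689) * xl + (139640000 / 533871) * yu) * A ^ 3 * B ^ 0 := by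
    simp only [hxl, hxu, hyl, hyu, hA, hB]
    unfold US1_2
    ring
  rw [key]
  positivity

noncomputable def US1_3 (L h J : ℝ) : ℝ :=
  ((200 / 9) + 0 * L + (-200 / 9) * h) * J ^ 0
    + (0 + (-400 / 9) * L + (200 / 9) * h) * J ^ 1
    + ((44 / 9) + (1600 / 9) * L + (-1600 / 9) * h) * J ^ 2
    + ((-44) + 0 * L + 0 * h) * J ^ 3

lemma US1_3_nonneg {L h J : ℝ} (hL0 : (6931471 / 10000000) ≤ L) (hL1 : L ≤ (433217 / 625000)) (hh0 : (67 / 400) ≤ h) (hh1 : h ≤ (117 / 500)) (hJ0 : 0 ≤ J) (hJ1 : J ≤ (39 / 50)) :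
    0 ≤ US1_3 L h J := by
  obtain ⟨xl, hxl⟩ : ∃ x : ℝ, x = L - (6931471 / 10000000) := ⟨_, rfl⟩
  obtain ⟨xu, hxu⟩ : ∃ x : ℝ, x = (433217 / 625000) - L := ⟨_, rfl⟩
  obtain ⟨yl, hyl⟩ : ∃ x : ℝ, x = h - (67 / 400) := ⟨_, rfl⟩
  obtain ⟨yu, hyu⟩ : ∃ x : ℝ, x = (117 / 500) - h := ⟨_, rfl⟩
  obtain ⟨A, hA⟩ : ∃ x : ℝ, x = J - 0 := ⟨_, rfl⟩
  obtain ⟨B, hB⟩ : ∃ x : ℝ, x = (39 / 50) - J := ⟨_, rfl⟩
  have hxl0 : 0 ≤ xl := by rw [hxl]; linarith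
  have hxu0 : 0 ≤ xu := by rw [hxu]; linarith
  have hyl0 : 0 ≤ yl := by rw [hyl]; linarith
  have hyu0 : 0 ≤ yu := by rw [hyu]; linarith
  have hA0 : 0 ≤ A := by rw [hA]; linarith
  have hB0 : 0 ≤ B := by rw [hB]; linarith
  have key : US1_3 L h J =
      ((19150000 / 533871) + 0 * xl + (25000000 / 533871) * yu) * A ^ 0 * B ^ 3
      + ((58300432 / 889785) + (1000000 / 13689) * xu + (18500000 / 177957) * yu) * A ^ 1 * B ^ 2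
      + ((2988572722 / 22244625) + (1120000 / 13689) * xl + (5840000 / 19773) * yu) * A ^ 2 * B ^ 1
      + ((8101289557 / 133467750) + (2120000 / 13689) * xl + (127180000 / 533871) * yu) * A ^ 3 * B ^ 0 := by
    simp only [hxl, hxu, hyl, hyu, hA, hB]
    unfold US1_3
    ring
  rw [key]
  positivity

noncomputable def US1_4 (L h J : ℝ) : ℝ :=
  ((203 / 18) + 0 * L + (-100 / 9) * h) * J ^ 0
    + (0 + (-200 / 9) * L + (100 / 9) * h) * J ^ 1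
    + ((22 / 9) + (1400 / 27) * L + (-1400 / 27) * h) * J ^ 2
    + ((-374 / 27) + 0 * L + 0 * h) * J ^ 3

lemma US1_4_nonneg {L h J : ℝ} (hL0 : (6931471 / 10000000) ≤ L) (hL1 : L ≤ (433217 / 625000)) (hh0 : (67 / 400) ≤ h) (hh1 : h ≤ (117 / 500)) (hJ0 : 0 ≤ J) (hJ1 : J ≤ (39 / 50)) :
    0 ≤ US1_4 L h J := by
  obtain ⟨xl, hxl⟩ : ∃ x : ℝ, x = L - (6931471 / 10000000) := ⟨_, rfl⟩
  obtain ⟨xu, hxu⟩ : ∃ x : ℝ, x = (433217 / 625000) - L := ⟨_, rfl⟩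
  obtain ⟨yl, hyl⟩ : ∃ x : ℝ, x = h - (67 / 400) := ⟨_, rfl⟩
  obtain ⟨yu, hyu⟩ : ∃ x : ℝ, x = (117 / 500) - h := ⟨_, rfl⟩
  obtain ⟨A, hA⟩ : ∃ x : ℝ, x = J - 0 := ⟨_, rfl⟩
  obtain ⟨B, hB⟩ : ∃ x : ℝ, x = (39 / 50) - J := ⟨_, rfl⟩
  have hxl0 : 0 ≤ xl := by rw [hxl]; linarith
  have hxu0 : 0 ≤ xu := by rw [hxu]; linarith
  have hyl0 : 0 ≤ yl := by rw [hyl]; linarith
  have hyu0 : 0 ≤ yu := by rw [hyu]; linarith
  have hA0 : 0 ≤ A := by rw [hA]; linarith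
  have hB0 : 0 ≤ B := by rw [hB]; linarith
  have key : US1_4 L h J =
      ((9762500 / 533871) + 0 * xl + (12500000 / 533871) * yu) * A ^ 0 * B ^ 3
      + ((30087716 / 889785) + (500000 / 13689) * xu + (9250000 / 177957) * yu) * A ^ 1 * B ^ 2
      + ((1032749722 / 22244625) + (10000 / 1521) * xu + (17830000 / 177957) * yu) * A ^ 2 * B ^ 1
      + ((9100760129 / 533871000) + (410000 / 13689) * xl + (38240000 / 533871) * yu) * A ^ 3 * B ^ 0 := by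
    simp only [hxl, hxu, hyl, hyu, hA, hB]
    unfold US1_4
    ring
  rw [key]
  positivity

lemma US1_nonneg {L h m J : ℝ} (hL0 : (6931471 / 10000000) ≤ L) (hL1 : L ≤ (433217 / 625000)) (hh0 : (67 / 400) ≤ h) (hh1 : h ≤ (117 / 500)) (hm0 : 0 ≤ m) (hm1 : m ≤ (3 / 10)) (hJ0 : 0 ≤ J) (hJ1 : J ≤ (39 / 50)) :
    0 ≤ US1 L h m J := by
  have c1 := US1_1_nonneg hL0 hL1 hh0 hh1 hJ0 hJ1
  have c2 := US1_2_nonneg hL0 hL1 hh0 hh1 hJ0 hJ1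
  have c3 := US1_3_nonneg hL0 hL1 hh0 hh1 hJ0 hJ1
  have c4 := US1_4_nonneg hL0 hL1 hh0 hh1 hJ0 hJ1
  have key : US1 L h m J =
      (m - 0) ^ 1 * ((3 / 10) - m) ^ 3 * US1_1 L h J
      + (m - 0) ^ 2 * ((3 / 10) - m) ^ 2 * US1_2 L h J
      + (m - 0) ^ 3 * ((3 / 10) - m) ^ 1 * US1_3 L h J
      + (m - 0) ^ 4 * ((3 / 10) - m) ^ 0 * US1_4 L h J := by
    unfold US1 US1_1 US1_2 US1_3 US1_4
    ring
  have hA : 0 ≤ m - 0 := by linarith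
  have hB : 0 ≤ (3 / 10) - m := by linarith
  rw [key]
  positivity

end Vale.Agent.Lib.P322.Pot
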