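import Vale.Agent.Lib.P322.Pot.Ult.Mono

/-!
P322, potential method, range `7/8 ≤ ρ ≤ 23/25`.  Two lower bounds for `Lam t - Lam (ρ t)` in terms of `τ = sqrt (1 - t^2)`, and their averages.
-/

namespace Vale.Agent.Lib.P322.Pot

open Real Set Vale.Agent.Lib.P322

/-- `log 3 = 2 log 2 + log (1 - 1/4)`, `log 5 = 2 log 2 + log (1 + 1/4)`; compare `log_fifteen_eighths` (Pot/Top/Consts.lean), which uses
`Real.abs_log_sub_add_sum_range_le`.  Numerically `log 3 = 1.0986123`, `log 5 = 1.6094379`. -/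
lemma log_three_five :
    109860 / 100000 ≤ Real.log 3 ∧ Real.log 3 ≤ 109862 / 100000 ∧
      160943 / 100000 ≤ Real.log 5 ∧ Real.log 5 ≤ 160945 / 100000 := by
  have h3 := Real.abs_log_sub_add_sum_range_le (x := 1 / 4) (by norm_num [abs_of_pos]) 10
  have h5 := Real.abs_log_sub_add_sum_range_le (x := -(1 / 4)) (by norm_num [abs_of_pos]) 10
  have e3 : Real.log 3 = 2 * Real.log 2 + Real.log (1 - 1 / 4) := by
    have : (3 : ℝ) = 2 * 2 * (1 - 1 / 4) := by norm_num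
    rw [this, Real.log_mul (by norm_num) (by norm_num), Real.log_mul (by norm_num) (by norm_num)]
    norm_num
    ring
  have e5 : Real.log 5 = 2 * Real.log 2 + Real.log (1 - -(1 / 4)) := by
    have : (5 : ℝ) = 2 * 2 * (1 - -(1 / 4)) := by norm_num
    rw [this, Real.log_mul (by norm_num) (by norm_num), Real.log_mul (by norm_num) (by norm_num)]
    norm_num
    ring
  have habs : |(1 / 4 : ℝ)| = 1 / 4 := abs_of_pos (by norm_num)
  have habs' : |(-(1 / 4) : ℝ)| = 1 / 4 := by rw [abs_neg, habs]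
  rw [habs] at h3
  rw [habs'] at h5
  simp only [Finset.sum_range_succ, Finset.sum_range_zero] at h3 h5
  obtain ⟨a3, b3⟩ := abs_le.1 h3
  obtain ⟨a5, b5⟩ := abs_le.1 h5
  have hl := Real.log_two_lt_d9
  have hg := Real.log_two_gt_d9
  generalize Real.log (1 - 1 / 4) = L3 at *
  generalize Real.log (1 - -(1 / 4)) = L5 at *
  norm_num at a3 b3 a5 b5
  rw [e3, e5]
  refine ⟨?_, ?_, ?_, ?_⟩ <;> linarith

lemma Lam_ult_eq :
    Lam (23 / 25) = 97 / 25 * Real.log 2 + 24 / 25 * Real.log 3 - 2 * Real.log 5 := by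
  unfold Lam phi
  have e1 : (1 : ℝ) + 23 / 25 = 2 ^ 4 * 3 / 5 ^ 2 := by norm_num
  have e2 : (1 : ℝ) - 23 / 25 = 2 / 5 ^ 2 := by norm_num
  have l1 : Real.log (2 ^ 4 * 3 / 5 ^ 2) = 4 * Real.log 2 + Real.log 3 - 2 * Real.log 5 := by
    rw [Real.log_div (by norm_num) (by norm_num), Real.log_mul (by norm_num) (by norm_num),
      Real.log_pow, Real.log_pow]
    norm_num
  have l2 : Real.log (2 / 5 ^ 2) = Real.log 2 - 2 * Real.log 5 := by
    rw [Real.log_div (by norm_num) (by norm_num), Real.log_pow]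
    norm_num
  rw [e1, e2, l1, l2]
  ring

/-- `Lam (23/25) = (97/25) log 2 + (24/25) log 3 - 2 log 5` (from `1 + 23/25 = 48/25 = 2^4 3/5^2`, `1 - 23/25 = 2/25`); numerically
`log 2 - Lam (23/25) = 0.1679441`.  Use `log_three_five`, `Real.log_two_gt_d9`, `Real.log_two_lt_d9`. -/
lemma h_ult : 1678 / 10000 ≤ Real.log 2 - Lam (23 / 25) ∧ Real.log 2 - Lam (23 / 25) ≤ 1681 / 10000 := by
  obtain ⟨a3, b3, a5, b5⟩ := log_three_five
  have hl := Real.log_two_lt_d9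
  have hg := Real.log_two_gt_d9
  rw [Lam_ult_eq]
  constructor <;> linarith

/-- `Lam1 (4/5) = log 3`, `Lam1 (92/125) = (1/2) log (217/33)`, `log (217/33) = 3 log 2 + log (1 - 47/264)`.  Numerically the left side is `0.232253`
(`log 3 = 1.098612`, `(1/2) log (217/33) = 0.941695`). -/
lemma Lam1_ult : 2320 / 10000 ≤ Lam1 (4 / 5) - 23 / 25 * Lam1 (23 / 25 * (4 / 5)) := by
  obtain ⟨a3, b3, a5, b5⟩ := log_three_five
  have hl := Real.log_two_lt_d9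
  have hg := Real.log_two_gt_d9
  have h := Real.abs_log_sub_add_sum_range_le (x := 47 / 264) (by norm_num [abs_of_pos]) 6
  have habs : |(47 / 264 : ℝ)| = 47 / 264 := abs_of_pos (by norm_num)
  rw [habs] at h
  simp only [Finset.sum_range_succ, Finset.sum_range_zero] at h
  obtain ⟨a, b⟩ := abs_le.1 h
  have e1 : Lam1 (4 / 5) = Real.log 3 := by
    unfold Lam1
    rw [← Real.log_div (by norm_num) (by norm_num)]
    have : ((1 : ℝ) + 4 / 5) / (1 - 4 / 5) = 3 ^ 2 := by norm_num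
    rw [this, Real.log_pow]
    norm_num
  have e2 : Lam1 (23 / 25 * (4 / 5)) = (3 * Real.log 2 + Real.log (1 - 47 / 264)) / 2 := by
    unfold Lam1
    rw [← Real.log_div (by norm_num) (by norm_num)]
    have : ((1 : ℝ) + 23 / 25 * (4 / 5)) / (1 - 23 / 25 * (4 / 5)) = 2 ^ 3 * (1 - 47 / 264) := by
      norm_num
    rw [this, Real.log_mul (by norm_num) (by norm_num), Real.log_pow]
    norm_num
  rw [e1, e2]
  generalize Real.log (1 - 47 / 264) = L at *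
  norm_num at a b
  linarith

/-- concavity step for `X0b_pos` -/
lemma X0b_g_mono {A B z p s : ℝ} (hB : B ≤ 0) (hz : 0 ≤ z) (hp0 : 0 ≤ p) (hps : p ≤ s)
    (hs1 : s ≤ 1) (hp1 : p < 1)
    (g1 : 0 ≤ (1 - z) * (1 - 2 * A) + 2 * B * (1 + 2 * z))
    (gp : 0 ≤ -(A * (1 - z)) + (1 - z) * (1 - A) * p + 2 * B * p ^ 2 + 2 * B * z * p ^ 3
      + 2 * B * z * p ^ 4) :
    0 ≤ -(A * (1 - z)) + (1 - z) * (1 - A) * s + 2 * B * s ^ 2 + 2 * B * z * s ^ 3
      + 2 * B * z * s ^ 4 := by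
  have id : (1 - p) * (-(A * (1 - z)) + (1 - z) * (1 - A) * s + 2 * B * s ^ 2 + 2 * B * z * s ^ 3
      + 2 * B * z * s ^ 4)
      = (1 - s) * (-(A * (1 - z)) + (1 - z) * (1 - A) * p + 2 * B * p ^ 2 + 2 * B * z * p ^ 3
      + 2 * B * z * p ^ 4) + (s - p) * ((1 - z) * (1 - 2 * A) + 2 * B * (1 + 2 * z))
      + 2 * (-B) * ((1 - s) * (s - p) * (1 - p)
        * (1 + z * (p + s + 1) + z * (p ^ 2 + s ^ 2 + 1 + p * s + p + s))) := by ring
  have hs0 : 0 ≤ s := le_trans hp0 hps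
  have a1 : 0 ≤ 1 - s := by linarith
  have a2 : 0 ≤ s - p := by linarith
  have a3 : 0 < 1 - p := by linarith
  have a4 : 0 ≤ -B := by linarith
  have pos : 0 ≤ (1 - p) * (-(A * (1 - z)) + (1 - z) * (1 - A) * s + 2 * B * s ^ 2
      + 2 * B * z * s ^ 3 + 2 * B * z * s ^ 4) := by
    rw [id]
    have t1 := mul_nonneg a1 gp
    have t2 := mul_nonneg a2 g1
    have t3 : 0 ≤ 2 * (-B) * ((1 - s) * (s - p) * (1 - p)
        * (1 + z * (p + s + 1) + z * (p ^ 2 + s ^ 2 + 1 + p * s + p + s))) := by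
      have := a3.le
      positivity
    linarith
  exact nonneg_of_mul_nonneg_right pos a3

/-- The inequality (X0) of Pot/Hi/X0.lean in the range where `h = log 2 - Lam ρ ≥ 1 - ρ^2`.  Copy the proof of `X0_pos`: `z = ρ^2`, `A = 2 h - (1 - z) ≥ 0`,
`B = (1 - z) - h`, but now `B ≤ 0`, and use `nonneg_of_single_crossing` with `c = 0` (`D 0 = 0`, `D1 0 = 0`, `D 1 = 0`) in place of
`nonneg_of_convex_concave`.  As there, with `w = sqrt (1 - s^2) ∈ (0,1]`, `D2 s = (1 - w) g w/(w^3 (1 - z (1 - w^2)))`,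
`g w = - A (1-z) + (1-z)(1-A) w + 2 B w^2 + 2 B z w^3 + 2 B z w^4`.  Hypothesis `hC` says `g 1 ≥ 0`.  Since `B ≤ 0`, `g` is concave on `[0,1]`: for `0 ≤ p ≤ s ≤ 1`
`(1-p) g s - (1-s) g p - (s-p) g 1 = - 2 B (1-s)(s-p)(1-p) (1 + z (p+s+1) + z (p^2+s^2+1+p s+p+s)) ≥ 0` (an identity, by `ring`).
So `g p ≥ 0` implies `g s ≥ 0` for `p ≤ s ≤ 1`; this gives `hQ` (for `x ≤ y` one has `w y ≤ w x`; when `w = 1`, `D2 = 0`). -/
theorem X0b_pos {ρ t : ℝ} (hρ0 : 0 ≤ ρ) (hρ1 : ρ < 1)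
    (hB : 1 - ρ ^ 2 ≤ Real.log 2 - Lam ρ)
    (hC : 0 ≤ (1 - ρ ^ 2) * (1 - 2 * (2 * (Real.log 2 - Lam ρ) - (1 - ρ ^ 2)))
      + 2 * ((1 - ρ ^ 2) - (Real.log 2 - Lam ρ)) * (1 + 2 * ρ ^ 2))
    (h0 : 0 ≤ t) (h1 : t ≤ 1) :
    (Real.log 2 - Lam ρ) * (1 - Real.sqrt (1 - t ^ 2)) ^ 2
      + (1 - ρ ^ 2) * Real.sqrt (1 - t ^ 2) * (1 - Real.sqrt (1 - t ^ 2))
      ≤ Lam t - Lam (ρ * t) := by
  obtain ⟨A, hAdef⟩ : ∃ A : ℝ, A = 2 * (Real.log 2 - Lam ρ) - (1 - ρ ^ 2) := ⟨_, rfl⟩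
  obtain ⟨B, hBdef⟩ : ∃ B : ℝ, B = (1 - ρ ^ 2) - (Real.log 2 - Lam ρ) := ⟨_, rfl⟩
  have hB0 : B ≤ 0 := by rw [hBdef]; linarith
  have hAB : A + 2 * B = 1 - ρ ^ 2 := by rw [hAdef, hBdef]; ring
  have hABh : A + B = Real.log 2 - Lam ρ := by rw [hAdef, hBdef]; ring
  have hz0 : 0 ≤ ρ ^ 2 := sq_nonneg ρ
  have hz1 : 0 < 1 - ρ ^ 2 := by nlinarith
  rw [← hAdef, ← hBdef] at hC
  have hcont : Continuous (fun s : ℝ => Lam s - Lam (ρ * s) - A * (1 - Real.sqrt (1 - s ^ 2))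
      - B * s ^ 2) := by
    have c1 : Continuous (fun s : ℝ => Real.sqrt (1 - s ^ 2)) := by fun_prop
    have c2 : Continuous fun s : ℝ => Lam (ρ * s) := continuous_Lam.comp (by fun_prop)
    exact ((continuous_Lam.sub c2).sub ((continuous_const.sub c1).const_mul A)).sub (by fun_prop)
  have e : ∀ w : ℝ, 0 < w → 1 / w ^ 2 - 1 / (1 - ρ ^ 2 * (1 - w ^ 2)) * ρ * ρ
        - A * (1 / (w ^ 2 * w)) - B * 2
      = (1 - w) * (-(A * (1 - ρ ^ 2)) + (1 - ρ ^ 2) * (1 - A) * w + 2 * B * w ^ 2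
          + 2 * B * ρ ^ 2 * w ^ 3 + 2 * B * ρ ^ 2 * w ^ 4) / (w ^ 3 * (1 - ρ ^ 2 * (1 - w ^ 2))) := by
    intro w hw
    have hden : 0 < 1 - ρ ^ 2 * (1 - w ^ 2) := by nlinarith [mul_nonneg hz0 (sq_nonneg w)]
    have hAe : A = 1 - ρ ^ 2 - 2 * B := by linarith
    rw [hAe]
    field_simp
    ring
  -- the second derivative in terms of `w`
  have hD2 : ∀ s ∈ Ico (0:ℝ) 1, 0 < Real.sqrt (1 - s ^ 2) ∧ Real.sqrt (1 - s ^ 2) ≤ 1 ∧
      1 / (1 - s ^ 2) - 1 / (1 - (ρ * s) ^ 2) * ρ * ρ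
        - A * (1 / ((1 - s ^ 2) * Real.sqrt (1 - s ^ 2))) - B * 2
      = (1 - Real.sqrt (1 - s ^ 2)) * (-(A * (1 - ρ ^ 2))
          + (1 - ρ ^ 2) * (1 - A) * Real.sqrt (1 - s ^ 2) + 2 * B * Real.sqrt (1 - s ^ 2) ^ 2
          + 2 * B * ρ ^ 2 * Real.sqrt (1 - s ^ 2) ^ 3 + 2 * B * ρ ^ 2 * Real.sqrt (1 - s ^ 2) ^ 4)
        / (Real.sqrt (1 - s ^ 2) ^ 3 * (1 - ρ ^ 2 * (1 - Real.sqrt (1 - s ^ 2) ^ 2))) := by
    intro s hs
    have hs2 : 0 < 1 - s ^ 2 := by nlinarith [hs.1, hs.2]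
    have hw : 0 < Real.sqrt (1 - s ^ 2) := Real.sqrt_pos.2 hs2
    have hsq : Real.sqrt (1 - s ^ 2) ^ 2 = 1 - s ^ 2 := Real.sq_sqrt hs2.le
    have hw1 : Real.sqrt (1 - s ^ 2) ≤ 1 := by
      rw [Real.sqrt_le_left (by norm_num : (0:ℝ) ≤ 1)]
      nlinarith [sq_nonneg s]
    refine ⟨hw, hw1, ?_⟩
    have hrs : (ρ * s) ^ 2 = ρ ^ 2 * (1 - Real.sqrt (1 - s ^ 2) ^ 2) := by rw [hsq]; ring
    rw [hrs]
    set w := Real.sqrt (1 - s ^ 2) with hwdef
    rw [← hsq, e w hw]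
  have key : ∀ s ∈ Ico (0:ℝ) 1, 0 ≤ Lam s - Lam (ρ * s) - A * (1 - Real.sqrt (1 - s ^ 2))
      - B * s ^ 2 := by
    apply nonneg_of_single_crossing (c := 0)
      (D1 := fun s => Lam1 s - Lam1 (ρ * s) * ρ - A * (s / Real.sqrt (1 - s ^ 2)) - B * (2 * s))
      (D2 := fun s => 1 / (1 - s ^ 2) - 1 / (1 - (ρ * s) ^ 2) * ρ * ρ
        - A * (1 / ((1 - s ^ 2) * Real.sqrt (1 - s ^ 2))) - B * 2)
    · norm_num
    · exact hcont.continuousOn
    · intro s hs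
      have hs2 : 0 < 1 - s ^ 2 := by nlinarith [hs.1, hs.2]
      have hls : ρ * s < 1 := by nlinarith [hs.1, hs.2]
      have hls0 : -1 < ρ * s := by nlinarith [hs.1, hs.2, mul_nonneg hρ0 hs.1]
      have a := hasDerivAt_Lam (t := s) (by linarith [hs.1]) hs.2
      have b : HasDerivAt (fun s => Lam (ρ * s)) (Lam1 (ρ * s) * ρ) s := by
        have := (hasDerivAt_Lam hls0 hls).comp s (((hasDerivAt_id s).const_mul ρ))
        simpa [Function.comp_def] using this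
      have c : HasDerivAt (fun s : ℝ => 1 - Real.sqrt (1 - s ^ 2))
          (s / Real.sqrt (1 - s ^ 2)) s :=
        ((hasDerivAt_sqrt_one_sub_sq hs2).const_sub 1).congr_deriv (by simp)
      have d : HasDerivAt (fun s : ℝ => s ^ 2) (2 * s) s := by
        exact ((hasDerivAt_id s).pow 2).congr_deriv (by simp)
      exact ((a.sub b).sub (c.const_mul A)).sub (d.const_mul B)
    · intro s hs
      have hs2 : 0 < 1 - s ^ 2 := by nlinarith [hs.1, hs.2]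
      have hls : ρ * s < 1 := by nlinarith [hs.1, hs.2]
      have hls0 : -1 < ρ * s := by nlinarith [hs.1, hs.2, mul_nonneg hρ0 hs.1]
      have a := hasDerivAt_Lam1 (t := s) (by linarith [hs.1]) hs.2
      have b : HasDerivAt (fun s => Lam1 (ρ * s) * ρ) ((1 / (1 - (ρ * s) ^ 2)) * ρ * ρ) s := by
        have := ((hasDerivAt_Lam1 hls0 hls).comp s (((hasDerivAt_id s).const_mul ρ))).mul_const ρ
        simpa [Function.comp_def] using this
      have c := hasDerivAt_div_sqrt_one_sub_sq hs2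
      have d : HasDerivAt (fun s : ℝ => 2 * s) 2 s := by
        exact ((hasDerivAt_id s).const_mul 2).congr_deriv (by simp)
      exact ((a.sub b).sub (c.const_mul A)).sub (d.const_mul B)
    · intro x hx y hy hxy hy2
      obtain ⟨hwx0, hwx1, ex⟩ := hD2 x hx
      obtain ⟨hwy0, hwy1, ey⟩ := hD2 y hy
      rw [ey] at hy2
      rw [ex]
      have h2 : 1 - y ^ 2 ≤ 1 - x ^ 2 := by nlinarith [hx.1, hy.1]
      have hw : Real.sqrt (1 - y ^ 2) ≤ Real.sqrt (1 - x ^ 2) := Real.sqrt_le_sqrt h2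
      generalize Real.sqrt (1 - y ^ 2) = p at hwy0 hwy1 hy2 hw
      generalize Real.sqrt (1 - x ^ 2) = s at hwx0 hwx1 hw ⊢
      have hdenp : 0 < p ^ 3 * (1 - ρ ^ 2 * (1 - p ^ 2)) := by
        have : 0 < 1 - ρ ^ 2 * (1 - p ^ 2) := by nlinarith [mul_nonneg hz0 (sq_nonneg p)]
        positivity
      have hdens : 0 < s ^ 3 * (1 - ρ ^ 2 * (1 - s ^ 2)) := by
        have : 0 < 1 - ρ ^ 2 * (1 - s ^ 2) := by nlinarith [mul_nonneg hz0 (sq_nonneg s)]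
        positivity
      rcases hwy1.eq_or_lt with hp1 | hp1
      · have hs1 : s = 1 := le_antisymm hwx1 (hp1 ▸ hw)
        rw [hs1]
        simp
      · have hnum : 0 ≤ (1 - p) * (-(A * (1 - ρ ^ 2)) + (1 - ρ ^ 2) * (1 - A) * p + 2 * B * p ^ 2
            + 2 * B * ρ ^ 2 * p ^ 3 + 2 * B * ρ ^ 2 * p ^ 4) := by
          have := mul_nonneg hy2 hdenp.le
          rwa [div_mul_cancel₀ _ hdenp.ne'] at this
        have gp := nonneg_of_mul_nonneg_right hnum (by linarith : 0 < 1 - p)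
        have gs := X0b_g_mono hB0 hz0 hwy0.le hw hwx1 hp1 hC gp
        exact div_nonneg (mul_nonneg (by linarith) gs) hdens.le
    · simp
    · simp
    · rw [Lam_one]
      simp
      linarith
  have key2 := nonneg_Icc_of_Ico hcont key t ⟨h0, h1⟩
  have ht2 : 0 ≤ 1 - t ^ 2 := by nlinarith
  have hsq : Real.sqrt (1 - t ^ 2) ^ 2 = 1 - t ^ 2 := Real.sq_sqrt ht2
  have ht : t ^ 2 = 1 - Real.sqrt (1 - t ^ 2) ^ 2 := by rw [hsq]; ring
  have hid : (Real.log 2 - Lam ρ) * (1 - Real.sqrt (1 - t ^ 2)) ^ 2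
      + (1 - ρ ^ 2) * Real.sqrt (1 - t ^ 2) * (1 - Real.sqrt (1 - t ^ 2))
      = A * (1 - Real.sqrt (1 - t ^ 2)) + B * (1 - Real.sqrt (1 - t ^ 2) ^ 2) := by
    rw [← hABh, ← hAB]
    ring
  rw [hid, ← ht]
  linarith

/-- `X0b_pos` at `ρ = 23/25`; the hypotheses follow from `h_ult` (`1 - ρ^2 = 96/625 = 0.1536`; `hC` is affine and decreasing in `h` and holds for `h ≤ 0.171`). -/
lemma X0_ult {t : ℝ} (h0 : 0 ≤ t) (h1 : t ≤ 1) :
    (Real.log 2 - Lam (23 / 25)) * (1 - Real.sqrt (1 - t ^ 2)) ^ 2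
      + 96 / 625 * Real.sqrt (1 - t ^ 2) * (1 - Real.sqrt (1 - t ^ 2))
      ≤ Lam t - Lam (23 / 25 * t) := by
  obtain ⟨ha, hb⟩ := h_ult
  have := X0b_pos (ρ := 23 / 25) (t := t) (by norm_num) (by norm_num) (by norm_num; linarith)
    (by norm_num; linarith) h0 h1
  have e : (1 : ℝ) - (23 / 25) ^ 2 = 96 / 625 := by norm_num
  rw [e] at this
  exact this

/-- Put `ρ = 23/25`, `z = ρ^2`, `h = log 2 - Lam ρ`, `p = 349/2000`, `τ = sqrt (1 - t^2)`, `D t = Lam t - Lam (ρ t) - h + p τ`.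
(1) If `t ≤ 4/5` then `τ ≥ 3/5` and by `X0_ult` `D t ≥ h (1-τ)^2 + (1-z) τ (1-τ) - h + p τ = τ (p + (1-z)(1-τ) - h (2-τ))`, and
`p + (1-z)(1-τ) - h (2-τ) ≥ 0` because it is increasing in `τ` (`h ≥ 1 - z`) and at `τ = 3/5` equals `0.23594 - 1.4 h ≥ 0.0006` (`h_ult`).
In particular `D (4/5) ≥ (3/5) 0.0006 = 0.00036`.
(2) On `[4/5, 1]` use `nonneg_of_single_crossing` with `c = 4/5`: derivatives as in `X0_pos` (with `A = p`, `B = 0`):
`D1 s = Lam1 s - ρ Lam1 (ρ s) - p s/sqrt (1-s^2)`, `D2 s = 1/(1-s^2) - z/(1 - z s^2) - p/((1-s^2) sqrt (1-s^2)) = q w/(w^3 (1 - z + z w^2))`, `w = sqrt (1-s^2) ∈ (0, 3/5]`,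
`q w = (1-z) w - p (1 - z + z w^2)`, a concave quadratic with `q (3/5) > 0`; so `q w ≥ 0` and `w ≤ w' ≤ 3/5` imply `q w' ≥ 0`, which is `hQ`.
`D 1 = 0`.  `D1 (4/5) = Lam1 (4/5) - ρ Lam1 (ρ 4/5) - (4/3) p ≥ 0.2320 - 0.23267 ≥ -0.0007` (`Lam1_ult`), so `D (4/5) + D1 (4/5)/5 ≥ 0.00036 - 0.00014 ≥ 0`. -/
lemma Tline_pos {t : ℝ} (h0 : 0 ≤ t) (h1 : t ≤ 1) :
    Real.log 2 - Lam (23 / 25) - 349 / 2000 * Real.sqrt (1 - t ^ 2) ≤ Lam t - Lam (23 / 25 * t) := by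
  obtain ⟨hh1, hh2⟩ := h_ult
  obtain ⟨h, hdef⟩ : ∃ h : ℝ, h = Real.log 2 - Lam (23 / 25) := ⟨_, rfl⟩
  rw [← hdef] at hh1 hh2 ⊢
  -- part (1)
  have part1 : ∀ s : ℝ, 0 ≤ s → s ≤ 4 / 5 →
      h - 349 / 2000 * Real.sqrt (1 - s ^ 2) + 3 / 5 * (6 / 10000) ≤ Lam s - Lam (23 / 25 * s) := by
    intro s hs0 hs1
    have hX := X0_ult (t := s) hs0 (by linarith)
    rw [← hdef] at hX
    have hw1 : Real.sqrt (1 - s ^ 2) ≤ 1 := by
      rw [Real.sqrt_le_left (by norm_num : (0:ℝ) ≤ 1)]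
      nlinarith [sq_nonneg s]
    have hw2 : 3 / 5 ≤ Real.sqrt (1 - s ^ 2) := by
      apply Real.le_sqrt_of_sq_le
      nlinarith
    generalize Real.sqrt (1 - s ^ 2) = w at hX hw1 hw2 ⊢
    have hk : 6 / 10000 ≤ 349 / 2000 + 96 / 625 * (1 - w) - h * (2 - w) := by
      nlinarith
    nlinarith
  rcases le_total t (4 / 5) with ht | ht
  · have := part1 t h0 ht
    linarith
  rcases eq_or_lt_of_le h1 with ht1 | ht1
  · rw [ht1, Lam_one, hdef]
    simp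
  have hs45 : Real.sqrt (1 - (4 / 5 : ℝ) ^ 2) = 3 / 5 := by
    rw [show (1 : ℝ) - (4 / 5) ^ 2 = (3 / 5) ^ 2 by norm_num, Real.sqrt_sq (by norm_num)]
  have hcont : Continuous (fun s : ℝ => Lam s - Lam (23 / 25 * s)
      - 349 / 2000 * (1 - Real.sqrt (1 - s ^ 2)) - (h - 349 / 2000)) := by
    have c1 : Continuous (fun s : ℝ => Real.sqrt (1 - s ^ 2)) := by fun_prop
    have c2 : Continuous fun s : ℝ => Lam (23 / 25 * s) := continuous_Lam.comp (by fun_prop)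
    exact ((continuous_Lam.sub c2).sub ((continuous_const.sub c1).const_mul _)).sub
      continuous_const
  have e : ∀ w : ℝ, 0 < w → 1 / w ^ 2 - 1 / (1 - (23 / 25) ^ 2 * (1 - w ^ 2)) * (23 / 25) * (23 / 25)
        - 349 / 2000 * (1 / (w ^ 2 * w))
      = (96 / 625 * w - 349 / 2000 * (96 / 625 + 529 / 625 * w ^ 2))
          / (w ^ 3 * (1 - (23 / 25) ^ 2 * (1 - w ^ 2))) := by
    intro w hw
    have hd : (1 : ℝ) - (23 / 25) ^ 2 * (1 - w ^ 2) = (96 + 529 * w ^ 2) / 625 := by ring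
    have hden : (0 : ℝ) < 96 + 529 * w ^ 2 := by positivity
    rw [hd]
    field_simp
    ring
  have key : ∀ s ∈ Ico (4 / 5 : ℝ) 1, 0 ≤ Lam s - Lam (23 / 25 * s)
      - 349 / 2000 * (1 - Real.sqrt (1 - s ^ 2)) - (h - 349 / 2000) := by
    apply nonneg_of_single_crossing
      (D1 := fun s => Lam1 s - Lam1 (23 / 25 * s) * (23 / 25)
        - 349 / 2000 * (s / Real.sqrt (1 - s ^ 2)))
      (D2 := fun s => 1 / (1 - s ^ 2) - 1 / (1 - (23 / 25 * s) ^ 2) * (23 / 25) * (23 / 25)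
        - 349 / 2000 * (1 / ((1 - s ^ 2) * Real.sqrt (1 - s ^ 2))))
    · norm_num
    · exact hcont.continuousOn
    · intro s hs
      have hs2 : 0 < 1 - s ^ 2 := by nlinarith [hs.1, hs.2]
      have hls : 23 / 25 * s < 1 := by nlinarith [hs.1, hs.2]
      have hls0 : -1 < 23 / 25 * s := by nlinarith [hs.1, hs.2]
      have a := hasDerivAt_Lam (t := s) (by linarith [hs.1]) hs.2
      have b : HasDerivAt (fun s => Lam (23 / 25 * s)) (Lam1 (23 / 25 * s) * (23 / 25)) s := by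
        have := (hasDerivAt_Lam hls0 hls).comp s (((hasDerivAt_id s).const_mul (23 / 25 : ℝ)))
        simpa [Function.comp_def] using this
      have c : HasDerivAt (fun s : ℝ => 1 - Real.sqrt (1 - s ^ 2))
          (s / Real.sqrt (1 - s ^ 2)) s :=
        ((hasDerivAt_sqrt_one_sub_sq hs2).const_sub 1).congr_deriv (by simp)
      exact ((a.sub b).sub (c.const_mul _)).sub_const _
    · intro s hs
      have hs2 : 0 < 1 - s ^ 2 := by nlinarith [hs.1, hs.2]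
      have hls : 23 / 25 * s < 1 := by nlinarith [hs.1, hs.2]
      have hls0 : -1 < 23 / 25 * s := by nlinarith [hs.1, hs.2]
      have a := hasDerivAt_Lam1 (t := s) (by linarith [hs.1]) hs.2
      have b : HasDerivAt (fun s => Lam1 (23 / 25 * s) * (23 / 25))
          ((1 / (1 - (23 / 25 * s) ^ 2)) * (23 / 25) * (23 / 25)) s := by
        have := ((hasDerivAt_Lam1 hls0 hls).comp s
          (((hasDerivAt_id s).const_mul (23 / 25 : ℝ)))).mul_const (23 / 25 : ℝ)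
        simpa [Function.comp_def] using this
      have c := hasDerivAt_div_sqrt_one_sub_sq hs2
      exact (a.sub b).sub (c.const_mul _)
    · intro x hx y hy hxy hq
      have hx2 : 0 < 1 - x ^ 2 := by nlinarith [hx.1, hx.2]
      have hy2 : 0 < 1 - y ^ 2 := by nlinarith [hy.1, hy.2]
      have h2 : 1 - y ^ 2 ≤ 1 - x ^ 2 := by nlinarith [hx.1, hy.1]
      have hw : Real.sqrt (1 - y ^ 2) ≤ Real.sqrt (1 - x ^ 2) := Real.sqrt_le_sqrt h2
      have hwy : 0 < Real.sqrt (1 - y ^ 2) := Real.sqrt_pos.2 hy2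
      have hwx : 0 < Real.sqrt (1 - x ^ 2) := Real.sqrt_pos.2 hx2
      have hsqx : Real.sqrt (1 - x ^ 2) ^ 2 = 1 - x ^ 2 := Real.sq_sqrt hx2.le
      have hsqy : Real.sqrt (1 - y ^ 2) ^ 2 = 1 - y ^ 2 := Real.sq_sqrt hy2.le
      have hwx1 : Real.sqrt (1 - x ^ 2) ≤ 3 / 5 := by
        rw [Real.sqrt_le_left (by norm_num : (0:ℝ) ≤ 3 / 5)]
        nlinarith [hx.1]
      have hrx : (23 / 25 * x) ^ 2 = (23 / 25) ^ 2 * (1 - Real.sqrt (1 - x ^ 2) ^ 2) := by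
        rw [hsqx]; ring
      have hry : (23 / 25 * y) ^ 2 = (23 / 25) ^ 2 * (1 - Real.sqrt (1 - y ^ 2) ^ 2) := by
        rw [hsqy]; ring
      rw [hry, ← hsqy] at hq
      rw [hrx, ← hsqx]
      generalize Real.sqrt (1 - x ^ 2) = a at hw hwx hwx1 ⊢
      generalize Real.sqrt (1 - y ^ 2) = b at hw hwy hq
      rw [Real.sqrt_sq hwy.le, e b hwy] at hq
      rw [Real.sqrt_sq hwx.le, e a hwx]
      have hdena : 0 < 1 - (23 / 25 : ℝ) ^ 2 * (1 - a ^ 2) := by nlinarith [sq_nonneg a]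
      have hdenb : 0 < 1 - (23 / 25 : ℝ) ^ 2 * (1 - b ^ 2) := by nlinarith [sq_nonneg b]
      have hqb : 0 ≤ 96 / 625 * b - 349 / 2000 * (96 / 625 + 529 / 625 * b ^ 2) := by
        by_contra hneg
        push Not at hneg
        have : (96 / 625 * b - 349 / 2000 * (96 / 625 + 529 / 625 * b ^ 2))
            / (b ^ 3 * (1 - (23 / 25) ^ 2 * (1 - b ^ 2))) < 0 :=
          div_neg_of_neg_of_pos hneg (by positivity)
        linarith
      apply div_nonneg _ (by positivity)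
      -- concavity of the quadratic between `b` and `3/5`
      rcases eq_or_lt_of_le (le_trans hw hwx1) with hb | hb
      · have : a = b := le_antisymm (by linarith) hw
        rw [this]; exact hqb
      · have hid : (96 / 625 * a - 349 / 2000 * (96 / 625 + 529 / 625 * a ^ 2)) * (3 / 5 - b)
            = (96 / 625 * b - 349 / 2000 * (96 / 625 + 529 / 625 * b ^ 2)) * (3 / 5 - a)
              + (96 / 625 * (3 / 5) - 349 / 2000 * (96 / 625 + 529 / 625 * (3 / 5) ^ 2)) * (a - b)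
              + 349 / 2000 * (529 / 625) * ((a - b) * (3 / 5 - a) * (3 / 5 - b)) := by ring
        have hpos : 0 ≤ (96 / 625 * a - 349 / 2000 * (96 / 625 + 529 / 625 * a ^ 2))
            * (3 / 5 - b) := by
          rw [hid]
          have t1 : 0 ≤ (96 / 625 * b - 349 / 2000 * (96 / 625 + 529 / 625 * b ^ 2))
              * (3 / 5 - a) := mul_nonneg hqb (by linarith)
          have t2 : 0 ≤ (96 / 625 * (3 / 5) - 349 / 2000 * (96 / 625 + 529 / 625 * (3 / 5) ^ 2))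
              * (a - b) := mul_nonneg (by norm_num) (by linarith)
          have t3 : 0 ≤ (a - b) * (3 / 5 - a) * (3 / 5 - b) :=
            mul_nonneg (mul_nonneg (by linarith) (by linarith)) (by linarith)
          linarith
        exact nonneg_of_mul_nonneg_left hpos (by linarith)
    · have := part1 (4 / 5) (by norm_num) le_rfl
      rw [hs45] at this ⊢
      linarith
    · have h45 := part1 (4 / 5) (by norm_num) le_rfl
      have hL := Lam1_ult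
      rw [hs45] at h45 ⊢
      linarith
    · rw [Lam_one, hdef]
      simp
  have := key t ⟨ht, ht1⟩
  linarith

/-- `Lam ρ < log 2` for `0 ≤ ρ < 1` (local copy; `Lam_mul_le` with `t = 1`). -/
private lemma minor_h_pos {ρ : ℝ} (h0 : 0 ≤ ρ) (h1 : ρ < 1) : 0 < Real.log 2 - Lam ρ := by
  have h := Lam_mul_le (l := ρ) (t := 1) h0 h1.le zero_le_one le_rfl
  rw [mul_one, Lam_one] at h
  have hl : 0 < Real.log 2 := Real.log_pos (by norm_num)
  have h2 : ρ ^ 2 < 1 := by nlinarith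
  nlinarith

/-- By evenness assume `0 ≤ t`.  `chi_antitone` (with `ρ1 = 23/25`) and `Tline_pos`:
`(Lam t - Lam (ρ t))/h ≥ (Lam t - Lam (ρ1 t))/h1 ≥ 1 - (349/2000)/h1 τ ≥ 1 - (26/25) τ` since `h1 ≥ 0.1678` (`h_ult`) gives `349/2000 ≤ (26/25) h1`. -/
lemma minor_line {ρ t : ℝ} (h0 : 7 / 8 ≤ ρ) (h1 : ρ ≤ 23 / 25) (ht0 : -1 ≤ t) (ht1 : t ≤ 1) :
    (Real.log 2 - Lam ρ) * (1 - 26 / 25 * Real.sqrt (1 - t ^ 2)) ≤ Lam t - Lam (ρ * t) := by
  obtain ⟨hh1, hh2⟩ := h_ult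
  have hT : Real.log 2 - Lam (23 / 25) - 349 / 2000 * Real.sqrt (1 - t ^ 2)
      ≤ Lam t - Lam (23 / 25 * t) := by
    rcases le_total 0 t with h | h
    · exact Tline_pos h ht1
    · have := Tline_pos (t := -t) (by linarith) (by linarith)
      rwa [neg_sq, mul_neg, Lam_neg, Lam_neg] at this
  have hchi := chi_antitone (ρ := ρ) (ρ1 := 23 / 25) (t := t) (by linarith) h1 (by norm_num)
    ht0 ht1
  have hh : 0 < Real.log 2 - Lam ρ := minor_h_pos (by linarith) (by linarith)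
  have hτ : 0 ≤ Real.sqrt (1 - t ^ 2) := Real.sqrt_nonneg _
  generalize Real.sqrt (1 - t ^ 2) = τ at hT hτ ⊢
  generalize Real.log 2 - Lam (23 / 25) = k at hh1 hh2 hT hchi
  generalize Real.log 2 - Lam ρ = h at hh hchi ⊢
  generalize Lam t - Lam (23 / 25 * t) = X at hT hchi
  generalize Lam t - Lam (ρ * t) = Y at hchi ⊢
  have hk : 0 < k := by linarith
  rw [div_le_div_iff₀ hk hh] at hchi
  have a1 : k * (1 - 26 / 25 * τ) ≤ X := by nlinarith
  have a2 : h * (k * (1 - 26 / 25 * τ)) ≤ h * X := mul_le_mul_of_nonneg_left a1 hh.le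
  have a3 : (h * (1 - 26 / 25 * τ)) * k ≤ Y * k := by nlinarith
  exact le_of_mul_le_mul_right a3 hk

/-- By evenness assume `0 ≤ t`.  `chi_antitone` (with `ρ1 = 23/25`) and `X0_ult`:
`(Lam t - Lam (ρ1 t))/h1 ≥ (1-τ)^2 + (96/625)/h1 τ (1-τ) ≥ (1-τ)^2 + (913/1000) τ (1-τ) = 1 - (1087/1000) τ + (87/1000) τ^2` since `h1 ≤ 0.1681` gives
`96/625 ≥ (913/1000) h1`; finally `τ^2 = 1 - t^2`. -/
lemma minor_x0 {ρ t : ℝ} (h0 : 7 / 8 ≤ ρ) (h1 : ρ ≤ 23 / 25) (ht0 : -1 ≤ t) (ht1 : t ≤ 1) :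
    (Real.log 2 - Lam ρ) * (1 - 1087 / 1000 * Real.sqrt (1 - t ^ 2) + 87 / 1000 * (1 - t ^ 2))
      ≤ Lam t - Lam (ρ * t) := by
  obtain ⟨hh1, hh2⟩ := h_ult
  have hT : (Real.log 2 - Lam (23 / 25)) * (1 - Real.sqrt (1 - t ^ 2)) ^ 2
      + 96 / 625 * Real.sqrt (1 - t ^ 2) * (1 - Real.sqrt (1 - t ^ 2))
      ≤ Lam t - Lam (23 / 25 * t) := by
    rcases le_total 0 t with h | h
    · exact X0_ult h ht1
    · have := X0_ult (t := -t) (by linarith) (by linarith)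
      rwa [neg_sq, mul_neg, Lam_neg, Lam_neg] at this
  have hchi := chi_antitone (ρ := ρ) (ρ1 := 23 / 25) (t := t) (by linarith) h1 (by norm_num)
    ht0 ht1
  have hh : 0 < Real.log 2 - Lam ρ := minor_h_pos (by linarith) (by linarith)
  have ht2 : 0 ≤ 1 - t ^ 2 := by nlinarith
  have hτ : 0 ≤ Real.sqrt (1 - t ^ 2) := Real.sqrt_nonneg _
  have hτ1 : Real.sqrt (1 - t ^ 2) ≤ 1 := by
    rw [Real.sqrt_le_left (by norm_num : (0:ℝ) ≤ 1)]
    nlinarith [sq_nonneg t]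
  have hsq : Real.sqrt (1 - t ^ 2) ^ 2 = 1 - t ^ 2 := Real.sq_sqrt ht2
  generalize Real.sqrt (1 - t ^ 2) = τ at hT hτ hτ1 hsq ⊢
  rw [← hsq]
  generalize Real.log 2 - Lam (23 / 25) = k at hh1 hh2 hT hchi
  generalize Real.log 2 - Lam ρ = h at hh hchi ⊢
  generalize Lam t - Lam (23 / 25 * t) = X at hT hchi
  generalize Lam t - Lam (ρ * t) = Y at hchi ⊢
  have hk : 0 < k := by linarith
  rw [div_le_div_iff₀ hk hh] at hchi
  have hp : 0 ≤ τ * (1 - τ) := mul_nonneg hτ (by linarith)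
  have a1 : k * (1 - 1087 / 1000 * τ + 87 / 1000 * τ ^ 2) ≤ X := by
    have e : k * (1 - 1087 / 1000 * τ + 87 / 1000 * τ ^ 2)
        = k * (1 - τ) ^ 2 + 913 / 1000 * k * (τ * (1 - τ)) := by ring
    have b : 913 / 1000 * k * (τ * (1 - τ)) ≤ 96 / 625 * (τ * (1 - τ)) :=
      mul_le_mul_of_nonneg_right (by linarith) hp
    rw [e]
    linarith
  have a2 : h * (k * (1 - 1087 / 1000 * τ + 87 / 1000 * τ ^ 2)) ≤ h * X :=
    mul_le_mul_of_nonneg_left a1 hh.le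
  have a3 : (h * (1 - 1087 / 1000 * τ + 87 / 1000 * τ ^ 2)) * k ≤ Y * k := by nlinarith
  exact le_of_mul_le_mul_right a3 hk

/-- Copy the proof of `x0_avg` (Pot/Hi/X0.lean): `Gf ρ u v = ((1+u) (Lam r1 - Lam (ρ r1)) + (1-u) (Lam r2 - Lam (ρ r2)))/2`, `r1 = v/(1+u)`, `r2 = v/(1-u)`;
apply `hmin` at `r1`, `r2`; `mul_sqrt_aux`; `((1+u)(1 - r1^2) + (1-u)(1 - r2^2))/2 = 1 - v^2/(1-u^2)`. -/
lemma avg_minorant {ρ u v c0 c1 c2 : ℝ}
    (hmin : ∀ t : ℝ, -1 ≤ t → t ≤ 1 →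
      c0 - c1 * Real.sqrt (1 - t ^ 2) + c2 * (1 - t ^ 2) ≤ Lam t - Lam (ρ * t))
    (huv : |u| + |v| ≤ 1) (hu : |u| < 1) :
    c0 - c1 * ((Real.sqrt ((1 + u) ^ 2 - v ^ 2) + Real.sqrt ((1 - u) ^ 2 - v ^ 2)) / 2)
        + c2 * (1 - v ^ 2 / (1 - u ^ 2))
      ≤ Gf ρ u v := by
  obtain ⟨h1, h2⟩ := abs_lt.mp hu
  have hp : 0 < 1 + u := by linarith
  have hq : 0 < 1 - u := by linarith
  have hv1 : |v| ≤ 1 + u := by have := neg_abs_le u; linarith
  have hv2 : |v| ≤ 1 - u := by have := le_abs_self u; linarith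
  obtain ⟨b1, b2⟩ := abs_le.mp hv1
  obtain ⟨b3, b4⟩ := abs_le.mp hv2
  have r1a : -1 ≤ v / (1 + u) := by rw [le_div_iff₀ hp]; linarith
  have r1b : v / (1 + u) ≤ 1 := by rw [div_le_one hp]; exact b2
  have r2a : -1 ≤ v / (1 - u) := by rw [le_div_iff₀ hq]; linarith
  have r2b : v / (1 - u) ≤ 1 := by rw [div_le_one hq]; exact b4
  have Xp := hmin (v / (1 + u)) r1a r1b
  have Xq := hmin (v / (1 - u)) r2a r2b
  have eG : Gf ρ u v = ((1 + u) * Lam (v / (1 + u)) + (1 - u) * Lam (v / (1 - u))) / 2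
      - ((1 + u) * Lam (ρ * (v / (1 + u))) + (1 - u) * Lam (ρ * (v / (1 - u)))) / 2 := by
    have e1 := Lam_pair_eq (u := u) (z := v) hu
    have e2 := Lam_pair_eq (u := u) (z := ρ * v) hu
    rw [mul_div_assoc, mul_div_assoc] at e2
    unfold Gf
    linarith
  rw [eG]
  have s1 := mul_sqrt_aux (v := v) hp
  have s2 := mul_sqrt_aux (v := v) hq
  rw [← s1, ← s2]
  have key : ((1 + u) * (1 - (v / (1 + u)) ^ 2) + (1 - u) * (1 - (v / (1 - u)) ^ 2)) / 2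
      = 1 - v ^ 2 / (1 - u ^ 2) := by
    have : (1 - u ^ 2) = (1 + u) * (1 - u) := by ring
    rw [this]
    field_simp
    ring
  rw [← key]
  have m1 := mul_le_mul_of_nonneg_left Xp hp.le
  have m2 := mul_le_mul_of_nonneg_left Xq hq.le
  generalize Real.sqrt (1 - (v / (1 + u)) ^ 2) = w1 at m1 ⊢
  generalize Real.sqrt (1 - (v / (1 - u)) ^ 2) = w2 at m2 ⊢
  generalize (v / (1 + u)) ^ 2 = y1 at m1 ⊢
  generalize (v / (1 - u)) ^ 2 = y2 at m2 ⊢
  have e : c0 - c1 * (((1 + u) * w1 + (1 - u) * w2) / 2)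
        + c2 * (((1 + u) * (1 - y1) + (1 - u) * (1 - y2)) / 2)
      = ((1 + u) * (c0 - c1 * w1 + c2 * (1 - y1))
        + (1 - u) * (c0 - c1 * w2 + c2 * (1 - y2))) / 2 := by ring
  rw [e]
  linarith

end Vale.Agent.Lib.P322.Pot
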