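import Vale.Agent.Lib.P322.Pot.Top.Star
import Vale.Agent.Lib.P322.Pot.Ult.Minor

/-!
P322, potential method, range `7/8 ≤ ρ ≤ 23/25`.  Numerical facts about `Lam ρ`.
Numerically `Lam (7/8) = 0.4593555`, `Lam1 (7/8) = (log (15/8) + 3 log 2)/2 = 1.3540251`, `Lam (23/25) = 0.5252030`,
`Lam1 (23/25) = (3 log 2 + log 3)/2 = 1.5890269`.  Available: `log_fifteen_eighths`, `Lam_seven_eighths` (Pot/Top/Consts.lean), `log_three_five`, `h_ult`
(Pot/Ult/Minor.lean), `Real.log_two_gt_d9`, `Real.log_two_lt_d9`, `Lam_mono`, `convexOn_Lam`, `hasDerivAt_Lam`.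
-/

namespace Vale.Agent.Lib.P322.Pot

open Real Finset Vale.Agent.Lib.P322

/-- `Lam` lies above its tangent lines (`Lam1` is the derivative, and it is increasing because its derivative `1/(1-t^2)` is positive). -/
lemma Lam_tangent {x y : ℝ} (hx0 : -1 < x) (hx1 : x < 1) (hy0 : -1 < y) (hy1 : y < 1) :
    Lam x + Lam1 x * (y - x) ≤ Lam y := by
  have hxS : x ∈ Set.Icc (-1 : ℝ) 1 := ⟨hx0.le, hx1.le⟩
  have hyS : y ∈ Set.Icc (-1 : ℝ) 1 := ⟨hy0.le, hy1.le⟩
  have hd := hasDerivAt_Lam hx0 hx1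
  rcases lt_trichotomy x y with h | h | h
  · have h1 := convexOn_Lam.le_slope_of_hasDerivAt hxS hyS h hd
    rw [slope_def_field, le_div_iff₀ (by linarith)] at h1
    linarith
  · subst h
    simp
  · have h1 := convexOn_Lam.slope_le_of_hasDerivAt hyS hxS h hd
    rw [slope_def_field, div_le_iff₀ (by linarith)] at h1
    linarith

lemma Lam_seven_eighths_bounds :
    4593474 / 10000000 ≤ Lam (7 / 8) ∧ Lam (7 / 8) ≤ 4593662 / 10000000 := by
  have hb := log_fifteen_eighths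
  have hl := Real.log_two_lt_d9
  have hg := Real.log_two_gt_d9
  rw [Lam_seven_eighths]
  constructor <;> linarith [hb.1, hb.2]

lemma Lam1_seven_eighths_lower : 135402 / 100000 ≤ Lam1 (7 / 8) := by
  have hb := log_fifteen_eighths
  have hg := Real.log_two_gt_d9
  unfold Lam1
  have e1 : (1 : ℝ) + 7 / 8 = 15 / 8 := by norm_num
  have e2 : (1 : ℝ) - 7 / 8 = 1 / 8 := by norm_num
  have e3 : Real.log (1 / 8) = -(3 * Real.log 2) := by
    rw [one_div, Real.log_inv, show (8 : ℝ) = 2 ^ 3 by norm_num, Real.log_pow]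
    norm_num
  rw [e1, e2, e3]
  linarith [hb.1]

/-- `Lam` is increasing on `[0,1]`: `log 2 - Lam ρ` lies between its values `0.1679441` at `23/25` (`h_ult`) and `0.2337917` at `7/8`. -/
lemma consts_ult {ρ : ℝ} (h0 : 7 / 8 ≤ ρ) (h1 : ρ ≤ 23 / 25) :
    67 / 400 ≤ Real.log 2 - Lam ρ ∧ Real.log 2 - Lam ρ ≤ 117 / 500 := by
  have hl := Real.log_two_lt_d9
  have a1 : Lam (7 / 8) ≤ Lam ρ := Lam_mono (by norm_num) h0 (by linarith)
  have a2 : Lam ρ ≤ Lam (23 / 25) := Lam_mono (by linarith) h1 (by norm_num)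
  have b1 := Lam_seven_eighths_bounds.1
  have b2 := h_ult.1
  constructor <;> linarith

/-- Equivalent to `g ρ = (61/100) Lam ρ - ρ^2/2 + (39/100) log 2 - 33/200 ≥ 0`; the minimum of `g` on the range is `0.00205` (near `ρ = 0.9`).
For `ρ ≤ 9/10` bound `Lam ρ` below by the tangent line at `7/8`, for `ρ ≥ 9/10` by the tangent line at `23/25` (`Lam_tangent`); the resulting lower bounds of `g` are
concave quadratics in `ρ` with values `0.0027`, `0.0011` at `7/8`, `9/10`, respectively `0.0013`, `0.0025` at `9/10`, `23/25`. -/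
lemma zeta_ult {ρ : ℝ} (h0 : 7 / 8 ≤ ρ) (h1 : ρ ≤ 23 / 25) :
    33 / 200 - 39 / 100 * (Real.log 2 - Lam ρ) ≤ Lam ρ - ρ ^ 2 / 2 := by
  have l2a := Real.log_two_gt_d9
  have l2b := Real.log_two_lt_d9
  rcases le_total ρ (9 / 10) with hc | hc
  · -- tangent line at `7/8`
    have ht := Lam_tangent (x := 7 / 8) (y := ρ) (by norm_num) (by norm_num) (by linarith) (by linarith)
    obtain ⟨f1, -⟩ := log_fifteen_eighths
    have e3 : Real.log (1 / 8) = -(3 * Real.log 2) := by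
      rw [one_div, Real.log_inv, show (8 : ℝ) = 2 ^ 3 by norm_num, Real.log_pow]
      norm_num
    have eL1 : Lam1 (7 / 8) = (Real.log (15 / 8) + 3 * Real.log 2) / 2 := by
      unfold Lam1
      rw [show (1 : ℝ) + 7 / 8 = 15 / 8 by norm_num, show (1 : ℝ) - 7 / 8 = 1 / 8 by norm_num, e3]
      ring
    have b1 : (135402 : ℝ) / 100000 ≤ Lam1 (7 / 8) := by rw [eL1]; linarith
    have b0 : (459347 : ℝ) / 1000000 ≤ Lam (7 / 8) := by rw [Lam_seven_eighths]; linarith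
    have hm : (135402 : ℝ) / 100000 * (ρ - 7 / 8) ≤ Lam1 (7 / 8) * (ρ - 7 / 8) :=
      mul_le_mul_of_nonneg_right b1 (by linarith)
    have hL : (459347 : ℝ) / 1000000 + 135402 / 100000 * (ρ - 7 / 8) ≤ Lam ρ := by linarith
    nlinarith [mul_nonneg (sub_nonneg.mpr h0) (sub_nonneg.mpr hc)]
  · -- tangent line at `23/25`
    have ht := Lam_tangent (x := 23 / 25) (y := ρ) (by norm_num) (by norm_num) (by linarith) (by linarith)
    obtain ⟨-, g3, -, -⟩ := log_three_five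
    obtain ⟨-, hu⟩ := h_ult
    have e48 : Real.log (48 / 25) = 4 * Real.log 2 + Real.log 3 - Real.log 25 := by
      rw [Real.log_div (by norm_num) (by norm_num), show (48 : ℝ) = 2 ^ 4 * 3 by norm_num,
        Real.log_mul (by norm_num) (by norm_num), Real.log_pow]
      norm_num
    have e2 : Real.log (2 / 25) = Real.log 2 - Real.log 25 := by
      rw [Real.log_div (by norm_num) (by norm_num)]
    have eL1 : Lam1 (23 / 25) = (3 * Real.log 2 + Real.log 3) / 2 := by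
      unfold Lam1
      rw [show (1 : ℝ) + 23 / 25 = 48 / 25 by norm_num, show (1 : ℝ) - 23 / 25 = 2 / 25 by norm_num,
        e48, e2]
      ring
    have b1 : Lam1 (23 / 25) ≤ (158904 : ℝ) / 100000 := by rw [eL1]; linarith
    have b0 : (52504 : ℝ) / 100000 ≤ Lam (23 / 25) := by linarith
    have hm : (158904 : ℝ) / 100000 * (ρ - 23 / 25) ≤ Lam1 (23 / 25) * (ρ - 23 / 25) :=
      mul_le_mul_of_nonpos_right b1 (by linarith)
    have hL : (52504 : ℝ) / 100000 + 158904 / 100000 * (ρ - 23 / 25) ≤ Lam ρ := by linarith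
    nlinarith [mul_nonneg (sub_nonneg.mpr hc) (sub_nonneg.mpr h1)]

/-- `(21/25) Lam ρ - ρ^2/2 ≥ 0`: tangent line at `7/8`, a concave quadratic with values `0.0030` at `7/8` and `0.0138` at `23/25`.
`ρ^2/2 - (4/5) Lam ρ ≥ 0`: by convexity `Lam ρ` is below the chord through `7/8` and `23/25` (slope `1.4633`), and `ρ^2/2 - (4/5) chord` is decreasing on the range
with value `0.0030` at `23/25`. -/
lemma omega_ult {ρ : ℝ} (h0 : 7 / 8 ≤ ρ) (h1 : ρ ≤ 23 / 25) :
    4 / 25 * Lam ρ ≤ Lam ρ - ρ ^ 2 / 2 ∧ Lam ρ - ρ ^ 2 / 2 ≤ 1 / 5 * Lam ρ := by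
  constructor
  · have ht := Lam_tangent (x := 7 / 8) (y := ρ) (by norm_num) (by norm_num) (by linarith)
      (by linarith)
    have b1 := Lam_seven_eighths_bounds.1
    have b2 := Lam1_seven_eighths_lower
    have b3 : 135402 / 100000 * (ρ - 7 / 8) ≤ Lam1 (7 / 8) * (ρ - 7 / 8) :=
      mul_le_mul_of_nonneg_right b2 (by linarith)
    have hq : 0 ≤ (ρ - 7 / 8) * (23 / 25 - ρ) := mul_nonneg (by linarith) (by linarith)
    nlinarith
  · have hl := Real.log_two_lt_d9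
    have c1 := Lam_seven_eighths_bounds.2
    have c2 : Lam (23 / 25) ≤ 525347181 / 1000000000 := by linarith [h_ult.1]
    obtain ⟨a, ha⟩ : ∃ a : ℝ, a = (23 / 25 - ρ) * (200 / 9) := ⟨_, rfl⟩
    obtain ⟨b, hb⟩ : ∃ b : ℝ, b = (ρ - 7 / 8) * (200 / 9) := ⟨_, rfl⟩
    have ha0 : 0 ≤ a := by rw [ha]; exact mul_nonneg (by linarith) (by norm_num)
    have hb0 : 0 ≤ b := by rw [hb]; exact mul_nonneg (by linarith) (by norm_num)
    have hab : a + b = 1 := by rw [ha, hb]; ring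
    have hc := convexOn_Lam.2 (x := 7 / 8) (y := 23 / 25) ⟨by norm_num, by norm_num⟩
      ⟨by norm_num, by norm_num⟩ ha0 hb0 hab
    have e : a • (7 / 8 : ℝ) + b • (23 / 25 : ℝ) = ρ := by
      rw [ha, hb]
      simp only [smul_eq_mul]
      ring
    rw [e] at hc
    simp only [smul_eq_mul] at hc
    have d1 : a * Lam (7 / 8) ≤ a * (4593662 / 10000000) := mul_le_mul_of_nonneg_left c1 ha0
    have d2 : b * Lam (23 / 25) ≤ b * (525347181 / 1000000000) := mul_le_mul_of_nonneg_left c2 hb0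
    have hsq : 0 ≤ (ρ - 23 / 25) ^ 2 := sq_nonneg _
    rw [ha] at d1
    rw [hb] at d2
    rw [ha, hb] at hc
    nlinarith

/-- It is enough to show `ρ^2 (log 2 - Lam ρ) ≤ (1 - ρ^2) Lam ρ (1 + 39/50)`, that is `Lam ρ (89/50 - (39/50) ρ^2) ≥ ρ^2 log 2`.
Bound `Lam ρ` below by the tangent line at `23/25`: `Lam ρ ≥ 0.52504 - 1.58904 (23/25 - ρ)` (`Lam (23/25) ≥ log 2 - 0.1681`); the difference is then a cubic in `ρ` with values
`0.0058`, `0.0050`, `0.0035`, `0.0012` at `0.875`, `0.9`, `0.91`, `0.92`. -/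
lemma Jc_ult {ρ J : ℝ} (h0 : 7 / 8 ≤ ρ) (h1 : ρ ≤ 23 / 25) (hJ : 0 ≤ J)
    (hcut : (1 - ρ ^ 2) * Lam ρ * (1 + J) < ρ ^ 2 * (Real.log 2 - Lam ρ)) : J ≤ 39 / 50 := by
  have l2a := Real.log_two_gt_d9
  have l2b := Real.log_two_lt_d9
  have ht := Lam_tangent (x := 23 / 25) (y := ρ) (by norm_num) (by norm_num) (by linarith) (by linarith)
  obtain ⟨-, g3, -, -⟩ := log_three_five
  obtain ⟨-, hu⟩ := h_ult
  have e48 : Real.log (48 / 25) = 4 * Real.log 2 + Real.log 3 - Real.log 25 := by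
    rw [Real.log_div (by norm_num) (by norm_num), show (48 : ℝ) = 2 ^ 4 * 3 by norm_num,
      Real.log_mul (by norm_num) (by norm_num), Real.log_pow]
    norm_num
  have e2 : Real.log (2 / 25) = Real.log 2 - Real.log 25 := by
    rw [Real.log_div (by norm_num) (by norm_num)]
  have eL1 : Lam1 (23 / 25) = (3 * Real.log 2 + Real.log 3) / 2 := by
    unfold Lam1
    rw [show (1 : ℝ) + 23 / 25 = 48 / 25 by norm_num, show (1 : ℝ) - 23 / 25 = 2 / 25 by norm_num,
      e48, e2]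
    ring
  have b1 : Lam1 (23 / 25) ≤ (158904 : ℝ) / 100000 := by rw [eL1]; linarith
  have b0 : (52504 : ℝ) / 100000 ≤ Lam (23 / 25) := by linarith
  have hm : (158904 : ℝ) / 100000 * (ρ - 23 / 25) ≤ Lam1 (23 / 25) * (ρ - 23 / 25) :=
    mul_le_mul_of_nonpos_right b1 (by linarith)
  have hL : (52504 : ℝ) / 100000 + 158904 / 100000 * (ρ - 23 / 25) ≤ Lam ρ := by linarith
  have hLpos : 0 < Lam ρ := by nlinarith
  have hr2 : 0 < 1 - ρ ^ 2 := by nlinarith
  have hw : 0 < 89 / 50 - 39 / 50 * ρ ^ 2 := by nlinarith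
  -- the cubic inequality
  have hcub : ρ ^ 2 * (6931472 / 10000000) ≤
      ((52504 : ℝ) / 100000 + 158904 / 100000 * (ρ - 23 / 25)) * (89 / 50 - 39 / 50 * ρ ^ 2) := by
    nlinarith [mul_nonneg (mul_nonneg (sub_nonneg.mpr h0) (sub_nonneg.mpr h1)) (by linarith : (0 : ℝ) ≤ ρ),
      mul_nonneg (sub_nonneg.mpr h0) (sub_nonneg.mpr h1)]
  have hkey : ρ ^ 2 * Real.log 2 ≤ Lam ρ * (89 / 50 - 39 / 50 * ρ ^ 2) := by
    have s1 : ρ ^ 2 * Real.log 2 ≤ ρ ^ 2 * (6931472 / 10000000) :=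
      mul_le_mul_of_nonneg_left (by linarith) (by positivity)
    have s2 := mul_le_mul_of_nonneg_right hL hw.le
    linarith
  by_contra hcon0
  have hcon : 39 / 50 < J := not_le.mp hcon0
  have hp : 0 < (1 - ρ ^ 2) * Lam ρ := mul_pos hr2 hLpos
  have s3 : (1 - ρ ^ 2) * Lam ρ * (1 + 39 / 50) < (1 - ρ ^ 2) * Lam ρ * (1 + J) :=
    mul_lt_mul_of_pos_left (by linarith) hp
  nlinarith

end Vale.Agent.Lib.P322.Pot
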