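import Vale.Agent.Lib.P322.Pot.Hi.X0

/-!
P322, potential method, range `7/8 ≤ ρ ≤ 23/25`.  A calculus lemma.
-/

namespace Vale.Agent.Lib.P322.Pot

open Real Set Vale.Agent.Lib.P322

/-- A variant of `nonneg_of_convex_concave` (Pot/E1.lean) on `[c,1]`: the second derivative is first `≥ 0`, then `≤ 0` (hypothesis `hQ`), the tangent
line at `c` is nonnegative at `c` and at `1`, and `D 1 ≥ 0`.
Proof.  Let `t ∈ [c,1)`.  (a) If `0 ≤ D2 t`, then `D2 ≥ 0` on `[c,t]` by `hQ`, so `D1 ≥ D1 c` there and `D t ≥ D c + D1 c (t - c)`, which is a convex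
combination of `D c` and `D c + D1 c (1 - c)`.  (b) If `D2 t < 0`, then `D2 y ≤ 0` for all `y ∈ [t,1)` (otherwise `hQ` gives `0 ≤ D2 t`).
(b1) If `D1 t ≤ 0` then `D1 ≤ 0` on `[t,1)`, so `D t ≥ D 1 ≥ 0`.  (b2) If `D1 t > 0`: for `s ∈ [c,t]` either `0 ≤ D2 s`, then `D2 ≥ 0` on `[c,s]` and
`D1 s ≥ D1 c`; or `D2 s < 0`, then `D2 ≤ 0` on `[s,t]` and `D1 s ≥ D1 t > 0`.  Hence `D1 s ≥ min (D1 c) 0` on `[c,t]` and
`D t ≥ D c + min (D1 c) 0 * (t - c) ≥ 0`.  Tools: `le_of_deriv_nonneg'`, `ge_of_deriv_nonpos'` as in `nonneg_of_convex_concave`. -/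
lemma nonneg_of_single_crossing {D D1 D2 : ℝ → ℝ} {c : ℝ} (hc1 : c < 1)
    (hc : ContinuousOn D (Icc c 1))
    (h1 : ∀ t ∈ Ico c 1, HasDerivAt D (D1 t) t)
    (h2 : ∀ t ∈ Ico c 1, HasDerivAt D1 (D2 t) t)
    (hQ : ∀ x ∈ Ico c 1, ∀ y ∈ Ico c 1, x ≤ y → 0 ≤ D2 y → 0 ≤ D2 x)
    (hDc : 0 ≤ D c) (hline : 0 ≤ D c + D1 c * (1 - c)) (h11 : 0 ≤ D 1) :
    ∀ t ∈ Ico c 1, 0 ≤ D t := by
  have c1 : ∀ a b : ℝ, c ≤ a → b < 1 → ContinuousOn D1 (Icc a b) := by
    intro a b ha hb x hx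
    exact (h2 x ⟨le_trans ha hx.1, lt_of_le_of_lt hx.2 hb⟩).continuousAt.continuousWithinAt
  -- a lower bound for the derivative gives a linear lower bound
  have L : ∀ t ∈ Ico c 1, ∀ m : ℝ, (∀ s ∈ Icc c t, m ≤ D1 s) → D c + m * (t - c) ≤ D t := by
    intro t ht m hm
    have := le_of_deriv_nonneg' (f := fun s => D s - m * s) (f' := fun s => D1 s - m) ht.1
      ((hc.mono (Icc_subset_Icc le_rfl ht.2.le)).sub (by fun_prop))
      (fun x hx => by
        have a := h1 x ⟨hx.1.le, hx.2.trans ht.2⟩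
        have b : HasDerivAt (fun s : ℝ => m * s) m x := by
          simpa using (hasDerivAt_id x).const_mul m
        exact a.sub b)
      (fun x hx => by
        have := hm x ⟨hx.1.le, hx.2.le⟩
        linarith)
    linarith
  -- the linear lower bound is nonnegative
  have N : ∀ t ∈ Ico c 1, 0 ≤ D c + min (D1 c) 0 * (t - c) := by
    intro t ht
    rcases le_total 0 (D1 c) with h | h
    · rw [min_eq_right h]
      linarith
    · rw [min_eq_left h]
      have : D1 c * (1 - c) ≤ D1 c * (t - c) :=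
        mul_le_mul_of_nonpos_left (by linarith [ht.2]) h
      linarith
  -- on the convex part the derivative is at least `D1 c`
  have A1 : ∀ s ∈ Ico c 1, 0 ≤ D2 s → D1 c ≤ D1 s := by
    intro s hs hq
    exact le_of_deriv_nonneg' (f := D1) (f' := D2) hs.1 (c1 c s le_rfl hs.2)
      (fun x hx => h2 x ⟨hx.1.le, hx.2.trans hs.2⟩)
      (fun x hx => hQ x ⟨hx.1.le, hx.2.trans hs.2⟩ s hs hx.2.le hq)
  -- beyond a point of negative second derivative, the second derivative is nonpositive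
  have B : ∀ s ∈ Ico c 1, D2 s < 0 → ∀ y ∈ Ico c 1, s ≤ y → D2 y ≤ 0 := by
    intro s hs hneg y hy hsy
    by_contra hcon
    push Not at hcon
    have := hQ s hs y hy hsy hcon.le
    linarith
  intro t ht
  by_cases hq : 0 ≤ D2 t
  · have h := L t ht (min (D1 c) 0) (by
      intro s hs
      have hs' : s ∈ Ico c 1 := ⟨hs.1, lt_of_le_of_lt hs.2 ht.2⟩
      exact le_trans (min_le_left _ _) (A1 s hs' (hQ s hs' t ht hs.2 hq)))
    exact le_trans (N t ht) h
  · push Not at hq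
    by_cases hd : D1 t ≤ 0
    · have hD1 : ∀ x ∈ Ioo t 1, D1 x ≤ 0 := by
        intro x hx
        have := ge_of_deriv_nonpos' (f := D1) (f' := D2) hx.1.le (c1 t x ht.1 hx.2)
          (fun y hy => h2 y ⟨le_trans ht.1 hy.1.le, hy.2.trans hx.2⟩)
          (fun y hy => B t ht hq y ⟨le_trans ht.1 hy.1.le, hy.2.trans hx.2⟩ hy.1.le)
        linarith
      have := ge_of_deriv_nonpos' (f := D) (f' := D1) ht.2.le
        (hc.mono (Icc_subset_Icc ht.1 le_rfl))
        (fun x hx => h1 x ⟨le_trans ht.1 hx.1.le, hx.2⟩) hD1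
      linarith
    · push Not at hd
      have h := L t ht (min (D1 c) 0) (by
        intro s hs
        have hs' : s ∈ Ico c 1 := ⟨hs.1, lt_of_le_of_lt hs.2 ht.2⟩
        by_cases hqs : 0 ≤ D2 s
        · exact le_trans (min_le_left _ _) (A1 s hs' hqs)
        · push Not at hqs
          have := ge_of_deriv_nonpos' (f := D1) (f' := D2) hs.2 (c1 s t hs.1 ht.2)
            (fun y hy => h2 y ⟨le_trans hs.1 hy.1.le, hy.2.trans ht.2⟩)
            (fun y hy => B s hs' hqs y ⟨le_trans hs.1 hy.1.le, hy.2.trans ht.2⟩ hy.1.le)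
          exact le_trans (min_le_right _ _) (by linarith))
      exact le_trans (N t ht) h

end Vale.Agent.Lib.P322.Pot
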