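import Vale.Agent.Lib.P322.Pot.Ult.Gen

/-!
P322, potential method, range `7/8 ≤ ρ ≤ 23/25`.  The normalised gain `(Lam t - Lam (ρ t)) / (log 2 - Lam ρ)` is antitone in `ρ`.
-/

namespace Vale.Agent.Lib.P322.Pot

open Real Set Vale.Agent.Lib.P322

/-- Same scheme as `X0_pos` (Pot/Hi/X0.lean), via `nonneg_of_convex_concave` (Pot/E1.lean).  Put `h = log 2 - Lam ρ`, `A = Lam1 ρ ≥ 0`,
`D t = h t Lam1 (ρ t) - (Lam t - Lam (ρ t)) A`.  `D 0 = 0`, `D 1 = h A - h A = 0` (`Lam_one`; `D` is continuous on `[0,1]`),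
`D1 t = h (Lam1 (ρ t) + ρ t/(1 - ρ^2 t^2)) - (Lam1 t - ρ Lam1 (ρ t)) A`, `D1 0 = 0`,
`D2 t = 2 h ρ/(1 - ρ^2 t^2)^2 - (1 - ρ^2) A/((1 - t^2)(1 - ρ^2 t^2)) = Qf t/((1 - t^2)(1 - ρ^2 t^2)^2)` with
`Qf t = 2 h ρ (1 - t^2) - (1 - ρ^2) A (1 - ρ^2 t^2) = c0 - c1 t^2`, `c1 = 2 h ρ - ρ^2 (1 - ρ^2) A`, `c0 = c1 - (1 - ρ^2)^2 A`.
If `c1 ≥ 0`, `Qf` is antitone on `[0,1)`.  If `c1 < 0`, then `Qf t ≤ c0 - c1 = -(1-ρ^2)^2 A ≤ 0` for `t ∈ [0,1)`, so `D2 ≤ 0` everywhere and one may use the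
constant function `-1` in place of `Qf`. -/
lemma chi_deriv_sign {ρ t : ℝ} (hρ0 : 0 < ρ) (hρ1 : ρ < 1) (h0 : 0 ≤ t) (h1 : t ≤ 1) :
    (Lam t - Lam (ρ * t)) * Lam1 ρ ≤ (Real.log 2 - Lam ρ) * (t * Lam1 (ρ * t)) := by
  rcases eq_or_lt_of_le h1 with rfl | h1'
  · rw [Lam_one, mul_one, one_mul]
  obtain ⟨h, hh⟩ : ∃ h : ℝ, h = Real.log 2 - Lam ρ := ⟨_, rfl⟩
  obtain ⟨A, hA⟩ : ∃ A : ℝ, A = Lam1 ρ := ⟨_, rfl⟩
  have hA0 : 0 ≤ A := by rw [hA]; exact Lam1_nonneg hρ0.le hρ1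
  have hz1 : 0 < 1 - ρ ^ 2 := by nlinarith
  have hbd : ∀ s ∈ Icc (0:ℝ) 1, -1 < ρ * s ∧ ρ * s < 1 := by
    intro s hs
    constructor
    · nlinarith [mul_nonneg hρ0.le hs.1]
    · nlinarith [hs.1, hs.2]
  have hu0 : ∀ s ∈ Icc (0:ℝ) 1, 0 < 1 - (ρ * s) ^ 2 := by
    intro s hs
    obtain ⟨a, b⟩ := hbd s hs
    nlinarith
  have hb : ∀ s ∈ Icc (0:ℝ) 1, HasDerivAt (fun s => Lam (ρ * s)) (Lam1 (ρ * s) * ρ) s := by
    intro s hs
    have := (hasDerivAt_Lam (hbd s hs).1 (hbd s hs).2).comp s (((hasDerivAt_id s).const_mul ρ))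
    simpa [Function.comp_def] using this
  have hb1 : ∀ s ∈ Icc (0:ℝ) 1,
      HasDerivAt (fun s => Lam1 (ρ * s)) (ρ / (1 - (ρ * s) ^ 2)) s := by
    intro s hs
    have := (hasDerivAt_Lam1 (hbd s hs).1 (hbd s hs).2).comp s (((hasDerivAt_id s).const_mul ρ))
    have h2 : HasDerivAt (fun s => Lam1 (ρ * s)) (1 / (1 - (ρ * s) ^ 2) * ρ) s := by
      simpa [Function.comp_def] using this
    exact h2.congr_deriv (by ring)
  have hw : ∀ s ∈ Icc (0:ℝ) 1, HasDerivAt (fun s => ρ / (1 - (ρ * s) ^ 2))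
      (ρ * (2 * ρ ^ 2 * s) / (1 - (ρ * s) ^ 2) ^ 2) s := by
    intro s hs
    have hu : HasDerivAt (fun s : ℝ => 1 - (ρ * s) ^ 2) (-(2 * ρ ^ 2 * s)) s := by
      have a : HasDerivAt (fun s : ℝ => ρ * s) ρ s := by
        simpa using (hasDerivAt_id s).const_mul ρ
      exact ((a.pow 2).const_sub 1).congr_deriv (by simp; ring)
    exact ((hasDerivAt_const s ρ).div hu (hu0 s hs).ne').congr_deriv (by ring)
  have hcont : ContinuousOn (fun s : ℝ => h * (s * Lam1 (ρ * s)) - (Lam s - Lam (ρ * s)) * A)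
      (Icc 0 1) := by
    intro s hs
    have c1 : ContinuousAt (fun s => Lam1 (ρ * s)) s := (hb1 s hs).continuousAt
    have c2 : ContinuousAt (fun s => Lam (ρ * s)) s := (hb s hs).continuousAt
    have c3 : ContinuousAt Lam s := continuous_Lam.continuousAt
    have c4 : ContinuousAt (fun s : ℝ => s) s := continuousAt_id
    exact ((continuousAt_const.mul (c4.mul c1)).sub
      ((c3.sub c2).mul continuousAt_const)).continuousWithinAt
  have hsub : ∀ s ∈ Ico (0:ℝ) 1, s ∈ Icc (0:ℝ) 1 := fun s hs => ⟨hs.1, hs.2.le⟩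
  have hd1 : ∀ s ∈ Ico (0:ℝ) 1,
      HasDerivAt (fun s : ℝ => h * (s * Lam1 (ρ * s)) - (Lam s - Lam (ρ * s)) * A)
        (h * (Lam1 (ρ * s) + s * (ρ / (1 - (ρ * s) ^ 2))) - (Lam1 s - Lam1 (ρ * s) * ρ) * A) s := by
    intro s hs
    have a := hasDerivAt_Lam (t := s) (by linarith [hs.1]) hs.2
    have b := hb s (hsub s hs)
    have c := (hasDerivAt_id' s).mul (hb1 s (hsub s hs))
    exact ((c.const_mul h).sub ((a.sub b).mul_const A)).congr_deriv (by ring)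
  have hd2 : ∀ s ∈ Ico (0:ℝ) 1,
      HasDerivAt (fun s : ℝ => h * (Lam1 (ρ * s) + s * (ρ / (1 - (ρ * s) ^ 2)))
          - (Lam1 s - Lam1 (ρ * s) * ρ) * A)
        ((2 * h * ρ * (1 - s ^ 2) - (1 - ρ ^ 2) * A * (1 - (ρ * s) ^ 2))
          / ((1 - s ^ 2) * (1 - (ρ * s) ^ 2) ^ 2)) s := by
    intro s hs
    have hs2 : 0 < 1 - s ^ 2 := by nlinarith [hs.1, hs.2]
    have hu := hu0 s (hsub s hs)
    have a := hasDerivAt_Lam1 (t := s) (by linarith [hs.1]) hs.2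
    have b := hb1 s (hsub s hs)
    have c := (hasDerivAt_id' s).mul (hw s (hsub s hs))
    refine (((b.add c).const_mul h).sub ((a.sub (b.mul_const ρ)).mul_const A)).congr_deriv ?_
    have hu' : 1 - ρ ^ 2 * s ^ 2 ≠ 0 := by
      rw [mul_pow] at hu
      exact hu.ne'
    have hs2' : 1 - s ^ 2 ≠ 0 := hs2.ne'
    rw [mul_pow]
    field_simp
    ring
  have hden : ∀ s ∈ Ico (0:ℝ) 1, 0 < (1 - s ^ 2) * (1 - (ρ * s) ^ 2) ^ 2 := by
    intro s hs
    have hs2 : 0 < 1 - s ^ 2 := by nlinarith [hs.1, hs.2]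
    have hu := hu0 s (hsub s hs)
    positivity
  have e0 : h * ((0:ℝ) * Lam1 (ρ * 0)) - (Lam 0 - Lam (ρ * 0)) * A = 0 := by simp
  have e10 : h * (Lam1 (ρ * 0) + (0:ℝ) * (ρ / (1 - (ρ * 0) ^ 2)))
      - (Lam1 0 - Lam1 (ρ * 0) * ρ) * A = 0 := by simp
  have e1 : h * ((1:ℝ) * Lam1 (ρ * 1)) - (Lam 1 - Lam (ρ * 1)) * A = 0 := by
    rw [Lam_one, mul_one, one_mul, ← hh, ← hA]
    ring
  have key : ∀ s ∈ Ico (0:ℝ) 1, 0 ≤ h * (s * Lam1 (ρ * s)) - (Lam s - Lam (ρ * s)) * A := by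
    by_cases hc1 : 0 ≤ 2 * h * ρ - ρ ^ 2 * (1 - ρ ^ 2) * A
    · apply nonneg_of_convex_concave
        (D1 := fun s => h * (Lam1 (ρ * s) + s * (ρ / (1 - (ρ * s) ^ 2)))
          - (Lam1 s - Lam1 (ρ * s) * ρ) * A)
        (D2 := fun s => (2 * h * ρ * (1 - s ^ 2) - (1 - ρ ^ 2) * A * (1 - (ρ * s) ^ 2))
          / ((1 - s ^ 2) * (1 - (ρ * s) ^ 2) ^ 2))
        (Qf := fun s => 2 * h * ρ * (1 - s ^ 2) - (1 - ρ ^ 2) * A * (1 - (ρ * s) ^ 2))
        hcont hd1 hd2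
      · intro x hx y hy hxy
        have h2 : 0 ≤ y ^ 2 - x ^ 2 := by nlinarith [hx.1, hy.1]
        have := mul_nonneg h2 hc1
        simp only
        nlinarith
      · intro s hs hq
        exact div_nonneg hq (hden s hs).le
      · intro s hs hq
        exact div_nonpos_of_nonpos_of_nonneg hq (hden s hs).le
      · exact e0
      · exact e10
      · exact e1
    · push Not at hc1
      apply nonneg_of_convex_concave
        (D1 := fun s => h * (Lam1 (ρ * s) + s * (ρ / (1 - (ρ * s) ^ 2)))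
          - (Lam1 s - Lam1 (ρ * s) * ρ) * A)
        (D2 := fun s => (2 * h * ρ * (1 - s ^ 2) - (1 - ρ ^ 2) * A * (1 - (ρ * s) ^ 2))
          / ((1 - s ^ 2) * (1 - (ρ * s) ^ 2) ^ 2))
        (Qf := fun _ => (-1 : ℝ))
        hcont hd1 hd2
      · intro x _ y _ _
        exact le_refl _
      · intro s _ hq
        exfalso
        linarith
      · intro s hs _
        have hs2 : 0 < 1 - s ^ 2 := by nlinarith [hs.1, hs.2]
        have hq : 2 * h * ρ * (1 - s ^ 2) - (1 - ρ ^ 2) * A * (1 - (ρ * s) ^ 2) ≤ 0 := by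
          have e : 2 * h * ρ * (1 - s ^ 2) - (1 - ρ ^ 2) * A * (1 - (ρ * s) ^ 2)
              = (2 * h * ρ - ρ ^ 2 * (1 - ρ ^ 2) * A) * (1 - s ^ 2) - (1 - ρ ^ 2) ^ 2 * A := by
            ring
          rw [e]
          have a1 : (2 * h * ρ - ρ ^ 2 * (1 - ρ ^ 2) * A) * (1 - s ^ 2) ≤ 0 :=
            mul_nonpos_of_nonpos_of_nonneg hc1.le hs2.le
          have a2 : 0 ≤ (1 - ρ ^ 2) ^ 2 * A := by positivity
          linarith
        exact div_nonpos_of_nonpos_of_nonneg hq (hden s hs).le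
      · exact e0
      · exact e10
      · exact e1
  have := key t ⟨h0, h1'⟩
  rw [← hh, ← hA]
  linarith

/-- `Lam r < log 2` on `[0,1)` (local copy). -/
lemma mono_Lam_lt_log_two {r : ℝ} (h0 : 0 ≤ r) (h1 : r < 1) : Lam r < Real.log 2 := by
  have h := Lam_mul_le (l := r) (t := 1) h0 h1.le zero_le_one le_rfl
  rw [mul_one, Lam_one] at h
  have hl : 0 < Real.log 2 := Real.log_pos (by norm_num)
  have h2 : r ^ 2 < 1 := by nlinarith
  nlinarith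

/-- `chi_antitone` for `0 ≤ t`. -/
lemma chi_antitone_aux {ρ ρ1 t : ℝ} (hρ0 : 0 < ρ) (hρ : ρ ≤ ρ1) (hρ1 : ρ1 < 1) (h0 : 0 ≤ t)
    (h1 : t ≤ 1) :
    (Lam t - Lam (ρ1 * t)) / (Real.log 2 - Lam ρ1) ≤ (Lam t - Lam (ρ * t)) / (Real.log 2 - Lam ρ) := by
  have hden : ∀ r ∈ Icc ρ ρ1, 0 < Real.log 2 - Lam r := fun r hr => by
    have := mono_Lam_lt_log_two (r := r) (by linarith [hr.1]) (by linarith [hr.2])
    linarith
  refine ge_of_deriv_nonpos' (f := fun r => (Lam t - Lam (r * t)) / (Real.log 2 - Lam r))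
    (f' := fun r => ((-(Lam1 (r * t) * t)) * (Real.log 2 - Lam r)
      - (Lam t - Lam (r * t)) * (-(Lam1 r))) / (Real.log 2 - Lam r) ^ 2) hρ ?_ ?_ ?_
  · apply ContinuousOn.div
    · exact (continuous_const.sub
        (continuous_Lam.comp (continuous_id.mul continuous_const))).continuousOn
    · exact (continuous_const.sub continuous_Lam).continuousOn
    · intro r hr
      exact (hden r hr).ne'
  · intro r hr
    have hr0 : 0 < r := lt_of_lt_of_le hρ0 hr.1.le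
    have hr1 : r < 1 := lt_trans hr.2 hρ1
    have hrt1 : r * t < 1 := by nlinarith
    have hrt0 : -1 < r * t := by nlinarith [mul_nonneg hr0.le h0]
    have a : HasDerivAt (fun r => Lam (r * t)) (Lam1 (r * t) * t) r := by
      have h2 : HasDerivAt (fun y : ℝ => y * t) t r := by
        simpa using (hasDerivAt_id r).mul_const t
      exact HasDerivAt.comp (h₂ := Lam) (h := fun y : ℝ => y * t) r
        (hasDerivAt_Lam hrt0 hrt1) h2
    have b : HasDerivAt Lam (Lam1 r) r := hasDerivAt_Lam (by linarith) hr1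
    have num : HasDerivAt (fun r => Lam t - Lam (r * t)) (-(Lam1 (r * t) * t)) r := by
      simpa using a.const_sub (Lam t)
    have den : HasDerivAt (fun r => Real.log 2 - Lam r) (-(Lam1 r)) r := by
      simpa using b.const_sub (Real.log 2)
    exact num.div den (hden r ⟨hr.1.le, hr.2.le⟩).ne'
  · intro r hr
    have hr0 : 0 < r := lt_of_lt_of_le hρ0 hr.1.le
    have hr1 : r < 1 := lt_trans hr.2 hρ1
    apply div_nonpos_of_nonpos_of_nonneg _ (sq_nonneg _)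
    have := chi_deriv_sign (ρ := r) (t := t) hr0 hr1 h0 h1
    nlinarith

/-- By evenness (`Lam_neg`) assume `0 ≤ t`.  For fixed `t` the function `g r = (Lam t - Lam (r t))/(log 2 - Lam r)` has on `(0,1)` the derivative
`(- t Lam1 (r t) (log 2 - Lam r) + (Lam t - Lam (r t)) Lam1 r)/(log 2 - Lam r)^2 ≤ 0` by `chi_deriv_sign` (`hasDerivAt_Lam`, `Lam_lt_log_two'`);
conclude with `antitoneOn_of_deriv_nonpos` on `Icc ρ ρ1` (or `ge_of_deriv_nonpos'`). -/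
lemma chi_antitone {ρ ρ1 t : ℝ} (hρ0 : 0 < ρ) (hρ : ρ ≤ ρ1) (hρ1 : ρ1 < 1) (h0 : -1 ≤ t) (h1 : t ≤ 1) :
    (Lam t - Lam (ρ1 * t)) / (Real.log 2 - Lam ρ1) ≤ (Lam t - Lam (ρ * t)) / (Real.log 2 - Lam ρ) := by
  rcases le_total 0 t with ht | ht
  · exact chi_antitone_aux hρ0 hρ hρ1 ht h1
  · have h := chi_antitone_aux (t := -t) hρ0 hρ hρ1 (by linarith) (by linarith)
    have e1 : ρ1 * -t = -(ρ1 * t) := by ring
    have e2 : ρ * -t = -(ρ * t) := by ring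
    rw [e1, e2, Lam_neg, Lam_neg, Lam_neg] at h
    exact h

end Vale.Agent.Lib.P322.Pot
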