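import Vale.Agent.Lib.P322.Pot.Ult.Poly
import Vale.Agent.Lib.P322.Pot.Ult.CertE
import Vale.Agent.Lib.P322.Pot.Ult.CertH
import Vale.Agent.Lib.P322.Pot.Ult.CertS1

/-!
P322, potential method, range `7/8 ≤ ρ ≤ 23/25`.  The scalar step.
`L = log 2`, `h = log 2 - Lam ρ`, `lam = L - h = Lam ρ`, `ze = Lam ρ - ρ^2/2`, `om = ze/lam`, `m = |μ|`, `Lm = Lam μ`, `w = ν^2/(1-μ^2)`.
-/

namespace Vale.Agent.Lib.P322.Pot

lemma UPE_eq (L h om m J : ℝ) : UPE L h om m J =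
    (2 * TU L h J * m + m ^ 2 + m ^ 4 / 6) * ((1 + m) ^ 2 - 2 * om * m * (1 - m))
      - (1 + J) * RU L h J * (((1 + m) ^ 2 - 2 * om * m * (1 - m))
        - (1 - 13 / 100 * J ^ 2) * (1 - m ^ 2) * (1 + m) ^ 2) := by
  unfold UPE RU TU
  ring

lemma UPH_eq (L h om m J : ℝ) : UPH L h om m J =
    (1 - 13 / 100 * J ^ 2) ^ 2 * ((1 + J) * RU L h J) * (1 - m ^ 2) ^ 2
      - ((1 + J) * RU L h J - (2 * TU L h J * m + m ^ 2 + m ^ 4 / 6))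
        * ((1 - om) * (1 - 13 / 100 * J ^ 2) * (1 - m ^ 2) + om * (1 + 3 * m ^ 2) * (1 - J ^ 2)) := by
  unfold UPH RU TU
  ring

lemma US1_eq (L h m J : ℝ) : US1 L h m J =
    (2 * TU L h J * m + m ^ 2 + m ^ 4 / 6) - m ^ 2 * ((1 + J) * RU L h J) := by
  unfold US1 RU TU
  ring

/-- `RU > 0`, `TU ≥ 0`, `TU + h J + (L-h) J^2 = J RU`. -/
lemma RU_TU_facts {L h J : ℝ} (hL0 : 6931471 / 10000000 ≤ L) (hh0 : 67 / 400 ≤ h) (hh1 : h ≤ 117 / 500)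
    (hJ0 : 0 ≤ J) (hJ1 : J ≤ 39 / 50) :
    h ≤ RU L h J ∧ 0 ≤ TU L h J ∧ TU L h J + h * J + (L - h) * J ^ 2 = J * RU L h J := by
  refine ⟨?_, ?_, ?_⟩
  · unfold RU
    nlinarith [mul_nonneg hJ0 (sub_nonneg.2 hJ1)]
  · unfold TU
    have : 0 ≤ J ^ 2 * ((L - h) - 11 / 50 * J) := by
      apply mul_nonneg (sq_nonneg J)
      linarith
    nlinarith
  · unfold RU TU
    ring

/-- abstract core -/
lemma SC_core {lam ze w b t k A P X R dR dR0 J q : ℝ} (hlam : 0 < lam) (hze0 : 0 ≤ ze)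
    (hkpos : 0 < k) (hApos : 0 < A) (hPpos : 0 < P) (hXpos : 0 < X) (hR : 0 < R)
    (ht0 : 0 ≤ t) (ht1 : t ≤ 1 + J) (hd0 : 0 ≤ dR0) (hd1 : dR0 ≤ dR) (hb0 : 0 ≤ b) (hw0 : 0 ≤ w)
    (hq0 : 0 ≤ q)
    (hE : 0 ≤ dR0 * X - (1 + J) * R * (X - k * A * P))
    (H1' : k * A * w * R ≤ b * (t * R - dR))
    (hwP : w * P ≤ A)
    (h5 : (lam - ze) * w + ze * (q * w / P) = lam * (w * X) / P) :
    (lam - ze) * w + ze * (q / A * w ^ 2) ≤ lam * b * t := by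
  have claim : (t * R - dR) * X ≤ k * A * P * t * R := by
    have hY : t * R * (X - k * A * P) ≤ dR * X := by
      rcases le_total (X - k * A * P) 0 with hy | hy
      · have h1 : t * R * (X - k * A * P) ≤ 0 :=
          mul_nonpos_of_nonneg_of_nonpos (mul_nonneg ht0 hR.le) hy
        have h2 : 0 ≤ dR * X := mul_nonneg (hd0.trans hd1) hXpos.le
        linarith
      · have h1 : t * R * (X - k * A * P) ≤ (1 + J) * R * (X - k * A * P) :=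
          mul_le_mul_of_nonneg_right (mul_le_mul_of_nonneg_right ht1 hR.le) hy
        have h2 : dR0 * X ≤ dR * X := mul_le_mul_of_nonneg_right hd1 hXpos.le
        linarith
    linarith
  have hwX : w * X ≤ b * t * P := by
    have h1 : k * A * w * R * X ≤ b * (t * R - dR) * X := mul_le_mul_of_nonneg_right H1' hXpos.le
    have h2 : b * ((t * R - dR) * X) ≤ b * (k * A * P * t * R) := mul_le_mul_of_nonneg_left claim hb0
    have hpos : 0 < k * A * R := by positivity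
    have h3 : w * X * (k * A * R) ≤ b * t * P * (k * A * R) := by linarith
    exact le_of_mul_le_mul_right h3 hpos
  have hq : q / A * w ^ 2 ≤ q * w / P := by
    rw [div_mul_eq_mul_div, div_le_div_iff₀ hApos hPpos]
    have h1 : q * w * (w * P) ≤ q * w * A :=
      mul_le_mul_of_nonneg_left hwP (by positivity)
    linarith
  have h6 : lam * (w * X) / P ≤ lam * b * t := by
    rw [div_le_iff₀ hPpos]
    have := mul_le_mul_of_nonneg_left hwX hlam.le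
    linarith
  have h7 := mul_le_mul_of_nonneg_left hq hze0
  linarith

lemma SC_ult_hi_aux {lam h ze om m Lm J b C w R T : ℝ} (hlam : 0 < lam) (hom : om * lam = ze)
    (hom0 : 0 ≤ om) (hom1 : om ≤ 1 / 5)
    (hR : 0 < R) (hT : 0 ≤ T) (hTR : T + h * J + lam * J ^ 2 = J * R)
    (hm0 : 0 ≤ m) (hm1 : m < 1) (hLm : m ^ 2 / 2 + m ^ 4 / 12 ≤ Lm)
    (hub : h * J + lam * J ^ 2 = Lm + C) (hJ0 : 0 ≤ J) (hJ1 : J ≤ 39 / 50)
    (hb0 : 0 ≤ b) (hb1 : b ≤ 1 - J) (hw0 : 0 ≤ w)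
    (hE : 0 ≤ (2 * T * m + m ^ 2 + m ^ 4 / 6) * ((1 + m) ^ 2 - 2 * om * m * (1 - m))
      - (1 + J) * R * (((1 + m) ^ 2 - 2 * om * m * (1 - m))
        - (1 - 13 / 100 * J ^ 2) * (1 - m ^ 2) * (1 + m) ^ 2))
    (H1 : (1 - 13 / 100 * J ^ 2) * ((1 - m ^ 2) * w)
      ≤ b * (b + 2 * (T * (1 - m) + C) / R))
    (H2 : (1 + m) * w ≤ 1 - m) :
    (lam - ze) * w + ze * ((1 + 3 * m ^ 2) / (1 - m ^ 2) * w ^ 2) ≤ lam * b * (b + 2 * J) := by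
  have hkpos : 0 < 1 - 13 / 100 * J ^ 2 := by nlinarith
  have hApos : 0 < 1 - m ^ 2 := by nlinarith
  have hPpos : 0 < (1 + m) ^ 2 := by positivity
  have hXpos : 0 < (1 + m) ^ 2 - 2 * om * m * (1 - m) := by
    have h1 : om * (m * (1 - m)) ≤ 1 / 5 * (m * (1 - m)) :=
      mul_le_mul_of_nonneg_right hom1 (mul_nonneg hm0 (by linarith))
    nlinarith
  have hd0 : 0 ≤ 2 * T * m + m ^ 2 + m ^ 4 / 6 := by positivity
  have e1 : b + 2 * (T * (1 - m) + C) / R = ((b + 2 * J) * R - (2 * T * m + 2 * Lm)) / R := by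
    rw [eq_div_iff hR.ne', add_mul, div_mul_cancel₀ _ hR.ne']
    linear_combination (-2 : ℝ) * hub + 2 * hTR
  have H1' : (1 - 13 / 100 * J ^ 2) * (1 - m ^ 2) * w * R
      ≤ b * ((b + 2 * J) * R - (2 * T * m + 2 * Lm)) := by
    rw [e1] at H1
    have := mul_le_mul_of_nonneg_right H1 hR.le
    have e2 : b * (((b + 2 * J) * R - (2 * T * m + 2 * Lm)) / R) * R
        = b * ((b + 2 * J) * R - (2 * T * m + 2 * Lm)) := by
      rw [mul_assoc, div_mul_cancel₀ _ hR.ne']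
    rw [e2] at this
    linarith
  have hwP : w * (1 + m) ^ 2 ≤ 1 - m ^ 2 := by
    have := mul_le_mul_of_nonneg_right H2 (by linarith : (0 : ℝ) ≤ 1 + m)
    nlinarith
  have hze0 : 0 ≤ ze := by rw [← hom]; positivity
  have h5 : (lam - ze) * w + ze * ((1 + 3 * m ^ 2) * w / (1 + m) ^ 2)
      = lam * (w * ((1 + m) ^ 2 - 2 * om * m * (1 - m))) / (1 + m) ^ 2 := by
    rw [← hom]
    field_simp
    ring
  exact SC_core hlam hze0 hkpos hApos hPpos hXpos hR (by linarith) (by linarith) hd0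
    (by linarith) hb0 hw0 (by positivity) hE H1' hwP h5

/-- Case `m ≥ 3/10`.  Put `lam = L - h > 0`, `R = RU L h J > 0`, `T = TU L h J ≥ 0` (`RU_TU_facts`), `k = 1 - (13/100) J^2 > 0`, `t = b + 2 J`, `om = ze/lam ∈ [4/25, 1/5]`,
`dR = 2 T m + 2 Lm ≥ dR0 = 2 T m + m^2 + m^4/6 ≥ 0`, `X = (1+m)^2 - 2 om m (1-m) > 0`.
Since `T + h J + lam J^2 = J R` and `hub`: `b + 2 (T (1-m) + C)/R = t - dR/R`, so `H1` reads `k (1-m^2) w R ≤ b (t R - dR)`.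
Claim: `(t R - dR) X ≤ k (1-m^2)(1+m)^2 t R`.  Indeed with `Y = X - k (1-m^2)(1+m)^2` this is `t R Y ≤ dR X`; if `Y ≤ 0` it is clear, otherwise
`t R Y ≤ (1+J) R Y ≤ dR0 X ≤ dR X` by `t ≤ 1 + J` and `UPE_nonneg`, `UPE_eq`.
By `H2`, `(1+3m^2)/(1-m^2) w ≤ (1+3m^2)/(1+m)^2`, so the left side of the goal is `≤ w (lam - ze + ze (1+3m^2)/(1+m)^2) = w lam X/(1+m)^2`, and
`w lam X/(1+m)^2 ≤ lam X b (t R - dR)/((1+m)^2 R k (1-m^2)) ≤ lam b t`. -/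
lemma SC_ult_hi {L h ze m Lm J b C w : ℝ} (hL0 : 6931471 / 10000000 ≤ L) (hL1 : L ≤ 433217 / 625000)
    (hh0 : 67 / 400 ≤ h) (hh1 : h ≤ 117 / 500)
    (hz0 : 4 / 25 * (L - h) ≤ ze) (hz1 : ze ≤ 1 / 5 * (L - h))
    (hm0 : 3 / 10 ≤ m) (hm1 : m < 1) (hLm : m ^ 2 / 2 + m ^ 4 / 12 ≤ Lm)
    (hub : h * J + (L - h) * J ^ 2 = Lm + C) (hJ0 : 0 ≤ J) (hJ1 : J ≤ 39 / 50)
    (hb0 : 0 ≤ b) (hb1 : b ≤ 1 - J) (hw0 : 0 ≤ w)
    (H1 : (1 - 13 / 100 * J ^ 2) * ((1 - m ^ 2) * w)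
      ≤ b * (b + 2 * (TU L h J * (1 - m) + C) / RU L h J))
    (H2 : (1 + m) * w ≤ 1 - m) :
    ((L - h) - ze) * w + ze * ((1 + 3 * m ^ 2) / (1 - m ^ 2) * w ^ 2) ≤ (L - h) * b * (b + 2 * J) := by
  have hlam : 0 < L - h := by linarith
  obtain ⟨hR, hT, hTR⟩ := RU_TU_facts hL0 hh0 hh1 hJ0 hJ1
  have hom : ze / (L - h) * (L - h) = ze := div_mul_cancel₀ _ hlam.ne'
  have hom0 : 4 / 25 ≤ ze / (L - h) := by
    rw [le_div_iff₀ hlam]; exact hz0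
  have hom1 : ze / (L - h) ≤ 1 / 5 := by
    rw [div_le_iff₀ hlam]; exact hz1
  have hE := UPE_nonneg (om := ze / (L - h)) hL0 hL1 hh0 hh1 hom0 hom1 hm0 hm1.le hJ0 hJ1
  rw [UPE_eq] at hE
  exact SC_ult_hi_aux hlam hom (by linarith) hom1 (by linarith) hT hTR (by linarith) hm1 hLm hub
    hJ0 hJ1 hb0 hb1 hw0 hE H1 H2

/-- abstract core of the low case -/
lemma SC_lo_core {lam om w b t k A R dR dR0 J q : ℝ} (hlam : 0 < lam) (hom0 : 0 ≤ om) (hom1 : om ≤ 1)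
    (hkpos : 0 < k) (hApos : 0 < A) (hR : 0 < R) (hJ0 : 0 ≤ J)
    (ht0 : 0 ≤ t) (ht1 : t ≤ 1 + J) (hd0 : 0 ≤ dR0) (hd1 : dR0 ≤ dR) (hb0 : 0 ≤ b) (hw0 : 0 ≤ w)
    (hq0 : 0 ≤ q) (hbt : b * t ≤ 1 - J ^ 2)
    (hS : (1 + J) * R - dR0 ≤ (1 + J) * R * A)
    (hH : 0 ≤ k ^ 2 * ((1 + J) * R) * A ^ 2
      - ((1 + J) * R - dR0) * ((1 - om) * k * A + om * q * (1 - J ^ 2)))
    (H1' : k * A * w * R ≤ b * (t * R - dR)) :
    (lam - om * lam) * w + om * lam * (q / A * w ^ 2) ≤ lam * b * t := by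
  have hJ1 : 0 < 1 + J := by linarith
  have hbt0 : 0 ≤ b * t := mul_nonneg hb0 ht0
  have hJJ : 0 ≤ 1 - J ^ 2 := hbt0.trans hbt
  -- step (i)
  have h1 : (1 + J) * (t * R - dR) ≤ t * ((1 + J) * R - dR0) := by
    have a1 : t * dR0 ≤ (1 + J) * dR0 := mul_le_mul_of_nonneg_right ht1 hd0
    have a2 : (1 + J) * dR0 ≤ (1 + J) * dR := mul_le_mul_of_nonneg_left hd1 hJ1.le
    nlinarith
  have h2 : w * (k * A * R * (1 + J)) ≤ b * t * ((1 + J) * R - dR0) := by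
    have a1 := mul_le_mul_of_nonneg_right H1' hJ1.le
    have a2 := mul_le_mul_of_nonneg_left h1 hb0
    nlinarith
  have hW : 0 < A * R * (1 + J) := by positivity
  have h3 : w * k ≤ b * t := by
    have a1 : b * t * ((1 + J) * R - dR0) ≤ b * t * ((1 + J) * R * A) :=
      mul_le_mul_of_nonneg_left hS hbt0
    have a2 : w * k * (A * R * (1 + J)) ≤ b * t * (A * R * (1 + J)) := by nlinarith
    exact le_of_mul_le_mul_right a2 hW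
  have hE0 : 0 ≤ (1 - om) * k * A + om * q * (1 - J ^ 2) := by
    have : 0 ≤ 1 - om := by linarith
    positivity
  have h4 : w * ((1 - om) * k * A + om * q * (1 - J ^ 2)) ≤ A * k * (b * t) := by
    have a1 := mul_le_mul_of_nonneg_right h2 hE0
    have a2 : b * t * (((1 + J) * R - dR0) * ((1 - om) * k * A + om * q * (1 - J ^ 2)))
        ≤ b * t * (k ^ 2 * ((1 + J) * R) * A ^ 2) :=
      mul_le_mul_of_nonneg_left (by linarith) hbt0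
    have hW2 : 0 < k * A * R * (1 + J) := by positivity
    have a3 : w * ((1 - om) * k * A + om * q * (1 - J ^ 2)) * (k * A * R * (1 + J))
        ≤ A * k * (b * t) * (k * A * R * (1 + J)) := by nlinarith
    exact le_of_mul_le_mul_right a3 hW2
  have hAk : 0 < A * k := by positivity
  have h5 : ((lam - om * lam) * w + om * lam * (q / A * w ^ 2)) * (A * k)
      = lam * (w * ((1 - om) * k * A + om * q * (w * k))) := by
    field_simp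
  have h6 : w * ((1 - om) * k * A + om * q * (w * k))
      ≤ w * ((1 - om) * k * A + om * q * (1 - J ^ 2)) := by
    apply mul_le_mul_of_nonneg_left _ hw0
    have : om * q * (w * k) ≤ om * q * (1 - J ^ 2) :=
      mul_le_mul_of_nonneg_left (h3.trans hbt) (mul_nonneg hom0 hq0)
    linarith
  have h7 : ((lam - om * lam) * w + om * lam * (q / A * w ^ 2)) * (A * k)
      ≤ lam * b * t * (A * k) := by
    rw [h5]
    have := mul_le_mul_of_nonneg_left (h6.trans h4) hlam.le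
    nlinarith
  exact le_of_mul_le_mul_right h7 hAk

lemma SC_ult_lo_aux {lam h ze om m Lm J b C w R T : ℝ} (hlam : 0 < lam) (hom : om * lam = ze)
    (hom0 : 0 ≤ om) (hom1 : om ≤ 1 / 5)
    (hR : 0 < R) (hT : 0 ≤ T) (hTR : T + h * J + lam * J ^ 2 = J * R)
    (hm0 : 0 ≤ m) (hm1 : m ≤ 3 / 10) (hLm : m ^ 2 / 2 + m ^ 4 / 12 ≤ Lm)
    (hub : h * J + lam * J ^ 2 = Lm + C) (hJ0 : 0 ≤ J) (hJ1 : J ≤ 39 / 50)
    (hb0 : 0 ≤ b) (hb1 : b ≤ 1 - J) (hw0 : 0 ≤ w)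
    (hS : 0 ≤ (2 * T * m + m ^ 2 + m ^ 4 / 6) - m ^ 2 * ((1 + J) * R))
    (hH : 0 ≤ (1 - 13 / 100 * J ^ 2) ^ 2 * ((1 + J) * R) * (1 - m ^ 2) ^ 2
      - ((1 + J) * R - (2 * T * m + m ^ 2 + m ^ 4 / 6))
        * ((1 - om) * (1 - 13 / 100 * J ^ 2) * (1 - m ^ 2) + om * (1 + 3 * m ^ 2) * (1 - J ^ 2)))
    (H1 : (1 - 13 / 100 * J ^ 2) * ((1 - m ^ 2) * w)
      ≤ b * (b + 2 * (T * (1 - m) + C) / R)) :
    (lam - ze) * w + ze * ((1 + 3 * m ^ 2) / (1 - m ^ 2) * w ^ 2) ≤ lam * b * (b + 2 * J) := by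
  have hkpos : 0 < 1 - 13 / 100 * J ^ 2 := by nlinarith
  have hApos : 0 < 1 - m ^ 2 := by nlinarith
  have hd0 : 0 ≤ 2 * T * m + m ^ 2 + m ^ 4 / 6 := by positivity
  have e1 : b + 2 * (T * (1 - m) + C) / R = ((b + 2 * J) * R - (2 * T * m + 2 * Lm)) / R := by
    rw [eq_div_iff hR.ne', add_mul, div_mul_cancel₀ _ hR.ne']
    linear_combination (-2 : ℝ) * hub + 2 * hTR
  have H1' : (1 - 13 / 100 * J ^ 2) * (1 - m ^ 2) * w * R
      ≤ b * ((b + 2 * J) * R - (2 * T * m + 2 * Lm)) := by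
    rw [e1] at H1
    have := mul_le_mul_of_nonneg_right H1 hR.le
    have e2 : b * (((b + 2 * J) * R - (2 * T * m + 2 * Lm)) / R) * R
        = b * ((b + 2 * J) * R - (2 * T * m + 2 * Lm)) := by
      rw [mul_assoc, div_mul_cancel₀ _ hR.ne']
    rw [e2] at this
    linarith
  have hbt : b * (b + 2 * J) ≤ 1 - J ^ 2 := by nlinarith
  have hS' : (1 + J) * R - (2 * T * m + m ^ 2 + m ^ 4 / 6) ≤ (1 + J) * R * (1 - m ^ 2) := by
    linarith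
  have key := SC_lo_core (lam := lam) (om := om) (w := w) (b := b) (t := b + 2 * J)
    (k := 1 - 13 / 100 * J ^ 2) (A := 1 - m ^ 2) (R := R)
    (dR := 2 * T * m + 2 * Lm) (dR0 := 2 * T * m + m ^ 2 + m ^ 4 / 6) (J := J)
    (q := 1 + 3 * m ^ 2) hlam hom0 (by linarith) hkpos hApos hR hJ0 (by linarith)
    (by linarith) hd0 (by linarith) hb0 hw0 (by positivity) hbt hS' hH H1'
  rw [hom] at key
  exact key

/-- Case `m ≤ 3/10`.  Notation as in `SC_ult_hi`; `M = (1+3m^2)/(1-m^2)`, `N0 = (1+J) R - dR0`, `sb = N0/((1+J) R (1-m^2))`.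
If `b = 0` then `H1` gives `w = 0`.  Let `b > 0` and `s = (t - dR/R)/(1-m^2)`, so that `k w ≤ b s` (in particular `s ≥ 0`).
(i) `s (1-m^2) = t - dR/R ≤ t - dR0/R ≤ t (1 - dR0/((1+J) R))` because `t ≤ 1 + J`; so `s ≤ t sb`.  (ii) `sb ≤ 1` by `US1_nonneg`, `US1_eq`.
(iii) `b t ≤ (1-J)(1+J) = 1 - J^2`, so `b s ≤ b t sb ≤ 1 - J^2`.
The left side of the goal is increasing in `w ≥ 0`, hence `≤ (b s/k)(lam - ze + ze M b s/k) ≤ (b t sb/k)(lam - ze + ze M (1-J^2)/k)`, and this is `≤ lam b t` because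
`sb ((1-om) k + om M (1-J^2)) ≤ k^2`, which is `UPH_nonneg`, `UPH_eq` divided by `(1+J) R (1-m^2)^2 > 0`. -/
lemma SC_ult_lo {L h ze m Lm J b C w : ℝ} (hL0 : 6931471 / 10000000 ≤ L) (hL1 : L ≤ 433217 / 625000)
    (hh0 : 67 / 400 ≤ h) (hh1 : h ≤ 117 / 500)
    (hz0 : 4 / 25 * (L - h) ≤ ze) (hz1 : ze ≤ 1 / 5 * (L - h))
    (hm0 : 0 ≤ m) (hm1 : m ≤ 3 / 10) (hLm : m ^ 2 / 2 + m ^ 4 / 12 ≤ Lm)
    (hub : h * J + (L - h) * J ^ 2 = Lm + C) (hJ0 : 0 ≤ J) (hJ1 : J ≤ 39 / 50)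
    (hb0 : 0 ≤ b) (hb1 : b ≤ 1 - J) (hw0 : 0 ≤ w)
    (H1 : (1 - 13 / 100 * J ^ 2) * ((1 - m ^ 2) * w)
      ≤ b * (b + 2 * (TU L h J * (1 - m) + C) / RU L h J)) :
    ((L - h) - ze) * w + ze * ((1 + 3 * m ^ 2) / (1 - m ^ 2) * w ^ 2) ≤ (L - h) * b * (b + 2 * J) := by
  have hlam : 0 < L - h := by linarith
  obtain ⟨hR', hT, hTR⟩ := RU_TU_facts hL0 hh0 hh1 hJ0 hJ1
  have hom : ze / (L - h) * (L - h) = ze := div_mul_cancel₀ _ hlam.ne'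
  have hom0 : 4 / 25 ≤ ze / (L - h) := by
    rw [le_div_iff₀ hlam]; exact hz0
  have hom1 : ze / (L - h) ≤ 1 / 5 := by
    rw [div_le_iff₀ hlam]; exact hz1
  have hH := UPH_nonneg (om := ze / (L - h)) hL0 hL1 hh0 hh1 hom0 hom1 hm0 hm1 hJ0 hJ1
  rw [UPH_eq] at hH
  have hS := US1_nonneg hL0 hL1 hh0 hh1 hm0 hm1 hJ0 hJ1
  rw [US1_eq] at hS
  exact SC_ult_lo_aux hlam hom (by linarith) hom1 (by linarith) hT hTR hm0 hm1 hLm hub
    hJ0 hJ1 hb0 hb1 hw0 hS hH H1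

lemma SC_ult {L h ze m Lm J b C w : ℝ} (hL0 : 6931471 / 10000000 ≤ L) (hL1 : L ≤ 433217 / 625000)
    (hh0 : 67 / 400 ≤ h) (hh1 : h ≤ 117 / 500)
    (hz0 : 4 / 25 * (L - h) ≤ ze) (hz1 : ze ≤ 1 / 5 * (L - h))
    (hm0 : 0 ≤ m) (hm1 : m < 1) (hLm : m ^ 2 / 2 + m ^ 4 / 12 ≤ Lm)
    (hub : h * J + (L - h) * J ^ 2 = Lm + C) (hJ0 : 0 ≤ J) (hJ1 : J ≤ 39 / 50)
    (hb0 : 0 ≤ b) (hb1 : b ≤ 1 - J) (hw0 : 0 ≤ w)
    (H1 : (1 - 13 / 100 * J ^ 2) * ((1 - m ^ 2) * w)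
      ≤ b * (b + 2 * (TU L h J * (1 - m) + C) / RU L h J))
    (H2 : (1 + m) * w ≤ 1 - m) :
    ((L - h) - ze) * w + ze * ((1 + 3 * m ^ 2) / (1 - m ^ 2) * w ^ 2) ≤ (L - h) * b * (b + 2 * J) := by
  rcases le_total m (3 / 10) with hm | hm
  · exact SC_ult_lo hL0 hL1 hh0 hh1 hz0 hz1 hm0 hm hLm hub hJ0 hJ1 hb0 hb1 hw0 H1
  · exact SC_ult_hi hL0 hL1 hh0 hh1 hz0 hz1 hm hm1 hLm hub hJ0 hJ1 hb0 hb1 hw0 H1 H2

end Vale.Agent.Lib.P322.Pot
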