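import Vale.Agent.Lib.P322.Pot.Ult.Star
import Vale.Agent.Lib.P322.Bound

/-!
P322, potential method.  The soft inequality on the whole range `1/25 ≤ ε ≤ 1/2`, and the bias dependent form of the
Courtade-Kumar inequality that it gives for Boolean functions.
-/

namespace Vale.Agent.Lib.P322.Pot

open Real Finset Vale.Agent.Lib.P322

theorem soft_ult {ε : ℝ} (h0 : 1 / 25 ≤ ε) (h1 : ε ≤ 1 / 2) :
    ∀ (n : ℕ) (G : Cube n → ℝ), (∀ x, |G x| ≤ 1) →
      avg (fun y => Lam (noiseOp ε G y)) - Lam (avg G) ≤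
        Lam (1 - 2 * ε) * (1 - Jb (Lam (1 - 2 * ε))
          (Real.log 2 - (avg (fun x => Lam (G x)) - Lam (avg G))) ^ 2) := by
  rcases le_total (3 / 20) ε with h | h
  · apply soft_gen (by linarith) h1
    rcases le_total (1 - 2 * ε) (1 / 2) with h' | h'
    · exact PWhyp_low (by linarith) h'
    · exact PWhyp_mid h' (by linarith)
  · rcases le_total (1 / 10) ε with h' | h'
    · exact soft_gen2 (by linarith) h1 (star_hi (by linarith) (by linarith))
    · rcases le_total (1 / 16) ε with h'' | h''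
      · exact soft_gen2 (by linarith) h1 (star_top (by linarith) (by linarith))
      · exact soft_gen2 (by linarith) h1 (star_ult (by linarith) (by linarith))

/-- `Jb lam r ≥ r / log 2` for `0 ≤ r ≤ log 2`. -/
lemma Jb_ge_div {lam r : ℝ} (h0 : 0 ≤ lam) (h1 : lam < Real.log 2) (hr0 : 0 ≤ r)
    (hr1 : r ≤ Real.log 2) : r / Real.log 2 ≤ Jb lam r := by
  have hL : 0 < Real.log 2 := Real.log_pos (by norm_num)
  unfold Jb
  have hs : Real.sqrt ((Real.log 2 - lam) ^ 2 + 4 * lam * r) ≤ Real.log 2 + lam := by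
    rw [show Real.log 2 + lam = Real.sqrt ((Real.log 2 + lam) ^ 2) from
      (Real.sqrt_sq (by linarith)).symm]
    apply Real.sqrt_le_sqrt
    nlinarith [mul_le_mul_of_nonneg_left hr1 h0]
  have hd : 0 < (Real.log 2 - lam) + Real.sqrt ((Real.log 2 - lam) ^ 2 + 4 * lam * r) :=
    add_pos_of_pos_of_nonneg (by linarith) (Real.sqrt_nonneg _)
  rw [div_le_div_iff₀ hL hd]
  nlinarith

/-- Bias dependent form: for Boolean `f` with `a = P(f = 1)` and every `J ≥ 0` with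
`h2 ε J + (1 - h2 ε) J^2 ≤ 1 - h2 a`:  `I(f(X);Y) ≤ (1 - h2 ε) (1 - J^2)`. -/
theorem ck_ult_J {ε : ℝ} (h0 : 1 / 25 ≤ ε) (h1 : ε ≤ 1 / 2) {n : ℕ} (f : Cube n → ℤˣ) {J : ℝ}
    (hJ0 : 0 ≤ J) (hJ : h2 ε * J + (1 - h2 ε) * J ^ 2 ≤ 1 - h2 (probOne f)) :
    infoFY ε f ≤ (1 - h2 ε) * (1 - J ^ 2) := by
  have hlog : 0 < Real.log 2 := Real.log_pos (by norm_num)
  have hl0 : 0 ≤ Lam (1 - 2 * ε) := Lam_nonneg (by linarith) (by linarith)
  have hl1 : Lam (1 - 2 * ε) < Real.log 2 := Lam_lt_log_two' (by linarith) (by linarith)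
  have hF := infoFY_formula (ε := ε) (by linarith) (by linarith) f
  have hG : ∀ x, |2 * ind f 1 x - 1| ≤ 1 := by
    intro x
    rcases ind_zero_or_one f 1 x with h | h <;> rw [h] <;> norm_num
  have hS' := soft_ult h0 h1 n (fun x => 2 * ind f 1 x - 1) hG
  have e1 : ∀ y, noiseOp ε (fun x => 2 * ind f 1 x - 1) y = 2 * noiseOp ε (ind f 1) y - 1 := by
    intro y
    have h1 : (fun x => 2 * ind f 1 x - 1)
        = fun x => (fun x => 2 * ind f 1 x) x + (fun _ => (-1 : ℝ)) x := by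
      funext x; ring
    rw [h1, noiseOp_add, noiseOp_const, noiseOp_const_mul]; ring
  have e2 : avg (fun x => 2 * ind f 1 x - 1) = 2 * avg (ind f 1) - 1 := by
    rw [avg_sub, avg_const, avg_const_mul]
  have e3 : avg (fun y => bent (noiseOp ε (ind f 1) y))
      = avg (fun y => Lam (noiseOp ε (fun x => 2 * ind f 1 x - 1) y)) - Real.log 2 := by
    simp only [bent_eq_Lam, e1]
    rw [avg_sub, avg_const]
  have e4 : avg (fun x => Lam (2 * ind f 1 x - 1)) = Real.log 2 := by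
    have : (fun x => Lam (2 * ind f 1 x - 1)) = fun _ => Real.log 2 := by
      funext x
      rcases ind_zero_or_one f 1 x with h | h <;> rw [h]
      · rw [show (2 * 0 - 1 : ℝ) = -1 by norm_num, Lam_neg, Lam_one]
      · rw [show (2 * 1 - 1 : ℝ) = 1 by norm_num, Lam_one]
    rw [this, avg_const]
  rw [e3, bent_eq_Lam, ← e2] at hF
  rw [e4] at hS'
  set μ := avg (fun x => 2 * ind f 1 x - 1) with hμ
  have hr : Real.log 2 - (Real.log 2 - Lam μ) = Lam μ := by ring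
  rw [hr] at hS'
  -- `1 - h2 (probOne f) = Lam μ / log 2`
  have e5 : 1 - h2 (probOne f) = Lam μ / Real.log 2 := by
    rw [one_sub_h2, probOne_eq, e2]
    congr 1
    rw [← Lam_neg]
    congr 1
    ring
  have hμ1 : |μ| ≤ 1 := by
    rw [e2]
    have ha0 : 0 ≤ avg (ind f 1) := avg_nonneg fun x => by
      rcases ind_zero_or_one f 1 x with h | h <;> rw [h] <;> norm_num
    have ha1 : avg (ind f 1) ≤ 1 := by
      have : avg (ind f 1) ≤ avg (fun _ : Cube n => (1 : ℝ)) := avg_mono fun x => by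
        rcases ind_zero_or_one f 1 x with h | h <;> rw [h] <;> norm_num
      rwa [avg_const] at this
    rw [abs_le]; constructor <;> linarith
  have hLm0 : 0 ≤ Lam μ := Lam_nonneg' (abs_le.1 hμ1).1 (abs_le.1 hμ1).2
  have hub : ub (Lam (1 - 2 * ε)) J ≤ Lam μ := by
    rw [e5] at hJ
    have e6 : h2 ε = 1 - Lam (1 - 2 * ε) / Real.log 2 := by
      have := one_sub_h2 ε
      linarith
    rw [one_sub_h2, e6, le_div_iff₀ hlog] at hJ
    unfold ub
    have e7 : ((1 - Lam (1 - 2 * ε) / Real.log 2) * J + Lam (1 - 2 * ε) / Real.log 2 * J ^ 2)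
        * Real.log 2 = (Real.log 2 - Lam (1 - 2 * ε)) * J + Lam (1 - 2 * ε) * J ^ 2 := by
      field_simp
    linarith
  have hJb := le_Jb hl0 hl1 hLm0 hub
  have hsq : J ^ 2 ≤ Jb (Lam (1 - 2 * ε)) (Lam μ) ^ 2 := pow_le_pow_left₀ hJ0 hJb 2
  rw [one_sub_h2, div_mul_eq_mul_div, le_div_iff₀ hlog, hF]
  have := mul_le_mul_of_nonneg_left hsq hl0
  nlinarith

lemma one_sub_h2_mem {x : ℝ} (h0 : 0 ≤ x) (h1 : x ≤ 1) : 0 ≤ 1 - h2 x ∧ 1 - h2 x ≤ 1 := by
  have hlog : 0 < Real.log 2 := Real.log_pos (by norm_num)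
  rw [one_sub_h2]
  refine ⟨div_nonneg (Lam_nonneg' (by linarith) (by linarith)) hlog.le, ?_⟩
  rw [div_le_one hlog]
  exact Lam_le_log_two (by linarith) (by linarith)

lemma probOne_mem {n : ℕ} (f : Cube n → ℤˣ) : 0 ≤ probOne f ∧ probOne f ≤ 1 := by
  rw [probOne_eq]
  refine ⟨avg_nonneg fun x => ?_, ?_⟩
  · rcases ind_zero_or_one f 1 x with h | h <;> rw [h] <;> norm_num
  · have : avg (ind f 1) ≤ avg (fun _ : Cube n => (1 : ℝ)) := avg_mono fun x => by
      rcases ind_zero_or_one f 1 x with h | h <;> rw [h] <;> norm_num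
    rwa [avg_const] at this

/-- Explicit corollary: `I(f(X);Y) ≤ (1 - h2 ε) (1 - (1 - h2 a)^2)`, `a = P(f = 1)`. -/
theorem ck_ult_explicit {ε : ℝ} (h0 : 1 / 25 ≤ ε) (h1 : ε ≤ 1 / 2) {n : ℕ} (f : Cube n → ℤˣ) :
    infoFY ε f ≤ (1 - h2 ε) * (1 - (1 - h2 (probOne f)) ^ 2) := by
  obtain ⟨ha0, ha1⟩ := one_sub_h2_mem (probOne_mem f).1 (probOne_mem f).2
  obtain ⟨he0, he1⟩ := one_sub_h2_mem (x := ε) (by linarith) (by linarith)
  apply ck_ult_J h0 h1 f ha0
  nlinarith [mul_nonneg he0 (mul_nonneg ha0 (sub_nonneg.2 ha1))]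

end Vale.Agent.Lib.P322.Pot
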