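import Vale.Agent.Lib.P322.Pot.Ult.Atom
import Vale.Agent.Lib.P322.Pot.Ult.Scal

/-!
P322, potential method, range `7/8 ≤ ρ ≤ 23/25`.  The one-coordinate inequality and the Courtade-Kumar inequality for `1/25 ≤ ε ≤ 1/2`.
-/

namespace Vale.Agent.Lib.P322.Pot

open Real Finset Vale.Agent.Lib.P322

/-- The scalar end of the proof of `star_ult` (all quantities are free real variables). -/
lemma star_ult_fin {L lam ρ μ ν b C J Lm S : ℝ} (hL0 : 6931471 / 10000000 ≤ L)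
    (hL1 : L ≤ 433217 / 625000) (hc1 : 67 / 400 ≤ L - lam) (hc2 : L - lam ≤ 117 / 500)
    (hom1 : 4 / 25 * lam ≤ lam - ρ ^ 2 / 2) (hom2 : lam - ρ ^ 2 / 2 ≤ 1 / 5 * lam)
    (hμlt : |μ| < 1) (hμν : |μ| + |ν| ≤ 1) (hpoly : μ ^ 2 / 2 + (μ ^ 2) ^ 2 / 12 ≤ Lm)
    (hub : (L - lam) * J + lam * J ^ 2 = Lm + C) (hJ0 : 0 ≤ J) (hJ78 : J ≤ 39 / 50)
    (hb0 : 0 ≤ b) (hbJ : b ≤ 1 - J)
    (hkν : (1 - 13 / 100 * J ^ 2) * ν ^ 2
      ≤ b * (b + 2 * (TU L (L - lam) J * (1 - |μ|) + C) / RU L (L - lam) J))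
    (hup : S ≤ ρ ^ 2 / 2 * (ν ^ 2 / (1 - μ ^ 2))
      + (lam - ρ ^ 2 / 2) * (ν ^ 4 * (1 + 3 * μ ^ 2) / (1 - μ ^ 2) ^ 3)) :
    S ≤ lam * b * (b + 2 * J) := by
  have hsq : μ ^ 2 < 1 := (sq_lt_one_iff_abs_lt_one μ).mpr hμlt
  have hw : 0 < 1 - μ ^ 2 := by linarith
  obtain ⟨w, hwdef⟩ : ∃ w : ℝ, w = ν ^ 2 / (1 - μ ^ 2) := ⟨_, rfl⟩
  have hw0 : 0 ≤ w := by rw [hwdef]; exact div_nonneg (sq_nonneg ν) hw.le
  have hwν : (1 - μ ^ 2) * w = ν ^ 2 := by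
    rw [hwdef]
    field_simp
  have H1 : (1 - 13 / 100 * J ^ 2) * ((1 - |μ| ^ 2) * w)
      ≤ b * (b + 2 * (TU L (L - lam) J * (1 - |μ|) + C) / RU L (L - lam) J) := by
    rw [sq_abs, hwν]
    exact hkν
  have hm0 : 0 ≤ |μ| := abs_nonneg μ
  have H2 : (1 + |μ|) * w ≤ 1 - |μ| := by
    have hν1 : |ν| ≤ 1 - |μ| := by linarith
    have hν2 : ν ^ 2 ≤ (1 - |μ|) ^ 2 := by
      rw [← sq_abs ν]
      exact pow_le_pow_left₀ (abs_nonneg ν) hν1 2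
    have hpos : 0 < 1 - |μ| := by linarith
    have e1 : (1 - |μ|) * ((1 + |μ|) * w) = ν ^ 2 := by
      rw [← hwν, ← sq_abs μ]
      ring
    have e2 : (1 - |μ|) * ((1 + |μ|) * w) ≤ (1 - |μ|) * (1 - |μ|) := by
      rw [e1, ← sq]
      exact hν2
    exact le_of_mul_le_mul_left e2 hpos
  have hLm : |μ| ^ 2 / 2 + |μ| ^ 4 / 12 ≤ Lm := by
    have e4 : |μ| ^ 4 = (μ ^ 2) ^ 2 := by
      rw [← sq_abs μ]
      ring
    rw [sq_abs, e4]
    exact hpoly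
  have eLh : L - (L - lam) = lam := by ring
  have hSC := SC_ult (L := L) (h := L - lam) (ze := lam - ρ ^ 2 / 2)
    (m := |μ|) (Lm := Lm) (J := J) (b := b) (C := C) (w := w) hL0 hL1 hc1 hc2
    (by rw [eLh]; exact hom1) (by rw [eLh]; exact hom2) hm0 hμlt hLm
    (by rw [eLh]; exact hub) hJ0 hJ78 hb0 hbJ hw0 H1 H2
  rw [eLh, sq_abs] at hSC
  have e5 : ν ^ 4 * (1 + 3 * μ ^ 2) / (1 - μ ^ 2) ^ 3 = (1 + 3 * μ ^ 2) / (1 - μ ^ 2) * w ^ 2 := by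
    rw [hwdef]
    field_simp
  rw [e5, ← hwdef] at hup
  have e6 : lam - (lam - ρ ^ 2 / 2) = ρ ^ 2 / 2 := by ring
  rw [e6] at hSC
  exact le_trans hup hSC

/-- The Cauchy-Schwarz step of `star_ult`. -/
lemma star_ult_key {ρ : ℝ} (h0 : 7 / 8 ≤ ρ) (h1 : ρ ≤ 23 / 25) {m : ℕ} (u v : Cube m → ℝ)
    (huv : ∀ x, |u x| + |v x| ≤ 1) {J : ℝ} (hJ0 : 0 ≤ J) (hJ78 : J ≤ 39 / 50) :
    (1 - 13 / 100 * J ^ 2) * avg v ^ 2
      ≤ avg (fun x => Gf ρ (u x) (v x)) / (Real.log 2 - Lam ρ) *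
        (avg (fun x => Gf ρ (u x) (v x)) / (Real.log 2 - Lam ρ)
          + 2 * (TU (Real.log 2) (Real.log 2 - Lam ρ) J * (1 - |avg u|)
              + avg (fun x => cf (u x) (v x))) / RU (Real.log 2) (Real.log 2 - Lam ρ) J) := by
  have hρ0 : 0 ≤ ρ := by linarith
  have hρ1 : ρ < 1 := by linarith
  have hl1 : Lam ρ < Real.log 2 := Lam_lt_log_two' hρ0 hρ1
  have hh : 0 < Real.log 2 - Lam ρ := by linarith
  obtain ⟨hc1, hc2⟩ := consts_ult h0 h1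
  have habsμ := abs_avg_le u
  have hc0 : ∀ x, 0 ≤ cf (u x) (v x) := fun x => cf_nonneg (huv x)
  have hG0 : ∀ x, 0 ≤ Gf ρ (u x) (v x) := fun x => Gf_nonneg' hρ0 hρ1.le (huv x)
  have haG : 0 ≤ avg (fun x => Gf ρ (u x) (v x)) := avg_nonneg hG0
  have hL0 : (6931471 : ℝ) / 10000000 ≤ Real.log 2 := by linarith [Real.log_two_gt_d9]
  obtain ⟨hRh, hT0, -⟩ := RU_TU_facts (L := Real.log 2) (h := Real.log 2 - Lam ρ) (J := J)
    hL0 hc1 hc2 hJ0 hJ78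
  have hPA : ∀ x, (1 - 13 / 100 * J ^ 2) * v x ^ 2 ≤ (Gf ρ (u x) (v x) / (Real.log 2 - Lam ρ)) *
      (Gf ρ (u x) (v x) / (Real.log 2 - Lam ρ)
        + 2 * (TU (Real.log 2) (Real.log 2 - Lam ρ) J * (1 - |u x|) + cf (u x) (v x))
          / RU (Real.log 2) (Real.log 2 - Lam ρ) J) :=
    fun x => PA_ult (J := J) h0 h1 (huv x) hJ0 hJ78
  generalize RU (Real.log 2) (Real.log 2 - Lam ρ) J = R at hRh hPA ⊢
  generalize TU (Real.log 2) (Real.log 2 - Lam ρ) J = T at hT0 hPA ⊢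
  generalize Real.log 2 - Lam ρ = h at hh hRh hPA ⊢
  have hR : 0 < R := lt_of_lt_of_le hh hRh
  have hk : 0 < 1 - 13 / 100 * J ^ 2 := by nlinarith
  have hu1 : ∀ x, |u x| ≤ 1 := fun x => by linarith [huv x, abs_nonneg (v x)]
  have hnum : ∀ x, 0 ≤ T * (1 - |u x|) + cf (u x) (v x) := by
    intro x
    have h1 : 0 ≤ T * (1 - |u x|) := mul_nonneg hT0 (by linarith [hu1 x])
    linarith [hc0 x]
  have hcs := avg_sq_le v (fun x => Gf ρ (u x) (v x) / h)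
    (fun x => (Gf ρ (u x) (v x) / h
      + 2 * (T * (1 - |u x|) + cf (u x) (v x)) / R) / (1 - 13 / 100 * J ^ 2))
    (fun x => div_nonneg (hG0 x) hh.le)
    (fun x => by
      have h1 : 0 ≤ Gf ρ (u x) (v x) / h := div_nonneg (hG0 x) hh.le
      have h2 : 0 ≤ 2 * (T * (1 - |u x|) + cf (u x) (v x)) / R :=
        div_nonneg (by linarith [hnum x]) hR.le
      exact div_nonneg (by linarith) hk.le)
    (fun x => by
      rw [← mul_div_assoc, le_div_iff₀ hk, mul_comm]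
      exact hPA x)
  rw [avg_div_const] at hcs
  have hZ : avg (fun x => (Gf ρ (u x) (v x) / h
      + 2 * (T * (1 - |u x|) + cf (u x) (v x)) / R) / (1 - 13 / 100 * J ^ 2))
      = (avg (fun x => Gf ρ (u x) (v x)) / h + 2 * (T * (1 - avg (fun x => |u x|))
          + avg (fun x => cf (u x) (v x))) / R) / (1 - 13 / 100 * J ^ 2) := by
    rw [avg_div_const, avg_add, avg_div_const, avg_div_const, avg_const_mul, avg_add,
      avg_const_mul, avg_sub, avg_const]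
  rw [hZ] at hcs
  have hb0 : 0 ≤ avg (fun x => Gf ρ (u x) (v x)) / h := div_nonneg haG hh.le
  generalize avg (fun x => Gf ρ (u x) (v x)) / h = b at hcs hb0 ⊢
  generalize avg (fun x => cf (u x) (v x)) = C at hcs ⊢
  have hZle : b + 2 * (T * (1 - avg (fun x => |u x|)) + C) / R
      ≤ b + 2 * (T * (1 - |avg u|) + C) / R := by
    have e1 : T * (1 - avg (fun x => |u x|)) ≤ T * (1 - |avg u|) :=
      mul_le_mul_of_nonneg_left (by linarith) hT0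
    have e2 : 2 * (T * (1 - avg (fun x => |u x|)) + C) / R
        ≤ 2 * (T * (1 - |avg u|) + C) / R :=
      div_le_div_of_nonneg_right (by linarith) hR.le
    linarith
  rw [← mul_div_assoc, le_div_iff₀ hk] at hcs
  have h4 := mul_le_mul_of_nonneg_left hZle hb0
  linarith

/-- Copy the proof of `star_top` (Pot/Top/Star.lean) up to the case `b < 1 - J`; symbols as there (`μ`, `ν`, `lam`, `h = log 2 - lam`, `C`, `b`, `J`, `ub J = Lam μ + C`),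
`J ≤ 39/50` by `Jc_ult`.  In the case `b < 1 - J` put `L = log 2`, `R = RU L h J > 0`, `T = TU L h J ≥ 0` (`RU_TU_facts`), `k = 1 - (13/100) J^2 > 0`,
`Z_i = (x_i + 2 (T (1 - |u_i|) + c_i)/R)/k ≥ 0`.  `PA_ult` gives `v_i^2 ≤ x_i Z_i`, so `avg_sq_le` gives `ν^2 ≤ b avg Z` (compare `star_hi`, where one also divides by a constant),
`k avg Z = b + 2 (T (1 - avg |u|) + C)/R ≤ b + 2 (T (1 - |μ|) + C)/R` (`abs_avg_le`).
With `w = ν^2/(1-μ^2)`, `m = |μ|` this is hypothesis `H1` of `SC_ult`; `H2`: `|ν| ≤ 1 - |μ|` gives `ν^2 ≤ (1-|μ|)^2`, so `(1+|μ|) w ≤ 1 - |μ|`;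
`hLm` from `Lam_poly_le` as in `star_hi`; `ze = lam - ρ^2/2` with `omega_ult`; `consts_ult`; `lam = L - h`.
Finally `eS_upper2` at `(μ, ν)`: the left side of the goal is `≤ ρ^2/2 w + ze (ν^4 (1+3μ^2)/(1-μ^2)^3) = (lam - ze) w + ze ((1+3m^2)/(1-m^2) w^2)`. -/
theorem star_ult {ρ : ℝ} (h0 : 7 / 8 ≤ ρ) (h1 : ρ ≤ 23 / 25) : StarHyp ρ := by
  intro m u v huv hle hcut
  have hρ0 : 0 ≤ ρ := by linarith
  have hρ1 : ρ < 1 := by linarith
  have hl0 : 0 ≤ Lam ρ := Lam_nonneg hρ0 hρ1.le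
  have hl1 : Lam ρ < Real.log 2 := Lam_lt_log_two' hρ0 hρ1
  have hh : 0 < Real.log 2 - Lam ρ := by linarith
  obtain ⟨hc1, hc2⟩ := consts_ult h0 h1
  obtain ⟨hom1, hom2⟩ := omega_ult h0 h1
  have hres := alpha_le_resid hρ0 hρ1.le u v huv
  have hμν := abs_avg_add_le u v huv
  have habsμ := abs_avg_le u
  set μ := avg u with hμ
  set ν := avg v with hν
  set lam := Lam ρ with hlam
  have hμ1 : |μ| ≤ 1 := by linarith [abs_nonneg ν]
  have hμ1' := abs_le.mp hμ1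
  have hLμ : 0 ≤ Lam μ := Lam_nonneg' hμ1'.1 hμ1'.2
  have hc0 : ∀ x, 0 ≤ cf (u x) (v x) := fun x => cf_nonneg (huv x)
  have hG0 : ∀ x, 0 ≤ Gf ρ (u x) (v x) := fun x => Gf_nonneg' hρ0 hρ1.le (huv x)
  have hac : 0 ≤ avg (fun x => cf (u x) (v x)) := avg_nonneg hc0
  have haG : 0 ≤ avg (fun x => Gf ρ (u x) (v x)) := avg_nonneg hG0
  set C := avg (fun x => cf (u x) (v x)) with hC
  have hbG : avg (fun x => Gf ρ (u x) (v x))
      = (Real.log 2 - lam) * (avg (fun x => Gf ρ (u x) (v x)) / (Real.log 2 - lam)) := by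
    field_simp
  set b := avg (fun x => Gf ρ (u x) (v x)) / (Real.log 2 - lam) with hb
  have hb0 : 0 ≤ b := div_nonneg haG hh.le
  have hr : 0 ≤ Lam μ + C := by linarith
  set J := Jb lam (Lam μ + C) with hJ
  have hJ0 : 0 ≤ J := Jb_nonneg hl0 hl1 hr
  have hubJ : ub lam J = Lam μ + C := ub_Jb hl0 hl1 hr
  have hJ78 : J ≤ 39 / 50 := Jc_ult h0 h1 hJ0 hcut
  have hrhs : 0 ≤ lam * b * (b + 2 * J) := by positivity
  have hubJ' : (Real.log 2 - lam) * J + lam * J ^ 2 = Lam μ + C := hubJ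
  rcases eq_or_lt_of_le hμ1 with hμe | hμlt
  · have hν0 : ν = 0 := by
      have : |ν| ≤ 0 := by linarith
      exact abs_eq_zero.mp (le_antisymm this (abs_nonneg _))
    rw [hν0]
    simp only [mul_zero, add_zero, sub_zero]
    linarith
  rcases le_or_gt (1 - J) b with hbJ | hbJ
  · -- the crude bound
    rw [hbG] at hres
    have e1 : 0 ≤ (Real.log 2 - lam) * (b - (1 - J)) := mul_nonneg hh.le (by linarith)
    have e2 : 0 ≤ lam * ((b + J - 1) * (b + J + 1)) :=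
      mul_nonneg hl0 (mul_nonneg (by linarith) (by linarith))
    nlinarith
  · have hsq : μ ^ 2 < 1 := (sq_lt_one_iff_abs_lt_one μ).mpr hμlt
    have hw : 0 < 1 - μ ^ 2 := by linarith
    have hup := eS_upper2 (ρ := ρ) (u := μ) (v := ν) hρ0 hρ1.le hμν hμlt
    have hL0 : (6931471 : ℝ) / 10000000 ≤ Real.log 2 := by linarith [Real.log_two_gt_d9]
    have hL1 : Real.log 2 ≤ (433217 : ℝ) / 625000 := by linarith [Real.log_two_lt_d9]
    have hkν := star_ult_key h0 h1 u v huv hJ0 hJ78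
    have hpoly : μ ^ 2 / 2 + (μ ^ 2) ^ 2 / 12 ≤ Lam μ := by
      have := Lam_poly_le hμ1'.1 hμ1'.2
      have p3 : 0 ≤ (μ ^ 2) ^ 3 / 30 := by positivity
      have p4 : 0 ≤ (μ ^ 2) ^ 4 / 56 := by positivity
      have p5 : 0 ≤ (μ ^ 2) ^ 5 / 90 := by positivity
      have p6 : 0 ≤ (μ ^ 2) ^ 6 / 132 := by positivity
      linarith
    exact star_ult_fin hL0 hL1 hc1 hc2 hom1 hom2 hμlt hμν hpoly hubJ' hJ0 hJ78 hb0 hbJ.le hkν hup

theorem ck_ult {ε : ℝ} (h0 : 1 / 25 ≤ ε) (h1 : ε ≤ 1 / 2) {n : ℕ} (f : Cube n → ℤˣ) :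
    infoFY ε f ≤ 1 - h2 ε := by
  rcases le_total (1 / 16) ε with h | h
  · exact ck_top h h1 f
  · exact ck_gen2 (by linarith) h1 (star_ult (by linarith) (by linarith)) f

end Vale.Agent.Lib.P322.Pot
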